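import Mathlib

-- ▼ part R007/BAlg1
section

/-!
Row 7 (S0007), section B, algebra: Noetherianity lifts along adic completeness.
-/

set_option autoImplicit false

namespace Crest.Agent.R007.BAlg

open MvPolynomial

section lift

variable {σ : Type*} {A : Type*} [CommRing A]

/-- homogeneous component of a product with a homogeneous factor -/
theorem hc_mul_of_homog {R : Type*} [CommSemiring R] (n m : ℕ) (h q : MvPolynomial σ R)
    (hq : q.IsHomogeneous m) :
    homogeneousComponent n (h * q) =
      if m ≤ n then homogeneousComponent (n - m) h * q else 0 := by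
  classical
  ext d
  rw [coeff_homogeneousComponent]
  by_cases hmn : m ≤ n
  · rw [if_pos hmn]
    by_cases hd : d.degree = n
    · rw [if_pos hd, coeff_mul, coeff_mul]
      apply Finset.sum_congr rfl
      rintro ⟨a, b⟩ hab
      rw [Finset.HasAntidiagonal.mem_antidiagonal] at hab
      simp only at hab ⊢
      by_cases hb : b.degree = m
      · have ha : a.degree = n - m := by
          have : d.degree = a.degree + b.degree := by rw [← hab]; simp
          omega
        rw [coeff_homogeneousComponent, if_pos ha]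
      · rw [hq.coeff_eq_zero hb]; simp
    · rw [if_neg hd]
      have hh : (homogeneousComponent (n - m) h * q).IsHomogeneous (n - m + m) :=
        (homogeneousComponent_isHomogeneous _ _).mul hq
      rw [Nat.sub_add_cancel hmn] at hh
      exact (hh.coeff_eq_zero hd).symm
  · rw [if_neg hmn, coeff_zero]
    by_cases hd : d.degree = n
    · rw [if_pos hd, coeff_mul]
      apply Finset.sum_eq_zero
      rintro ⟨a, b⟩ hab
      rw [Finset.HasAntidiagonal.mem_antidiagonal] at hab
      simp only at hab ⊢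
      have hb : b.degree ≠ m := by
        have : d.degree = a.degree + b.degree := by rw [← hab]; simp
        omega
      rw [hq.coeff_eq_zero hb]; simp
    · rw [if_neg hd]

/-- a homogeneous polynomial lifts to a homogeneous polynomial -/
theorem exists_homog_lift {B : Type*} [CommRing B] (φ : A →+* B) (hφ : Function.Surjective φ)
    (n : ℕ) (p : MvPolynomial σ B) (hp : p.IsHomogeneous n) :
    ∃ q : MvPolynomial σ A, q.IsHomogeneous n ∧ map φ q = p := by
  classical
  obtain ⟨q, hq⟩ := map_surjective φ hφ p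
  refine ⟨homogeneousComponent n q, homogeneousComponent_isHomogeneous _ _, ?_⟩
  ext d
  rw [coeff_map, coeff_homogeneousComponent]
  by_cases hd : d.degree = n
  · rw [if_pos hd, ← hq, coeff_map]
  · rw [if_neg hd, map_zero, hp.coeff_eq_zero hd]

/-- a homogeneous polynomial of degree `n` with coefficients in `I`, evaluated at elements of `I`,
lies in `I^(n+1)` -/
theorem eval_mem_pow_succ (I : Ideal A) (f : σ → A) (hf : ∀ i, f i ∈ I) (n : ℕ)
    (q : MvPolynomial σ A) (hq : q.IsHomogeneous n)
    (h0 : map (Ideal.Quotient.mk I) q = 0) : eval f q ∈ I ^ (n + 1) := by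
  classical
  rw [eval_eq]
  apply Ideal.sum_mem
  intro d hd
  have hc : coeff d q ∈ I := by
    have := congrArg (coeff d) h0
    rw [coeff_map, coeff_zero] at this
    exact Ideal.Quotient.eq_zero_iff_mem.mp this
  have hdeg : d.degree = n := by
    by_contra hne
    exact (mem_support_iff.mp hd) (hq.coeff_eq_zero hne)
  have hprod : ∏ i ∈ d.support, f i ^ d i ∈ I ^ n := by
    rw [← hdeg, Finsupp.degree_apply]
    rw [← Finset.prod_pow_eq_pow_sum]
    exact Ideal.prod_mem_prod fun i _ => Ideal.pow_mem_pow (hf i) _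
  rw [pow_succ']
  exact Ideal.mul_mem_mul hc hprod

/-- a homogeneous polynomial of degree `n` evaluated at elements of `I` lies in `I^n` -/
theorem eval_mem_pow (I : Ideal A) (f : σ → A) (hf : ∀ i, f i ∈ I) (n : ℕ)
    (q : MvPolynomial σ A) (hq : q.IsHomogeneous n) : eval f q ∈ I ^ n := by
  classical
  rw [eval_eq]
  apply Ideal.sum_mem
  intro d hd
  have hdeg : d.degree = n := by
    by_contra hne
    exact (mem_support_iff.mp hd) (hq.coeff_eq_zero hne)
  have hprod : ∏ i ∈ d.support, f i ^ d i ∈ I ^ n := by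
    rw [← hdeg, Finsupp.degree_apply]
    rw [← Finset.prod_pow_eq_pow_sum]
    exact Ideal.prod_mem_prod fun i _ => Ideal.pow_mem_pow (hf i) _
  exact Ideal.mul_mem_left _ _ hprod

/-- leading forms of elements of `J` -/
def lead (I : Ideal A) (f : σ → A) (J : Ideal A) : Set (MvPolynomial σ (A ⧸ I)) :=
  {p | ∃ (n : ℕ) (q : MvPolynomial σ A) (g : A), q.IsHomogeneous n ∧
    map (Ideal.Quotient.mk I) q = p ∧ g ∈ J ∧ eval f q - g ∈ I ^ (n + 1)}

variable [Finite σ]

theorem exists_approx (I : Ideal A) (f : σ → A) (hI : I = Ideal.span (Set.range f))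
    [IsNoetherianRing (A ⧸ I)] (J : Ideal A) :
    ∃ (S : Finset A) (D : ℕ), (∀ g ∈ S, g ∈ J) ∧
      ∀ n : ℕ, ∀ x ∈ J, x ∈ I ^ n → ∃ c : A → A, (∀ g, c g ∈ I ^ (n - D)) ∧
        x - ∑ g ∈ S, c g * g ∈ I ^ (n + 1) := by
  classical
  have hf : ∀ i, f i ∈ I := fun i => by rw [hI]; exact Ideal.subset_span ⟨i, rfl⟩
  have hfg : (Submodule.span (MvPolynomial σ (A ⧸ I)) (lead I f J)).FG :=
    (inferInstance : IsNoetherianRing (MvPolynomial σ (A ⧸ I))).noetherian _
  rw [Submodule.fg_span_iff_fg_span_finset_subset] at hfg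
  obtain ⟨s, hs, hspan⟩ := hfg
  -- data for each element of s
  have hdat : ∀ p : s, ∃ (n : ℕ) (q : MvPolynomial σ A) (g : A), q.IsHomogeneous n ∧
    map (Ideal.Quotient.mk I) q = p.1 ∧ g ∈ J ∧ eval f q - g ∈ I ^ (n + 1) := fun p => hs p.2
  choose nn qq gg hqh hqm hgJ hgI using hdat
  refine ⟨Finset.univ.image gg, Finset.univ.sup nn, ?_, ?_⟩
  · intro g hg
    obtain ⟨p, -, rfl⟩ := Finset.mem_image.mp hg
    exact hgJ p
  intro n x hxJ hxn
  rw [hI, Ideal.mem_span_pow_iff_exists_isHomogeneous] at hxn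
  obtain ⟨q, hq, hqx⟩ := hxn
  have hlead : map (Ideal.Quotient.mk I) q ∈ lead I f J :=
    ⟨n, q, x, hq, rfl, hxJ, by rw [hqx, sub_self]; exact zero_mem _⟩
  have hmem : map (Ideal.Quotient.mk I) q ∈ Submodule.span (MvPolynomial σ (A ⧸ I))
      (s : Set (MvPolynomial σ (A ⧸ I))) := by
    rw [← hspan]; exact Submodule.subset_span hlead
  rw [Submodule.mem_span_finset'] at hmem
  obtain ⟨h, hh⟩ := hmem
  -- take the degree n part
  have hp : (map (Ideal.Quotient.mk I) q).IsHomogeneous n := hq.map _
  have hcomp : map (Ideal.Quotient.mk I) q =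
      ∑ p : s, (if nn p ≤ n then homogeneousComponent (n - nn p) (h p) * p.1 else 0) := by
    rw [← homogeneousComponent_eq_self hp, ← hh, map_sum]
    apply Finset.sum_congr rfl
    intro p _
    rw [smul_eq_mul]
    exact hc_mul_of_homog n (nn p) _ _ (by rw [← hqm p]; exact (hqh p).map _)
  -- lift the coefficients
  have hlift : ∀ p : s, ∃ t : MvPolynomial σ A, t.IsHomogeneous (n - nn p) ∧
      map (Ideal.Quotient.mk I) t =
        if nn p ≤ n then homogeneousComponent (n - nn p) (h p) else 0 := by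
    intro p
    apply exists_homog_lift _ Ideal.Quotient.mk_surjective
    split_ifs
    · exact homogeneousComponent_isHomogeneous _ _
    · exact isHomogeneous_zero _ _ _
  choose t ht htm using hlift
  -- coefficients with t p replaced by zero if nn p > n
  let t' : s → MvPolynomial σ A := fun p => if nn p ≤ n then t p else 0
  have ht'h : ∀ p, (t' p * qq p).IsHomogeneous n := by
    intro p
    simp only [t']
    split_ifs with hle
    · have := (ht p).mul (hqh p)
      rwa [Nat.sub_add_cancel hle] at this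
    · rw [zero_mul]; exact isHomogeneous_zero _ _ _
  have ht'm : ∀ p, map (Ideal.Quotient.mk I) (t' p * qq p) =
      if nn p ≤ n then homogeneousComponent (n - nn p) (h p) * p.1 else 0 := by
    intro p
    simp only [t']
    split_ifs with hle
    · rw [map_mul, htm p, if_pos hle, hqm p]
    · simp
  have hdiff : eval f (q - ∑ p, t' p * qq p) ∈ I ^ (n + 1) := by
    apply eval_mem_pow_succ I f hf n
    · exact hq.sub (IsHomogeneous.sum _ _ _ fun p _ => ht'h p)
    · rw [map_sub, map_sum, hcomp, sub_eq_zero]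
      exact Finset.sum_congr rfl fun p _ => (ht'm p).symm
  refine ⟨fun g => ∑ p : s, if gg p = g then eval f (t' p) else 0, ?_, ?_⟩
  · intro g
    apply Ideal.sum_mem
    intro p _
    split_ifs with hg
    · simp only [t']
      split_ifs with hle
      · have h1 := eval_mem_pow I f hf _ _ (ht p)
        exact Ideal.pow_le_pow_right (Nat.sub_le_sub_left (Finset.le_sup (Finset.mem_univ p)) n) h1
      · simp
    · exact zero_mem _
  · have hsum : ∑ g ∈ Finset.univ.image gg, (∑ p : s, if gg p = g then eval f (t' p) else 0) * g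
        = ∑ p : s, eval f (t' p) * gg p := by
      simp_rw [Finset.sum_mul]
      rw [Finset.sum_comm]
      apply Finset.sum_congr rfl
      intro p _
      rw [Finset.sum_eq_single (gg p)]
      · simp
      · intro b _ hb
        rw [if_neg (Ne.symm hb), zero_mul]
      · intro hn
        exact absurd (Finset.mem_image_of_mem gg (Finset.mem_univ p)) hn
    rw [hsum]
    have hkey : x - ∑ p : s, eval f (t' p) * gg p =
        eval f (q - ∑ p, t' p * qq p) + ∑ p : s, eval f (t' p) * (eval f (qq p) - gg p) := by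
      rw [map_sub, map_sum, hqx]
      simp_rw [map_mul, mul_sub, Finset.sum_sub_distrib]
      ring
    rw [hkey]
    apply Ideal.add_mem _ hdiff
    apply Ideal.sum_mem
    intro p _
    simp only [t']
    split_ifs with hle
    · have h1 := eval_mem_pow I f hf _ _ (ht p)
      have h2 := Ideal.mul_mem_mul h1 (hgI p)
      rw [← pow_add] at h2
      have h3 : n - nn p + (nn p + 1) = n + 1 := by omega
      rwa [h3] at h2
    · simp

end lift

/-- **Noetherianity lifts**: `A` complete for a finitely generated ideal `I` with `A/I` Noetherian. -/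
theorem noeth_of_adic {A : Type*} [CommRing A] (I : Ideal A) (hfg : I.FG) [IsAdicComplete I A]
    [IsNoetherianRing (A ⧸ I)] : IsNoetherianRing A := by
  classical
  obtain ⟨T, hT⟩ := hfg
  let f : T → A := fun x => x.1
  have hI : I = Ideal.span (Set.range f) := by
    rw [← hT]; simp [f]
  refine ⟨fun J' => ?_⟩
  let J : Ideal A := J'
  change J.FG
  obtain ⟨S, D, hSJ, hS⟩ := exists_approx I f hI J
  refine ⟨S, le_antisymm (Submodule.span_le.mpr fun g hg => hSJ g hg) ?_⟩
  intro x hx
  -- successive approximations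
  have hstep : ∀ n : ℕ, ∀ y : {y : A // y ∈ J ∧ y ∈ I ^ n}, ∃ c : A → A,
      (∀ g, c g ∈ I ^ (n - D)) ∧ y.1 - ∑ g ∈ S, c g * g ∈ I ^ (n + 1) := by
    intro n y
    exact hS n y.1 y.2.1 y.2.2
  choose c hc1 hc2 using hstep
  let rec' : (n : ℕ) → {y : A // y ∈ J ∧ y ∈ I ^ n} := fun n =>
    Nat.rec (motive := fun n => {y : A // y ∈ J ∧ y ∈ I ^ n})
      ⟨x, hx, by simp⟩
      (fun n y => ⟨y.1 - ∑ g ∈ S, c n y g * g,
        ⟨J.sub_mem y.2.1 (J.sum_mem fun g hg => Ideal.mul_mem_left J _ (hSJ g hg)), hc2 n y⟩⟩) n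
  have hrec0 : (rec' 0).1 = x := rfl
  have hrecs : ∀ n, (rec' (n + 1)).1 = (rec' n).1 - ∑ g ∈ S, c n (rec' n) g * g := fun n => rfl
  -- partial sums of coefficients
  let C : ℕ → A → A := fun n g => ∑ k ∈ Finset.range n, c k (rec' k) g
  have hCsum : ∀ n, x - ∑ g ∈ S, C n g * g = (rec' n).1 := by
    intro n
    induction n with
    | zero => simp [C, hrec0]
    | succ n ih =>
      rw [hrecs, ← ih]
      simp only [C, Finset.sum_range_succ, add_mul, Finset.sum_add_distrib]
      ring
  have hCauchy : ∀ g, ∀ {m n : ℕ}, m ≤ n → C (m + D) g ≡ C (n + D) g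
      [SMOD (I ^ m • ⊤ : Submodule A A)] := by
    intro g m n hmn
    rw [SModEq.sub_mem]
    have : C (m + D) g - C (n + D) g = - ∑ k ∈ Finset.Ico (m + D) (n + D), c k (rec' k) g := by
      simp only [C]
      rw [Finset.sum_Ico_eq_sub _ (by omega)]
      ring
    rw [this, smul_eq_mul, Ideal.mul_top]
    apply neg_mem
    apply Ideal.sum_mem
    intro k hk
    rw [Finset.mem_Ico] at hk
    exact Ideal.pow_le_pow_right (by omega) (hc1 k (rec' k) g)
  have hlim : ∀ g, ∃ L : A, ∀ n, C (n + D) g ≡ L [SMOD (I ^ n • ⊤ : Submodule A A)] :=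
    fun g => IsPrecomplete.prec' (I := I) (M := A) (fun n => C (n + D) g) (hCauchy g)
  choose L hL using hlim
  have hfin : x - ∑ g ∈ S, L g * g = 0 := by
    apply IsHausdorff.haus' (I := I) (M := A)
    intro n
    rw [SModEq.sub_mem, sub_zero, smul_eq_mul, Ideal.mul_top]
    have h1 : x - ∑ g ∈ S, L g * g = (x - ∑ g ∈ S, C (n + D) g * g) +
        ∑ g ∈ S, (C (n + D) g - L g) * g := by
      simp_rw [sub_mul, Finset.sum_sub_distrib]
      ring
    rw [h1, hCsum]
    apply Ideal.add_mem
    · exact Ideal.pow_le_pow_right (by omega) (rec' (n + D)).2.2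
    · apply Ideal.sum_mem
      intro g _
      apply Ideal.mul_mem_right
      have := hL g n
      rw [SModEq.sub_mem, smul_eq_mul, Ideal.mul_top] at this
      exact this
  rw [sub_eq_zero] at hfin
  rw [hfin]
  exact Submodule.sum_mem _ fun g hg =>
    Submodule.smul_mem _ (L g) (Submodule.subset_span hg)

end Crest.Agent.R007.BAlg
end

-- ▼ part R007/BAlg2
section

/-!
Row 7 (S0007), section B, algebra: Krull dimension of an adically complete ring.
-/

set_option autoImplicit false

namespace Crest.Agent.R007.BAlg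

/-- a ring is complete for an ideal of square zero -/
theorem isAdicComplete_of_sq {B : Type*} [CommRing B] (J : Ideal B) (hJ : J ^ 2 = ⊥) :
    IsAdicComplete J B where
  haus' x hx := by
    have := hx 2
    rw [SModEq.sub_mem, sub_zero, hJ, smul_eq_mul, Ideal.mul_top] at this
    simpa using this
  prec' f hf := by
    refine ⟨f 2, fun n => ?_⟩
    rcases le_total n 2 with hn | hn
    · exact hf hn
    · have h := (hf hn).symm
      rw [SModEq.sub_mem, smul_eq_mul, Ideal.mul_top] at h
      rw [hJ] at h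
      have h' : f n - f 2 = 0 := by simpa using h
      rw [sub_eq_zero.mp h']

/-- a nilpotent element (of square zero) does not change the Krull dimension -/
theorem ringKrullDim_quot_nil {B : Type*} [CommRing B] (b : B) (hb : b ^ 2 = 0) :
    ringKrullDim (B ⧸ Ideal.span {b}) = ringKrullDim B := by
  rw [ringKrullDim_quotient]
  have h : PrimeSpectrum.zeroLocus ((Ideal.span {b} : Ideal B) : Set B) = Set.univ := by
    rw [PrimeSpectrum.zeroLocus_span]
    ext p
    simp only [PrimeSpectrum.mem_zeroLocus, Set.singleton_subset_iff, Set.mem_univ, iff_true,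
      SetLike.mem_coe]
    exact p.2.mem_of_pow_mem 2 (by rw [hb]; exact zero_mem _)
  rw [h, ringKrullDim]
  exact Order.krullDim_eq_of_orderIso OrderIso.Set.univ

/-- **Noetherianity and dimension bound.** `A` complete for the f.g. ideal `I`, `y' ^ 2 ∈ I`,
`A / (I + (y'))` Noetherian of dimension `≤ d`: then `A` is Noetherian and
`dim A ≤ d + (number of generators of I)`. -/
theorem noeth_and_dim {A : Type*} [CommRing A] (I : Ideal A) (hfg : I.FG) [IsAdicComplete I A]
    (y' : A) (hy : y' ^ 2 ∈ I) (hN : IsNoetherianRing (A ⧸ (I ⊔ Ideal.span {y'}))) (d : WithBot ℕ∞)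
    (hd : ringKrullDim (A ⧸ (I ⊔ Ideal.span {y'})) ≤ d) :
    IsNoetherianRing A ∧ ringKrullDim A ≤ d + (I.spanFinrank : ℕ) := by
  classical
  let b : A ⧸ I := Ideal.Quotient.mk I y'
  have hb : b ^ 2 = 0 := by
    change (Ideal.Quotient.mk I y') ^ 2 = 0
    rw [← map_pow, Ideal.Quotient.eq_zero_iff_mem]
    exact hy
  have hmap : (Ideal.span {y'}).map (Ideal.Quotient.mk I) = Ideal.span {b} := by
    rw [Ideal.map_span, Set.image_singleton]
  let e : ((A ⧸ I) ⧸ (Ideal.span {y'}).map (Ideal.Quotient.mk I)) ≃+* (A ⧸ (I ⊔ Ideal.span {y'})) :=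
    DoubleQuot.quotQuotEquivQuotSup I (Ideal.span {y'})
  let e2 : ((A ⧸ I) ⧸ Ideal.span {b}) ≃+* ((A ⧸ I) ⧸ (Ideal.span {y'}).map (Ideal.Quotient.mk I)) :=
    Ideal.quotEquivOfEq hmap.symm
  let e3 : ((A ⧸ I) ⧸ Ideal.span {b}) ≃+* (A ⧸ (I ⊔ Ideal.span {y'})) := e2.trans e
  have : IsNoetherianRing ((A ⧸ I) ⧸ Ideal.span {b}) :=
    isNoetherianRing_of_ringEquiv _ e3.symm
  have hJ : (Ideal.span {b}) ^ 2 = ⊥ := by
    rw [Ideal.span_singleton_pow, hb]
    simp
  have : IsAdicComplete (Ideal.span {b}) (A ⧸ I) := isAdicComplete_of_sq _ hJ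
  have : IsNoetherianRing (A ⧸ I) := noeth_of_adic (Ideal.span {b}) ⟨{b}, by simp⟩
  have hA : IsNoetherianRing A := noeth_of_adic I hfg
  refine ⟨hA, ?_⟩
  have h1 : ringKrullDim A ≤ ringKrullDim (A ⧸ I) + (I.spanFinrank : ℕ) :=
    ringKrullDim_le_ringKrullDim_quotient_add_spanFinrank I
      (by rw [← Ideal.jacobson_bot]; exact IsAdicComplete.le_jacobson_bot I)
  have h2 : ringKrullDim (A ⧸ I) ≤ d := by
    rw [← ringKrullDim_quot_nil b hb, ringKrullDim_eq_of_ringEquiv e3]
    exact hd
  exact h1.trans (by gcongr)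

/-- **dim ≤ 4**: the case of two generators and `dim A/(a,b,y') ≤ 2`. -/
theorem dim_le_four {A : Type*} [CommRing A] (a b y' : A)
    [IsAdicComplete (Ideal.span {a, b}) A] (hy : y' ^ 2 ∈ Ideal.span {a, b})
    (hN : IsNoetherianRing (A ⧸ (Ideal.span {a, b, y'})))
    (hd : ringKrullDim (A ⧸ (Ideal.span {a, b, y'})) ≤ 2) :
    IsNoetherianRing A ∧ ringKrullDim A ≤ 4 := by
  classical
  have hsup : (Ideal.span {a, b} : Ideal A) ⊔ Ideal.span {y'} = Ideal.span {a, b, y'} := by
    rw [← Ideal.span_union]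
    congr 1
    ext x
    simp only [Set.mem_union, Set.mem_insert_iff, Set.mem_singleton_iff]
    tauto
  have hN' : IsNoetherianRing (A ⧸ ((Ideal.span {a, b} : Ideal A) ⊔ Ideal.span {y'})) := by
    rw [hsup]; exact hN
  have hd' : ringKrullDim (A ⧸ ((Ideal.span {a, b} : Ideal A) ⊔ Ideal.span {y'})) ≤ 2 := by
    rw [hsup]; exact hd
  obtain ⟨h1, h2⟩ := noeth_and_dim (Ideal.span {a, b}) ⟨{a, b}, by simp⟩ y' hy hN' 2 hd'
  refine ⟨h1, h2.trans ?_⟩
  have h3 : (Ideal.span {a, b} : Ideal A).spanFinrank ≤ 2 := by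
    have h4 := Submodule.spanFinrank_span_le_ncard_of_finite (R := A) (M := A) (s := {a, b})
      (Set.toFinite _)
    exact h4.trans (Set.ncard_insert_le _ _ |>.trans (by simp))
  have h5 : (((Ideal.span {a, b} : Ideal A).spanFinrank : ℕ) : WithBot ℕ∞) ≤ (2 : WithBot ℕ∞) := by
    exact_mod_cast h3
  calc (2 : WithBot ℕ∞) + ((Ideal.span {a, b} : Ideal A).spanFinrank : ℕ) ≤ 2 + 2 := by
        gcongr
    _ = 4 := by norm_num

end Crest.Agent.R007.BAlg
end

-- ▼ part R007/BAlg3

/-!
Row 7 (S0007), section B, algebra: inverse limits of `p`-adically complete rings are complete for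
every finitely generated topologically nilpotent ideal.
-/

set_option autoImplicit false

namespace Crest.Agent.R007.BAlg

section Lim

variable {T : Type*} [CommRing T] {R : ℕ → Type*} [∀ k, CommRing (R k)]

/-- `T` is the inverse limit of the `R k` -/
structure IsLim (π : ∀ k, T →+* R k) (ρ : ∀ k, R (k + 1) →+* R k) : Prop where
  comp : ∀ k x, ρ k (π (k + 1) x) = π k x
  inj : ∀ x, (∀ k, π k x = 0) → x = 0
  lift : ∀ a : ∀ k, R k, (∀ k, ρ k (a (k + 1)) = a k) → ∃ x : T, ∀ k, π k x = a k

variable {π : ∀ k, T →+* R k} {ρ : ∀ k, R (k + 1) →+* R k} (p : ℕ)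

theorem map_span_pow {S S' : Type*} [CommRing S] [CommRing S'] (f : S →+* S') (p m : ℕ) (x : S)
    (hx : x ∈ (Ideal.span {(p : S)}) ^ m) : f x ∈ (Ideal.span {(p : S')}) ^ m := by
  have h := Ideal.mem_map_of_mem f hx
  rwa [Ideal.map_pow, Ideal.map_span, Set.image_singleton, map_natCast] at h

theorem eq_zero_of_forall_pow {S : Type*} [CommRing S] (J : Ideal S) [IsHausdorff J S] (x : S)
    (hx : ∀ m, x ∈ J ^ m) : x = 0 := by
  apply IsHausdorff.haus' (I := J) (M := S)
  intro n
  rw [SModEq.sub_mem, sub_zero, smul_eq_mul, Ideal.mul_top]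
  exact hx n

/-- the ideal `I` is topologically nilpotent -/
def TopNil (π : ∀ k, T →+* R k) (I : Ideal T) : Prop :=
  ∀ k, ∃ n : ℕ, ∀ m : ℕ, ∀ x ∈ I ^ (n * m), π k x ∈ (Ideal.span {(p : R k)}) ^ m

theorem topNil_of_map_le (π : ∀ k, T →+* R k) (I : Ideal T)
    (h : ∀ k, ∃ n : ℕ, (I ^ n).map (π k) ≤ Ideal.span {(p : R k)}) : TopNil p π I := by
  intro k
  obtain ⟨n, hn⟩ := h k
  refine ⟨n, fun m x hx => ?_⟩
  have h1 := Ideal.mem_map_of_mem (π k) hx
  rw [pow_mul, Ideal.map_pow] at h1
  exact Ideal.pow_right_mono hn m h1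

/-- the usual case `I = (p, y)`, `y` nilpotent modulo `p` on every stage -/
theorem topNil_pair (π : ∀ k, T →+* R k) (y : T)
    (h : ∀ k, ∃ n : ℕ, (π k y) ^ n ∈ Ideal.span {(p : R k)}) :
    TopNil p π (Ideal.span {(p : T), y}) := by
  apply topNil_of_map_le
  intro k
  obtain ⟨n, hn⟩ := h k
  refine ⟨n, ?_⟩
  rw [Ideal.map_pow, Ideal.map_span, Set.image_pair, map_natCast]
  have h1 : Ideal.span {(p : R k), π k y} = Ideal.span {(p : R k)} ⊔ Ideal.span {π k y} := by
    rw [← Ideal.span_union]; rfl
  rw [h1]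
  -- work modulo p
  intro x hx
  rw [← Ideal.Quotient.eq_zero_iff_mem, ← Ideal.mem_bot]
  have h2 := Ideal.mem_map_of_mem (Ideal.Quotient.mk (Ideal.span {(p : R k)})) hx
  rw [Ideal.map_pow, Ideal.map_sup, Ideal.map_quotient_self, bot_sup_eq,
    Ideal.map_span, Set.image_singleton, Ideal.span_singleton_pow, ← map_pow,
    Ideal.Quotient.eq_zero_iff_mem.mpr hn] at h2
  simpa using h2

variable {p}

/-- convergent series in the limit ring -/
theorem series (hT : IsLim π ρ) [∀ k, IsAdicComplete (Ideal.span {(p : R k)}) (R k)] (I : Ideal T)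
    (hI : TopNil p π I) (c : ℕ → T) (hc : ∀ j, c j ∈ I ^ j) :
    ∃ S : T, ∀ k m : ℕ, ∃ N : ℕ, ∀ n, N ≤ n →
      π k (S - ∑ j ∈ Finset.range n, c j) ∈ (Ideal.span {(p : R k)}) ^ m := by
  classical
  choose N hN using hI
  have hlim : ∀ k, ∃ L : R k, ∀ m : ℕ, ∀ n, N k * m ≤ n →
      L - π k (∑ j ∈ Finset.range n, c j) ∈ (Ideal.span {(p : R k)}) ^ m := by
    intro k
    have htail : ∀ m n n', N k * m ≤ n → n ≤ n' → π k (∑ j ∈ Finset.range n', c j) -
        π k (∑ j ∈ Finset.range n, c j) ∈ (Ideal.span {(p : R k)}) ^ m := by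
      intro m n n' h1 h2
      rw [← map_sub, ← Finset.sum_Ico_eq_sub _ h2]
      apply hN k m
      apply Ideal.sum_mem
      intro j hj
      rw [Finset.mem_Ico] at hj
      exact Ideal.pow_le_pow_right (h1.trans hj.1) (hc j)
    obtain ⟨L, hL⟩ := IsPrecomplete.prec' (I := Ideal.span {(p : R k)}) (M := R k)
      (fun m => π k (∑ j ∈ Finset.range (N k * m), c j)) (by
        intro m m' hmm
        rw [SModEq.sub_mem, smul_eq_mul, Ideal.mul_top, ← neg_sub]
        apply neg_mem
        exact htail m _ _ le_rfl (Nat.mul_le_mul_left _ hmm))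
    refine ⟨L, fun m n hn => ?_⟩
    have h1 := hL m
    rw [SModEq.sub_mem, smul_eq_mul, Ideal.mul_top] at h1
    have h2 := htail m (N k * m) n le_rfl hn
    have h3 : L - π k (∑ j ∈ Finset.range n, c j) =
        - (π k (∑ j ∈ Finset.range (N k * m), c j) - L) - (π k (∑ j ∈ Finset.range n, c j) -
        π k (∑ j ∈ Finset.range (N k * m), c j)) := by ring
    rw [h3]
    exact Ideal.sub_mem _ (neg_mem h1) h2
  choose L hL using hlim
  obtain ⟨S, hS⟩ := hT.lift L (by
    intro k
    rw [← sub_eq_zero]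
    apply eq_zero_of_forall_pow (Ideal.span {(p : R k)})
    intro m
    let n := max (N k * m) (N (k + 1) * m)
    have h1 := hL k m n (le_max_left _ _)
    have h2 := map_span_pow (ρ k) p m _ (hL (k + 1) m n (le_max_right _ _))
    rw [map_sub, hT.comp] at h2
    have h3 : ρ k (L (k + 1)) - L k = (ρ k (L (k + 1)) - π k (∑ j ∈ Finset.range n, c j)) -
      (L k - π k (∑ j ∈ Finset.range n, c j)) := by ring
    rw [h3]
    exact Ideal.sub_mem _ h2 h1)
  refine ⟨S, fun k m => ⟨N k * m, fun n hn => ?_⟩⟩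
  rw [map_sub, hS]
  exact hL k m n hn

/-- **Completeness of inverse limits**: for `T = lim R k` with all `R k` `p`-adically complete, every
finitely generated topologically nilpotent ideal `I` makes `T` `I`-adically complete. -/
theorem isAdicComplete_of_isLim (hT : IsLim π ρ)
    [∀ k, IsAdicComplete (Ideal.span {(p : R k)}) (R k)] (I : Ideal T) (hfg : I.FG)
    (hI : TopNil p π I) : IsAdicComplete I T where
  haus' x hx := by
    apply hT.inj
    intro k
    obtain ⟨n, hn⟩ := hI k
    apply eq_zero_of_forall_pow (Ideal.span {(p : R k)})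
    intro m
    apply hn m
    have := hx (n * m)
    rwa [SModEq.sub_mem, sub_zero, smul_eq_mul, Ideal.mul_top] at this
  prec' f hf := by
    classical
    have hf' : ∀ {m n}, m ≤ n → f n - f m ∈ I ^ m := by
      intro m n hmn
      have h := (hf hmn)
      rw [SModEq.sub_mem, smul_eq_mul, Ideal.mul_top] at h
      rw [← neg_sub]
      exact neg_mem h
    obtain ⟨S, hS⟩ := series hT I hI (fun j => f (j + 1) - f j) (fun j => hf' (Nat.le_succ j))
    refine ⟨S + f 0, fun n => ?_⟩
    rw [SModEq.sub_mem, smul_eq_mul, Ideal.mul_top, ← neg_sub]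
    apply neg_mem
    -- generators of I^n
    obtain ⟨G, hG⟩ := hfg.pow (n := n)
    have hcoef : ∀ i : ℕ, ∃ a : G → T, (∀ g, a g ∈ I ^ i) ∧
        f (n + i + 1) - f (n + i) = ∑ g : G, a g * g.1 := by
      intro i
      have h1 : f (n + i + 1) - f (n + i) ∈ I ^ i • (Submodule.span T (G : Set T)) := by
        have hG' : Submodule.span T (G : Set T) = I ^ n := hG
        rw [hG', smul_eq_mul, ← pow_add, add_comm i n]
        exact hf' (Nat.le_succ _)
      have h2 : Submodule.span T (G : Set T) = Submodule.span T (Set.range (fun g : G => g.1)) := by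
        congr 1; ext z; simp
      rw [h2, Submodule.mem_ideal_smul_span_iff_exists_sum] at h1
      obtain ⟨a, ha, hsum⟩ := h1
      refine ⟨a, ha, ?_⟩
      rw [← hsum, Finsupp.sum_fintype _ _ (by simp)]
      simp
    choose a ha hsum using hcoef
    have hSl : ∀ g : G, ∃ S : T, ∀ k m : ℕ, ∃ N : ℕ, ∀ n, N ≤ n →
      π k (S - ∑ j ∈ Finset.range n, a j g) ∈ (Ideal.span {(p : R k)}) ^ m :=
      fun g => series hT I hI (fun j => a j g) (fun j => ha j g)
    choose Sl hSl using hSl
    have hkey : S + f 0 - f n = ∑ g : G, Sl g * g.1 := by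
      rw [← sub_eq_zero]
      apply hT.inj
      intro k
      apply eq_zero_of_forall_pow (Ideal.span {(p : R k)})
      intro m
      obtain ⟨N0, hN0⟩ := hS k m
      have : ∃ N1 : ℕ, ∀ g : G, ∀ n, N1 ≤ n →
          π k (Sl g - ∑ j ∈ Finset.range n, a j g) ∈ (Ideal.span {(p : R k)}) ^ m := by
        choose N1 hN1 using fun g => hSl g k m
        exact ⟨Finset.univ.sup N1, fun g n hn => hN1 g n ((Finset.le_sup (Finset.mem_univ g)).trans hn)⟩
      obtain ⟨N1, hN1⟩ := this
      let M := max N0 N1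
      have e1 : ∑ j ∈ Finset.range (n + M), (f (j + 1) - f j) = f (n + M) - f 0 :=
        Finset.sum_range_sub f (n + M)
      have e2 : f (n + M) - f n = ∑ g : G, (∑ j ∈ Finset.range M, a j g) * g.1 := by
        have e3 : f (n + M) - f n = ∑ j ∈ Finset.range M, (f (n + j + 1) - f (n + j)) := by
          have := Finset.sum_range_sub (fun j => f (n + j)) M
          simp only [add_zero] at this
          rw [← this]
          rfl
        rw [e3]
        simp_rw [hsum, Finset.sum_mul]
        rw [Finset.sum_comm]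
      have e4 : S + f 0 - f n - ∑ g : G, Sl g * g.1 =
          (S - ∑ j ∈ Finset.range (n + M), (f (j + 1) - f j)) -
          ∑ g : G, (Sl g - ∑ j ∈ Finset.range M, a j g) * g.1 := by
        rw [e1]
        simp_rw [sub_mul, Finset.sum_sub_distrib]
        rw [← e2]
        ring
      rw [e4, map_sub]
      apply Ideal.sub_mem
      · exact hN0 _ (le_trans (le_max_left _ _) (Nat.le_add_left _ _))
      · rw [map_sum]
        apply Ideal.sum_mem
        intro g _
        rw [map_mul]
        apply Ideal.mul_mem_right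
        exact hN1 g M (le_max_right _ _)
    rw [hkey]
    apply Ideal.sum_mem
    intro g _
    apply Ideal.mul_mem_left
    rw [← hG]
    exact Submodule.subset_span g.2

end Lim

section finite

/-- modules finite over an adically complete ring are precomplete -/
theorem isPrecomplete_of_finite {A M : Type*} [CommRing A] [AddCommGroup M] [Module A M]
    (J : Ideal A) [IsAdicComplete J A] [Module.Finite A M] : IsPrecomplete J M where
  prec' f hf := by
    classical
    obtain ⟨G, hG⟩ := (Module.Finite.fg_top : (⊤ : Submodule A M).FG)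
    have hcoef : ∀ i : ℕ, ∃ a : G → A, (∀ g, a g ∈ J ^ i) ∧
        f (i + 1) - f i = ∑ g : G, a g • g.1 := by
      intro i
      have h0 := hf (Nat.le_succ i)
      rw [SModEq.sub_mem] at h0
      have h1 : f (i + 1) - f i ∈ J ^ i • (Submodule.span A (G : Set M)) := by
        rw [hG, ← neg_sub]
        exact neg_mem h0
      have h2 : Submodule.span A (G : Set M) = Submodule.span A (Set.range (fun g : G => g.1)) := by
        congr 1; ext z; simp
      rw [h2, Submodule.mem_ideal_smul_span_iff_exists_sum] at h1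
      obtain ⟨a, ha, hsum⟩ := h1
      refine ⟨a, ha, ?_⟩
      rw [← hsum, Finsupp.sum_fintype _ _ (by simp)]
    choose a ha hsum using hcoef
    have hlim : ∀ g : G, ∃ S : A, ∀ n, (∑ j ∈ Finset.range n, a j g) ≡ S
        [SMOD (J ^ n • ⊤ : Submodule A A)] := by
      intro g
      apply IsPrecomplete.prec' (I := J) (M := A) (fun n => ∑ j ∈ Finset.range n, a j g)
      intro m n hmn
      rw [SModEq.sub_mem, smul_eq_mul, Ideal.mul_top, ← neg_sub, ← Finset.sum_Ico_eq_sub _ hmn]
      apply neg_mem
      apply Ideal.sum_mem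
      intro j hj
      rw [Finset.mem_Ico] at hj
      exact Ideal.pow_le_pow_right hj.1 (ha j g)
    choose S hS using hlim
    refine ⟨f 0 + ∑ g : G, S g • g.1, fun n => ?_⟩
    have e1 : f n = f 0 + ∑ g : G, (∑ j ∈ Finset.range n, a j g) • g.1 := by
      have := Finset.sum_range_sub f n
      simp_rw [hsum] at this
      rw [Finset.sum_comm] at this
      simp_rw [Finset.sum_smul]
      rw [this]
      abel
    rw [SModEq.sub_mem, e1]
    have e2 : f 0 + ∑ g : G, (∑ j ∈ Finset.range n, a j g) • g.1 - (f 0 + ∑ g : G, S g • g.1) =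
        ∑ g : G, ((∑ j ∈ Finset.range n, a j g) - S g) • g.1 := by
      simp_rw [sub_smul, Finset.sum_sub_distrib]
      abel
    rw [e2]
    apply Submodule.sum_mem
    intro g _
    apply Submodule.smul_mem_smul _ Submodule.mem_top
    have := hS g n
    rwa [SModEq.sub_mem, smul_eq_mul, Ideal.mul_top] at this

/-- a commutative ring finite over `ℤ_[p]` is `p`-adically complete -/
theorem isAdicComplete_of_finite_padic (p : ℕ) [Fact p.Prime] (R : Type*) [CommRing R]
    [Algebra ℤ_[p] R] [Module.Finite ℤ_[p] R] : IsAdicComplete (Ideal.span {(p : R)}) R := by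
  have hmax : (IsLocalRing.maximalIdeal ℤ_[p]).map (algebraMap ℤ_[p] R) = Ideal.span {(p : R)} := by
    rw [PadicInt.maximalIdeal_eq_span_p, Ideal.map_span, Set.image_singleton, map_natCast]
  rw [← hmax]
  have h1 : IsPrecomplete (IsLocalRing.maximalIdeal ℤ_[p]) R := isPrecomplete_of_finite _
  have h2 : IsHausdorff (IsLocalRing.maximalIdeal ℤ_[p]) R :=
    IsHausdorff.of_isLocalRing _ _ (IsLocalRing.maximalIdeal.isMaximal _).ne_top
  have h3 : IsAdicComplete (IsLocalRing.maximalIdeal ℤ_[p]) R := { toIsHausdorff := h2, toIsPrecomplete := h1 }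
  exact (IsAdicComplete.map_algebraMap_iff _ _).mpr h3

end finite

end Crest.Agent.R007.BAlg
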