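import Crest.Prelude.Def_HeckeTwo
import Mathlib

-- ▼ part R007/Base1
section

/-! Row 7, base layer 1: diamond operators on `MF N i` exist. -/

set_option autoImplicit false
open scoped ModularForm MatrixGroups Manifold
open Crest.NumberTheoryR.HeckeTwoAdic UpperHalfPlane CongruenceSubgroup Matrix
open ModularForm

namespace Crest.Agent.R007.Base

/-- slash by a rational matrix keeps boundedness at all cusps -/
lemma bdd_slash {N : ℕ} [NeZero N] {i : ℕ} (f : MF N i) (g : GL (Fin 2) ℚ) {c : OnePoint ℝ}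
    (hc : IsCusp c ((Gamma1 N : Subgroup SL(2, ℤ)) : Subgroup (GL (Fin 2) ℝ))) :
    c.IsBoundedAt ((⇑f) ∣[(i:ℤ)] (g.map (Rat.castHom ℝ))) i := by
  rw [← OnePoint.IsBoundedAt.smul_iff]
  apply ModularFormClass.bdd_at_cusps f
  rw [Subgroup.IsArithmetic.isCusp_iff_isCusp_SL2Z, isCusp_SL2Z_iff] at hc ⊢
  obtain ⟨x, rfl⟩ := hc
  refine ⟨g • x, ?_⟩
  rw [← Rat.coe_castHom, OnePoint.map_smul]

lemma inv1 {N : ℕ} {i : ℕ} (f : MF N i) {δ : SL(2, ℤ)} (hδ : δ ∈ Gamma1 N) :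
    (⇑f) ∣[(i:ℤ)] δ = ⇑f := by
  rw [SL_slash]
  exact SlashInvariantFormClass.slash_action_eq f _ (Subgroup.mem_map_of_mem _ hδ)

lemma mem1_iff {N : ℕ} (g : Gamma0 N) : (g : SL(2, ℤ)) ∈ Gamma1 N ↔ Gamma0Map N g = 1 := by
  rw [← Gamma1_mem', Gamma1_to_Gamma0_mem, Gamma1_mem]

lemma map_mul_inv_eq_one {N : ℕ} (g h : Gamma0 N) (e : Gamma0Map N g = Gamma0Map N h) :
    Gamma0Map N (g * h⁻¹) = 1 := by
  rw [map_mul, e, ← map_mul, mul_inv_cancel, map_one]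

/-- two elements of `Γ₀(N)` with the same lower right entry mod `N` slash alike -/
lemma slash_eq_of {N : ℕ} {i : ℕ} (f : MF N i) {γ γ' : SL(2, ℤ)} (hγ : γ ∈ Gamma0 N)
    (hγ' : γ' ∈ Gamma0 N) (e : ((γ 1 1 : ℤ) : ZMod N) = ((γ' 1 1 : ℤ) : ZMod N)) :
    (⇑f) ∣[(i:ℤ)] γ = (⇑f) ∣[(i:ℤ)] γ' := by
  have h : γ * γ'⁻¹ ∈ Gamma1 N := by
    have := (mem1_iff ((⟨γ, hγ⟩ : Gamma0 N) * (⟨γ', hγ'⟩ : Gamma0 N)⁻¹)).2
      (map_mul_inv_eq_one _ _ e)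
    simpa using this
  calc (⇑f) ∣[(i:ℤ)] γ = (⇑f) ∣[(i:ℤ)] ((γ * γ'⁻¹) * γ') := by rw [inv_mul_cancel_right]
    _ = _ := by rw [SlashAction.slash_mul, inv1 f h]

lemma slash_inv1 {N : ℕ} {i : ℕ} (f : MF N i) {γ δ : SL(2, ℤ)} (hγ : γ ∈ Gamma0 N)
    (hδ : δ ∈ Gamma1 N) : ((⇑f) ∣[(i:ℤ)] γ) ∣[(i:ℤ)] δ = (⇑f) ∣[(i:ℤ)] γ := by
  rw [← SlashAction.slash_mul]
  have hδ0 : δ ∈ Gamma0 N := Gamma1_in_Gamma0 N hδ
  refine slash_eq_of f (Subgroup.mul_mem _ hγ hδ0) hγ ?_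
  have h1 : Gamma0Map N ((⟨γ, hγ⟩ : Gamma0 N) * ⟨δ, hδ0⟩) = Gamma0Map N ⟨γ, hγ⟩ := by
    rw [map_mul, (mem1_iff (⟨δ, hδ0⟩ : Gamma0 N)).1 hδ, mul_one]
  exact h1

/-- constructor of modular forms of level `Γ₁(N)` -/
noncomputable def mkMF (N i : ℕ) [NeZero N] (F : ℍ → ℂ) (hinv : ∀ δ ∈ Gamma1 N, F ∣[(i:ℤ)] δ = F)
    (hol : MDiff F)
    (hb : ∀ c : OnePoint ℝ, IsCusp c ((Gamma1 N : Subgroup SL(2, ℤ)) : Subgroup (GL (Fin 2) ℝ)) →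
      c.IsBoundedAt F i) : MF N i where
  toFun := F
  slash_action_eq' := by
    rintro γ hγ
    obtain ⟨δ, hδ, rfl⟩ := Subgroup.mem_map.1 hγ
    have := hinv δ hδ
    rwa [SL_slash] at this
  holo' := hol
  bdd_at_cusps' := fun {c} hc => hb c hc

@[simp] lemma coe_mkMF {N i : ℕ} [NeZero N] {F : ℍ → ℂ} {h1 h2 h3} :
    ⇑(mkMF N i F h1 h2 h3) = F := rfl

/-- `SL(2,ℤ)` as rational matrices -/
lemma SL_eq_map (γ : SL(2, ℤ)) :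
    (γ : GL (Fin 2) ℝ) = ((γ : GL (Fin 2) ℚ)).map (Rat.castHom ℝ) := by
  ext i j
  simp

lemma mdiff_slash {N i : ℕ} (f : MF N i) (g : GL (Fin 2) ℝ) : MDiff ((⇑f) ∣[(i:ℤ)] g) :=
  (ModularFormClass.holo f).slash _ g

open Classical in
/-- the diamond operator -/
noncomputable def dia (N : ℕ) [NeZero N] (d i : ℕ) : MF N i →ₗ[ℂ] MF N i :=
  if h : ∃ γ : SL(2, ℤ), γ ∈ Gamma0 N ∧ ((γ 1 1 : ℤ) : ZMod N) = d then
    { toFun := fun f => mkMF N i ((⇑f) ∣[(i:ℤ)] h.choose)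
        (fun δ hδ => slash_inv1 f h.choose_spec.1 hδ)
        (by rw [SL_slash]; exact mdiff_slash f _)
        (fun c hc => by rw [SL_slash, SL_eq_map]; exact bdd_slash f _ hc)
      map_add' := fun f g => by
        apply DFunLike.coe_injective
        have h1 : ⇑(f + g) = ⇑f + ⇑g := rfl
        simp only [coe_mkMF, h1, SlashAction.add_slash]
        rfl
      map_smul' := fun a f => by
        apply DFunLike.coe_injective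
        have h1 : ⇑(a • f) = a • ⇑f := rfl
        simp only [coe_mkMF, h1, ModularForm.SL_smul_slash]
        rfl }
  else 0

end Crest.Agent.R007.Base
end

-- ▼ part R007/Base2
section

/-! Row 7, base layer 2: relations of the diamond operators, coset permutation. -/

set_option autoImplicit false
open scoped ModularForm MatrixGroups Manifold
open Crest.NumberTheoryR.HeckeTwoAdic UpperHalfPlane CongruenceSubgroup Matrix
open ModularForm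

namespace Crest.Agent.R007.Base

/-- `SL(2,ℤ)` element from four integers -/
def mkSL (a b c d : ℤ) (h : a * d - b * c = 1) : SL(2, ℤ) :=
  ⟨!![a, b; c, d], by rw [Matrix.det_fin_two_of]; exact h⟩

@[simp] lemma mkSL_00 {a b c d : ℤ} {h : a * d - b * c = 1} : (mkSL a b c d h) 0 0 = a := rfl
@[simp] lemma mkSL_01 {a b c d : ℤ} {h : a * d - b * c = 1} : (mkSL a b c d h) 0 1 = b := rfl
@[simp] lemma mkSL_10 {a b c d : ℤ} {h : a * d - b * c = 1} : (mkSL a b c d h) 1 0 = c := rfl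
@[simp] lemma mkSL_11 {a b c d : ℤ} {h : a * d - b * c = 1} : (mkSL a b c d h) 1 1 = d := rfl

theorem isDiamondFamily (N : ℕ) [NeZero N] : IsDiamondFamily N (dia N) := by
  intro d i γ hγ hd f
  have h : ∃ γ : SL(2, ℤ), γ ∈ Gamma0 N ∧ ((γ 1 1 : ℤ) : ZMod N) = d := ⟨γ, hγ, hd⟩
  have e : ⇑(dia N d i f) = (⇑f) ∣[(i:ℤ)] h.choose := by
    unfold dia
    rw [dif_pos h]
    rfl
  rw [e]
  exact slash_eq_of f h.choose_spec.1 hγ (h.choose_spec.2.trans hd.symm)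

/-- a matrix in `Γ₀(N)` with lower right entry `d` mod `N` -/
lemma exists_gamma (N : ℕ) [NeZero N] (d : ℕ) (hd : d.Coprime N) :
    ∃ γ : SL(2, ℤ), γ ∈ Gamma0 N ∧ ((γ 1 1 : ℤ) : ZMod N) = d := by
  have hc : IsCoprime (d : ℤ) (N : ℤ) := Nat.isCoprime_iff_coprime.2 hd
  obtain ⟨u, v, huv⟩ := hc
  refine ⟨mkSL u (-v) N d (by linarith), ?_, ?_⟩
  · rw [Gamma0_mem, mkSL_10]; simp
  · rw [mkSL_11]; simp

lemma coprime_of_prime {N ℓ : ℕ} (hℓ : ℓ.Prime) (h : ¬ ℓ ∣ 2 * N) : ℓ.Coprime N :=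
  (Nat.Prime.coprime_iff_not_dvd hℓ).2 (fun h' => h (Dvd.dvd.mul_left h' 2))

section fam
variable {N : ℕ} [NeZero N] {D T : ℕ → (i : ℕ) → (MF N i →ₗ[ℂ] MF N i)}

/-- slash by an element of `Γ₀(N)` only depends on the diamond operator -/
lemma D_mul (hD : IsDiamondFamily N D) {d e m : ℕ} (hd : d.Coprime N) (he : e.Coprime N)
    (hm : ((m : ℕ) : ZMod N) = d * e) (i : ℕ) (f : MF N i) :
    D e i (D d i f) = D m i f := by
  obtain ⟨γ, hγ, h1⟩ := exists_gamma N d hd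
  obtain ⟨δ, hδ, h2⟩ := exists_gamma N e he
  apply DFunLike.coe_injective
  rw [hD e i δ hδ h2, hD d i γ hγ h1, ← SlashAction.slash_mul]
  symm
  apply hD m i _ (Subgroup.mul_mem _ hγ hδ)
  have := map_mul (Gamma0Map N) (⟨γ, hγ⟩ : Gamma0 N) ⟨δ, hδ⟩
  have h3 : (((γ * δ) 1 1 : ℤ) : ZMod N) = ((γ 1 1 : ℤ) : ZMod N) * ((δ 1 1 : ℤ) : ZMod N) := this
  rw [h3, h1, h2, hm]

lemma D_comm (hD : IsDiamondFamily N D) {d e : ℕ} (hd : d.Coprime N) (he : e.Coprime N)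
    (i : ℕ) (f : MF N i) : D e i (D d i f) = D d i (D e i f) := by
  rw [D_mul hD hd he (m := d * e) (by push_cast; rfl),
    D_mul hD he hd (m := d * e) (by push_cast; ring)]

end fam

/-! ### coset matrices -/

lemma upperMat_mul_SL {ℓ j : ℕ} (hℓ : ℓ ≠ 0) (γ δ : SL(2, ℤ)) (j' : ℕ)
    (h1 : (γ 0 0 : ℤ) + j * γ 1 0 = δ 0 0) (h2 : (γ 0 1 : ℤ) + j * γ 1 1 = j' * δ 0 0 + ℓ * δ 0 1)
    (h3 : (ℓ : ℤ) * γ 1 0 = δ 1 0) (h4 : (ℓ : ℤ) * γ 1 1 = j' * δ 1 0 + ℓ * δ 1 1) :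
    upperMat ℓ j hℓ * (γ : GL (Fin 2) ℝ) = (δ : GL (Fin 2) ℝ) * upperMat ℓ j' hℓ := by
  have h1' : ((γ 0 0 : ℤ) : ℝ) + j * (γ 1 0 : ℤ) = (δ 0 0 : ℤ) := by exact_mod_cast h1
  have h2' : ((γ 0 1 : ℤ) : ℝ) + j * (γ 1 1 : ℤ) = j' * (δ 0 0 : ℤ) + ℓ * (δ 0 1 : ℤ) := by
    exact_mod_cast h2
  have h3' : (ℓ : ℝ) * (γ 1 0 : ℤ) = (δ 1 0 : ℤ) := by exact_mod_cast h3
  have h4' : (ℓ : ℝ) * (γ 1 1 : ℤ) = j' * (δ 1 0 : ℤ) + ℓ * (δ 1 1 : ℤ) := by exact_mod_cast h4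
  apply Units.ext
  apply Matrix.ext
  intro a b
  fin_cases a <;> fin_cases b <;>
    simp [upperMat, mat2, Matrix.mul_apply, Fin.sum_univ_two] <;> linarith

lemma upperMat_mul_SL' {ℓ j : ℕ} (hℓ : ℓ ≠ 0) (γ δ : SL(2, ℤ))
    (h1 : (γ 0 0 : ℤ) + j * γ 1 0 = ℓ * δ 0 0) (h2 : (γ 0 1 : ℤ) + j * γ 1 1 = δ 0 1)
    (h3 : (γ 1 0 : ℤ) = δ 1 0) (h4 : (ℓ : ℤ) * γ 1 1 = δ 1 1) :
    upperMat ℓ j hℓ * (γ : GL (Fin 2) ℝ) = (δ : GL (Fin 2) ℝ) * lowerMat ℓ hℓ := by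
  have h1' : ((γ 0 0 : ℤ) : ℝ) + j * (γ 1 0 : ℤ) = ℓ * (δ 0 0 : ℤ) := by exact_mod_cast h1
  have h2' : ((γ 0 1 : ℤ) : ℝ) + j * (γ 1 1 : ℤ) = (δ 0 1 : ℤ) := by exact_mod_cast h2
  have h3' : ((γ 1 0 : ℤ) : ℝ) = (δ 1 0 : ℤ) := by exact_mod_cast h3
  have h4' : (ℓ : ℝ) * (γ 1 1 : ℤ) = (δ 1 1 : ℤ) := by exact_mod_cast h4
  apply Units.ext
  apply Matrix.ext
  intro a b
  fin_cases a <;> fin_cases b <;>
    simp [upperMat, lowerMat, mat2, Matrix.mul_apply, Fin.sum_univ_two] <;>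
    first | linarith | (rw [h3']; ring)

lemma lowerMat_mul_SL {ℓ : ℕ} (hℓ : ℓ ≠ 0) (γ δ : SL(2, ℤ)) (j' : ℕ)
    (h1 : (ℓ : ℤ) * γ 0 0 = δ 0 0) (h2 : (ℓ : ℤ) * γ 0 1 = j' * δ 0 0 + ℓ * δ 0 1)
    (h3 : (γ 1 0 : ℤ) = δ 1 0) (h4 : (γ 1 1 : ℤ) = j' * δ 1 0 + ℓ * δ 1 1) :
    lowerMat ℓ hℓ * (γ : GL (Fin 2) ℝ) = (δ : GL (Fin 2) ℝ) * upperMat ℓ j' hℓ := by
  have h1' : (ℓ : ℝ) * (γ 0 0 : ℤ) = (δ 0 0 : ℤ) := by exact_mod_cast h1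
  have h2' : (ℓ : ℝ) * (γ 0 1 : ℤ) = j' * (δ 0 0 : ℤ) + ℓ * (δ 0 1 : ℤ) := by exact_mod_cast h2
  have h3' : ((γ 1 0 : ℤ) : ℝ) = (δ 1 0 : ℤ) := by exact_mod_cast h3
  have h4' : ((γ 1 1 : ℤ) : ℝ) = j' * (δ 1 0 : ℤ) + ℓ * (δ 1 1 : ℤ) := by exact_mod_cast h4
  apply Units.ext
  apply Matrix.ext
  intro a b
  fin_cases a <;> fin_cases b <;>
    simp [upperMat, lowerMat, mat2, Matrix.mul_apply, Fin.sum_univ_two] <;> linarith

lemma lowerMat_mul_SL' {ℓ : ℕ} (hℓ : ℓ ≠ 0) (γ δ : SL(2, ℤ))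
    (h1 : (γ 0 0 : ℤ) = δ 0 0) (h2 : (ℓ : ℤ) * γ 0 1 = δ 0 1)
    (h3 : (γ 1 0 : ℤ) = ℓ * δ 1 0) (h4 : (γ 1 1 : ℤ) = δ 1 1) :
    lowerMat ℓ hℓ * (γ : GL (Fin 2) ℝ) = (δ : GL (Fin 2) ℝ) * lowerMat ℓ hℓ := by
  have h1' : ((γ 0 0 : ℤ) : ℝ) = (δ 0 0 : ℤ) := by exact_mod_cast h1
  have h2' : (ℓ : ℝ) * (γ 0 1 : ℤ) = (δ 0 1 : ℤ) := by exact_mod_cast h2
  have h3' : ((γ 1 0 : ℤ) : ℝ) = ℓ * (δ 1 0 : ℤ) := by exact_mod_cast h3
  have h4' : ((γ 1 1 : ℤ) : ℝ) = (δ 1 1 : ℤ) := by exact_mod_cast h4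
  apply Units.ext
  apply Matrix.ext
  intro a b
  fin_cases a <;> fin_cases b <;>
    simp [lowerMat, mat2, Matrix.mul_apply, Fin.sum_univ_two] <;>
    first | linarith | (rw [h1']; ring)

end Crest.Agent.R007.Base
end

-- ▼ part R007/Base3
section

/-! Row 7, base layer 3: Hecke operators exist and commute with diamonds. -/

set_option autoImplicit false
open scoped ModularForm MatrixGroups Manifold OnePoint
open Crest.NumberTheoryR.HeckeTwoAdic UpperHalfPlane CongruenceSubgroup Matrix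
open ModularForm

namespace Crest.Agent.R007.Base

section
variable {N : ℕ} [NeZero N] {D T : ℕ → (i : ℕ) → (MF N i →ₗ[ℂ] MF N i)}
variable {ℓ : ℕ} [hp : Fact ℓ.Prime]

/-- one summand of `T_ℓ` -/
noncomputable def piece (D : ℕ → (i : ℕ) → (MF N i →ₗ[ℂ] MF N i)) (ℓ : ℕ) [hp : Fact ℓ.Prime]
    {i : ℕ} (f : MF N i) (x : OnePoint (ZMod ℓ)) : ℍ → ℂ :=
  x.elim ((⇑(D ℓ i f)) ∣[(i:ℤ)] lowerMat ℓ hp.out.ne_zero)
    (fun j : ZMod ℓ => (⇑f) ∣[(i:ℤ)] upperMat ℓ j.val hp.out.ne_zero)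

/-- the Möbius matrix through which `γ` permutes the cosets -/
noncomputable def mob (ℓ : ℕ) [hp : Fact ℓ.Prime] (γ : SL(2, ℤ)) : GL (Fin 2) (ZMod ℓ) :=
  Matrix.GeneralLinearGroup.mkOfDetNeZero
    !![((γ 1 1 : ℤ) : ZMod ℓ), ((γ 0 1 : ℤ) : ZMod ℓ); ((γ 1 0 : ℤ) : ZMod ℓ), ((γ 0 0 : ℤ) : ZMod ℓ)]
    (by
      have h := γ.det_coe
      rw [Matrix.det_fin_two] at h
      have h2 : ((γ 1 1 : ℤ) : ZMod ℓ) * ((γ 0 0 : ℤ) : ZMod ℓ) -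
        ((γ 0 1 : ℤ) : ZMod ℓ) * ((γ 1 0 : ℤ) : ZMod ℓ) = 1 := by
        have := congrArg (fun z : ℤ => (z : ZMod ℓ)) h
        push_cast at this
        rw [← this]; ring
      rw [Matrix.det_fin_two_of, h2]
      exact one_ne_zero)

@[simp] lemma mob_00 (γ : SL(2, ℤ)) : (mob ℓ γ) 0 0 = ((γ 1 1 : ℤ) : ZMod ℓ) := rfl
@[simp] lemma mob_01 (γ : SL(2, ℤ)) : (mob ℓ γ) 0 1 = ((γ 0 1 : ℤ) : ZMod ℓ) := rfl
@[simp] lemma mob_10 (γ : SL(2, ℤ)) : (mob ℓ γ) 1 0 = ((γ 1 0 : ℤ) : ZMod ℓ) := rfl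
@[simp] lemma mob_11 (γ : SL(2, ℤ)) : (mob ℓ γ) 1 1 = ((γ 0 0 : ℤ) : ZMod ℓ) := rfl

lemma detSL (γ : SL(2, ℤ)) : (γ 0 0 : ℤ) * γ 1 1 - γ 0 1 * γ 1 0 = 1 := by
  have h := γ.det_coe
  rwa [Matrix.det_fin_two] at h


omit [NeZero N] in
lemma N_dvd_of_mem {γ : SL(2, ℤ)} (h : γ ∈ Gamma0 N) : (N : ℤ) ∣ γ 1 0 := by
  rw [Gamma0_mem] at h
  exact (ZMod.intCast_zmod_eq_zero_iff_dvd _ _).1 h

omit [NeZero N] in
lemma mem_of_N_dvd {γ : SL(2, ℤ)} (h : (N : ℤ) ∣ γ 1 0) : γ ∈ Gamma0 N := by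
  rw [Gamma0_mem]
  exact (ZMod.intCast_zmod_eq_zero_iff_dvd _ _).2 h

/-- coprimality of `d` and `N` from `γ ∈ Γ₀(N)` -/
lemma coprime_of_lr {γ : SL(2, ℤ)} (h : γ ∈ Gamma0 N) {d : ℕ}
    (hd : ((γ 1 1 : ℤ) : ZMod N) = d) : d.Coprime N := by
  obtain ⟨c, hc⟩ := N_dvd_of_mem h
  rw [← ZMod.isUnit_iff_coprime, ← hd]
  have h1 : (((γ 0 0 : ℤ) * γ 1 1 - γ 0 1 * γ 1 0 : ℤ) : ZMod N) = 1 := by
    rw [detSL]; simp
  rw [hc] at h1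
  push_cast at h1
  rw [ZMod.natCast_self, zero_mul, mul_zero, sub_zero] at h1
  exact IsUnit.of_mul_eq_one_right _ h1

lemma piece_slash (hD : IsDiamondFamily N D) (hℓN : ¬ ℓ ∣ 2 * N) {i : ℕ} (f : MF N i)
    {γ : SL(2, ℤ)} (hγ : γ ∈ Gamma0 N) {d : ℕ} (hd : ((γ 1 1 : ℤ) : ZMod N) = d)
    (x : OnePoint (ZMod ℓ)) :
    (piece D ℓ f x) ∣[(i:ℤ)] γ = piece D ℓ (D d i f) (mob ℓ γ • x) := by
  have hℓ := hp.out
  have hℓ0 : ℓ ≠ 0 := hℓ.ne_zero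
  have hcop : ℓ.Coprime N := coprime_of_prime hℓ hℓN
  have hdcop : d.Coprime N := coprime_of_lr hγ hd
  have hdet := detSL γ
  obtain ⟨c', hc'⟩ := N_dvd_of_mem hγ
  cases x with
  | infty =>
    rw [OnePoint.smul_infty_eq_ite]
    by_cases hc : (mob ℓ γ) 1 0 = 0
    · rw [if_pos hc]
      rw [mob_10] at hc
      obtain ⟨c1, hc1⟩ := (ZMod.intCast_zmod_eq_zero_iff_dvd _ _).1 hc
      have hNc1 : (N : ℤ) ∣ c1 := by
        have : (N : ℤ) ∣ (ℓ : ℤ) * c1 := by rw [← hc1]; exact N_dvd_of_mem hγ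
        exact IsCoprime.dvd_of_dvd_mul_left (Nat.isCoprime_iff_coprime.2 hcop.symm) this
      set δ : SL(2, ℤ) := mkSL (γ 0 0) (ℓ * γ 0 1) c1 (γ 1 1) (by
        rw [hc1] at hdet; linarith) with hδ
      have hδ0 : δ ∈ Gamma0 N := mem_of_N_dvd hNc1
      have hδd : ((δ 1 1 : ℤ) : ZMod N) = d := hd
      change ((⇑(D ℓ i f)) ∣[(i:ℤ)] lowerMat ℓ hℓ0) ∣[(i:ℤ)] γ =
        (⇑(D ℓ i (D d i f))) ∣[(i:ℤ)] lowerMat ℓ hℓ0
      rw [SL_slash, ← SlashAction.slash_mul,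
        lowerMat_mul_SL' hℓ0 γ δ rfl rfl (by rw [hc1]; rfl) rfl, SlashAction.slash_mul,
        ← SL_slash, ← hD d i δ hδ0 hδd, D_comm hD hcop hdcop]
    · rw [if_neg hc]
      rw [mob_10] at hc
      set y : ZMod ℓ := (mob ℓ γ) 0 0 / (mob ℓ γ) 1 0 with hy
      have hy2 : ((γ 1 1 - (y.val : ℤ) * γ 1 0 : ℤ) : ZMod ℓ) = 0 := by
        push_cast
        rw [ZMod.natCast_zmod_val, hy, mob_00, mob_10, div_mul_cancel₀ _ hc, sub_self]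
      obtain ⟨e, he⟩ := (ZMod.intCast_zmod_eq_zero_iff_dvd _ _).1 hy2
      set δ : SL(2, ℤ) := mkSL (ℓ * γ 0 0) (γ 0 1 - y.val * γ 0 0) (γ 1 0) e (by
        have : (ℓ : ℤ) * γ 0 0 * e = γ 0 0 * (γ 1 1 - (y.val : ℤ) * γ 1 0) := by
          rw [he]; ring
        rw [this]; linarith) with hδ
      have hδ0 : δ ∈ Gamma0 N := mem_of_N_dvd (N_dvd_of_mem hγ)
      change ((⇑(D ℓ i f)) ∣[(i:ℤ)] lowerMat ℓ hℓ0) ∣[(i:ℤ)] γ =
        (⇑(D d i f)) ∣[(i:ℤ)] upperMat ℓ y.val hℓ0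
      rw [SL_slash, ← SlashAction.slash_mul,
        lowerMat_mul_SL hℓ0 γ δ y.val rfl
          (by simp only [hδ, mkSL_00, mkSL_01]; ring) rfl
          (by simp only [hδ, mkSL_10, mkSL_11]; linarith),
        SlashAction.slash_mul, ← SL_slash]
      congr 1
      -- `⟨e⟩⟨ℓ⟩ f = ⟨d⟩ f`
      have hNe : (((ℓ : ℤ) * e : ℤ) : ZMod N) = d := by
        rw [← he, ← hd, hc']
        push_cast
        rw [ZMod.natCast_self]; ring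
      set e' : ℕ := ((e : ZMod N)).val with he'
      have he2 : ((e : ℤ) : ZMod N) = e' := by rw [he', ZMod.natCast_zmod_val]
      rw [← hD e' i δ hδ0 he2]
      have hecop : e'.Coprime N := coprime_of_lr hδ0 he2
      rw [D_mul hD hcop hecop (m := d)]
      rw [← he2, ← hNe]; push_cast; rfl
  | coe j =>
    rw [OnePoint.smul_some_eq_ite]
    by_cases hc : (mob ℓ γ) 1 0 * j + (mob ℓ γ) 1 1 = 0
    · rw [if_pos hc]
      rw [mob_10, mob_11] at hc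
      have hc2 : ((γ 0 0 + (j.val : ℤ) * γ 1 0 : ℤ) : ZMod ℓ) = 0 := by
        push_cast
        rw [ZMod.natCast_zmod_val, ← hc]; ring
      obtain ⟨a, ha⟩ := (ZMod.intCast_zmod_eq_zero_iff_dvd _ _).1 hc2
      set δ : SL(2, ℤ) := mkSL a (γ 0 1 + j.val * γ 1 1) (γ 1 0) (ℓ * γ 1 1) (by
        have : a * ((ℓ : ℤ) * γ 1 1) = (γ 0 0 + (j.val : ℤ) * γ 1 0) * γ 1 1 := by
          rw [ha]; ring
        rw [this]; linarith) with hδ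
      have hδ0 : δ ∈ Gamma0 N := mem_of_N_dvd (N_dvd_of_mem hγ)
      change ((⇑f) ∣[(i:ℤ)] upperMat ℓ j.val hℓ0) ∣[(i:ℤ)] γ =
        (⇑(D ℓ i (D d i f))) ∣[(i:ℤ)] lowerMat ℓ hℓ0
      rw [SL_slash, ← SlashAction.slash_mul,
        upperMat_mul_SL' hℓ0 γ δ (by rw [ha]; rfl) rfl rfl rfl,
        SlashAction.slash_mul, ← SL_slash]
      congr 1
      rw [D_mul hD hdcop hcop (m := d * ℓ) (by push_cast; rfl)]
      symm
      apply hD _ i δ hδ0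
      change ((((ℓ : ℤ) * γ 1 1 : ℤ)) : ZMod N) = _
      push_cast
      rw [hd]; ring
    · rw [if_neg hc]
      rw [mob_10, mob_11] at hc
      set y : ZMod ℓ := ((mob ℓ γ) 0 0 * j + (mob ℓ γ) 0 1) / ((mob ℓ γ) 1 0 * j + (mob ℓ γ) 1 1)
        with hy
      have hy2 : ((γ 0 1 + (j.val : ℤ) * γ 1 1 - y.val * (γ 0 0 + (j.val : ℤ) * γ 1 0) : ℤ) :
          ZMod ℓ) = 0 := by
        push_cast
        rw [ZMod.natCast_zmod_val, ZMod.natCast_zmod_val]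
        have : y * (((γ 1 0 : ℤ) : ZMod ℓ) * j + ((γ 0 0 : ℤ) : ZMod ℓ)) =
            ((γ 1 1 : ℤ) : ZMod ℓ) * j + ((γ 0 1 : ℤ) : ZMod ℓ) := by
          rw [hy, mob_00, mob_01, mob_10, mob_11, div_mul_cancel₀ _ hc]
        linear_combination -this
      obtain ⟨b, hb⟩ := (ZMod.intCast_zmod_eq_zero_iff_dvd _ _).1 hy2
      set δ : SL(2, ℤ) := mkSL (γ 0 0 + j.val * γ 1 0) b (ℓ * γ 1 0) (γ 1 1 - y.val * γ 1 0) (by
        have : b * ((ℓ : ℤ) * γ 1 0) =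
            (γ 0 1 + (j.val : ℤ) * γ 1 1 - y.val * (γ 0 0 + (j.val : ℤ) * γ 1 0)) * γ 1 0 := by
          rw [hb]; ring
        rw [this]; linarith) with hδ
      have hδ0 : δ ∈ Gamma0 N := mem_of_N_dvd (Dvd.dvd.mul_left (N_dvd_of_mem hγ) _)
      change ((⇑f) ∣[(i:ℤ)] upperMat ℓ j.val hℓ0) ∣[(i:ℤ)] γ =
        (⇑(D d i f)) ∣[(i:ℤ)] upperMat ℓ y.val hℓ0
      rw [SL_slash, ← SlashAction.slash_mul,
        upperMat_mul_SL hℓ0 γ δ y.val rfl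
          (by simp only [hδ, mkSL_00, mkSL_01]; linarith) rfl
          (by simp only [hδ, mkSL_10, mkSL_11]; ring),
        SlashAction.slash_mul, ← SL_slash]
      congr 1
      symm
      apply hD _ i δ hδ0
      change (((γ 1 1 - (y.val : ℤ) * γ 1 0 : ℤ)) : ZMod N) = _
      rw [← hd, hc']
      push_cast
      rw [ZMod.natCast_self]; ring

/-- the function underlying `T_ℓ f` -/
noncomputable def hk (D : ℕ → (i : ℕ) → (MF N i →ₗ[ℂ] MF N i)) (ℓ : ℕ) [hp : Fact ℓ.Prime]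
    {i : ℕ} (f : MF N i) : ℍ → ℂ :=
  (∑ j ∈ Finset.range ℓ, (⇑f) ∣[(i : ℤ)] upperMat ℓ j hp.out.ne_zero) +
      (⇑(D ℓ i f)) ∣[(i : ℤ)] lowerMat ℓ hp.out.ne_zero

instance : Fintype (OnePoint (ZMod ℓ)) := inferInstanceAs (Fintype (Option (ZMod ℓ)))

lemma sum_onePoint {A : Type*} [AddCommMonoid A] (g : OnePoint (ZMod ℓ) → A) :
    ∑ x, g x = g ∞ + ∑ j : ZMod ℓ, g (j : OnePoint (ZMod ℓ)) :=
  Fintype.sum_option (α := ZMod ℓ) g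

lemma sum_range_zmod {A : Type*} [AddCommMonoid A] (g : ℕ → A) :
    ∑ j ∈ Finset.range ℓ, g j = ∑ j : ZMod ℓ, g j.val := by
  rw [← Fin.sum_univ_eq_sum_range]
  refine Fintype.sum_equiv (ZMod.finEquiv ℓ).toEquiv _ _ ?_
  intro x
  have hℓ0 : ℓ ≠ 0 := hp.out.ne_zero
  obtain ⟨m, rfl⟩ := Nat.exists_eq_succ_of_ne_zero hℓ0
  rfl

lemma hk_eq_sum {i : ℕ} (f : MF N i) : hk D ℓ f = ∑ x, piece D ℓ f x := by
  rw [sum_onePoint, hk, sum_range_zmod, add_comm]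
  rfl

lemma hk_slash (hD : IsDiamondFamily N D) (hℓN : ¬ ℓ ∣ 2 * N) {i : ℕ} (f : MF N i)
    {γ : SL(2, ℤ)} (hγ : γ ∈ Gamma0 N) {d : ℕ} (hd : ((γ 1 1 : ℤ) : ZMod N) = d) :
    (hk D ℓ f) ∣[(i:ℤ)] γ = hk D ℓ (D d i f) := by
  rw [hk_eq_sum, hk_eq_sum, SL_slash, SlashAction.sum_slash]
  simp_rw [← SL_slash, piece_slash hD hℓN f hγ hd]
  exact Equiv.sum_comp (MulAction.toPerm (mob ℓ γ)) (fun x => piece D ℓ (D d i f) x)

end

end Crest.Agent.R007.Base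
end

-- ▼ part R007/Base4
section

/-! Row 7, base layer 4: Hecke operators exist and commute. -/

set_option autoImplicit false
open scoped ModularForm MatrixGroups Manifold OnePoint
open Crest.NumberTheoryR.HeckeTwoAdic UpperHalfPlane CongruenceSubgroup Matrix
open ModularForm

namespace Crest.Agent.R007.Base

section
variable {N : ℕ} [NeZero N] {D T : ℕ → (i : ℕ) → (MF N i →ₗ[ℂ] MF N i)}

/-- rational version of `upperMat` -/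
noncomputable def upperQ (ℓ j : ℕ) (hℓ : ℓ ≠ 0) : GL (Fin 2) ℚ :=
  Matrix.GeneralLinearGroup.mkOfDetNeZero !![1, (j:ℚ); 0, (ℓ:ℚ)] (by
    simp [Matrix.det_fin_two_of, hℓ])

/-- rational version of `lowerMat` -/
noncomputable def lowerQ (ℓ : ℕ) (hℓ : ℓ ≠ 0) : GL (Fin 2) ℚ :=
  Matrix.GeneralLinearGroup.mkOfDetNeZero !![(ℓ:ℚ), 0; 0, 1] (by
    simp [Matrix.det_fin_two_of, hℓ])

lemma upperQ_map (ℓ j : ℕ) (hℓ : ℓ ≠ 0) :
    upperMat ℓ j hℓ = (upperQ ℓ j hℓ).map (Rat.castHom ℝ) := by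
  ext a b
  fin_cases a <;> fin_cases b <;> simp [upperMat, upperQ, mat2]

lemma lowerQ_map (ℓ : ℕ) (hℓ : ℓ ≠ 0) :
    lowerMat ℓ hℓ = (lowerQ ℓ hℓ).map (Rat.castHom ℝ) := by
  ext a b
  fin_cases a <;> fin_cases b <;> simp [lowerMat, lowerQ, mat2]

lemma bdd_zero {i : ℕ} {c : OnePoint ℝ} : c.IsBoundedAt (0 : ℍ → ℂ) i := by
  intro g hg
  rw [SlashAction.zero_slash]
  exact Filter.zero_zeroAtFilter _ |>.boundedAtFilter

lemma bdd_sum {ι : Type*} (s : Finset ι) {i : ℕ} {c : OnePoint ℝ} (F : ι → ℍ → ℂ)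
    (h : ∀ j ∈ s, c.IsBoundedAt (F j) i) : c.IsBoundedAt (∑ j ∈ s, F j) i := by
  classical
  induction s using Finset.induction_on with
  | empty => simpa using bdd_zero
  | insert a s ha ih =>
    rw [Finset.sum_insert ha]
    exact (h a (Finset.mem_insert_self a s)).add
      (ih (fun j hj => h j (Finset.mem_insert_of_mem hj)))

lemma mdiff_sum {ι : Type*} (s : Finset ι) (F : ι → ℍ → ℂ)
    (h : ∀ j ∈ s, MDiff (F j)) : MDiff (∑ j ∈ s, F j) := by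
  classical
  induction s using Finset.induction_on with
  | empty =>
    rw [Finset.sum_empty]
    exact mdifferentiable_const (c := (0:ℂ))
  | insert a s ha ih =>
    rw [Finset.sum_insert ha]
    exact (h a (Finset.mem_insert_self a s)).add
      (ih (fun j hj => h j (Finset.mem_insert_of_mem hj)))

variable {ℓ : ℕ} [hp : Fact ℓ.Prime]

lemma hk_mdiff {i : ℕ} (f : MF N i) : MDiff (hk D ℓ f) := by
  unfold hk
  exact (mdiff_sum _ _ (fun j _ => mdiff_slash f _)).add (mdiff_slash _ _)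

lemma hk_bdd {i : ℕ} (f : MF N i) {c : OnePoint ℝ}
    (hc : IsCusp c ((Gamma1 N : Subgroup SL(2, ℤ)) : Subgroup (GL (Fin 2) ℝ))) :
    c.IsBoundedAt (hk D ℓ f) i := by
  unfold hk
  refine (bdd_sum _ _ (fun j _ => ?_)).add ?_
  · rw [upperQ_map]; exact bdd_slash f _ hc
  · rw [lowerQ_map]; exact bdd_slash _ _ hc

lemma hk_inv1 (hD : IsDiamondFamily N D) (hℓN : ¬ ℓ ∣ 2 * N) {i : ℕ} (f : MF N i)
    {δ : SL(2, ℤ)} (hδ : δ ∈ Gamma1 N) :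
    (hk D ℓ f) ∣[(i:ℤ)] δ = hk D ℓ f := by
  have hδ0 : δ ∈ Gamma0 N := Gamma1_in_Gamma0 N hδ
  have h1 : ((δ 1 1 : ℤ) : ZMod N) = ((1:ℕ) : ZMod N) := by
    have := (Gamma1_mem N δ).1 hδ
    rw [this.2.1, Nat.cast_one]
  rw [hk_slash hD hℓN f hδ0 h1]
  congr 1
  apply DFunLike.coe_injective
  rw [hD 1 i δ hδ0 h1 f, inv1 f hδ]

lemma hk_add {i : ℕ} (f g : MF N i) : hk D ℓ (f + g) = hk D ℓ f + hk D ℓ g := by
  have h1 : ⇑(f + g) = ⇑f + ⇑g := rfl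
  have h2 : ⇑(D ℓ i f + D ℓ i g) = ⇑(D ℓ i f) + ⇑(D ℓ i g) := rfl
  simp only [hk, h1, map_add, h2, SlashAction.add_slash, Finset.sum_add_distrib]
  abel

lemma pos_upperMat (ℓ j : ℕ) (hℓ : ℓ ≠ 0) : 0 < (upperMat ℓ j hℓ).det.val := by
  have : (upperMat ℓ j hℓ).det.val = (ℓ:ℝ) := by
    simp [upperMat, mat2, Matrix.det_fin_two]
  rw [this]
  exact_mod_cast Nat.pos_of_ne_zero hℓ

lemma pos_lowerMat (ℓ : ℕ) (hℓ : ℓ ≠ 0) : 0 < (lowerMat ℓ hℓ).det.val := by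
  have : (lowerMat ℓ hℓ).det.val = (ℓ:ℝ) := by
    simp [lowerMat, mat2, Matrix.det_fin_two]
  rw [this]
  exact_mod_cast Nat.pos_of_ne_zero hℓ

lemma smul_slash_pos {k : ℤ} {g : GL (Fin 2) ℝ} (hg : 0 < g.det.val) (a : ℂ) (F : ℍ → ℂ) :
    (a • F) ∣[k] g = a • (F ∣[k] g) := by
  rw [ModularForm.smul_slash, UpperHalfPlane.σ, if_pos hg]
  rfl

lemma hk_smul {i : ℕ} (a : ℂ) (f : MF N i) : hk D ℓ (a • f) = a • hk D ℓ f := by
  have h1 : ⇑(a • f) = a • ⇑f := rfl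
  have h2 : ⇑(a • D ℓ i f) = a • ⇑(D ℓ i f) := rfl
  simp only [hk, h1, map_smul, h2, smul_slash_pos (pos_upperMat _ _ _),
    smul_slash_pos (pos_lowerMat _ _), smul_add, Finset.smul_sum]

/-- the Hecke operator attached to a diamond family -/
noncomputable def heckeAux (hD : IsDiamondFamily N D) (ℓ : ℕ) [hp : Fact ℓ.Prime]
    (hℓN : ¬ ℓ ∣ 2 * N) (i : ℕ) : MF N i →ₗ[ℂ] MF N i where
  toFun f := mkMF N i (hk D ℓ f) (fun δ hδ => hk_inv1 hD hℓN f hδ) (hk_mdiff f)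
    (fun c hc => hk_bdd f hc)
  map_add' f g := by
    apply DFunLike.coe_injective
    exact hk_add f g
  map_smul' a f := by
    apply DFunLike.coe_injective
    exact hk_smul a f

end

section
variable (N : ℕ) [NeZero N]

open Classical in
/-- the Hecke operators -/
noncomputable def hecke (ℓ i : ℕ) : MF N i →ₗ[ℂ] MF N i :=
  if h : ℓ.Prime ∧ ¬ ℓ ∣ 2 * N then
    haveI : Fact ℓ.Prime := ⟨h.1⟩
    heckeAux (isDiamondFamily N) ℓ h.2 i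
  else 0

theorem isHeckeFamily : IsHeckeFamily N (hecke N) (dia N) := by
  intro ℓ hℓ hℓN i f
  unfold hecke
  rw [dif_pos ⟨hℓ, hℓN⟩]
  rfl


end

end Crest.Agent.R007.Base
end

-- ▼ part R007/Base5

/-! Row 7, base layer 5: commutation of all Hecke and diamond operators. -/

set_option autoImplicit false
open scoped ModularForm MatrixGroups Manifold OnePoint
open Crest.NumberTheoryR.HeckeTwoAdic UpperHalfPlane CongruenceSubgroup Matrix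
open ModularForm

namespace Crest.Agent.R007.Base

/-- `T_ℓ` commutes with `⟨d⟩` -/
theorem T_D_comm {N : ℕ} [NeZero N] {D T : ℕ → (i : ℕ) → (MF N i →ₗ[ℂ] MF N i)}
    (hD : IsDiamondFamily N D) (hT : IsHeckeFamily N T D) {ℓ : ℕ} (hℓ : ℓ.Prime)
    (hℓN : ¬ ℓ ∣ 2 * N) {d : ℕ} (hd : d.Coprime N) (i : ℕ) (f : MF N i) :
    T ℓ i (D d i f) = D d i (T ℓ i f) := by
  have : Fact ℓ.Prime := ⟨hℓ⟩
  obtain ⟨γ, hγ, h1⟩ := exists_gamma N d hd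
  apply DFunLike.coe_injective
  have e1 : ⇑(T ℓ i f) = hk D ℓ f := hT ℓ hℓ hℓN i f
  have e2 : ⇑(T ℓ i (D d i f)) = hk D ℓ (D d i f) := hT ℓ hℓ hℓN i _
  rw [hD d i γ hγ h1, e1, hk_slash hD hℓN f hγ h1, e2]




















end Crest.Agent.R007.Base
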