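import Mathlib
import Crest.Prelude.Def_HeckeTwo

set_option autoImplicit false

namespace Crest.Agent.R007

open Crest.NumberTheoryR.HeckeTwoAdic
open UpperHalfPlane ModularForm CongruenceSubgroup Matrix OnePoint
open scoped ModularForm MatrixGroups Manifold

/-- integer matrix of non-zero determinant as a real invertible matrix -/
noncomputable def toGL (M : Matrix (Fin 2) (Fin 2) ℤ) (h : M.det ≠ 0) : GL (Fin 2) ℝ :=
  Matrix.GeneralLinearGroup.mkOfDetNeZero (M.map (Int.cast : ℤ → ℝ)) (by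
    have h2 : ((Int.castRingHom ℝ).mapMatrix M).det = ((M.det : ℤ) : ℝ) := by
      rw [← RingHom.map_det]; simp
    have h3 : (M.map (Int.cast : ℤ → ℝ)) = (Int.castRingHom ℝ).mapMatrix M := rfl
    rw [h3, h2]; exact_mod_cast h)

lemma toGL_val (M : Matrix (Fin 2) (Fin 2) ℤ) (h : M.det ≠ 0) :
    (toGL M h : Matrix (Fin 2) (Fin 2) ℝ) = M.map (Int.cast : ℤ → ℝ) := rfl

lemma toGL_mul (M M' : Matrix (Fin 2) (Fin 2) ℤ) (h : M.det ≠ 0) (h' : M'.det ≠ 0)
    (h'' : (M * M').det ≠ 0) : toGL (M * M') h'' = toGL M h * toGL M' h' := by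
  apply Units.ext
  rw [Units.val_mul, toGL_val, toGL_val, toGL_val]
  have : (Int.castRingHom ℝ).mapMatrix (M * M') = (Int.castRingHom ℝ).mapMatrix M * (Int.castRingHom ℝ).mapMatrix M' := map_mul _ _ _
  exact this

lemma mapGL_eq_toGL (γ : SL(2, ℤ)) : (Matrix.SpecialLinearGroup.mapGL ℝ γ) = toGL γ.1 (by simp) := by
  apply Units.ext
  rw [toGL_val]
  ext i j
  simp


lemma toGL_det (M : Matrix (Fin 2) (Fin 2) ℤ) (h : M.det ≠ 0) :
    ((toGL M h).det : ℝ) = (M.det : ℤ) := by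
  have h2 : ((Int.castRingHom ℝ).mapMatrix M).det = ((M.det : ℤ) : ℝ) := by
    rw [← RingHom.map_det]; simp
  exact h2

lemma toGL_rat (M : Matrix (Fin 2) (Fin 2) ℤ) (h : M.det ≠ 0) :
    ∃ g : GL (Fin 2) ℚ, toGL M h = g.map (Rat.castHom ℝ) := by
  have h2 : ((Int.castRingHom ℚ).mapMatrix M).det = ((M.det : ℤ) : ℚ) := by
    rw [← RingHom.map_det]; simp
  refine ⟨Matrix.GeneralLinearGroup.mkOfDetNeZero ((Int.castRingHom ℚ).mapMatrix M)
    (by rw [h2]; exact_mod_cast h), ?_⟩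
  apply Units.ext
  ext i j
  simp [toGL_val]

/-- boundedness at all cusps is preserved by rational matrices -/
lemma bdd_slash {F : ℍ → ℂ} {k : ℤ} (hF : ∀ c : OnePoint ℝ, IsCusp c 𝒮ℒ → IsBoundedAt c F k)
    (g : GL (Fin 2) ℚ) (c : OnePoint ℝ) (hc : IsCusp c 𝒮ℒ) :
    IsBoundedAt c (F ∣[k] (g.map (Rat.castHom ℝ) : GL (Fin 2) ℝ)) k := by
  rw [← IsBoundedAt.smul_iff]
  apply hF
  rw [isCusp_SL2Z_iff] at hc ⊢
  obtain ⟨c, rfl⟩ := hc
  refine ⟨g • c, ?_⟩
  have := OnePoint.map_smul (Rat.castHom ℝ) g c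
  simpa using this

end Crest.Agent.R007
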