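import Mathlib
import Crest.Agent.R007.HeckeA

-- ▼ part R007/Lat1
section

/-! Row 7: modular forms of all levels as functions on `X = ℍ × ℂˣ` (based lattices `ℤ wτ + ℤ w`). -/

set_option autoImplicit false

namespace Crest.Agent.R007.Lat

open UpperHalfPlane ModularForm CongruenceSubgroup Matrix
open scoped MatrixGroups Manifold ModularForm

/-- points: `(τ, w)` with `w ≠ 0`, i.e. the based lattice `ℤ wτ + ℤ w`. -/
@[ext] structure X where
  t : ℍ
  w : ℂˣ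

lemma det_pos (g : GL(2, ℝ)⁺) : 0 < ((g : GL (Fin 2) ℝ)).det.val := g.2

lemma sigma_id (g : GL(2, ℝ)⁺) (z : ℂ) : σ (g : GL (Fin 2) ℝ) z = z := by
  unfold σ
  rw [if_pos (det_pos g)]
  rfl

/-- the automorphy factor as a unit -/
noncomputable def dn (g : GL(2, ℝ)⁺) (z : ℍ) : ℂˣ :=
  Units.mk0 (denom (g : GL (Fin 2) ℝ) z) (denom_ne_zero _ z)

@[simp] lemma dn_val (g : GL(2, ℝ)⁺) (z : ℍ) : (dn g z : ℂ) = denom (g : GL (Fin 2) ℝ) z := rfl

lemma dn_mul (g h : GL(2, ℝ)⁺) (z : ℍ) : dn (g * h) z = dn g (h • z) * dn h z := by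
  apply Units.ext
  rw [Units.val_mul, dn_val, dn_val, dn_val]
  have := denom_cocycle_σ (g : GL (Fin 2) ℝ) (h : GL (Fin 2) ℝ) z
  rw [sigma_id] at this
  exact this

lemma dn_one (z : ℍ) : dn 1 z = 1 := by
  apply Units.ext
  simp

noncomputable instance : MulAction (GL(2, ℝ)⁺) X where
  smul g x := ⟨g • x.t, dn g x.t * x.w⟩
  one_smul x := by
    ext
    · exact congrArg _ (one_smul _ _)
    · change ((dn 1 x.t * x.w : ℂˣ) : ℂ) = x.w
      rw [dn_one, one_mul]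
  mul_smul g h x := by
    apply X.ext
    · exact mul_smul g h x.t
    · change dn (g * h) x.t * x.w = dn g (h • x.t) * (dn h x.t * x.w)
      rw [dn_mul, mul_assoc]

@[simp] lemma smul_t (g : GL(2, ℝ)⁺) (x : X) : (g • x).t = g • x.t := rfl
@[simp] lemma smul_w (g : GL(2, ℝ)⁺) (x : X) : (g • x).w = dn g x.t * x.w := rfl

/-- the right action on functions, `F ∥ g` -/
noncomputable def sl (F : X → ℂ) (g : GL(2, ℝ)⁺) : X → ℂ := fun x => F (g • x)

@[simp] lemma sl_apply (F : X → ℂ) (g : GL(2, ℝ)⁺) (x : X) : sl F g x = F (g • x) := rfl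
lemma sl_mul_right (F : X → ℂ) (g h : GL(2, ℝ)⁺) : sl F (g * h) = sl (sl F g) h := by
  funext x; simp [sl, mul_smul]
lemma sl_one_right (F : X → ℂ) : sl F 1 = F := by funext x; simp [sl]
lemma sl_mul (F G : X → ℂ) (g : GL(2, ℝ)⁺) : sl (F * G) g = sl F g * sl G g := rfl
lemma sl_add (F G : X → ℂ) (g : GL(2, ℝ)⁺) : sl (F + G) g = sl F g + sl G g := rfl
lemma sl_sub (F G : X → ℂ) (g : GL(2, ℝ)⁺) : sl (F - G) g = sl F g - sl G g := rfl
lemma sl_smul (c : ℂ) (F : X → ℂ) (g : GL(2, ℝ)⁺) : sl (c • F) g = c • sl F g := rfl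
lemma sl_one (g : GL(2, ℝ)⁺) : sl 1 g = 1 := rfl
lemma sl_zero (g : GL(2, ℝ)⁺) : sl 0 g = 0 := rfl

/-- slash as an algebra homomorphism -/
noncomputable def slHom (g : GL(2, ℝ)⁺) : (X → ℂ) →ₐ[ℂ] (X → ℂ) where
  toFun F := sl F g
  map_one' := rfl
  map_mul' _ _ := rfl
  map_zero' := rfl
  map_add' _ _ := rfl
  commutes' _ := rfl

@[simp] lemma slHom_apply (g : GL(2, ℝ)⁺) (F : X → ℂ) : slHom g F = sl F g := rfl

/-- the weight `k` function attached to `f` -/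
noncomputable def lift (k : ℕ) (f : ℍ → ℂ) : X → ℂ := fun x => ((x.w⁻¹ : ℂˣ) : ℂ) ^ k * f x.t

lemma lift_apply (k : ℕ) (f : ℍ → ℂ) (x : X) : lift k f x = ((x.w⁻¹ : ℂˣ) : ℂ) ^ k * f x.t := rfl

/-- homogeneous functions of weight `k` -/
def Wt (k : ℕ) : Submodule ℂ (X → ℂ) where
  carrier := {F | ∀ (c : ℂˣ) (x : X), F ⟨x.t, c * x.w⟩ = ((c⁻¹ : ℂˣ) : ℂ) ^ k * F x}
  zero_mem' := by intro c x; simp
  add_mem' := by
    intro F G hF hG c x
    simp only [Pi.add_apply, hF c x, hG c x]; ring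
  smul_mem' := by
    intro a F hF c x
    simp only [Pi.smul_apply, hF c x, smul_eq_mul]; ring


/-- restriction to `w = 1` -/
def res (F : X → ℂ) : ℍ → ℂ := fun τ => F ⟨τ, 1⟩

@[simp] lemma res_apply (F : X → ℂ) (τ : ℍ) : res F τ = F ⟨τ, 1⟩ := rfl
lemma res_mul (F G : X → ℂ) : res (F * G) = res F * res G := rfl
lemma res_add (F G : X → ℂ) : res (F + G) = res F + res G := rfl
lemma res_sub (F G : X → ℂ) : res (F - G) = res F - res G := rfl
lemma res_smul (c : ℂ) (F : X → ℂ) : res (c • F) = c • res F := rfl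
lemma res_one : res 1 = 1 := rfl

/-- restriction as an algebra homomorphism -/
def resHom : (X → ℂ) →ₐ[ℂ] (ℍ → ℂ) where
  toFun F := res F
  map_one' := rfl
  map_mul' _ _ := rfl
  map_zero' := rfl
  map_add' _ _ := rfl
  commutes' _ := rfl

lemma lift_mem (k : ℕ) (f : ℍ → ℂ) : lift k f ∈ Wt k := by
  intro c x
  simp only [lift_apply, mul_inv, Units.val_mul, mul_pow]
  ring

@[simp] lemma res_lift (k : ℕ) (f : ℍ → ℂ) : res (lift k f) = f := by
  funext τ; simp [lift_apply]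

lemma lift_res {k : ℕ} {F : X → ℂ} (hF : F ∈ Wt k) : lift k (res F) = F := by
  funext x
  have := hF x.w ⟨x.t, 1⟩
  simp only [mul_one] at this
  rw [lift_apply, res_apply, ← this]

lemma lift_inj {k : ℕ} {f g : ℍ → ℂ} (h : lift k f = lift k g) : f = g := by
  rw [← res_lift k f, h, res_lift]

lemma lift_add (k : ℕ) (f g : ℍ → ℂ) : lift k (f + g) = lift k f + lift k g := by
  funext x; simp [lift_apply, mul_add]
lemma lift_sub (k : ℕ) (f g : ℍ → ℂ) : lift k (f - g) = lift k f - lift k g := by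
  funext x; simp [lift_apply, mul_sub]
lemma lift_smul (k : ℕ) (c : ℂ) (f : ℍ → ℂ) : lift k (c • f) = c • lift k f := by
  funext x; simp [lift_apply]; ring
lemma lift_zero (k : ℕ) : lift k 0 = 0 := by funext x; simp [lift_apply]
lemma lift_mul (k l : ℕ) (f g : ℍ → ℂ) : lift (k + l) (f * g) = lift k f * lift l g := by
  funext x; simp [lift_apply, pow_add]; ring
lemma lift_one : lift 0 1 = 1 := by funext x; simp [lift_apply]

lemma Wt_mul {k l : ℕ} {F G : X → ℂ} (hF : F ∈ Wt k) (hG : G ∈ Wt l) : F * G ∈ Wt (k + l) := by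
  intro c x
  simp only [Pi.mul_apply, hF c x, hG c x, pow_add]; ring

lemma Wt_one : (1 : X → ℂ) ∈ Wt 0 := by intro c x; simp

lemma Wt_sl {k : ℕ} {F : X → ℂ} (hF : F ∈ Wt k) (g : GL(2, ℝ)⁺) : sl F g ∈ Wt k := by
  intro c x
  have := hF c (g • x)
  simp only [sl_apply]
  rw [← this]
  congr 1
  apply X.ext
  · rfl
  · change dn g x.t * (c * x.w) = c * (dn g x.t * x.w)
    exact mul_left_comm _ _ _

/-- functions of different weights are linearly independent -/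
lemma Wt_indep {n : ℕ} {F : ℕ → X → ℂ} (hF : ∀ k, F k ∈ Wt k)
    (h : ∑ k ∈ Finset.range n, F k = 0) : ∀ k < n, F k = 0 := by
  intro k hk
  funext x
  -- polynomial in the variable `c`
  let P : Polynomial ℂ := ∑ j ∈ Finset.range n, Polynomial.C (F j x) * Polynomial.X ^ j
  have hP : ∀ c : ℂˣ, P.eval (c : ℂ) = 0 := by
    intro c
    have h1 := congrFun h ⟨x.t, c⁻¹ * x.w⟩
    rw [Finset.sum_apply] at h1
    have h2 : ∀ j, F j ⟨x.t, c⁻¹ * x.w⟩ = (c : ℂ) ^ j * F j x := by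
      intro j
      have := hF j c⁻¹ x
      rwa [inv_inv] at this
    simp only [h2, Pi.zero_apply] at h1
    simp only [P, Polynomial.eval_finsetSum, Polynomial.eval_mul, Polynomial.eval_C,
      Polynomial.eval_pow, Polynomial.eval_X]
    rw [← h1]
    exact Finset.sum_congr rfl fun j _ => mul_comm _ _
  have hP0 : P = 0 := by
    apply Polynomial.eq_zero_of_infinite_isRoot
    refine Set.Infinite.mono (s := {z : ℂ | z ≠ 0}) ?_ ?_
    · intro z hz
      exact hP (Units.mk0 z hz)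
    · exact (Set.finite_singleton (0 : ℂ)).infinite_compl
  have := congrArg (fun Q => Polynomial.coeff Q k) hP0
  simp only [P, Polynomial.finsetSum_coeff, Polynomial.coeff_C_mul_X_pow, Polynomial.coeff_zero] at this
  rw [Finset.sum_eq_single k] at this
  · simpa using this
  · intro b _ hb
    rw [if_neg (Ne.symm hb)]
  · intro hk'
    exact absurd (Finset.mem_range.2 hk) hk'

lemma Wt_unique {n : ℕ} {F G : ℕ → X → ℂ} (hF : ∀ k, F k ∈ Wt k) (hG : ∀ k, G k ∈ Wt k)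
    (h : ∑ k ∈ Finset.range n, F k = ∑ k ∈ Finset.range n, G k) : ∀ k < n, F k = G k := by
  intro k hk
  have := Wt_indep (n := n) (F := fun k => F k - G k) (fun k => sub_mem (hF k) (hG k))
    (by rw [Finset.sum_sub_distrib, h, sub_self]) k hk
  exact sub_eq_zero.1 this

end Crest.Agent.R007.Lat
end

-- ▼ part R007/Lat2
section

/-! Row 7: `MX M k`, `MO k`, the group `G2`, stability. -/

set_option autoImplicit false

namespace Crest.Agent.R007.Lat

open UpperHalfPlane ModularForm CongruenceSubgroup Matrix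
open scoped MatrixGroups Manifold ModularForm

/-- integral matrices of positive determinant in `GL(2,ℝ)⁺` -/
noncomputable def iG (A : Matrix (Fin 2) (Fin 2) ℤ) (h : 0 < A.det) : GL(2, ℝ)⁺ :=
  ⟨toGL A h.ne', by
    rw [Matrix.mem_glpos, toGL_det]
    exact_mod_cast h⟩

lemma iG_coe (A : Matrix (Fin 2) (Fin 2) ℤ) (h : 0 < A.det) :
    ((iG A h : GL(2, ℝ)⁺) : GL (Fin 2) ℝ) = toGL A h.ne' := rfl

lemma iG_val (A : Matrix (Fin 2) (Fin 2) ℤ) (h : 0 < A.det) :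
    (((iG A h : GL(2, ℝ)⁺) : GL (Fin 2) ℝ) : Matrix (Fin 2) (Fin 2) ℝ) = A.map (Int.cast : ℤ → ℝ) := rfl

lemma iG_mul (A B : Matrix (Fin 2) (Fin 2) ℤ) (h : 0 < A.det) (h' : 0 < B.det)
    (h'' : 0 < (A * B).det) : iG (A * B) h'' = iG A h * iG B h' := by
  apply Subtype.ext
  exact toGL_mul A B h.ne' h'.ne' h''.ne'

lemma iG_congr {A B : Matrix (Fin 2) (Fin 2) ℤ} (e : A = B) (h : 0 < A.det) :
    iG A h = iG B (e ▸ h) := by subst e; rfl

/-- `SL(2,ℤ)` inside `GL(2,ℝ)⁺` -/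
noncomputable def sG (γ : SL(2, ℤ)) : GL(2, ℝ)⁺ := iG γ.1 (by simp)

lemma sG_coe (γ : SL(2, ℤ)) : ((sG γ : GL(2, ℝ)⁺) : GL (Fin 2) ℝ) = Matrix.SpecialLinearGroup.mapGL ℝ γ :=
  (mapGL_eq_toGL γ).symm

lemma sG_mul (γ δ : SL(2, ℤ)) : sG (γ * δ) = sG γ * sG δ := by
  rw [sG, sG, sG, ← iG_mul _ _ _ _ (by simp)]
  rfl

lemma sG_one : sG 1 = 1 := by
  apply Subtype.ext
  rw [sG_coe]
  simp

/-- slash versus `sl` -/
lemma slash_eq_res (k : ℕ) (f : ℍ → ℂ) (g : GL(2, ℝ)⁺) :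
    f ∣[(k : ℤ)] (g : GL (Fin 2) ℝ) =
      (((g : GL (Fin 2) ℝ).det.val : ℂ) ^ ((k : ℤ) - 1)) • res (sl (lift k f) g) := by
  funext τ
  rw [slash_apply, Pi.smul_apply, sigma_id, abs_of_pos (det_pos g)]
  simp only [res_apply, sl_apply, lift_apply, smul_t, smul_w, mul_one, smul_eq_mul, dn_val,
    Units.val_inv_eq_inv_val, _root_.zpow_neg, zpow_natCast, inv_pow]
  have : (g : GL (Fin 2) ℝ) • τ = g • τ := rfl
  rw [this]
  ring

lemma slash_SL_eq_res (k : ℕ) (f : ℍ → ℂ) (γ : SL(2, ℤ)) :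
    f ∣[(k : ℤ)] γ = res (sl (lift k f) (sG γ)) := by
  have h := slash_eq_res k f (sG γ)
  rw [sG_coe] at h
  have h2 : f ∣[(k : ℤ)] γ = f ∣[(k : ℤ)] (Matrix.SpecialLinearGroup.mapGL ℝ γ) := rfl
  rw [h2, h]
  have : (((Matrix.SpecialLinearGroup.mapGL ℝ γ).det.val : ℝ)) = 1 := by simp
  rw [this]
  simp

lemma sl_lift (k : ℕ) (f : ℍ → ℂ) (g : GL(2, ℝ)⁺) : sl (lift k f) g = lift k (res (sl (lift k f) g)) :=
  (lift_res (Wt_sl (lift_mem k f) g)).symm

lemma sl_lift_SL (k : ℕ) (f : ℍ → ℂ) (γ : SL(2, ℤ)) :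
    sl (lift k f) (sG γ) = lift k (f ∣[(k : ℤ)] γ) := by
  rw [sl_lift, slash_SL_eq_res]

lemma res_sl_eq (k : ℕ) (f : ℍ → ℂ) (g : GL(2, ℝ)⁺) :
    res (sl (lift k f) g) =
      (((g : GL (Fin 2) ℝ).det.val : ℂ) ^ (1 - (k : ℤ))) • (f ∣[(k : ℤ)] (g : GL (Fin 2) ℝ)) := by
  rw [slash_eq_res, smul_smul, ← zpow_add₀]
  · simp
  · exact_mod_cast (det_pos g).ne'

/-- level `Γ(M)`, weight `k`, as functions on `X` -/
def MX (M k : ℕ) : Submodule ℂ (X → ℂ) where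
  carrier := {F | ∃ f : ModularForm ((Gamma M : Subgroup SL(2, ℤ)) : Subgroup (GL (Fin 2) ℝ)) (k : ℤ),
    F = lift k f}
  zero_mem' := ⟨0, by rw [FunLike.coe_zero, lift_zero]⟩
  add_mem' := by
    rintro _ _ ⟨f, rfl⟩ ⟨g, rfl⟩
    exact ⟨f + g, by rw [FunLike.coe_add, lift_add]⟩
  smul_mem' := by
    rintro c _ ⟨f, rfl⟩
    exact ⟨c • f, by rw [FunLike.coe_smul, lift_smul]⟩

lemma mem_MX {M k : ℕ} {F : X → ℂ} : F ∈ MX M k ↔
    ∃ f : ModularForm ((Gamma M : Subgroup SL(2, ℤ)) : Subgroup (GL (Fin 2) ℝ)) (k : ℤ), F = lift k f :=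
  Iff.rfl

/-- the intrinsic characterisation -/
lemma mem_MX_iff {M : ℕ} [NeZero M] {k : ℕ} {F : X → ℂ} : F ∈ MX M k ↔
    F ∈ Wt k ∧ (∀ γ ∈ Gamma M, sl F (sG γ) = F) ∧ MDiff (res F) ∧
      (∀ γ : SL(2, ℤ), IsBoundedAtImInfty (res (sl F (sG γ)))) := by
  constructor
  · rintro ⟨f, rfl⟩
    refine ⟨lift_mem _ _, ?_, ?_, ?_⟩
    · intro γ hγ
      rw [sl_lift_SL]
      have := SlashInvariantForm.slash_action_eqn
        (Γ := ((Gamma M : Subgroup SL(2, ℤ)) : Subgroup (GL (Fin 2) ℝ))) (k := (k : ℤ)) f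
        (Matrix.SpecialLinearGroup.mapGL ℝ γ) ⟨γ, hγ, rfl⟩
      exact congrArg _ this
    · rw [res_lift]; exact ModularFormClass.holo f
    · intro γ
      rw [← slash_SL_eq_res]
      have hc : IsCusp (Matrix.SpecialLinearGroup.mapGL ℝ γ • OnePoint.infty)
          ((Gamma M : Subgroup SL(2, ℤ)) : Subgroup (GL (Fin 2) ℝ)) := by
        rw [Subgroup.IsArithmetic.isCusp_iff_isCusp_SL2Z, isCusp_SL2Z_iff']
        exact ⟨γ, rfl⟩
      have h1 := ModularFormClass.bdd_at_cusps f hc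
      exact h1 _ rfl
  · rintro ⟨h0, h1, h2, h3⟩
    refine ⟨{ toFun := res F
              slash_action_eq' := ?_
              holo' := h2
              bdd_at_cusps' := ?_ }, (lift_res h0).symm⟩
    · rintro _ ⟨γ, hγ, rfl⟩
      have := h1 γ hγ
      rw [← lift_res h0, sl_lift_SL] at this
      exact lift_inj this
    · intro c hc
      rw [Subgroup.IsArithmetic.isCusp_iff_isCusp_SL2Z] at hc
      rw [OnePoint.isBoundedAt_iff_forall_SL2Z hc]
      intro γ _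
      rw [slash_SL_eq_res, lift_res h0]
      exact h3 γ

lemma MX_le_Wt {M k : ℕ} : MX M k ≤ Wt k := by
  rintro _ ⟨f, rfl⟩; exact lift_mem _ _

lemma MX_mono {M M' k : ℕ} [NeZero M] [NeZero M'] (h : M ∣ M') : MX M k ≤ MX M' k := by
  intro F hF
  rw [mem_MX_iff] at hF ⊢
  refine ⟨hF.1, fun γ hγ => hF.2.1 γ (?_), hF.2.2⟩
  rw [Gamma_mem] at hγ ⊢
  have key : ∀ x : ℤ, ∀ y : ℤ, ((x : ZMod M') = (y : ZMod M')) → ((x : ZMod M) = (y : ZMod M)) := by
    intro x y hxy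
    rw [ZMod.intCast_eq_intCast_iff_dvd_sub] at hxy ⊢
    exact (Int.natCast_dvd_natCast.2 h).trans hxy
  obtain ⟨a, b, c, d⟩ := hγ
  exact ⟨by simpa using key _ 1 (by simpa using a), by simpa using key _ 0 (by simpa using b),
    by simpa using key _ 0 (by simpa using c), by simpa using key _ 1 (by simpa using d)⟩

lemma MX_mul {M : ℕ} [NeZero M] {k l : ℕ} {F G : X → ℂ} (hF : F ∈ MX M k) (hG : G ∈ MX M l) :
    F * G ∈ MX M (k + l) := by
  rw [mem_MX_iff] at hF hG ⊢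
  refine ⟨Wt_mul hF.1 hG.1, fun γ hγ => ?_, ?_, fun γ => ?_⟩
  · rw [sl_mul, hF.2.1 γ hγ, hG.2.1 γ hγ]
  · rw [res_mul]
    exact hF.2.2.1.mul hG.2.2.1
  · rw [sl_mul, res_mul]
    exact (hF.2.2.2 γ).mul (hG.2.2.2 γ)

lemma MX_one {M : ℕ} [NeZero M] : (1 : X → ℂ) ∈ MX M 0 := by
  rw [mem_MX_iff]
  refine ⟨Wt_one, fun _ _ => rfl, ?_, fun γ => ?_⟩
  · rw [res_one]; exact mdifferentiable_const
  · rw [sl_one, res_one]
    exact Filter.const_boundedAtFilter _ 1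

end Crest.Agent.R007.Lat
end

-- ▼ part R007/Lat3

/-! Row 7: the group `G2 = GL₂⁺(ℤ_(2))`, stability of modular forms of odd level, the ring `MM`. -/

set_option autoImplicit false

namespace Crest.Agent.R007.Lat

open UpperHalfPlane ModularForm CongruenceSubgroup Matrix
open scoped MatrixGroups Manifold ModularForm

/-! ### integral matrices -/

lemma exists_conj (A : Matrix (Fin 2) (Fin 2) ℤ) (hA : 0 < A.det) (M : ℕ) {γ : SL(2, ℤ)}
    (hγ : γ ∈ Gamma (M * A.det.natAbs)) :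
    ∃ δ ∈ Gamma M, A * γ.1 = δ.1 * A := by
  rw [Gamma_mem] at hγ
  obtain ⟨h00, h01, h10, h11⟩ := hγ
  have cast1 : (((M * A.det.natAbs : ℕ) : ℤ)) = M * A.det := by
    push_cast
    rw [abs_of_pos hA]
  have e00 : ((M : ℤ) * A.det) ∣ γ 0 0 - 1 := by
    rw [← cast1, ← ZMod.intCast_zmod_eq_zero_iff_dvd]; push_cast; rw [h00]; ring
  have e01 : ((M : ℤ) * A.det) ∣ γ 0 1 := by
    rw [← cast1, ← ZMod.intCast_zmod_eq_zero_iff_dvd]; exact h01
  have e10 : ((M : ℤ) * A.det) ∣ γ 1 0 := by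
    rw [← cast1, ← ZMod.intCast_zmod_eq_zero_iff_dvd]; exact h10
  have e11 : ((M : ℤ) * A.det) ∣ γ 1 1 - 1 := by
    rw [← cast1, ← ZMod.intCast_zmod_eq_zero_iff_dvd]; push_cast; rw [h11]; ring
  obtain ⟨b00, hb00⟩ := e00
  obtain ⟨b01, hb01⟩ := e01
  obtain ⟨b10, hb10⟩ := e10
  obtain ⟨b11, hb11⟩ := e11
  let B : Matrix (Fin 2) (Fin 2) ℤ := !![b00, b01; b10, b11]
  have hγB : γ.1 = 1 + ((M : ℤ) * A.det) • B := by
    ext i j
    fin_cases i <;> fin_cases j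
    · simp [B]; linarith [hb00]
    · simp [B]; linarith [hb01]
    · simp [B]; linarith [hb10]
    · simp [B]; linarith [hb11]
  let Dm : Matrix (Fin 2) (Fin 2) ℤ := 1 + (M : ℤ) • (A * B * A.adjugate)
  have hD : Dm * A = A * γ.1 := by
    rw [hγB]
    simp only [Dm, add_mul, mul_add, one_mul, mul_one, smul_mul_assoc, mul_smul_comm]
    congr 1
    rw [Matrix.mul_assoc (A * B), Matrix.adjugate_mul, Matrix.mul_smul, Matrix.mul_one, smul_smul]
  have hdet : Dm.det = 1 := by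
    have := congrArg Matrix.det hD
    rw [Matrix.det_mul, Matrix.det_mul, γ.2, mul_one] at this
    exact mul_right_cancel₀ hA.ne' (by rw [this, one_mul])
  let δ : SL(2, ℤ) := ⟨Dm, hdet⟩
  refine ⟨δ, ?_, hD.symm⟩
  rw [Gamma_mem]
  have hz : ∀ x : ℤ, (((M : ℤ) * x : ℤ) : ZMod M) = 0 := by intro x; simp
  refine ⟨?_, ?_, ?_, ?_⟩
  · change ((Dm 0 0 : ℤ) : ZMod M) = 1
    have : Dm 0 0 = 1 + (M : ℤ) * (A * B * A.adjugate) 0 0 := rfl
    rw [this, Int.cast_add, hz]; simp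
  · change ((Dm 0 1 : ℤ) : ZMod M) = 0
    have : Dm 0 1 = (M : ℤ) * (A * B * A.adjugate) 0 1 := zero_add _
    rw [this, hz]
  · change ((Dm 1 0 : ℤ) : ZMod M) = 0
    have : Dm 1 0 = (M : ℤ) * (A * B * A.adjugate) 1 0 := zero_add _
    rw [this, hz]
  · change ((Dm 1 1 : ℤ) : ZMod M) = 1
    have : Dm 1 1 = 1 + (M : ℤ) * (A * B * A.adjugate) 1 1 := rfl
    rw [this, Int.cast_add, hz]; simp

lemma bddAtInfty_smul {f : ℍ → ℂ} (hf : IsBoundedAtImInfty f) (c : ℂ) :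
    IsBoundedAtImInfty (c • f) := hf.smul c

/-- stability under integral matrices of positive determinant -/
lemma MX_sl_iG {M : ℕ} [NeZero M] {k : ℕ} {F : X → ℂ} (hF : F ∈ MX M k)
    (A : Matrix (Fin 2) (Fin 2) ℤ) (hA : 0 < A.det) :
    sl F (iG A hA) ∈ MX (M * A.det.natAbs) k := by
  have : NeZero A.det.natAbs := ⟨by simpa using hA.ne'⟩
  obtain ⟨f, rfl⟩ := hF
  have hF : lift k f ∈ MX M k := ⟨f, rfl⟩
  rw [mem_MX_iff] at hF ⊢
  have hb : ∀ c : OnePoint ℝ, IsCusp c 𝒮ℒ → OnePoint.IsBoundedAt c (⇑f) (k : ℤ) := by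
    intro c hc
    rw [OnePoint.isBoundedAt_iff_forall_SL2Z hc]
    intro γ _
    rw [slash_SL_eq_res]
    exact hF.2.2.2 γ
  refine ⟨Wt_sl hF.1 _, ?_, ?_, ?_⟩
  · intro γ hγ
    obtain ⟨δ, hδ, e⟩ := exists_conj A hA M hγ
    have e2 : iG A hA * sG γ = sG δ * iG A hA := by
      rw [sG, sG, ← iG_mul A γ.1 _ _ (by simpa using hA), ← iG_mul δ.1 A _ _ (by simpa using hA)]
      exact iG_congr e _
    rw [← sl_mul_right, e2, sl_mul_right, hF.2.1 δ hδ]
  · rw [res_sl_eq]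
    exact ((ModularFormClass.holo f).slash _ _).const_smul _
  · intro γ
    rw [← sl_mul_right, res_sl_eq]
    apply bddAtInfty_smul
    have hdet : (A * γ.1).det ≠ 0 := by simpa using hA.ne'
    obtain ⟨g, hg⟩ := toGL_rat (A * γ.1) hdet
    have e3 : ((iG A hA * sG γ : GL(2, ℝ)⁺) : GL (Fin 2) ℝ) = g.map (Rat.castHom ℝ) := by
      rw [← hg, toGL_mul A γ.1 hA.ne' (by simp) hdet]
      rfl
    rw [e3]
    have h1 := bdd_slash hb g OnePoint.infty (isCusp_SL2Z_iff'.2 ⟨1, by simp⟩)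
    exact OnePoint.isBoundedAt_infty_iff.1 h1

/-- scalar matrix -/
def sc (n : ℤ) : Matrix (Fin 2) (Fin 2) ℤ := !![n, 0; 0, n]

lemma sc_det (n : ℤ) : (sc n).det = n * n := by simp [sc, Matrix.det_fin_two_of]

lemma sc_det_pos {n : ℤ} (hn : n ≠ 0) : 0 < (sc n).det := by
  rw [sc_det]; exact mul_self_pos.2 hn

lemma sc_map (n : ℤ) : (sc n).map (Int.cast : ℤ → ℝ) = (n : ℝ) • (1 : Matrix (Fin 2) (Fin 2) ℝ) := by
  ext i j; fin_cases i <;> fin_cases j <;> simp [sc, Matrix.smul_apply]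

/-- scalars -/
lemma sl_scalar {k : ℕ} {F : X → ℂ} (hF : F ∈ Wt k) (n : ℤ) (hn : 0 < (sc n).det) :
    sl F (iG (sc n) hn) = ((n : ℂ)⁻¹) ^ k • F := by
  have hn0 : (n : ℂ) ≠ 0 := by
    intro h
    have : n = 0 := by exact_mod_cast h
    subst this
    simp [sc_det] at hn
  funext x
  rw [sl_apply, Pi.smul_apply, smul_eq_mul]
  have := hF (Units.mk0 (n : ℂ) hn0) x
  rw [Units.val_inv_eq_inv_val, Units.val_mk0] at this
  rw [← this]
  congr 1
  apply X.ext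
  · rw [smul_t]
    have hh : ((iG (sc n) hn : GL(2, ℝ)⁺) : GL (Fin 2) ℝ) =
        .scalar (Fin 2) (Units.mk0 (n : ℝ) (by exact_mod_cast hn0)) := by
      apply Units.ext
      rw [iG_val, sc_map, Matrix.GeneralLinearGroup.coe_scalar, Matrix.smul_one_eq_diagonal]
      rfl
    change ((iG (sc n) hn : GL(2, ℝ)⁺) : GL (Fin 2) ℝ) • x.t = x.t
    rw [hh, UpperHalfPlane.glScalar_smul]
  · rw [smul_w]
    congr 1
    apply Units.ext
    rw [dn_val, Units.val_mk0, denom, iG_val]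
    simp [sc]

/-! ### the group `G2` -/

/-- `GL₂⁺(ℤ_(2))`: matrices `g` with `n g` integral of odd determinant for some odd `n`. -/
def G2 : Subgroup GL(2, ℝ)⁺ where
  carrier := {g | ∃ (n : ℕ) (A : Matrix (Fin 2) (Fin 2) ℤ), Odd n ∧ Odd A.det ∧
    (n : ℝ) • ((g : GL (Fin 2) ℝ) : Matrix (Fin 2) (Fin 2) ℝ) = A.map (Int.cast : ℤ → ℝ)}
  one_mem' := ⟨1, 1, odd_one, by simp, by
    ext i j; fin_cases i <;> fin_cases j <;> simp⟩
  mul_mem' := by
    rintro g h ⟨n, A, hn, hA, e⟩ ⟨m, B, hm, hB, e'⟩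
    refine ⟨n * m, A * B, hn.mul hm, by rw [Matrix.det_mul]; exact hA.mul hB, ?_⟩
    have : (A * B).map (Int.cast : ℤ → ℝ) = A.map (Int.cast : ℤ → ℝ) * B.map (Int.cast : ℤ → ℝ) := by
      have := map_mul (Int.castRingHom ℝ).mapMatrix A B
      exact this
    rw [this, ← e, ← e']
    simp only [Subgroup.coe_mul, Units.val_mul, Nat.cast_mul, smul_mul_assoc, mul_smul_comm, smul_smul]
    try rw [mul_comm]
  inv_mem' := by
    rintro g ⟨n, A, hn, hA, e⟩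
    have hdet : 0 < A.det := by
      have h1 := congrArg Matrix.det e
      have h2 : (A.map (Int.cast : ℤ → ℝ)).det = (A.det : ℝ) := by
        have := RingHom.map_det (Int.castRingHom ℝ) A
        simpa using this.symm
      rw [h2, Matrix.det_smul] at h1
      have h3 : 0 < ((g : GL (Fin 2) ℝ) : Matrix (Fin 2) (Fin 2) ℝ).det := g.2
      have h4 : (0 : ℝ) < (n : ℝ) := by exact_mod_cast hn.pos
      have : (0 : ℝ) < (A.det : ℝ) := by rw [← h1]; positivity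
      exact_mod_cast this
    refine ⟨A.det.natAbs, sc n * A.adjugate, ?_, ?_, ?_⟩
    · exact Int.natAbs_odd.2 hA
    · rw [Matrix.det_mul, sc_det, Matrix.det_adjugate]
      have : Odd (n : ℤ) := by exact_mod_cast hn
      exact (this.mul this).mul (hA.pow)
    · have h1 : (A.map (Int.cast : ℤ → ℝ)) * (A.adjugate.map (Int.cast : ℤ → ℝ)) = (A.det : ℝ) • 1 := by
        have := congrArg (Int.castRingHom ℝ).mapMatrix (Matrix.mul_adjugate A)
        rw [map_mul] at this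
        have h7 : (Int.castRingHom ℝ).mapMatrix (A.det • (1 : Matrix (Fin 2) (Fin 2) ℤ)) =
            (A.det : ℝ) • (1 : Matrix (Fin 2) (Fin 2) ℝ) := by
          ext i j
          rw [RingHom.mapMatrix_apply, Matrix.map_apply, Matrix.smul_apply, Matrix.smul_apply]
          fin_cases i <;> fin_cases j <;> simp
        rw [h7] at this
        exact this
      rw [← e, smul_mul_assoc] at h1
      have hg : ((g⁻¹ : GL(2, ℝ)⁺) : GL (Fin 2) ℝ).val * ((g : GL (Fin 2) ℝ)).val = 1 := by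
        rw [← Units.val_mul, ← Subgroup.coe_mul, inv_mul_cancel]; rfl
      have h5 := congrArg (fun Z => ((g⁻¹ : GL(2, ℝ)⁺) : GL (Fin 2) ℝ).val * Z) h1
      simp only [mul_smul_comm, ← Matrix.mul_assoc, hg, Matrix.one_mul, Matrix.mul_one] at h5
      have h6 : ((A.det.natAbs : ℕ) : ℝ) = (A.det : ℝ) := by
        rw [Nat.cast_natAbs, abs_of_pos hdet]
      have h8 : (sc n * A.adjugate).map (Int.cast : ℤ → ℝ) =
          (sc n).map (Int.cast : ℤ → ℝ) * A.adjugate.map (Int.cast : ℤ → ℝ) := by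
        have := map_mul (Int.castRingHom ℝ).mapMatrix (sc n) A.adjugate
        exact this
      rw [h6, ← h5, h8, sc_map, smul_mul_assoc, Matrix.one_mul]
      simp


lemma iG_mem_G2 (A : Matrix (Fin 2) (Fin 2) ℤ) (h : 0 < A.det) (ho : Odd A.det) : iG A h ∈ G2 :=
  ⟨1, A, odd_one, ho, by simp [iG_val]⟩

lemma sG_mem_G2 (γ : SL(2, ℤ)) : sG γ ∈ G2 := iG_mem_G2 _ _ (by simp)

/-- every element of `G2` is `(scalar n)⁻¹ * (integral matrix of odd determinant)` -/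
lemma G2_exists {g : GL(2, ℝ)⁺} (hg : g ∈ G2) : ∃ (n : ℕ) (A : Matrix (Fin 2) (Fin 2) ℤ)
    (_ : Odd n) (_ : Odd A.det) (h : 0 < A.det)
    (h' : 0 < (sc n).det),
    iG (sc n) h' * g = iG A h ∧ g * iG (sc n) h' = iG A h := by
  obtain ⟨n, A, hn, hA, e⟩ := hg
  have h4 : (0 : ℝ) < (n : ℝ) := by exact_mod_cast hn.pos
  have hdet : 0 < A.det := by
    have h1 := congrArg Matrix.det e
    have h2 : (A.map (Int.cast : ℤ → ℝ)).det = (A.det : ℝ) := by
      have := RingHom.map_det (Int.castRingHom ℝ) A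
      simpa using this.symm
    rw [h2, Matrix.det_smul] at h1
    have h3 : 0 < ((g : GL (Fin 2) ℝ) : Matrix (Fin 2) (Fin 2) ℝ).det := g.2
    have : (0 : ℝ) < (A.det : ℝ) := by rw [← h1]; positivity
    exact_mod_cast this
  have h' : 0 < (sc n).det := sc_det_pos (by exact_mod_cast hn.pos.ne')
  have hs : (sc n).map (Int.cast : ℤ → ℝ) = (n : ℝ) • 1 := by rw [sc_map]; simp
  refine ⟨n, A, hn, hA, hdet, h', ?_, ?_⟩
  · apply Subtype.ext
    apply Units.ext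
    rw [Subgroup.coe_mul, Units.val_mul, iG_val, iG_val, ← e, hs]
    simp
  · apply Subtype.ext
    apply Units.ext
    rw [Subgroup.coe_mul, Units.val_mul, iG_val, iG_val, ← e, hs]
    simp

/-! ### all odd levels -/

/-- weight `k`, all odd levels -/
def MO (k : ℕ) : Submodule ℂ (X → ℂ) where
  carrier := {F | ∃ M : ℕ, Odd M ∧ F ∈ MX M k}
  zero_mem' := ⟨1, odd_one, zero_mem _⟩
  add_mem' := by
    rintro F G ⟨M, hM, hF⟩ ⟨M', hM', hG⟩
    have : NeZero M := ⟨hM.pos.ne'⟩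
    have : NeZero M' := ⟨hM'.pos.ne'⟩
    exact ⟨M * M', hM.mul hM', add_mem (MX_mono (Dvd.intro _ rfl) hF) (MX_mono (Dvd.intro_left _ rfl) hG)⟩
  smul_mem' := by
    rintro c F ⟨M, hM, hF⟩
    exact ⟨M, hM, Submodule.smul_mem _ _ hF⟩


lemma MO_le_Wt {k : ℕ} : MO k ≤ Wt k := by
  rintro F ⟨M, _, hF⟩; exact MX_le_Wt hF

lemma MO_mul {k l : ℕ} {F G : X → ℂ} (hF : F ∈ MO k) (hG : G ∈ MO l) : F * G ∈ MO (k + l) := by
  obtain ⟨M, hM, hF⟩ := hF
  obtain ⟨M', hM', hG⟩ := hG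
  have : NeZero M := ⟨hM.pos.ne'⟩
  have : NeZero M' := ⟨hM'.pos.ne'⟩
  exact ⟨M * M', hM.mul hM', MX_mul (MX_mono (Dvd.intro _ rfl) hF) (MX_mono (Dvd.intro_left _ rfl) hG)⟩

lemma MO_one : (1 : X → ℂ) ∈ MO 0 := ⟨1, odd_one, MX_one⟩

/-- `MO k` is stable under `G2` -/
lemma MO_sl {k : ℕ} {F : X → ℂ} (hF : F ∈ MO k) {g : GL(2, ℝ)⁺} (hg : g ∈ G2) : sl F g ∈ MO k := by
  obtain ⟨n, A, hn, hA, h, h', _, e⟩ := G2_exists hg
  obtain ⟨M, hM, hF⟩ := hF
  have : NeZero M := ⟨hM.pos.ne'⟩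
  have h1 := MX_sl_iG hF A h
  have hn0 : (((n : ℤ) : ℂ)) ≠ 0 := by exact_mod_cast hn.pos.ne'
  -- `sl (sl F g) n = n^{-k} sl F g`
  have h2 : sl (sl F g) (iG (sc n) h') = (((n : ℤ) : ℂ)⁻¹) ^ k • sl F g :=
    sl_scalar (Wt_sl (MX_le_Wt hF) g) n h'
  rw [← sl_mul_right, e] at h2
  have h3 : sl F g = ((((n : ℤ) : ℂ)⁻¹) ^ k)⁻¹ • sl F (iG A h) := by
    rw [h2, smul_smul, inv_mul_cancel₀ (pow_ne_zero _ (inv_ne_zero hn0)), one_smul]
  refine ⟨M * A.det.natAbs, hM.mul (Int.natAbs_odd.2 hA), ?_⟩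
  rw [h3]
  exact Submodule.smul_mem _ _ h1

end Crest.Agent.R007.Lat
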