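import Mathlib
import Crest.Agent.R007.Lat3

-- ▼ part R007/Lat4
section

/-! Row 7: q-expansions at infinity for all levels together. -/

set_option autoImplicit false

namespace Crest.Agent.R007.Lat

open UpperHalfPlane ModularForm CongruenceSubgroup Matrix
open scoped MatrixGroups Manifold ModularForm

local notation "𝕢" => Function.Periodic.qParam

/-! ### `PowerSeries → HahnSeries ℚ` -/

/-- `n ↦ n / M` -/
def divHom (M : ℕ) : ℕ →+ ℚ where
  toFun n := (n : ℚ) / M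
  map_zero' := by simp
  map_add' a b := by push_cast; ring

@[simp] lemma divHom_apply (M n : ℕ) : divHom M n = (n : ℚ) / M := rfl

lemma divHom_inj {M : ℕ} [NeZero M] : Function.Injective (divHom M) := by
  intro a b h
  have hM : (M : ℚ) ≠ 0 := by exact_mod_cast NeZero.ne M
  simp only [divHom_apply] at h
  have : (a : ℚ) = b := by field_simp at h; exact h
  exact_mod_cast this

lemma divHom_le {M : ℕ} [NeZero M] (a b : ℕ) : divHom M a ≤ divHom M b ↔ a ≤ b := by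
  have hM : (0 : ℚ) < M := by exact_mod_cast Nat.pos_of_ne_zero (NeZero.ne M)
  simp only [divHom_apply]
  rw [div_le_div_iff_of_pos_right hM]
  exact_mod_cast Iff.rfl

/-- power series in `q^{1/M}` as Hahn series with rational exponents -/
noncomputable def emb (M : ℕ) [NeZero M] (R : Type*) [CommRing R] : PowerSeries R →+* HahnSeries ℚ R :=
  (HahnSeries.embDomainRingHom (divHom M) divHom_inj divHom_le).comp
    (RingEquiv.toRingHom HahnSeries.toPowerSeries.symm)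

lemma emb_coeff (M : ℕ) [NeZero M] {R : Type*} [CommRing R] (P : PowerSeries R) (n : ℕ) :
    (emb M R P).coeff ((n : ℚ) / M) = P.coeff n := by
  have := HahnSeries.embDomain_coeff (f := ⟨⟨divHom M, divHom_inj⟩, divHom_le _ _⟩)
    (x := HahnSeries.toPowerSeries.symm P) (a := n)
  rw [HahnSeries.coeff_toPowerSeries_symm] at this
  exact this

lemma emb_coeff_of_notMem (M : ℕ) [NeZero M] {R : Type*} [CommRing R] (P : PowerSeries R) {r : ℚ}
    (hr : ∀ n : ℕ, (n : ℚ) / M ≠ r) : (emb M R P).coeff r = 0 := by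
  refine HahnSeries.embDomain_of_notMem_range (f := ⟨⟨divHom M, divHom_inj⟩, divHom_le _ _⟩) ?_
  rintro ⟨n, hn⟩
  exact hr n hn


/-! ### `PB h` -/

/-- holomorphic, `h`-periodic, bounded at `i∞` -/
def PB (h : ℝ) : Subalgebra ℂ (ℍ → ℂ) where
  carrier := {f | Function.Periodic (f ∘ ofComplex) h ∧ MDiff f ∧ IsBoundedAtImInfty f}
  mul_mem' := by
    rintro f g ⟨h1, h2, h3⟩ ⟨h1', h2', h3'⟩
    refine ⟨?_, h2.mul h2', h3.mul h3'⟩
    intro w
    have e1 := h1 w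
    have e2 := h1' w
    simp only [Function.comp_apply, Pi.mul_apply] at *
    rw [e1, e2]
  add_mem' := by
    rintro f g ⟨h1, h2, h3⟩ ⟨h1', h2', h3'⟩
    refine ⟨?_, h2.add h2', h3.add h3'⟩
    intro w
    have e1 := h1 w
    have e2 := h1' w
    simp only [Function.comp_apply, Pi.add_apply] at *
    rw [e1, e2]
  algebraMap_mem' := by
    intro c
    refine ⟨fun w => rfl, mdifferentiable_const, ?_⟩
    exact Filter.const_boundedAtFilter _ c


lemma periodic_iff {f : ℍ → ℂ} {h : ℝ} :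
    Function.Periodic (f ∘ ofComplex) h ↔ ∀ τ : ℍ, f (h +ᵥ τ) = f τ := by
  constructor
  · intro hp τ
    have := hp (τ : ℂ)
    simp only [Function.comp_apply, ofComplex_apply] at this
    rw [← this]
    congr 1
    have h2 : 0 < ((τ : ℂ) + h).im := by simpa using τ.im_pos
    rw [ofComplex_apply_of_im_pos h2]
    ext
    simp [add_comm]
  · intro hp w
    by_cases hw : 0 < w.im
    · have h2 : 0 < (w + h).im := by simpa using hw
      simp only [Function.comp_apply, ofComplex_apply_of_im_pos h2, ofComplex_apply_of_im_pos hw]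
      rw [← hp ⟨w, hw⟩]
      congr 1
      ext
      simp [add_comm]
    · have h2 : (w + h).im ≤ 0 := by simpa using hw
      simp [ofComplex_apply_of_im_nonpos h2, ofComplex_apply_of_im_nonpos (not_lt.1 hw)]

lemma PB_analytic {h : ℝ} (hh : 0 < h) {f : ℍ → ℂ} (hf : f ∈ PB h) :
    AnalyticAt ℂ (cuspFunction h f) 0 := analyticAt_cuspFunction_zero hh hf.1 hf.2.1 hf.2.2

lemma PB_hasSum {h : ℝ} (hh : 0 < h) {f : ℍ → ℂ} (hf : f ∈ PB h) (τ : ℍ) :
    HasSum (fun m : ℕ ↦ (qExpansion h f).coeff m • 𝕢 h τ ^ m) (f τ) :=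
  UpperHalfPlane.hasSum_qExpansion hh hf.1 hf.2.1 hf.2.2 τ

lemma PB_unique {h : ℝ} (hh : 0 < h) {f : ℍ → ℂ} (hf : f ∈ PB h) {c : ℕ → ℂ}
    (hc : ∀ τ : ℍ, HasSum (fun m ↦ c m • 𝕢 h τ ^ m) (f τ)) (m : ℕ) : (qExpansion h f).coeff m = c m := by
  have hfa := PB_analytic hh hf
  have h1 := (hasFPowerSeriesOnBall_cuspFunction hh hfa hc).hasFPowerSeriesAt
  have h2 : HasFPowerSeriesAt (cuspFunction h f)
      (.ofScalars ℂ fun m ↦ (qExpansion h f).coeff m) 0 := by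
    simpa [qExpansion_coeff, div_eq_mul_inv, mul_comm] using hfa.hasFPowerSeriesAt
  have := congr_arg (FormalMultilinearSeries.coeff · m) (h1.eq_formalMultilinearSeries h2)
  simpa [FormalMultilinearSeries.coeff_ofScalars] using this.symm

lemma PB_mono {M M' : ℕ} [NeZero M] (h : M ∣ M') : PB M ≤ PB M' := by
  obtain ⟨c, rfl⟩ := h
  intro f hf
  refine ⟨?_, hf.2⟩
  have := hf.1.nat_mul c
  intro w
  rw [← this w]
  congr 2
  push_cast; ring

lemma pos_of_neZero (M : ℕ) [NeZero M] : (0 : ℝ) < M := by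
  exact_mod_cast Nat.pos_of_ne_zero (NeZero.ne M)

/-- re-indexing of a `q`-series -/
lemma hasSum_reindex {a : ℕ} (ha : a ≠ 0) {c : ℕ → ℂ} {x y : ℂ}
    (h : HasSum (fun m => c m • (x ^ a) ^ m) y) :
    HasSum (fun m => (if a ∣ m then c (m / a) else 0) • x ^ m) y := by
  have hinj : Function.Injective (fun n : ℕ => a * n) := fun m n h =>
    Nat.eq_of_mul_eq_mul_left (Nat.pos_of_ne_zero ha) h
  rw [← Function.Injective.hasSum_iff hinj]
  · convert h using 2 with n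
    simp only [Function.comp_apply, Nat.dvd_mul_right, if_true,
      Nat.mul_div_cancel_left _ (Nat.pos_of_ne_zero ha), pow_mul]
  · intro m hm
    have : ¬ a ∣ m := by
      rintro ⟨n, rfl⟩
      exact hm ⟨n, rfl⟩
    simp [this]

lemma qParam_mul (M c : ℕ) [NeZero M] [NeZero c] (τ : ℂ) : 𝕢 ((M * c : ℕ) : ℝ) τ ^ c = 𝕢 (M : ℝ) τ := by
  unfold Function.Periodic.qParam
  rw [← Complex.exp_nat_mul]
  congr 1
  have h1 : (M : ℂ) ≠ 0 := by exact_mod_cast NeZero.ne M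
  have h2 : (c : ℂ) ≠ 0 := by exact_mod_cast NeZero.ne c
  push_cast
  field_simp

lemma emb_eq (M c : ℕ) [NeZero M] [NeZero c] {f : ℍ → ℂ} (hf : f ∈ PB M) :
    emb (M * c) ℂ (qExpansion ((M * c : ℕ) : ℝ) f) = emb M ℂ (qExpansion M f) := by
  have hf' : f ∈ PB ((M * c : ℕ) : ℝ) := PB_mono (Dvd.intro _ rfl) hf
  have key : ∀ m, (qExpansion ((M * c : ℕ) : ℝ) f).coeff m =
      if c ∣ m then (qExpansion M f).coeff (m / c) else 0 := by
    have h0 : ∀ τ : ℍ, HasSum (fun m => (if c ∣ m then (qExpansion M f).coeff (m / c) else 0) •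
        𝕢 ((M * c : ℕ) : ℝ) τ ^ m) (f τ) := by
      intro τ
      apply hasSum_reindex (c := fun m => (qExpansion M f).coeff m) (NeZero.ne c)
      have h1 := PB_hasSum (pos_of_neZero M) hf τ
      rw [← qParam_mul M c] at h1
      exact h1
    exact fun m => PB_unique (h := ((M * c : ℕ) : ℝ)) (pos_of_neZero (M * c)) hf' h0 m
  ext r
  by_cases hr : ∃ n : ℕ, (n : ℚ) / ((M * c : ℕ) : ℚ) = r
  · obtain ⟨n, rfl⟩ := hr
    rw [emb_coeff, key]
    split_ifs with h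
    · obtain ⟨m, rfl⟩ := h
      rw [Nat.mul_div_cancel_left _ (Nat.pos_of_ne_zero (NeZero.ne c))]
      have : ((c * m : ℕ) : ℚ) / ((M * c : ℕ) : ℚ) = (m : ℚ) / M := by
        have h1 : (M : ℚ) ≠ 0 := by exact_mod_cast NeZero.ne M
        have h2 : (c : ℚ) ≠ 0 := by exact_mod_cast NeZero.ne c
        push_cast
        field_simp
      rw [this, emb_coeff]
    · rw [emb_coeff_of_notMem]
      intro m hm
      apply h
      have h1 : (M : ℚ) ≠ 0 := by exact_mod_cast NeZero.ne M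
      have h2 : (c : ℚ) ≠ 0 := by exact_mod_cast NeZero.ne c
      push_cast at hm
      field_simp at hm
      have : m * c = n := by exact_mod_cast hm
      exact ⟨m, by rw [← this, mul_comm]⟩
  · push Not at hr
    rw [emb_coeff_of_notMem _ _ hr, emb_coeff_of_notMem]
    intro n hn
    apply hr (n * c)
    rw [← hn]
    have h1 : (M : ℚ) ≠ 0 := by exact_mod_cast NeZero.ne M
    have h2 : (c : ℚ) ≠ 0 := by exact_mod_cast NeZero.ne c
    push_cast
    field_simp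

/-- the union of `PB M`, `M` odd -/
def PO : Subalgebra ℂ (ℍ → ℂ) where
  carrier := {f | ∃ M : ℕ, Odd M ∧ f ∈ PB M}
  mul_mem' := by
    rintro f g ⟨M, hM, hf⟩ ⟨M', hM', hg⟩
    have : NeZero M := ⟨hM.pos.ne'⟩
    have : NeZero M' := ⟨hM'.pos.ne'⟩
    exact ⟨M * M', hM.mul hM', mul_mem (PB_mono (Dvd.intro _ rfl) hf) (PB_mono (Dvd.intro_left _ rfl) hg)⟩
  add_mem' := by
    rintro f g ⟨M, hM, hf⟩ ⟨M', hM', hg⟩
    have : NeZero M := ⟨hM.pos.ne'⟩
    have : NeZero M' := ⟨hM'.pos.ne'⟩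
    exact ⟨M * M', hM.mul hM', add_mem (PB_mono (Dvd.intro _ rfl) hf) (PB_mono (Dvd.intro_left _ rfl) hg)⟩
  algebraMap_mem' := fun c => ⟨1, odd_one, (PB _).algebraMap_mem c⟩


open Classical in
/-- the q-expansion (junk value `0` outside `PO`) -/
noncomputable def qf (f : ℍ → ℂ) : HahnSeries ℚ ℂ :=
  if h : ∃ M : ℕ, Odd M ∧ f ∈ PB M then
    haveI : NeZero h.choose := ⟨h.choose_spec.1.pos.ne'⟩
    emb h.choose ℂ (qExpansion h.choose f)
  else 0

lemma qf_eq {M : ℕ} (hM : Odd M) {f : ℍ → ℂ} (hf : f ∈ PB M) :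
    haveI : NeZero M := ⟨hM.pos.ne'⟩
    qf f = emb M ℂ (qExpansion M f) := by
  have i1 : NeZero M := ⟨hM.pos.ne'⟩
  have h : ∃ M : ℕ, Odd M ∧ f ∈ PB M := ⟨M, hM, hf⟩
  rw [qf, dif_pos h]
  have i2 : NeZero h.choose := ⟨h.choose_spec.1.pos.ne'⟩
  have e1 := emb_eq M h.choose hf
  have e2 := emb_eq h.choose M h.choose_spec.2
  rw [← e1, ← e2]
  have key : ∀ (a b : ℕ) (ia : NeZero a) (ib : NeZero b), a = b →
      emb a ℂ (qExpansion (a : ℝ) f) = emb b ℂ (qExpansion (b : ℝ) f) := by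
    rintro a b ia ib rfl; rfl
  exact key _ _ _ _ (mul_comm _ _)

end Crest.Agent.R007.Lat
end

-- ▼ part R007/Lat5

/-! Row 7: `qf` is a ring homomorphism on `PO`; modular forms; upper triangular matrices; `MM`. -/

set_option autoImplicit false

namespace Crest.Agent.R007.Lat

open UpperHalfPlane ModularForm CongruenceSubgroup Matrix
open scoped MatrixGroups Manifold ModularForm

local notation "𝕢" => Function.Periodic.qParam

lemma qf_eq' (M : ℕ) [NeZero M] (hM : Odd M) {f : ℍ → ℂ} (hf : f ∈ PB M) :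
    qf f = emb M ℂ (qExpansion M f) := qf_eq hM hf

/-- common level -/
lemma PO_common {f g : ℍ → ℂ} (hf : f ∈ PO) (hg : g ∈ PO) :
    ∃ M : ℕ, Odd M ∧ f ∈ PB M ∧ g ∈ PB M := by
  obtain ⟨M, hM, hf⟩ := hf
  obtain ⟨M', hM', hg⟩ := hg
  have : NeZero M := ⟨hM.pos.ne'⟩
  have : NeZero M' := ⟨hM'.pos.ne'⟩
  exact ⟨M * M', hM.mul hM', PB_mono (Dvd.intro _ rfl) hf, PB_mono (Dvd.intro_left _ rfl) hg⟩

lemma qf_mul {f g : ℍ → ℂ} (hf : f ∈ PO) (hg : g ∈ PO) : qf (f * g) = qf f * qf g := by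
  obtain ⟨M, hM, hf, hg⟩ := PO_common hf hg
  have : NeZero M := ⟨hM.pos.ne'⟩
  rw [qf_eq' M hM hf, qf_eq' M hM hg, qf_eq' M hM (mul_mem hf hg), ← map_mul,
    qExpansion_mul (PB_analytic (pos_of_neZero M) hf) (PB_analytic (pos_of_neZero M) hg)]

lemma qf_add {f g : ℍ → ℂ} (hf : f ∈ PO) (hg : g ∈ PO) : qf (f + g) = qf f + qf g := by
  obtain ⟨M, hM, hf, hg⟩ := PO_common hf hg
  have : NeZero M := ⟨hM.pos.ne'⟩
  rw [qf_eq' M hM hf, qf_eq' M hM hg, qf_eq' M hM (add_mem hf hg), ← map_add,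
    qExpansion_add (PB_analytic (pos_of_neZero M) hf) (PB_analytic (pos_of_neZero M) hg)]

lemma qf_smul (c : ℂ) {f : ℍ → ℂ} (hf : f ∈ PO) : qf (c • f) = c • qf f := by
  obtain ⟨M, hM, hf⟩ := hf
  have : NeZero M := ⟨hM.pos.ne'⟩
  rw [qf_eq' M hM hf, qf_eq' M hM (Subalgebra.smul_mem _ hf c),
    qExpansion_smul (PB_analytic (pos_of_neZero M) hf)]
  ext r
  by_cases hr : ∃ n : ℕ, (n : ℚ) / M = r
  · obtain ⟨n, rfl⟩ := hr
    rw [HahnSeries.coeff_smul, emb_coeff, emb_coeff, map_smul]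
  · push Not at hr
    rw [HahnSeries.coeff_smul, emb_coeff_of_notMem _ _ hr, emb_coeff_of_notMem _ _ hr, smul_zero]

lemma qf_one : qf 1 = 1 := by
  have h1 : (1 : ℍ → ℂ) ∈ PB ((1 : ℕ) : ℝ) := one_mem _
  rw [qf_eq' 1 odd_one h1, qExpansion_one, map_one]

lemma qf_zero : qf 0 = 0 := by
  have h1 : (0 : ℍ → ℂ) ∈ PB ((1 : ℕ) : ℝ) := zero_mem _
  rw [qf_eq' 1 odd_one h1, qExpansion_zero, map_zero]


/-- the q-expansion homomorphism -/
noncomputable def qx : PO →+* HahnSeries ℚ ℂ where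
  toFun f := qf f.1
  map_one' := qf_one
  map_zero' := qf_zero
  map_mul' f g := qf_mul f.2 g.2
  map_add' f g := qf_add f.2 g.2

@[simp] lemma qx_apply (f : PO) : qx f = qf f.1 := rfl


lemma qf_sub {f g : ℍ → ℂ} (hf : f ∈ PO) (hg : g ∈ PO) : qf (f - g) = qf f - qf g := by
  have := map_sub qx ⟨f, hf⟩ ⟨g, hg⟩
  exact this


/-- coefficients from a convergent expansion -/
lemma qf_coeff_of_hasSum {M : ℕ} (hM : Odd M) {f : ℍ → ℂ} (hf : f ∈ PB M) {c : ℕ → ℂ}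
    (hc : ∀ τ : ℍ, HasSum (fun m ↦ c m • 𝕢 (M : ℝ) τ ^ m) (f τ)) (n : ℕ) :
    (qf f).coeff ((n : ℚ) / M) = c n := by
  have : NeZero M := ⟨hM.pos.ne'⟩
  rw [qf_eq' M hM hf, emb_coeff, PB_unique (pos_of_neZero M) hf hc]

lemma qf_coeff_of_notMem {M : ℕ} (hM : Odd M) {f : ℍ → ℂ} (hf : f ∈ PB M) {r : ℚ}
    (hr : ∀ n : ℕ, (n : ℚ) / M ≠ r) : (qf f).coeff r = 0 := by
  have : NeZero M := ⟨hM.pos.ne'⟩
  rw [qf_eq' M hM hf, emb_coeff_of_notMem _ _ hr]

lemma qf_coeff_hasSum {M : ℕ} (hM : Odd M) {f : ℍ → ℂ} (hf : f ∈ PB M) (τ : ℍ) :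
    HasSum (fun m : ℕ ↦ (qf f).coeff ((m : ℚ) / M) • 𝕢 (M : ℝ) τ ^ m) (f τ) := by
  have : NeZero M := ⟨hM.pos.ne'⟩
  rw [qf_eq' M hM hf]
  simp only [emb_coeff]
  exact PB_hasSum (pos_of_neZero M) hf τ

lemma qf_coeff_neg {f : ℍ → ℂ} (hf : f ∈ PO) {r : ℚ} (hr : r < 0) : (qf f).coeff r = 0 := by
  obtain ⟨M, hM, hf⟩ := hf
  apply qf_coeff_of_notMem hM hf
  intro n hn
  have : (0 : ℚ) ≤ (n : ℚ) / M := by positivity
  rw [hn] at this
  exact absurd hr (not_lt.2 this)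

/-! ### modular forms -/

lemma sG_smul_eq (γ : SL(2, ℤ)) (τ : ℍ) : sG γ • τ = γ • τ := by
  change ((sG γ : GL(2, ℝ)⁺) : GL (Fin 2) ℝ) • τ = _
  rw [sG_coe]
  rfl

lemma res_mem_PB {M : ℕ} [NeZero M] {k : ℕ} {F : X → ℂ} (hF : F ∈ MX M k) : res F ∈ PB M := by
  rw [mem_MX_iff] at hF
  refine ⟨?_, hF.2.2.1, ?_⟩
  · rw [periodic_iff]
    intro τ
    have hT : (ModularGroup.T ^ (M : ℤ)).1 = !![1, (M : ℤ); 0, 1] := ModularGroup.coe_T_zpow M
    have hm : ModularGroup.T ^ (M : ℤ) ∈ Gamma M := by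
      rw [Gamma_mem]
      refine ⟨?_, ?_, ?_, ?_⟩ <;> rw [hT] <;> simp
    have h1 := congrFun (hF.2.1 _ hm) ⟨τ, 1⟩
    rw [sl_apply] at h1
    rw [res_apply, res_apply, ← h1]
    congr 1
    apply X.ext
    · rw [smul_t, sG_smul_eq, UpperHalfPlane.modular_T_zpow_smul]
      simp
    · rw [smul_w, mul_one]
      apply Units.ext
      rw [dn_val, sG, iG_coe, denom, toGL_val, hT]
      simp
  · have := hF.2.2.2 1
    rwa [sG_one, sl_one_right] at this

lemma res_mem_PO {k : ℕ} {F : X → ℂ} (hF : F ∈ MO k) : res F ∈ PO := by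
  obtain ⟨M, hM, hF⟩ := hF
  have : NeZero M := ⟨hM.pos.ne'⟩
  exact ⟨M, hM, res_mem_PB hF⟩


/-! ### upper triangular matrices -/

/-- integral upper triangular matrix -/
def ut (a b d : ℤ) : Matrix (Fin 2) (Fin 2) ℤ := !![a, b; 0, d]

lemma ut_det (a b d : ℤ) : (ut a b d).det = a * d := by simp [ut, Matrix.det_fin_two_of]

lemma iG_ut_smul {a b d : ℤ} (hd : 0 < d) (h : 0 < (ut a b d).det) (τ : ℍ) :
    ((iG (ut a b d) h • τ : ℍ) : ℂ) = (a * τ + b) / d := by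
  change ((((iG (ut a b d) h : GL(2, ℝ)⁺) : GL (Fin 2) ℝ) • τ : ℍ) : ℂ) = _
  rw [coe_smul_of_det_pos (det_pos _)]
  simp [num, denom, iG_val, ut]

lemma dn_ut {a b d : ℤ} (h : 0 < (ut a b d).det) (τ : ℍ) :
    (dn (iG (ut a b d) h) τ : ℂ) = d := by
  rw [dn_val]
  simp [denom, iG_val, ut]

/-- `res (F ∥ (a b; 0 d)) (τ) = d^{-k} res F ((aτ+b)/d)` -/
lemma res_sl_ut {k : ℕ} {F : X → ℂ} (hF : F ∈ Wt k) {a b d : ℤ} (h : 0 < (ut a b d).det) (τ : ℍ) :
    res (sl F (iG (ut a b d) h)) τ = ((d : ℂ)⁻¹) ^ k * res F (iG (ut a b d) h • τ) := by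
  rw [res_apply, sl_apply]
  have := hF (dn (iG (ut a b d) h) τ) ⟨iG (ut a b d) h • τ, 1⟩
  rw [Units.val_inv_eq_inv_val, dn_ut] at this
  rw [res_apply, ← this]
  rfl

lemma PB_comp_ut {M : ℕ} [NeZero M] {f : ℍ → ℂ} (hf : f ∈ PB M) {a b d : ℕ} (hd : 0 < d)
    (h : 0 < (ut a b d).det) : (fun τ => f (iG (ut a b d) h • τ)) ∈ PB ((M * d : ℕ) : ℝ) := by
  have hper := periodic_iff.1 hf.1
  have hperN : ∀ (n : ℕ) (τ : ℍ), f (((n * M : ℕ) : ℝ) +ᵥ τ) = f τ := by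
    intro n
    have h1 := hf.1.nat_mul n
    have h2 : Function.Periodic (f ∘ ofComplex) ((n * M : ℕ) : ℝ) := by
      intro w
      rw [← h1 w]
      congr 2
      push_cast; ring
    exact periodic_iff.1 h2
  refine ⟨?_, ?_, ?_⟩
  · rw [periodic_iff]
    intro τ
    rw [← hperN a (iG (ut a b d) h • τ)]
    congr 1
    apply UpperHalfPlane.ext
    rw [iG_ut_smul (by exact_mod_cast hd), coe_vadd, coe_vadd, iG_ut_smul (by exact_mod_cast hd)]
    have hd' : (d : ℂ) ≠ 0 := by exact_mod_cast hd.ne'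
    push_cast
    field_simp
    ring
  · have h1 : MDiff (f ∣[(0 : ℤ)] ((iG (ut a b d) h : GL(2, ℝ)⁺) : GL (Fin 2) ℝ)) :=
      hf.2.1.slash _ _
    have h2 : (fun τ => f (iG (ut a b d) h • τ)) =
        ((((iG (ut a b d) h : GL(2, ℝ)⁺) : GL (Fin 2) ℝ).det.val : ℂ)) •
          (f ∣[(0 : ℤ)] ((iG (ut a b d) h : GL(2, ℝ)⁺) : GL (Fin 2) ℝ)) := by
      have h3 := slash_eq_res 0 f (iG (ut a b d) h)
      have h4 : ((((iG (ut a b d) h : GL(2, ℝ)⁺) : GL (Fin 2) ℝ).det.val : ℂ)) ≠ 0 := by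
        exact_mod_cast (det_pos _).ne'
      simp only [Nat.cast_zero] at h3
      rw [h3, smul_smul]
      have h5 : ((((iG (ut a b d) h : GL(2, ℝ)⁺) : GL (Fin 2) ℝ).det.val : ℂ)) *
          ((((iG (ut a b d) h : GL(2, ℝ)⁺) : GL (Fin 2) ℝ).det.val : ℂ)) ^ ((0 : ℤ) - 1) = 1 := by
        rw [zero_sub, _root_.zpow_neg_one, mul_inv_cancel₀ h4]
      rw [h5, one_smul]
      funext τ
      simp [lift_apply]
    rw [h2]
    exact h1.const_smul _
  · have h1 : IsBoundedAtImInfty (f ∣[(0 : ℤ)] ((iG (ut a b d) h : GL(2, ℝ)⁺) : GL (Fin 2) ℝ)) := by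
      apply IsBoundedAtImInfty.slash
      · simp [iG_val, ut]
      · exact hf.2.2
    have h3 := slash_eq_res 0 f (iG (ut a b d) h)
    have h4 : ((((iG (ut a b d) h : GL(2, ℝ)⁺) : GL (Fin 2) ℝ).det.val : ℂ)) ≠ 0 := by
      exact_mod_cast (det_pos _).ne'
    have h2 : (fun τ => f (iG (ut a b d) h • τ)) =
        ((((iG (ut a b d) h : GL(2, ℝ)⁺) : GL (Fin 2) ℝ).det.val : ℂ)) •
          (f ∣[(0 : ℤ)] ((iG (ut a b d) h : GL(2, ℝ)⁺) : GL (Fin 2) ℝ)) := by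
      simp only [Nat.cast_zero] at h3
      rw [h3, smul_smul]
      have h5 : ((((iG (ut a b d) h : GL(2, ℝ)⁺) : GL (Fin 2) ℝ).det.val : ℂ)) *
          ((((iG (ut a b d) h : GL(2, ℝ)⁺) : GL (Fin 2) ℝ).det.val : ℂ)) ^ ((0 : ℤ) - 1) = 1 := by
        rw [zero_sub, _root_.zpow_neg_one, mul_inv_cancel₀ h4]
      rw [h5, one_smul]
      funext τ
      simp [lift_apply]
    rw [h2]
    exact bddAtInfty_smul h1 _

/-- `e(x) = exp(2πi x)` -/
noncomputable def ee (x : ℚ) : ℂ := Complex.exp (2 * Real.pi * Complex.I * (x : ℂ))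

lemma ee_add (x y : ℚ) : ee (x + y) = ee x * ee y := by
  simp only [ee, ← Complex.exp_add]
  push_cast; ring_nf

lemma ee_nsmul (n : ℕ) (x : ℚ) : ee (n * x) = ee x ^ n := by
  simp only [ee, ← Complex.exp_nat_mul]
  push_cast; ring_nf

lemma qParam_ut {M : ℕ} [NeZero M] {a b d : ℕ} (ha : 0 < a) (hd : 0 < d)
    (h : 0 < (ut a b d).det) (τ : ℍ) :
    𝕢 (M : ℝ) (iG (ut a b d) h • τ : ℍ) = ee ((b : ℚ) / (d * M)) * 𝕢 ((M * d : ℕ) : ℝ) τ ^ a := by
  rw [iG_ut_smul (by exact_mod_cast hd)]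
  unfold Function.Periodic.qParam ee
  rw [← Complex.exp_nat_mul, ← Complex.exp_add]
  congr 1
  have h1 : (M : ℂ) ≠ 0 := by exact_mod_cast NeZero.ne M
  have h2 : (d : ℂ) ≠ 0 := by exact_mod_cast hd.ne'
  push_cast
  field_simp
  ring

/-- the expansion of `f((aτ+b)/d)`: the coefficient at `s a/d` is `e(s b/d)` times the one of `f` at `s` -/
lemma qf_comp_ut {f : ℍ → ℂ} (hf : f ∈ PO) {a b d : ℕ} (ha : Odd a) (hd : Odd d)
    (h : 0 < (ut a b d).det) (s : ℚ) :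
    (qf (fun τ => f (iG (ut a b d) h • τ))).coeff (s * a / d) = ee (s * b / d) * (qf f).coeff s := by
  obtain ⟨M, hM, hf⟩ := hf
  have : NeZero M := ⟨hM.pos.ne'⟩
  have ha0 : (a : ℚ) ≠ 0 := by exact_mod_cast ha.pos.ne'
  have hd0 : (d : ℚ) ≠ 0 := by exact_mod_cast hd.pos.ne'
  have hM0 : (M : ℚ) ≠ 0 := by exact_mod_cast hM.pos.ne'
  have hg := PB_comp_ut hf hd.pos h
  set c : ℕ → ℂ := fun n => ee ((n : ℚ) / M * b / d) * (qf f).coeff ((n : ℚ) / M) with hc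
  have key : ∀ τ : ℍ, HasSum (fun m => (if a ∣ m then c (m / a) else 0) •
      𝕢 ((M * d : ℕ) : ℝ) τ ^ m) (f (iG (ut a b d) h • τ)) := by
    intro τ
    apply hasSum_reindex ha.pos.ne'
    have h1 := qf_coeff_hasSum hM hf (iG (ut a b d) h • τ)
    convert h1 using 2 with n
    rw [qParam_ut ha.pos hd.pos, mul_pow, ← ee_nsmul, hc]
    simp only [smul_eq_mul]
    have : (n : ℚ) * ((b : ℚ) / (d * M)) = (n : ℚ) / M * b / d := by field_simp
    rw [this]; ring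
  by_cases hs : ∃ n : ℕ, (n : ℚ) / M = s
  · obtain ⟨n, rfl⟩ := hs
    have h2 := qf_coeff_of_hasSum (hM.mul hd) hg key (a * n)
    rw [if_pos (Dvd.intro _ rfl), Nat.mul_div_cancel_left _ ha.pos] at h2
    have h3 : (n : ℚ) / M * a / d = ((a * n : ℕ) : ℚ) / ((M * d : ℕ) : ℚ) := by
      push_cast
      field_simp
    rw [h3, h2]
  · push Not at hs
    rw [qf_coeff_of_notMem hM hf hs, mul_zero]
    by_cases hs2 : ∃ n : ℕ, (n : ℚ) / ((M * d : ℕ) : ℚ) = s * a / d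
    · obtain ⟨n, hn⟩ := hs2
      rw [← hn, qf_coeff_of_hasSum (hM.mul hd) hg key n, if_neg]
      rintro ⟨m, rfl⟩
      apply hs m
      push_cast at hn
      field_simp at hn
      field_simp
      linarith
    · push Not at hs2
      exact qf_coeff_of_notMem (hM.mul hd) hg hs2

end Crest.Agent.R007.Lat
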