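import Mathlib
import Crest.Agent.R007.DInt
import Crest.Agent.R007.DGrp
import Crest.Agent.R007.RatL1
import Crest.Agent.R007.CoefO

-- ▼ part R007/DMain
section

/-! Row 7, section D: level irreducibility. -/

set_option autoImplicit false

namespace Crest.Agent.R007.Dsec

open UpperHalfPlane ModularForm CongruenceSubgroup Matrix
open Crest.Agent.R007.Lat Crest.Agent.R007.Mix
open scoped MatrixGroups Manifold ModularForm

instance instGammaNormal (M : ℕ) : (Gamma M).Normal := Gamma_normal M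

/-- level `M`, weight `k`, integral -/
def LM (O : Subring ℂ) (M k : ℕ) (F : X → ℂ) : Prop := F ∈ MX M k ∧ F ∈ Lk O k

section
variable {O : Subring ℂ} {M : ℕ} [NeZero M]

lemma MX_sl_SL {k : ℕ} {F : X → ℂ} (hF : F ∈ MX M k) (γ : SL(2, ℤ)) : sl F (sG γ) ∈ MX M k := by
  have := MX_sl_iG hF γ.1 (by simp)
  have h1 : M * γ.1.det.natAbs = M := by simp
  rw [h1] at this
  exact this

lemma LM.slSL {k : ℕ} {F : X → ℂ} (h : LM O M k F) (γ : SL(2, ℤ)) : LM O M k (sl F (sG γ)) :=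
  ⟨MX_sl_SL h.1 γ, Lk_sl h.2 (sG_mem_G2 γ)⟩

lemma LM.mul {k l : ℕ} {F G : X → ℂ} (h : LM O M k F) (h' : LM O M l G) : LM O M (k + l) (F * G) :=
  ⟨MX_mul h.1 h'.1, Lk_mul h.2 h'.2⟩

lemma LM.one : LM O M 0 1 := ⟨MX_one, Lk_one⟩

lemma LM.pow {k : ℕ} {F : X → ℂ} (h : LM O M k F) (n : ℕ) : LM O M (n * k) (F ^ n) := by
  induction n with
  | zero => simpa using LM.one
  | succ n ih =>
    rw [pow_succ, Nat.succ_mul]
    exact ih.mul h

lemma LM.int {k : ℕ} {F : X → ℂ} (h : LM O M k F) : res F ∈ IntO O := VV_res (Lk_le_VV h.2)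

lemma LM.inv {k : ℕ} {F : X → ℂ} (h : LM O M k F) {γ : SL(2, ℤ)} (hγ : γ ∈ Gamma M) :
    sl F (sG γ) = F := (mem_MX_iff.1 h.1).2.1 γ hγ

lemma LM.prod {ι : Type*} {k : ℕ} (s : Finset ι) {f : ι → X → ℂ} (h : ∀ i ∈ s, LM O M k (f i)) :
    LM O M (s.card * k) (∏ i ∈ s, f i) := by
  classical
  induction s using Finset.induction_on with
  | empty => simpa using LM.one
  | insert a s ha ih =>
    rw [Finset.prod_insert ha, Finset.card_insert_of_notMem ha, Nat.succ_mul, add_comm]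
    exact (h a (Finset.mem_insert_self _ _)).mul (ih fun i hi => h i (Finset.mem_insert_of_mem hi))

variable (O M) in
/-- the stabiliser of the `q`-expansion prime in level `M` -/
def St : Subgroup SL(2, ℤ) where
  carrier := {γ | ∀ (k : ℕ) (F : X → ℂ), LM O M k F → (Two O (res F) ↔ Two O (res (sl F (sG γ))))}
  one_mem' := by
    intro k F _
    rw [sG_one, sl_one_right]
  mul_mem' := by
    intro a b ha hb k F hF
    rw [ha k F hF, hb k _ (hF.slSL a), sG_mul, sl_mul_right]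
  inv_mem' := by
    intro a ha k F hF
    have := ha k _ (hF.slSL a⁻¹)
    rw [this, ← sl_mul_right, ← sG_mul, inv_mul_cancel, sG_one, sl_one_right]


lemma Gamma_le_St : Gamma M ≤ St O M := by
  intro γ hγ k F hF
  rw [hF.inv hγ]

lemma mem_St_of_imp {γ : SL(2, ℤ)} (h : ∀ (k : ℕ) (F : X → ℂ), LM O M k F → Two O (res F) →
    Two O (res (sl F (sG γ)))) : γ ∈ St O M := by
  intro k F hF
  refine ⟨h k F hF, fun h2 => ?_⟩
  obtain ⟨n, hn, _, hmem⟩ := Subgroup.exists_pow_mem_of_index_ne_zero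
    (Subgroup.FiniteIndex.index_ne_zero (H := Gamma M)) γ
  have key : ∀ (j : ℕ) (G : X → ℂ), LM O M k G → Two O (res G) → Two O (res (sl G (sG (γ ^ j)))) := by
    intro j
    induction j with
    | zero => intro G hG h0; rw [pow_zero, sG_one, sl_one_right]; exact h0
    | succ j ih =>
      intro G hG h0
      rw [pow_succ, sG_mul, sl_mul_right]
      exact h k _ (hG.slSL _) (ih G hG h0)
  obtain ⟨m, rfl⟩ := Nat.exists_eq_succ_of_ne_zero hn.ne'
  have := key m _ (hF.slSL γ) h2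
  rw [← sl_mul_right, ← sG_mul, ← pow_succ', hF.inv hmem] at this
  exact this

/-- separation from one element outside of the stabiliser -/
lemma exists_sep {γ : SL(2, ℤ)} (hγ : γ ∉ St O M) : ∃ (k : ℕ) (F : X → ℂ), LM O M k F ∧
    ¬ Two O (res F) ∧ Two O (res (sl F (sG γ))) := by
  have h1 : γ⁻¹ ∉ St O M := fun h => hγ (by simpa using (St O M).inv_mem h)
  have h2 : ¬ ∀ (k : ℕ) (F : X → ℂ), LM O M k F → Two O (res F) → Two O (res (sl F (sG γ⁻¹))) :=
    fun h => h1 (mem_St_of_imp h)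
  push Not at h2
  obtain ⟨k, F, hF, h3, h4⟩ := h2
  refine ⟨k, sl F (sG γ⁻¹), hF.slSL _, h4, ?_⟩
  rw [← sl_mul_right, ← sG_mul, inv_mul_cancel, sG_one, sl_one_right]
  exact h3

lemma sl_congr_mod {k : ℕ} {F : X → ℂ} (hF : LM O M k F) {γ γ' : SL(2, ℤ)}
    (h : (γ : SL(2, ℤ) ⧸ Gamma M) = (γ' : SL(2, ℤ) ⧸ Gamma M)) : sl F (sG γ) = sl F (sG γ') := by
  rw [QuotientGroup.eq] at h
  have h2 : γ' = (γ * (γ⁻¹ * γ') * γ⁻¹) * γ := by group
  have h3 : γ * (γ⁻¹ * γ') * γ⁻¹ ∈ Gamma M := Subgroup.Normal.conj_mem inferInstance _ h γ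
  rw [h2, sG_mul, sl_mul_right, hF.inv h3]

lemma out_mem_St {γ : SL(2, ℤ)} : ((γ : SL(2, ℤ) ⧸ Gamma M).out ∈ St O M) ↔ γ ∈ St O M := by
  obtain ⟨δ, hδ⟩ := QuotientGroup.mk_out_eq_mul (Gamma M) γ
  rw [hδ]
  exact Subgroup.mul_mem_cancel_right _ (Gamma_le_St δ.2)

end

section
variable {O : Subring ℂ} (hprime : ∀ a ∈ O, ∀ b ∈ O, a * b ∈ twO O → a ∈ twO O ∨ b ∈ twO O)
  (hone : (1 : ℂ) ∉ twO O)

include hone in
lemma not_Two_one : ¬ Two O (res 1) := by
  intro h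
  rw [Two_iff] at h
  have := h 0
  rw [res_one, qf_one, HahnSeries.coeff_one, if_pos rfl] at this
  exact hone this

include hprime hone in
lemma not_Two_prod {ι : Type*} (s : Finset ι) {f : ι → X → ℂ} (h : ∀ i ∈ s, res (f i) ∈ IntO O)
    (h' : ∀ i ∈ s, ¬ Two O (res (f i))) :
    res (∏ i ∈ s, f i) ∈ IntO O ∧ ¬ Two O (res (∏ i ∈ s, f i)) := by
  classical
  induction s using Finset.induction_on with
  | empty =>
    rw [Finset.prod_empty]
    exact ⟨by rw [res_one]; exact one_mem _, not_Two_one hone⟩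
  | insert a s ha ih =>
    obtain ⟨h1, h2⟩ := ih (fun i hi => h i (Finset.mem_insert_of_mem hi))
      (fun i hi => h' i (Finset.mem_insert_of_mem hi))
    rw [Finset.prod_insert ha, res_mul]
    refine ⟨mul_mem (h a (Finset.mem_insert_self _ _)) h1, fun hc => ?_⟩
    rcases Two_prime hprime (h a (Finset.mem_insert_self _ _)) h1 hc with h3 | h3
    · exact h' a (Finset.mem_insert_self _ _) h3
    · exact h2 h3

variable {M : ℕ} [NeZero M]

include hprime hone in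
lemma exists_sep_finset (T : Finset SL(2, ℤ)) (hT : ∀ γ ∈ T, γ ∉ St O M) :
    ∃ (k : ℕ) (F : X → ℂ), LM O M k F ∧ ¬ Two O (res F) ∧ ∀ γ ∈ T, Two O (res (sl F (sG γ))) := by
  classical
  induction T using Finset.induction_on with
  | empty => exact ⟨0, 1, LM.one, not_Two_one hone, by simp⟩
  | insert a T ha ih =>
    obtain ⟨k, F, h1, h2, h3⟩ := ih fun γ hγ => hT γ (Finset.mem_insert_of_mem hγ)
    obtain ⟨l, G, h4, h5, h6⟩ := exists_sep (hT a (Finset.mem_insert_self _ _))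
    refine ⟨k + l, F * G, h1.mul h4, ?_, ?_⟩
    · rw [res_mul]
      intro hc
      rcases Two_prime hprime h1.int h4.int hc with h | h
      · exact h2 h
      · exact h5 h
    · intro γ hγ
      rw [sl_mul, res_mul]
      rcases Finset.mem_insert.1 hγ with rfl | hγ
      · exact Two.mul (h1.slSL γ).int (h4.slSL γ).int.1 h6
      · rw [mul_comm]
        exact Two.mul (h4.slSL γ).int (h1.slSL γ).int.1 (h3 γ hγ)

include hprime hone in
/-- separating element, no invariance yet -/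
lemma exists_s0 : ∃ (k : ℕ) (F : X → ℂ), LM O M k F ∧ ¬ Two O (res F) ∧
    ∀ γ : SL(2, ℤ), γ ∉ St O M → Two O (res (sl F (sG γ))) := by
  classical
  have : Fintype (SL(2, ℤ) ⧸ Gamma M) := Fintype.ofFinite _
  let T : Finset SL(2, ℤ) := (Finset.univ.image
    (fun c : SL(2, ℤ) ⧸ Gamma M => c.out)).filter (fun γ => γ ∉ St O M)
  obtain ⟨k, F, h1, h2, h3⟩ := exists_sep_finset hprime hone T (fun γ hγ => (Finset.mem_filter.1 hγ).2)
  refine ⟨k, F, h1, h2, fun γ hγ => ?_⟩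
  have h4 : (γ : SL(2, ℤ) ⧸ Gamma M).out ∈ T := by
    rw [Finset.mem_filter]
    refine ⟨Finset.mem_image_of_mem _ (Finset.mem_univ _), ?_⟩
    rwa [out_mem_St]
  have h5 := h3 _ h4
  rwa [sl_congr_mod h1 (γ := (γ : SL(2, ℤ) ⧸ Gamma M).out) (γ' := γ) (QuotientGroup.out_eq' _)] at h5

include hprime hone in
/-- separating invariant element -/
lemma exists_s : ∃ (k : ℕ) (F : X → ℂ), LM O M k F ∧ ¬ Two O (res F) ∧
    (∀ γ : SL(2, ℤ), γ ∉ St O M → Two O (res (sl F (sG γ)))) ∧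
    (∀ γ ∈ St O M, sl F (sG γ) = F) := by
  classical
  have : Fintype (SL(2, ℤ) ⧸ Gamma M) := Fintype.ofFinite _
  obtain ⟨k, F, h1, h2, h3⟩ := exists_s0 (M := M) hprime hone
  let φ : SL(2, ℤ) ⧸ Gamma M → (X → ℂ) := fun c => sl F (sG c.out)
  have hφ : ∀ γ : SL(2, ℤ), φ γ = sl F (sG γ) := fun γ => sl_congr_mod h1 (QuotientGroup.out_eq' _)
  have hφsl : ∀ (c : SL(2, ℤ) ⧸ Gamma M) (h : SL(2, ℤ)), sl (φ c) (sG h) = φ (c * (h : SL(2, ℤ) ⧸ Gamma M)) := by
    intro c h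
    obtain ⟨γ, rfl⟩ := QuotientGroup.mk_surjective c
    rw [hφ, ← sl_mul_right, ← sG_mul, ← QuotientGroup.mk_mul, hφ]
  let T : Finset (SL(2, ℤ) ⧸ Gamma M) := Finset.univ.filter (fun c => c.out ∈ St O M)
  have hT : ∀ γ : SL(2, ℤ), (γ : SL(2, ℤ) ⧸ Gamma M) ∈ T ↔ γ ∈ St O M := by
    intro γ
    rw [Finset.mem_filter]
    simp only [Finset.mem_univ, true_and]
    exact out_mem_St
  have hLM : ∀ c, LM O M k (φ c) := fun c => h1.slSL _
  refine ⟨T.card * k, ∏ c ∈ T, φ c, LM.prod T fun c _ => hLM c, ?_, ?_, ?_⟩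
  · refine (not_Two_prod hprime hone T (fun c _ => (hLM c).int) ?_).2
    intro c hc hcon
    obtain ⟨γ, rfl⟩ := QuotientGroup.mk_surjective c
    rw [hφ] at hcon
    exact h2 (((hT γ).1 hc k F h1).2 hcon)
  · intro γ hγ
    have h1T : (1 : SL(2, ℤ) ⧸ Gamma M) ∈ T := (hT 1).2 (one_mem _)
    rw [← Finset.mul_prod_erase T φ h1T, sl_mul, res_mul, mul_comm]
    apply Two.mul
    · have : LM O M ((T.erase 1).card * k) (∏ x ∈ T.erase 1, φ x) := LM.prod _ fun c _ => hLM c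
      exact (this.slSL γ).int
    · exact ((hLM 1).slSL γ).int.1
    · have : φ 1 = F := by
        have := hφ 1
        rw [sG_one, sl_one_right] at this
        exact this
      rw [this]
      exact h3 γ hγ
  · intro h hh
    have e1 : sl (∏ c ∈ T, φ c) (sG h) = ∏ c ∈ T, sl (φ c) (sG h) := map_prod (slHom (sG h)) φ T
    rw [e1]
    simp only [hφsl]
    apply Finset.prod_equiv (Equiv.mulRight (h : SL(2, ℤ) ⧸ Gamma M))
    · intro c
      obtain ⟨γ, rfl⟩ := QuotientGroup.mk_surjective c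
      change (γ : SL(2, ℤ) ⧸ Gamma M) ∈ T ↔ ((γ * h : SL(2, ℤ)) : SL(2, ℤ) ⧸ Gamma M) ∈ T
      rw [hT, hT]
      exact (Subgroup.mul_mem_cancel_right _ hh).symm
    · intro c _
      rfl

lemma MX_one_of_inv {k : ℕ} {F : X → ℂ} (hF : F ∈ MX M k) (h : ∀ γ : SL(2, ℤ), sl F (sG γ) = F) :
    F ∈ MX 1 k := by
  rw [mem_MX_iff] at hF ⊢
  exact ⟨hF.1, fun γ _ => h γ, hF.2.2⟩

/-- trace from `St` to `SL₂(ℤ)` -/
lemma exists_trace {k : ℕ} {F : X → ℂ} (hF : LM O M k F)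
    (h1 : ∀ γ : SL(2, ℤ), γ ∉ St O M → Two O (res (sl F (sG γ))))
    (h2 : ∀ γ ∈ St O M, sl F (sG γ) = F) :
    ∃ A : X → ℂ, A ∈ MX 1 k ∧ res A ∈ IntO O ∧ Two O (res (A - F)) := by
  classical
  have : (St O M).FiniteIndex := Subgroup.finiteIndex_of_le Gamma_le_St
  have : Fintype (SL(2, ℤ) ⧸ St O M) := Fintype.ofFinite _
  let ψ : SL(2, ℤ) ⧸ St O M → (X → ℂ) := fun c => sl F (sG (c.out)⁻¹)
  have hψ : ∀ γ : SL(2, ℤ), ψ γ = sl F (sG γ⁻¹) := by
    intro γ
    obtain ⟨δ, hδ⟩ := QuotientGroup.mk_out_eq_mul (St O M) γ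
    change sl F (sG ((γ : SL(2, ℤ) ⧸ St O M).out)⁻¹) = _
    rw [hδ, _root_.mul_inv_rev, sG_mul, sl_mul_right, h2 _ ((St O M).inv_mem δ.2)]
  have hψsl : ∀ (c : SL(2, ℤ) ⧸ St O M) (g : SL(2, ℤ)), sl (ψ c) (sG g) = ψ (g⁻¹ • c) := by
    intro c g
    obtain ⟨γ, rfl⟩ := QuotientGroup.mk_surjective c
    rw [hψ, ← sl_mul_right, ← sG_mul]
    have : (g⁻¹ • (γ : SL(2, ℤ) ⧸ St O M)) = ((g⁻¹ * γ : SL(2, ℤ)) : SL(2, ℤ) ⧸ St O M) := rfl
    rw [this, hψ, _root_.mul_inv_rev, inv_inv]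
  have hLM : ∀ c, LM O M k (ψ c) := fun c => hF.slSL _
  have hsum : LM O M k (∑ c, ψ c) := ⟨sum_mem fun c _ => (hLM c).1, sum_mem fun c _ => (hLM c).2⟩
  refine ⟨∑ c, ψ c, MX_one_of_inv hsum.1 ?_, hsum.int, ?_⟩
  · intro g
    have e1 : sl (∑ c, ψ c) (sG g) = ∑ c, sl (ψ c) (sG g) := map_sum (slHom (sG g)) ψ Finset.univ
    rw [e1]
    simp only [hψsl]
    exact Equiv.sum_comp (MulAction.toPerm g⁻¹) ψ
  · have e0 : ψ ((1 : SL(2, ℤ)) : SL(2, ℤ) ⧸ St O M) = F := by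
      rw [hψ, inv_one, sG_one, sl_one_right]
    have e2 : ∑ c, ψ c - F = ∑ c ∈ Finset.univ.erase ((1 : SL(2, ℤ)) : SL(2, ℤ) ⧸ St O M), ψ c := by
      rw [← Finset.add_sum_erase _ ψ (Finset.mem_univ ((1 : SL(2, ℤ)) : SL(2, ℤ) ⧸ St O M)), e0]
      ring
    rw [e2, Lat.res_sum]
    have : ∀ (s : Finset (SL(2, ℤ) ⧸ St O M)), ((1 : SL(2, ℤ)) : SL(2, ℤ) ⧸ St O M) ∉ s →
        (∑ c ∈ s, res (ψ c)) ∈ PO ∧ Two O (∑ c ∈ s, res (ψ c)) := by
      intro s
      induction s using Finset.induction_on with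
      | empty =>
        intro _
        rw [Finset.sum_empty]
        refine ⟨zero_mem _, fun r => ⟨0, zero_mem _, ?_⟩⟩
        rw [qf_zero]; simp
      | insert a s ha ih =>
        intro hs
        rw [Finset.mem_insert, not_or] at hs
        obtain ⟨i1, i2⟩ := ih hs.2
        rw [Finset.sum_insert ha]
        refine ⟨add_mem (hLM a).int.1 i1, Two.add (hLM a).int.1 i1 ?_ i2⟩
        obtain ⟨γ, rfl⟩ := QuotientGroup.mk_surjective a
        rw [hψ]
        apply h1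
        intro hcon
        apply hs.1
        rw [QuotientGroup.eq]
        simpa using (St O M).inv_mem hcon
    exact (this _ (Finset.notMem_erase _ _)).2

/-- vanishing orders add -/
lemma coeff_mul_zero {c c' : HahnSeries ℚ ℂ} {a b : ℚ} (h : ∀ r < a, c.coeff r = 0)
    (h' : ∀ r < b, c'.coeff r = 0) : ∀ r < a + b, (c * c').coeff r = 0 := by
  intro r hr
  rw [HahnSeries.coeff_mul]
  apply Finset.sum_eq_zero
  rintro ⟨i, j⟩ hij
  rw [Finset.mem_antidiagonal] at hij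
  obtain ⟨_, _, hsum⟩ := hij
  simp only at hsum
  rcases lt_or_ge i a with hi | hi
  · simp [h i hi]
  · simp [h' j (by linarith)]

lemma coeff_pow_zero {c : HahnSeries ℚ ℂ} {a : ℚ} (h : ∀ r < a, c.coeff r = 0) (n : ℕ) :
    ∀ r < n * a, (c ^ n).coeff r = 0 := by
  induction n with
  | zero =>
    intro r hr
    rw [pow_zero, HahnSeries.coeff_one, if_neg]
    intro h0
    rw [h0] at hr
    simp at hr
  | succ n ih =>
    intro r hr
    rw [pow_succ]
    apply coeff_mul_zero ih h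
    push_cast at hr
    linarith

include hprime hone in
/-- the order argument -/
theorem exists_not_dvd
    (hord : ∀ (k : ℕ) (A : X → ℂ), A ∈ MX 1 k → res A ∈ IntO O → ¬ Two O (res A) →
      ∃ n : ℕ, 12 * n ≤ k ∧ (qf (res A)).coeff (n : ℚ) ∉ twO O)
    {l : ℕ} (hl : 2 ≤ l) {x : X → ℂ} (hx : LM O M 12 x)
    (hxinv : ∀ γ : SL(2, ℤ), ((l : ℤ) ∣ γ 1 0) → sl x (sG γ) = x)
    (hx0 : ∀ r < (l : ℚ), (qf (res x)).coeff r = 0) (hx2 : ¬ Two O (res x)) :
    ∃ γ ∈ St O M, ¬ ((l : ℤ) ∣ γ 1 0) := by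
  by_contra hcon
  push Not at hcon
  obtain ⟨w, s, h1, h2, h3, h4⟩ := exists_s (M := M) hprime hone
  set n := w + 1 with hn
  have hxn := hx.pow n
  have hF : LM O M (w + n * 12) (s * x ^ n) := h1.mul hxn
  have hpow : res (x ^ n) = res x ^ n := map_pow resHom x n
  have hxn2 : ¬ Two O (res (x ^ n)) := by
    have := (not_Two_prod hprime hone (Finset.range n) (f := fun _ => x) (fun _ _ => hx.int)
      (fun _ _ => hx2)).2
    rwa [Finset.prod_const, Finset.card_range] at this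
  have hF2 : ¬ Two O (res (s * x ^ n)) := by
    rw [res_mul]
    intro hc
    rcases Two_prime hprime h1.int hxn.int hc with h | h
    · exact h2 h
    · exact hxn2 h
  have hinvx : ∀ γ ∈ St O M, sl (x ^ n) (sG γ) = x ^ n := by
    intro γ hγ
    have : sl (x ^ n) (sG γ) = (sl x (sG γ)) ^ n := map_pow (slHom (sG γ)) x n
    rw [this, hxinv γ (hcon γ hγ)]
  obtain ⟨A, hA1, hA2, hA3⟩ := exists_trace hF
    (fun γ hγ => by
      rw [sl_mul, res_mul, mul_comm]
      exact Two.mul (hxn.slSL γ).int (h1.slSL γ).int.1 (h3 γ hγ))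
    (fun γ hγ => by rw [sl_mul, h4 γ hγ, hinvx γ hγ])
  have hAF : ¬ Two O (res A) := by
    intro hc
    apply hF2
    have e : res (s * x ^ n) = res A - res (A - s * x ^ n) := by
      rw [res_sub]; ring
    rw [e]
    exact Two.sub hA2.1 (by rw [res_sub]; exact sub_mem hA2.1 hF.int.1) hc hA3
  obtain ⟨m, hm1, hm2⟩ := hord _ A hA1 hA2 hAF
  have hm3 : (qf (res (s * x ^ n))).coeff (m : ℚ) ≠ 0 := by
    intro h0
    apply hm2
    have e : res A = res (A - s * x ^ n) + res (s * x ^ n) := by rw [res_sub]; ring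
    rw [e, qf_add (by rw [res_sub]; exact sub_mem hA2.1 hF.int.1) hF.int.1, HahnSeries.coeff_add, h0,
      add_zero]
    exact Two_iff.1 hA3 _
  have hm4 : ((n : ℚ) * l) ≤ m := by
    by_contra hlt
    push Not at hlt
    apply hm3
    rw [res_mul, qf_mul h1.int.1 hxn.int.1, hpow]
    have e : qf (res x ^ n) = (qf (res x)) ^ n := by
      have := map_pow qx ⟨res x, hx.int.1⟩ n
      exact this
    rw [e]
    have := coeff_mul_zero (c := qf (res s)) (c' := (qf (res x)) ^ n) (a := 0) (b := n * l)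
      (fun r hr => qf_coeff_neg h1.int.1 hr) (coeff_pow_zero hx0 n) (m : ℚ) (by linarith)
    exact this
  have hm5 : n * l ≤ m := by exact_mod_cast hm4
  have : n * 2 ≤ n * l := Nat.mul_le_mul_left _ hl
  omega

end

end Crest.Agent.R007.Dsec
end

-- ▼ part R007/DLev
section

/-! Row 7, section D: order bound in level one mod 2, the form `Δ(lτ)`, the theorem. -/

set_option autoImplicit false

namespace Crest.Agent.R007.Dsec

open UpperHalfPlane ModularForm CongruenceSubgroup Matrix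
open Crest.Agent.R007.Lat Crest.Agent.R007.Mix Crest.Agent.R007.Rat
open scoped MatrixGroups Manifold ModularForm

lemma twO_smul {O : Subring ℂ} {c x : ℂ} (hc : c ∈ twO O) (hx : x ∈ O) : c * x ∈ twO O := by
  rw [mul_comm]; exact twO_mul hx hc

/-- the order bound for level one forms mod 2 -/
theorem ordF (O : Subring ℂ) : ∀ (m : ℕ) (k : ℤ), k < m →
    ∀ f, IsF 1 k f → CoeffIn O (qe 1 f) → (∀ n : ℕ, 12 * (n : ℤ) ≤ k → (qe 1 f).coeff n ∈ twO O) →
      ∀ n, (qe 1 f).coeff n ∈ twO O := by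
  intro m
  induction m using Nat.strong_induction_on with
  | _ m ih =>
    intro k hkm f hf hO h2
    have hzero : f = 0 → ∀ n, (qe 1 f).coeff n ∈ twO O := by
      rintro rfl n
      rw [qe_zero]; simp
    rcases lt_or_ge k 0 with hneg | hnn
    · exact hzero (ModularFormClass.levelOne_neg_weight_eq_zero hneg hf.toSL)
    rcases Int.even_or_odd k with hev | hodd
    swap
    · have := ModularForm.levelOne_odd_weight_eq_zero hodd hf.toSL
      have h2 : (hf.toSL : ℍ → ℂ) = 0 := by rw [this]; rfl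
      exact hzero h2
    lift k to ℕ using hnn
    have hevk : Even k := by exact_mod_cast hev
    have h20 : (qe 1 f).coeff 0 ∈ twO O := h2 0 (by simp)
    rcases Nat.lt_or_ge k 3 with hk3 | hk3
    · interval_cases k
      · -- weight 0
        have hf' : IsF 1 0 f := by simpa using hf
        obtain ⟨c, hc⟩ := ModularFormClass.levelOne_weight_zero_const hf'.toSL
        have hfc : f = c • (1 : ℍ → ℂ) := by
          have : f = Function.const _ c := hc
          rw [this]; funext z; simp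
        have hcO : c ∈ twO O := by
          have := h20
          rw [hfc, qe_smul IsF.one, qe_one] at this
          simpa using this
        intro n
        rw [hfc, qe_smul IsF.one, qe_one, PowerSeries.coeff_smul, PowerSeries.coeff_one, smul_eq_mul]
        split_ifs
        · rw [mul_one]; exact hcO
        · rw [mul_zero]; exact zero_mem _
      · exact absurd hevk (by decide)
      · have hf' : IsF 1 2 f := by simpa using hf
        have := rank_zero_iff_forall_zero.mp ModularForm.levelOne_weight_two_rank_zero hf'.toSL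
        have h2 : (hf'.toSL : ℍ → ℂ) = 0 := by rw [this]; rfl
        exact hzero h2
    -- weight ≥ 4, even
    obtain ⟨a, b, hb, hab⟩ : ∃ a b : ℕ, b ≤ 1 ∧ 4 * a + 6 * b = k := by
      obtain ⟨r, hr⟩ := hevk
      rcases Nat.even_or_odd r with ⟨t, ht⟩ | ⟨t, ht⟩
      · exact ⟨t, 0, by norm_num, by omega⟩
      · exact ⟨t - 1, 1, le_refl _, by omega⟩
    set c₀ : ℂ := (qe 1 f).coeff 0 with hc₀
    have hc₀O : c₀ ∈ O := hO 0
    have hmon : IsR O 1 k (mon a b 0) := (isR_mon a b 0).cast (by push_cast; omega)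
    have hmonq : CoeffIn O (qe 1 (mon a b 0)) := by
      have := hmon.coeff 1
      simpa using this
    have hG : IsF 1 k (f + (-c₀) • mon a b 0) := hf.add (hmon.isF.smul _)
    have hGq : qe 1 (f + (-c₀) • mon a b 0) = qe 1 f + (-c₀) • qe 1 (mon a b 0) := by
      rw [qe_add hf (hmon.isF.smul _), qe_smul hmon.isF]
    have hG0 : (qExpansion 1 (hG.toSL : ℍ → ℂ)).coeff 0 = 0 := by
      rw [IsF.coe_toSL, ← qe_one_eq, hGq, map_add, PowerSeries.coeff_smul, coeff_zero_mon, ← hc₀]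
      simp
    let g := CuspForm.discriminantEquiv (ModularForm.toCuspForm hG.toSL hG0)
    have hg : IsF 1 ((k : ℤ) - 12) g := isF_of_SL g
    have h5 : f + (-c₀) • mon a b 0 = dl * (g : ℍ → ℂ) := by
      have := ModularForm.discriminant_mul_discriminantEquiv (ModularForm.toCuspForm hG.toSL hG0)
      rw [dl, this]
      funext z
      simp
    have hgq : CoeffIn O (qe 1 (g : ℍ → ℂ)) := by
      refine coeffIn_of_mul_X (d := qe 1 dl) (p := qe 1 (f + (-c₀) • mon a b 0)) coeffIn_dl ?_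
        coeff_zero_dl coeff_one_dl ?_
      · rw [hGq]
        exact hO.add (hmonq.smul (O.neg_mem hc₀O))
      · rw [h5, qe_mul isF_dl hg]
    have hp : qe 1 (f + (-c₀) • mon a b 0) = qe 1 dl * qe 1 (g : ℍ → ℂ) := by
      rw [h5, qe_mul isF_dl hg]
    have hdl : CoeffIn O (qe 1 dl) := coeffIn_dl
    have hpc : ∀ n : ℕ, 12 * (n : ℤ) ≤ k → (qe 1 (f + (-c₀) • mon a b 0)).coeff n ∈ twO O := by
      intro n hn
      rw [hGq, map_add, PowerSeries.coeff_smul, smul_eq_mul]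
      exact add_mem (h2 n hn) (twO_smul (neg_mem h20) (hmonq n))
    have hg2 : ∀ n : ℕ, 12 * (n : ℤ) ≤ (k : ℤ) - 12 → (qe 1 (g : ℍ → ℂ)).coeff n ∈ twO O := by
      intro n
      induction n using Nat.strong_induction_on with
      | _ n ihn =>
        intro hn
        have h2' : (qe 1 (f + (-c₀) • mon a b 0)).coeff (n + 1) =
            ∑ x ∈ Finset.range (n + 2), (qe 1 dl).coeff x * (qe 1 (g : ℍ → ℂ)).coeff (n + 1 - x) := by
          rw [hp, PowerSeries.coeff_mul, Finset.Nat.sum_antidiagonal_eq_sum_range_succ_mk]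
        rw [Finset.sum_range_succ', Finset.sum_range_succ'] at h2'
        simp only [coeff_zero_dl, zero_mul, add_zero, zero_add, coeff_one_dl, one_mul] at h2'
        have h3 : (qe 1 (g : ℍ → ℂ)).coeff (n + 1 - 1) = (qe 1 (f + (-c₀) • mon a b 0)).coeff (n + 1) -
            ∑ x ∈ Finset.range n, (qe 1 dl).coeff (x + 1 + 1) *
              (qe 1 (g : ℍ → ℂ)).coeff (n + 1 - (x + 1 + 1)) := by
          rw [h2']; ring
        rw [Nat.add_sub_cancel] at h3
        rw [h3]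
        refine sub_mem (hpc _ (by push_cast; omega)) (sum_mem fun x hx => twO_mul (hdl _) (ihn _ ?_ ?_))
        · have := Finset.mem_range.mp hx
          omega
        · have := Finset.mem_range.mp hx
          omega
    have hgall := ih (k + 1 - 12) (by omega) ((k : ℤ) - 12) (by omega) g hg hgq hg2
    intro n
    have h7 : qe 1 f = c₀ • qe 1 (mon a b 0) + qe 1 dl * qe 1 (g : ℍ → ℂ) := by
      rw [← hp, hGq]
      module
    rw [h7, map_add, PowerSeries.coeff_smul, smul_eq_mul, PowerSeries.coeff_mul]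
    exact add_mem (twO_smul h20 (hmonq n)) (sum_mem fun x _ => twO_mul (hdl _) (hgall _))

lemma isF_res {M : ℕ} [NeZero M] {k : ℕ} {F : X → ℂ} (hF : F ∈ MX M k) : IsF M k (res F) := by
  obtain ⟨f, rfl⟩ := hF
  rw [res_lift]
  exact IsF.of_modularForm f

lemma coeff_qf_one {f : ℍ → ℂ} (hf : f ∈ PB ((1 : ℕ) : ℝ)) (n : ℕ) :
    (qf f).coeff (n : ℚ) = (qe 1 f).coeff n := by
  have h := qf_eq' 1 odd_one hf
  rw [h]
  have := emb_coeff 1 (qExpansion ((1 : ℕ) : ℝ) f) n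
  have e : ((n : ℚ) / ((1 : ℕ) : ℚ)) = n := by simp
  rw [e] at this
  exact this

lemma coeff_qf_one_zero {f : ℍ → ℂ} (hf : f ∈ PB ((1 : ℕ) : ℝ)) {r : ℚ} (hr : ∀ n : ℕ, (n : ℚ) ≠ r) :
    (qf f).coeff r = 0 := by
  apply qf_coeff_of_notMem odd_one hf
  intro n
  rw [Nat.cast_one, div_one]
  exact hr n

/-- `hord` of `exists_not_dvd` -/
theorem ord_bound (O : Subring ℂ) (k : ℕ) (A : X → ℂ) (hA : A ∈ MX 1 k) (hO : res A ∈ IntO O)
    (hne : ¬ Two O (res A)) : ∃ n : ℕ, 12 * n ≤ k ∧ (qf (res A)).coeff (n : ℚ) ∉ twO O := by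
  by_contra hcon
  push Not at hcon
  apply hne
  have hPB := res_mem_PB hA
  have h1 := ordF O (k + 1) k (by push_cast; omega) (res A) (isF_res hA)
    (fun n => by rw [← coeff_qf_one hPB]; exact hO.2 _)
    (fun n hn => by rw [← coeff_qf_one hPB]; exact hcon n (by exact_mod_cast hn))
  rw [Two_iff]
  intro r
  by_cases hr : ∃ n : ℕ, (n : ℚ) = r
  · obtain ⟨n, rfl⟩ := hr
    rw [coeff_qf_one hPB]
    exact h1 n
  · push Not at hr
    rw [coeff_qf_one_zero hPB hr]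
    exact zero_mem _

/-! ### `Δ(lτ)` -/

/-- `Δ` on `X` -/
noncomputable def DX : X → ℂ := lift 12 dl

lemma DX_mem : DX ∈ MX 1 12 := by
  have h : IsF 1 ((12 : ℕ) : ℤ) dl := isF_dl
  exact ⟨h.toModularForm, rfl⟩

lemma DX_MO : DX ∈ MO 12 := ⟨1, odd_one, DX_mem⟩

lemma DX_inv (γ : SL(2, ℤ)) : sl DX (sG γ) = DX := by
  apply (mem_MX_iff.1 DX_mem).2.1
  rw [Gamma_one_top]; trivial

lemma res_DX : res DX = dl := res_lift _ _

lemma dl_PB : dl ∈ PB ((1 : ℕ) : ℝ) := by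
  rw [← res_DX]; exact res_mem_PB DX_mem

section
variable {O : Subring ℂ} (hodd : ∀ n : ℕ, Odd n → (n : ℂ)⁻¹ ∈ O)
  (hroot : ∀ x : ℚ, Odd x.den → ee x ∈ O)

include hodd hroot in
lemma DX_Lk : DX ∈ Lk O 12 := by
  apply Lk_of_SL hodd hroot DX_MO
  intro γ r
  rw [DX_inv, res_DX]
  by_cases hr : ∃ n : ℕ, (n : ℚ) = r
  · obtain ⟨n, rfl⟩ := hr
    rw [coeff_qf_one dl_PB]
    exact coeffIn_dl n
  · push Not at hr
    rw [coeff_qf_one_zero dl_PB hr]
    exact zero_mem _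

lemma det_l {l : ℕ} (hl : 0 < l) : 0 < (ut l 0 1).det := by
  rw [ut_det]; positivity

/-- `Δ(lτ)` -/
noncomputable def xD (l : ℕ) (hl : 0 < l) : X → ℂ := sl DX (iG (ut l 0 1) (det_l hl))

include hodd hroot in
lemma xD_LM {l : ℕ} (hl : 0 < l) (hlo : Odd l) {M : ℕ} [NeZero M] (h : l ∣ M) :
    LM O M 12 (xD l hl) := by
  have : NeZero l := ⟨hl.ne'⟩
  refine ⟨?_, ?_⟩
  · have h1 := MX_sl_iG DX_mem (ut l 0 1) (det_l hl)
    have h2 : 1 * (ut (l : ℤ) 0 1).det.natAbs = l := by rw [ut_det]; simp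
    rw [h2] at h1
    exact MX_mono h h1
  · apply Lk_sl (DX_Lk hodd hroot)
    apply iG_mem_G2
    rw [ut_det, mul_one]
    exact_mod_cast hlo

lemma xD_inv {l : ℕ} (hl : 0 < l) {γ : SL(2, ℤ)} (h : (l : ℤ) ∣ γ 1 0) :
    sl (xD l hl) (sG γ) = xD l hl := by
  obtain ⟨c, hc⟩ := h
  have hl0 : (l : ℤ) ≠ 0 := by exact_mod_cast hl.ne'
  have hdet := γ.det_coe
  rw [Matrix.det_fin_two] at hdet
  let δ : SL(2, ℤ) := ⟨!![γ 0 0, l * γ 0 1; c, γ 1 1], by
    rw [Matrix.det_fin_two_of]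
    rw [hc] at hdet
    linarith⟩
  have e : ut l 0 1 * γ.1 = δ.1 * ut l 0 1 := by
    have hγ : γ.1 = !![γ 0 0, γ 0 1; γ 1 0, γ 1 1] := by
      ext i j; fin_cases i <;> fin_cases j <;> rfl
    rw [hγ]
    change ut l 0 1 * _ = !![γ 0 0, l * γ 0 1; c, γ 1 1] * ut l 0 1
    rw [ut]
    ext i j
    fin_cases i <;> fin_cases j
    · simp [Matrix.mul_apply, Fin.sum_univ_two, mul_comm]
    · simp [Matrix.mul_apply, Fin.sum_univ_two]
    · simp [Matrix.mul_apply, Fin.sum_univ_two, hc, mul_comm]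
    · simp [Matrix.mul_apply, Fin.sum_univ_two]
  have e2 : iG (ut l 0 1) (det_l hl) * sG γ = sG δ * iG (ut l 0 1) (det_l hl) := by
    rw [sG, sG, ← iG_mul (ut l 0 1) γ.1 _ _ (by simpa using det_l hl),
      ← iG_mul δ.1 (ut l 0 1) _ _ (by simpa using det_l hl)]
    exact iG_congr e _
  rw [xD, ← sl_mul_right, e2, sl_mul_right, DX_inv]

lemma xD_coeff {l : ℕ} (hl : 0 < l) (hlo : Odd l) (s : ℚ) :
    (qf (res (xD l hl))).coeff (s * l) = (qf dl).coeff s := by
  have h1 : res (xD l hl) = fun τ => dl (iG (ut l 0 1) (det_l hl) • τ) := by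
    funext τ
    rw [xD, res_sl_ut (MO_le_Wt DX_MO), res_DX]
    simp
  have hPO : dl ∈ PO := ⟨1, odd_one, dl_PB⟩
  have hdet : 0 < (ut (l : ℤ) ((0 : ℕ) : ℤ) ((1 : ℕ) : ℤ)).det := by exact_mod_cast det_l hl
  have h2 := qf_comp_ut (a := l) (b := 0) (d := 1) hPO hlo odd_one hdet s
  have h3 : ee (s * ((0 : ℕ) : ℚ) / ((1 : ℕ) : ℚ)) = 1 := by simp [ee]
  have key : iG (ut l 0 1) (det_l hl) = iG (ut (l : ℤ) ((0 : ℕ) : ℤ) ((1 : ℕ) : ℤ)) hdet :=
    iG_congr (by simp) _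
  rw [h3, one_mul] at h2
  have e : s * l = s * l / ((1 : ℕ) : ℚ) := by simp
  rw [h1, key, e]
  exact h2

lemma xD_zero {l : ℕ} (hl : 0 < l) (hlo : Odd l) {r : ℚ} (hr : r < l) :
    (qf (res (xD l hl))).coeff r = 0 := by
  have hl0 : (0 : ℚ) < l := by exact_mod_cast hl
  have e : r = (r / l) * l := by field_simp
  rw [e, xD_coeff hl hlo]
  by_cases h : ∃ n : ℕ, (n : ℚ) = r / l
  · obtain ⟨n, hn⟩ := h
    have : n = 0 := by
      have h1 : r / l < 1 := by rw [div_lt_one hl0]; exact hr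
      rw [← hn] at h1
      have : n < 1 := by exact_mod_cast h1
      omega
    subst this
    rw [← hn, coeff_qf_one dl_PB, coeff_zero_dl]
  · push Not at h
    exact coeff_qf_one_zero dl_PB h

lemma xD_two {l : ℕ} (hl : 0 < l) (hlo : Odd l) (hone : (1 : ℂ) ∉ twO O) :
    ¬ Two O (res (xD l hl)) := by
  intro h
  rw [Two_iff] at h
  have h1 := h (1 * l)
  rw [xD_coeff hl hlo] at h1
  have h2 := coeff_qf_one dl_PB 1
  rw [Nat.cast_one] at h2
  rw [h2, coeff_one_dl] at h1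
  exact hone h1

variable (hprime : ∀ a ∈ O, ∀ b ∈ O, a * b ∈ twO O → a ∈ twO O ∨ b ∈ twO O)
  (hone : (1 : ℂ) ∉ twO O)

omit hodd hroot in
lemma T_mem_St {M : ℕ} [NeZero M] (hroot : ∀ x : ℚ, Odd x.den → ee x ∈ O) :
    ModularGroup.T ∈ St O M := by
  apply mem_St_of_imp
  intro k F hF h
  have hdet : 0 < (ut ((1 : ℕ) : ℤ) ((1 : ℕ) : ℤ) ((1 : ℕ) : ℤ)).det := by rw [ut_det]; norm_num
  have e : sG ModularGroup.T = iG (ut ((1 : ℕ) : ℤ) ((1 : ℕ) : ℤ) ((1 : ℕ) : ℤ)) hdet := by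
    rw [sG]
    exact iG_congr (by rw [ModularGroup.coe_T]; simp [ut]) _
  have h2 : res (sl F (sG ModularGroup.T)) =
      fun τ => res F (iG (ut ((1 : ℕ) : ℤ) ((1 : ℕ) : ℤ) ((1 : ℕ) : ℤ)) hdet • τ) := by
    funext τ
    rw [e, res_sl_ut (MX_le_Wt hF.1)]
    simp
  rw [Two_iff] at h ⊢
  intro r
  rw [h2]
  exact coeff_comp_ut_mem hroot (I := twO O) (fun c hc x hx => twO_mul hc hx) hF.int.1 h
    odd_one odd_one hdet r

include hodd hroot hprime hone in
theorem St_eq_top {M : ℕ} (hM : Odd M) : haveI : NeZero M := ⟨hM.pos.ne'⟩; St O M = ⊤ := by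
  have : NeZero M := ⟨hM.pos.ne'⟩
  apply DGrp.eq_top M hM.pos (St O M) Gamma_le_St (T_mem_St hroot)
  intro l hl hlM
  have hlo : Odd l := Odd.of_dvd_nat hM hlM
  exact exists_not_dvd hprime hone (ord_bound O) hl.two_le (xD_LM hodd hroot hl.pos hlo hlM)
    (fun γ h => xD_inv hl.pos h) (fun r hr => xD_zero hl.pos hlo hr) (xD_two hl.pos hlo hone)

include hodd hroot hprime hone in
/-- **Section D**: the `q`-expansion principle mod 2 in pure weight. -/
theorem D_two {k : ℕ} {F : X → ℂ} (hF : F ∈ Lk O k) (h : Two O (res F)) {g : GL(2, ℝ)⁺} (hg : g ∈ G2) :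
    Two O (res (sl F g)) := by
  obtain ⟨M, hM, hFM⟩ := hF.1
  have : NeZero M := ⟨hM.pos.ne'⟩
  apply Two_of_SL hodd hroot hF.1 _ hg
  intro γ
  have htop : St O M = ⊤ := St_eq_top hodd hroot hprime hone hM
  have hγ : γ ∈ St O M := by rw [htop]; trivial
  exact (hγ k F ⟨hFM, hF⟩).1 h

include hodd hroot hprime hone in
theorem D_half {k : ℕ} {F : X → ℂ} (hF : F ∈ Lk O k) (h : Two O (res F)) :
    ∃ G ∈ Lk O k, F = 2 * G :=
  Lk_half hF.1 fun _ hg => D_two hodd hroot hprime hone hF h hg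

end

end Crest.Agent.R007.Dsec
end

-- ▼ part R007/DThm

/-! Row 7, section D: the theorem for the coefficient ring `OO`. -/

set_option autoImplicit false

namespace Crest.Agent.R007.Dsec

open UpperHalfPlane ModularForm CongruenceSubgroup Matrix
open Crest.Agent.R007.Lat Crest.Agent.R007.Mix
open scoped MatrixGroups Manifold ModularForm

lemma OO_odd (n : ℕ) (hn : Odd n) : (n : ℂ)⁻¹ ∈ Coef.OO := Coef.inv_nat_mem hn

lemma OO_root (x : ℚ) (hx : Odd x.den) : ee x ∈ Coef.OO := by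
  apply Coef.root_mem hx
  rw [← ee_nsmul]
  have h : ((x.den : ℕ) : ℚ) * x = x.num := by
    rw [mul_comm]; exact Rat.mul_den_eq_num x
  rw [h]
  have : (2 * (Real.pi : ℂ) * Complex.I * (((x.num : ℤ) : ℚ) : ℂ)) = (x.num : ℂ) * (2 * Real.pi * Complex.I) := by
    push_cast; ring
  rw [ee, this]
  exact Complex.exp_int_mul_two_pi_mul_I _

lemma OO_prime : ∀ a ∈ Coef.OO, ∀ b ∈ Coef.OO, a * b ∈ twO Coef.OO →
    a ∈ twO Coef.OO ∨ b ∈ twO Coef.OO := by
  intro a ha b hb h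
  obtain ⟨y, hy, e⟩ := mem_twO.1 h
  have h1 : (2 : Coef.OO) ∣ (⟨a, ha⟩ : Coef.OO) * ⟨b, hb⟩ := by
    refine ⟨⟨y, hy⟩, ?_⟩
    apply Subtype.ext
    exact e
  rcases Coef.prime_two.dvd_or_dvd h1 with ⟨z, hz⟩ | ⟨z, hz⟩
  · exact Or.inl (mem_twO.2 ⟨z, z.2, congrArg Subtype.val hz⟩)
  · exact Or.inr (mem_twO.2 ⟨z, z.2, congrArg Subtype.val hz⟩)

lemma OO_one : (1 : ℂ) ∉ twO Coef.OO := by
  intro h
  obtain ⟨y, hy, e⟩ := mem_twO.1 h
  apply Coef.two_not_isUnit
  exact IsUnit.of_mul_eq_one ⟨y, hy⟩ (Subtype.ext e.symm)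


theorem D_OO_half {k : ℕ} {F : X → ℂ} (hF : F ∈ Lk Coef.OO k) (h : Two Coef.OO (res F)) :
    ∃ G ∈ Lk Coef.OO k, F = 2 * G :=
  D_half OO_odd OO_root OO_prime OO_one hF h

/-- `Link.QP Coef.OO` -/
theorem qp : ∀ (k : ℕ) (F : X → ℂ), F ∈ Lk Coef.OO k →
    (∀ r : ℚ, ∃ a ∈ Coef.OO, (qf (res F)).coeff r = 2 * a) →
      ∃ G ∈ Lk Coef.OO k, F = (2 : ℂ) • G := by
  intro k F hF h
  obtain ⟨G, hG, e⟩ := D_OO_half hF h
  exact ⟨G, hG, e.trans (two_mul_eq_smul G)⟩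

end Crest.Agent.R007.Dsec
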