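import Mathlib
import Crest.Agent.R007.BAlg3

-- ▼ part R007/Du1
section

/-!
Row 7, section B (helper707): abstract duality.
`T0` a commutative `F`-algebra with a descending chain of cofinite ideals `K k`, separated and
complete; `W0 c` = the space of functionals killing some `K k`, a `T0`-module; evaluation
`T0 → Module.Dual F (W0 c)` is bijective.
-/

set_option autoImplicit false

namespace Crest.Agent.R007.Du

/-- A descending chain of cofinite ideals, separated and complete. -/
structure Chain (F : Type*) (T0 : Type*) [Field F] [CommRing T0] [Algebra F T0] where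
  K : ℕ → Ideal T0
  anti : ∀ k, K (k + 1) ≤ K k
  fin : ∀ k, FiniteDimensional F (T0 ⧸ K k)
  sep : ∀ x, (∀ k, x ∈ K k) → x = 0
  compl : ∀ x : ℕ → T0, (∀ k, x (k + 1) - x k ∈ K k) → ∃ y, ∀ k, y - x k ∈ K k

section Duality

variable {F : Type*} {T0 : Type*} [Field F] [CommRing T0] [Algebra F T0] (c : Chain F T0)

theorem Chain.antitone : Antitone c.K := antitone_nat_of_succ_le c.anti

/-- The functionals killing some `K k`. -/
def W0sub : Submodule F (Module.Dual F T0) where
  carrier := {φ | ∃ k, ∀ x ∈ c.K k, φ x = 0}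
  zero_mem' := ⟨0, fun x _ => rfl⟩
  add_mem' := by
    rintro φ ψ ⟨k, hk⟩ ⟨l, hl⟩
    refine ⟨max k l, fun x hx => ?_⟩
    rw [LinearMap.add_apply, hk x (c.antitone (le_max_left k l) hx),
      hl x (c.antitone (le_max_right k l) hx), add_zero]
  smul_mem' := by
    rintro a φ ⟨k, hk⟩
    exact ⟨k, fun x hx => by rw [LinearMap.smul_apply, hk x hx, smul_zero]⟩

/-- The smooth dual of `T0`. -/
def W0 : Type _ := W0sub c

namespace W0

noncomputable instance : AddCommGroup (W0 c) := inferInstanceAs (AddCommGroup (W0sub c))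
noncomputable instance : Module F (W0 c) := inferInstanceAs (Module F (W0sub c))

variable {c}

/-- the functional underlying an element of `W0`. -/
def fn (w : W0 c) : Module.Dual F T0 := Subtype.val (p := fun x => x ∈ W0sub c) w

theorem ext {w w' : W0 c} (h : ∀ t, fn w t = fn w' t) : w = w' :=
  Subtype.ext (LinearMap.ext h)

theorem fn_smooth (w : W0 c) : ∃ k, ∀ x ∈ c.K k, fn w x = 0 := w.2

/-- build an element of `W0`. -/
def mk (φ : Module.Dual F T0) (h : ∃ k, ∀ x ∈ c.K k, φ x = 0) : W0 c := ⟨φ, h⟩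

@[simp] theorem fn_mk (φ : Module.Dual F T0) (h : ∃ k, ∀ x ∈ c.K k, φ x = 0) :
    fn (mk φ h) = φ := rfl

@[simp] theorem fn_add (w w' : W0 c) : fn (w + w') = fn w + fn w' := rfl
@[simp] theorem fn_zero : fn (0 : W0 c) = 0 := rfl
@[simp] theorem fn_neg (w : W0 c) : fn (-w) = - fn w := rfl
@[simp] theorem fn_sub (w w' : W0 c) : fn (w - w') = fn w - fn w' := rfl
@[simp] theorem fn_smulF (a : F) (w : W0 c) : fn (a • w) = a • fn w := rfl

noncomputable instance : SMul T0 (W0 c) where
  smul t w := mk ((fn w) ∘ₗ LinearMap.mulLeft F t) (by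
    obtain ⟨k, hk⟩ := fn_smooth w
    exact ⟨k, fun x hx => hk _ ((c.K k).mul_mem_left t hx)⟩)

@[simp] theorem fn_smul (t : T0) (w : W0 c) (x : T0) : fn (t • w) x = fn w (t * x) := rfl

noncomputable instance : Module T0 (W0 c) where
  one_smul w := ext fun x => by simp
  mul_smul s t w := ext fun x => by
    rw [fn_smul, fn_smul, fn_smul]; congr 1; ring
  smul_zero t := ext fun x => by simp
  smul_add t w w' := ext fun x => by simp
  add_smul s t w := ext fun x => by simp [add_mul]
  zero_smul w := ext fun x => by simp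

instance : IsScalarTower F T0 (W0 c) where
  smul_assoc a t w := ext fun x => by
    rw [fn_smul, fn_smulF, LinearMap.smul_apply, fn_smul, smul_mul_assoc, map_smul]

instance : SMulCommClass F T0 (W0 c) where
  smul_comm a t w := ext fun x => by
    rw [fn_smulF, LinearMap.smul_apply, fn_smul, fn_smul, fn_smulF, LinearMap.smul_apply]

end W0

/-- evaluation `T0 → (W0)^*`. -/
def evD (t : T0) : Module.Dual F (W0 c) where
  toFun w := W0.fn w t
  map_add' _ _ := rfl
  map_smul' _ _ := rfl

@[simp] theorem evD_apply (t : T0) (w : W0 c) : evD c t w = W0.fn w t := rfl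


/-- The element of `W0` given by a functional on `T0 ⧸ K k`. -/
noncomputable def ofLevel (k : ℕ) : Module.Dual F (T0 ⧸ c.K k) →ₗ[F] W0 c where
  toFun ψ := W0.mk (ψ ∘ₗ (Ideal.Quotient.mkₐ F (c.K k)).toLinearMap) ⟨k, fun x hx => by
    have : Ideal.Quotient.mk (c.K k) x = 0 := Ideal.Quotient.eq_zero_iff_mem.mpr hx
    rw [LinearMap.comp_apply, AlgHom.toLinearMap_apply, Ideal.Quotient.mkₐ_eq_mk, this, map_zero]⟩
  map_add' _ _ := rfl
  map_smul' _ _ := rfl

theorem fn_ofLevel (k : ℕ) (ψ : Module.Dual F (T0 ⧸ c.K k)) (x : T0) :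
    W0.fn (ofLevel c k ψ) x = ψ (Ideal.Quotient.mk _ x) := rfl

theorem exists_ofLevel (w : W0 c) (k : ℕ) (hk : ∀ x ∈ c.K k, W0.fn w x = 0) :
    ∃ ψ, ofLevel c k ψ = w := by
  have key : ∀ a b : T0, Ideal.Quotient.mk (c.K k) a = Ideal.Quotient.mk (c.K k) b →
      W0.fn w a = W0.fn w b := by
    intro a b h
    rw [← sub_eq_zero, ← map_sub]
    exact hk _ (Ideal.Quotient.eq.mp h)
  have hout : ∀ q : T0 ⧸ c.K k, Ideal.Quotient.mk (c.K k) (Quotient.out q) = q :=
    fun q => Quotient.out_eq q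
  refine ⟨{ toFun := fun q => W0.fn w (Quotient.out q), map_add' := fun a b => ?_,
            map_smul' := fun r a => ?_ }, ?_⟩
  · rw [← map_add]
    apply key
    rw [hout, map_add, hout, hout]
  · rw [RingHom.id_apply, ← map_smul]
    apply key
    rw [hout]
    have : Ideal.Quotient.mk (c.K k) (r • Quotient.out a) =
      r • Ideal.Quotient.mk (c.K k) (Quotient.out a) := rfl
    rw [this, hout]
  · apply W0.ext
    intro x
    rw [fn_ofLevel]
    exact key _ _ (hout _)

theorem evD_injective : Function.Injective (evD c) := by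
  have key : ∀ t : T0, (∀ w : W0 c, W0.fn w t = 0) → t = 0 := by
    intro t ht
    apply c.sep
    intro k
    rw [← Ideal.Quotient.eq_zero_iff_mem, ← Module.forall_dual_apply_eq_zero_iff F]
    intro ψ
    have := ht (ofLevel c k ψ)
    rwa [fn_ofLevel] at this
  intro s t hst
  rw [← sub_eq_zero]
  apply key
  intro w
  have := LinearMap.congr_fun hst w
  simp only [evD_apply] at this
  rw [map_sub, this, sub_self]

theorem evD_surjective : Function.Surjective (evD c) := by
  intro Φ
  have h1 : ∀ k, ∃ x : T0, ∀ ψ : Module.Dual F (T0 ⧸ c.K k),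
      ψ (Ideal.Quotient.mk _ x) = Φ (ofLevel c k ψ) := by
    intro k
    have := c.fin k
    obtain ⟨q, hq⟩ := (Module.evalEquiv F (T0 ⧸ c.K k)).surjective (Φ ∘ₗ ofLevel c k)
    obtain ⟨x, rfl⟩ := Ideal.Quotient.mk_surjective q
    refine ⟨x, fun ψ => ?_⟩
    have := LinearMap.congr_fun hq ψ
    rw [Module.evalEquiv_apply] at this
    exact this
  choose x hx using h1
  have h2 : ∀ k (w : W0 c), (∀ z ∈ c.K k, W0.fn w z = 0) → W0.fn w (x k) = Φ w := by
    intro k w hw
    obtain ⟨ψ, rfl⟩ := exists_ofLevel c w k hw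
    rw [fn_ofLevel, hx]
  obtain ⟨y, hy⟩ := c.compl x (by
    intro k
    rw [← Ideal.Quotient.eq_zero_iff_mem, ← Module.forall_dual_apply_eq_zero_iff F]
    intro ψ
    have e1 := h2 k (ofLevel c k ψ) (fun z hz => by
      rw [fn_ofLevel, Ideal.Quotient.eq_zero_iff_mem.mpr hz, map_zero])
    have e2 := h2 (k+1) (ofLevel c k ψ) (fun z hz => by
      rw [fn_ofLevel, Ideal.Quotient.eq_zero_iff_mem.mpr (c.anti k hz), map_zero])
    rw [fn_ofLevel] at e1 e2
    rw [map_sub, map_sub, e1, e2, sub_self])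
  refine ⟨y, LinearMap.ext fun w => ?_⟩
  obtain ⟨k, hk⟩ := W0.fn_smooth w
  rw [evD_apply, ← h2 k w hk, ← sub_eq_zero, ← map_sub]
  exact hk _ (hy k)



end Duality

end Crest.Agent.R007.Du
end

-- ▼ part R007/Du2

/-!
Row 7, section B (helper707): inverse limits with onto transitions; closedness of finitely
generated ideals containing 2; the chain of `T ⧸ J`.
-/

set_option autoImplicit false

open CategoryTheory

namespace Crest.Agent.R007.Du

open BAlg (IsLim)

/-- König's lemma. -/
theorem konig (S : ℕ → Type) [∀ k, Finite (S k)] [∀ k, Nonempty (S k)] (f : ∀ k, S (k + 1) → S k) :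
    ∃ s : ∀ k, S k, ∀ k, f k (s (k + 1)) = s k := by
  let G : ℕᵒᵖ ⥤ Type := Functor.ofOpSequence (X := S) (fun n => ↾(f n))
  have h1 : ∀ j, Finite (G.obj j) := fun j => inferInstanceAs (Finite (S j.unop))
  have h2 : ∀ j, Nonempty (G.obj j) := fun j => inferInstanceAs (Nonempty (S j.unop))
  obtain ⟨s, hs⟩ := nonempty_sections_of_finite_inverse_system G
  refine ⟨fun k => s (Opposite.op k), fun k => ?_⟩
  have h3 : G.map (homOfLE (Nat.le_succ k)).op = ↾(f k) :=
    Functor.ofOpSequence_map_homOfLE_succ (X := S) (fun n => ↾(f n)) k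
  have h4 := hs (homOfLE (Nat.le_succ k)).op
  rw [h3] at h4
  exact h4

section Lim

variable {T : Type*} [CommRing T] {R : ℕ → Type} [∀ k, CommRing (R k)]
  {π : ∀ k, T →+* R k} {ρ : ∀ k, R (k + 1) →+* R k}

/-- sequences compatible below `n`. -/
theorem exists_partial (ρ : ∀ k, R (k + 1) →+* R k) (k : ℕ) (r : R k) :
    ∃ b : ∀ i, R i, b k = r ∧ ∀ i, i < k → ρ i (b (i + 1)) = b i := by
  induction k with
  | zero => exact ⟨Function.update 0 0 r, by simp, fun i hi => absurd hi (Nat.not_lt_zero i)⟩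
  | succ k ih =>
    obtain ⟨b, hb, hc⟩ := ih (ρ k r)
    refine ⟨Function.update b (k + 1) r, by simp, fun i hi => ?_⟩
    rcases Nat.lt_succ_iff_lt_or_eq.mp hi with h | rfl
    · rw [Function.update_of_ne (by omega), Function.update_of_ne (by omega)]
      exact hc i h
    · rw [Function.update_self, Function.update_of_ne (by omega), hb]

/-- **Extension lemma**: lift an element through the tower inside a predicate `P`. -/
theorem exists_lift (hT : IsLim π ρ) (P : ∀ k, R k → Prop)
    (hP : ∀ k x, P k x → ∃ y, P (k + 1) y ∧ ρ k y = x) (k0 : ℕ) (r : R k0) (hr : P k0 r) :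
    ∃ x : T, π k0 x = r ∧ ∀ j, k0 ≤ j → P j (π j x) := by
  classical
  obtain ⟨b0, hb0, hc0⟩ := exists_partial ρ k0 r
  let St : ℕ → Type := fun n => {b : ∀ i, R i // (∀ i, i < k0 + n → ρ i (b (i + 1)) = b i) ∧
    P (k0 + n) (b (k0 + n))}
  have hstep : ∀ n (s : St n), ∃ s' : St (n + 1), ∀ i, i ≤ k0 + n → s'.1 i = s.1 i := by
    intro n s
    obtain ⟨y, hy1, hy2⟩ := hP _ _ s.2.2
    refine ⟨⟨Function.update s.1 (k0 + n + 1) y, fun i hi => ?_, ?_⟩, fun i hi => ?_⟩
    · rcases Nat.lt_succ_iff_lt_or_eq.mp (show i < k0 + n + 1 from hi) with h | rfl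
      · rw [Function.update_of_ne (by omega), Function.update_of_ne (by omega)]
        exact s.2.1 i h
      · rw [Function.update_self, Function.update_of_ne (by omega), hy2]
    · change P (k0 + n + 1) (Function.update s.1 (k0 + n + 1) y (k0 + n + 1))
      rw [Function.update_self]; exact hy1
    · dsimp only
      rw [Function.update_of_ne (by omega)]
  choose nxt hnxt using hstep
  let s0 : St 0 := ⟨b0, fun i hi => hc0 i hi, by
    change P k0 (b0 k0)
    rw [hb0]; exact hr⟩
  let s : ∀ n, St n := fun n => Nat.rec s0 (fun n s => nxt n s) n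
  have hs : ∀ n i, i ≤ k0 + n → (s (n + 1)).1 i = (s n).1 i := fun n i hi => hnxt n (s n) i hi
  have hs' : ∀ m n i, i ≤ k0 + n → (s (n + m)).1 i = (s n).1 i := by
    intro m
    induction m with
    | zero => intro n i _; rfl
    | succ m ih => intro n i hi; rw [← ih n i hi]; exact hs (n + m) i (by omega)
  obtain ⟨x, hx⟩ := hT.lift (fun i => (s i).1 i) (fun i => by
    have h1 := (s (i + 1)).2.1 i (by omega)
    rw [h1, ← hs' 1 i i (by omega)])
  refine ⟨x, ?_, fun j hj => ?_⟩
  · rw [hx]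
    have := hs' k0 0 k0 (by omega)
    rw [zero_add] at this
    rw [this]
    exact hb0
  · rw [hx]
    obtain ⟨n, rfl⟩ := Nat.exists_eq_add_of_le hj
    have h1 := hs' k0 n (k0 + n) le_rfl
    rw [add_comm n k0] at h1
    rw [h1]
    exact (s n).2.2

theorem pi_surjective (hT : IsLim π ρ) (hρ : ∀ k, Function.Surjective (ρ k)) (k : ℕ) :
    Function.Surjective (π k) := by
  intro r
  obtain ⟨x, hx, _⟩ := exists_lift hT (fun _ _ => True)
    (fun k x _ => by obtain ⟨y, hy⟩ := hρ k x; exact ⟨y, trivial, hy⟩) k r trivial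
  exact ⟨x, hx⟩

/-- kernels of the projections. -/
theorem ker_anti (hT : IsLim π ρ) (k : ℕ) : RingHom.ker (π (k + 1)) ≤ RingHom.ker (π k) := by
  intro x hx
  rw [RingHom.mem_ker] at hx ⊢
  rw [← hT.comp, hx, map_zero]

/-- elements of `T` congruent to given compatible classes modulo 2. -/
theorem exists_mod (hT : IsLim π ρ) (hρ : ∀ k, Function.Surjective (ρ k))
    (v : ∀ k, R k ⧸ Ideal.span {(2 : R k)})
    (hv : ∀ k (r : R (k + 1)), Ideal.Quotient.mk _ r = v (k + 1) →
      Ideal.Quotient.mk _ (ρ k r) = v k) :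
    ∃ x : T, ∀ k, Ideal.Quotient.mk _ (π k x) = v k := by
  obtain ⟨r0, hr0⟩ := Ideal.Quotient.mk_surjective (v 0)
  obtain ⟨x, -, hx⟩ := exists_lift hT (fun k r => Ideal.Quotient.mk _ r = v k) (by
    intro k x hx
    obtain ⟨b, hb⟩ := Ideal.Quotient.mk_surjective (v (k + 1))
    have h1 := hv k b hb
    have h2 : ρ k b - x ∈ Ideal.span {(2 : R k)} := by
      rw [← Ideal.Quotient.eq_zero_iff_mem, map_sub, h1, hx, sub_self]
    obtain ⟨c, hc⟩ := Ideal.mem_span_singleton'.mp h2
    obtain ⟨c', rfl⟩ := hρ k c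
    refine ⟨b - c' * 2, ?_, ?_⟩
    · have : Ideal.Quotient.mk (Ideal.span {(2 : R (k+1))}) (c' * 2) = 0 := by
        rw [Ideal.Quotient.eq_zero_iff_mem]
        exact Ideal.mul_mem_left _ _ (Ideal.mem_span_singleton_self _)
      rw [map_sub, this, sub_zero, hb]
    · rw [map_sub, map_mul, map_ofNat, hc]
      ring) 0 r0 hr0
  exact ⟨x, fun k => hx k (Nat.zero_le k)⟩

/-- an element of `T` divisible by 2 on every stage is divisible by 2. -/
theorem two_dvd (hT : IsLim π ρ) (htf : ∀ k (x : R k), 2 * x = 0 → x = 0) (x : T)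
    (hx : ∀ k, π k x ∈ Ideal.span {(2 : R k)}) : ∃ z, x = 2 * z := by
  have h1 : ∀ k, ∃ w : R k, π k x = 2 * w := by
    intro k
    obtain ⟨c, hc⟩ := Ideal.mem_span_singleton'.mp (hx k)
    exact ⟨c, by rw [← hc, mul_comm]⟩
  choose w hw using h1
  obtain ⟨z, hz⟩ := hT.lift w (fun k => by
    rw [← sub_eq_zero]
    apply htf
    rw [mul_sub, ← hw k, ← hT.comp, hw (k + 1), map_mul, map_ofNat, sub_self])
  refine ⟨z, ?_⟩
  rw [← sub_eq_zero]
  apply hT.inj
  intro k
  rw [map_sub, map_mul, map_ofNat, hz, hw, sub_self]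

/-- **Closedness** of finitely generated ideals containing 2. -/
theorem closed_span (hT : IsLim π ρ) (hρ : ∀ k, Function.Surjective (ρ k))
    (hfin : ∀ k, Finite (R k ⧸ Ideal.span {(2 : R k)}))
    (htf : ∀ k (x : R k), 2 * x = 0 → x = 0) {ι : Type} [Finite ι] (y : ι → T) (x : T)
    (hx : ∀ k, π k x ∈ Ideal.span (insert (2 : R k) (Set.range (fun i => π k (y i))))) :
    x ∈ Ideal.span (insert (2 : T) (Set.range y)) := by
  classical
  cases nonempty_fintype ι
  let q : ∀ k, R k →+* R k ⧸ Ideal.span {(2 : R k)} := fun k => Ideal.Quotient.mk _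
  let S : ℕ → Type := fun k => {v : ι → R k ⧸ Ideal.span {(2 : R k)} //
    ∑ i, v i * q k (π k (y i)) = q k (π k x)}
  have hSfin : ∀ k, Finite (S k) := fun k => by
    have := hfin k
    exact Subtype.finite
  have hSne : ∀ k, Nonempty (S k) := by
    intro k
    have h1 := hx k
    rw [Ideal.span_insert, Submodule.mem_sup] at h1
    obtain ⟨a, ha, b, hb, hab⟩ := h1
    rw [Ideal.span, Submodule.mem_span_range_iff_exists_fun] at hb
    obtain ⟨c, hc⟩ := hb
    refine ⟨⟨fun i => q k (c i), ?_⟩⟩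
    have ha' : q k a = 0 := Ideal.Quotient.eq_zero_iff_mem.mpr ha
    rw [← hab, map_add, ha', zero_add, ← hc, map_sum]
    refine Finset.sum_congr rfl fun i _ => ?_
    rw [smul_eq_mul, map_mul]
  have hle : ∀ k, Ideal.span {(2 : R (k+1))} ≤ (Ideal.span {(2 : R k)}).comap (ρ k) := by
    intro k
    rw [Ideal.span_le, Set.singleton_subset_iff, SetLike.mem_coe, Ideal.mem_comap, map_ofNat]
    exact Ideal.mem_span_singleton_self _
  let qr : ∀ k, (R (k+1) ⧸ Ideal.span {(2 : R (k+1))}) →+* (R k ⧸ Ideal.span {(2 : R k)}) :=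
    fun k => Ideal.quotientMap _ (ρ k) (hle k)
  have hqr : ∀ k r, qr k (q (k+1) r) = q k (ρ k r) := fun k r => Ideal.quotientMap_mk
  obtain ⟨s, hs⟩ := konig S (fun k v => ⟨fun i => qr k (v.1 i), by
    have h1 := congrArg (qr k) v.2
    rw [map_sum, hqr, hT.comp] at h1
    rw [← h1]
    refine Finset.sum_congr rfl fun i _ => ?_
    rw [map_mul, hqr, hT.comp]⟩)
  have hz : ∀ i, ∃ z : T, ∀ k, q k (π k z) = (s k).1 i := by
    intro i
    apply exists_mod hT hρ (fun k => (s k).1 i)
    intro k r hr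
    change q (k+1) r = _ at hr
    change q k (ρ k r) = _
    rw [← hqr, hr]
    have := congrArg (fun v : S k => v.1 i) (hs k)
    exact this
  choose z hz using hz
  obtain ⟨w, hw⟩ := two_dvd hT htf (x - ∑ i, z i * y i) (fun k => by
    rw [← Ideal.Quotient.eq_zero_iff_mem]
    change q k _ = 0
    rw [map_sub, map_sub, ← (s k).2, map_sum, map_sum, sub_eq_zero]
    refine Finset.sum_congr rfl fun i _ => ?_
    rw [map_mul, map_mul, hz])
  have hx2 : x = 2 * w + ∑ i, z i * y i := by rw [← hw]; ring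
  rw [hx2]
  apply Ideal.add_mem
  · exact Ideal.mul_mem_right _ _ (Ideal.subset_span (Set.mem_insert _ _))
  · apply Ideal.sum_mem
    intro i _
    exact Ideal.mul_mem_left _ _ (Ideal.subset_span (Set.mem_insert_of_mem _ ⟨i, rfl⟩))

end Lim

end Crest.Agent.R007.Du
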