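import Crest.Agent.R007.BAlg3
import Mathlib
import Crest.Prelude.Def_HeckeTwo
import Crest.Agent.R007.HeckeA
import Crest.Agent.R007.Du2

-- ▼ part R007/BAlg4
section

/-!
Row 7 (S0007), section B, algebra: finitely generated ideals of the inverse limit are closed.
-/

set_option autoImplicit false

namespace Crest.Agent.R007.BAlg

open CategoryTheory in
/-- König's lemma for sequences of finite nonempty types -/
theorem konig.{v} {X : ℕ → Type v} [∀ n, Finite (X n)] [∀ n, Nonempty (X n)]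
    (f : ∀ n, X (n + 1) → X n) : ∃ u : ∀ n, X n, ∀ n, f n (u (n + 1)) = u n := by
  let F : ℕᵒᵖ ⥤ Type v := Functor.ofOpSequence (X := X) (fun n => TypeCat.ofHom (f n))
  have : ∀ j : ℕᵒᵖ, Finite (F.obj j) := fun j => inferInstanceAs (Finite (X j.unop))
  have : ∀ j : ℕᵒᵖ, Nonempty (F.obj j) := fun j => inferInstanceAs (Nonempty (X j.unop))
  obtain ⟨u, hu⟩ := nonempty_sections_of_finite_inverse_system F
  refine ⟨fun n => u (Opposite.op n), fun n => ?_⟩
  have h := hu (homOfLE (Nat.le_succ n)).op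
  have h2 := Functor.ofOpSequence_map_homOfLE_succ (X := X) (fun n => TypeCat.ofHom (f n)) n
  change (Functor.ofOpSequence (X := X) (fun n => TypeCat.ofHom (f n))).map
    (homOfLE (Nat.le_add_right n 1)).op (u (Opposite.op (n+1))) = u (Opposite.op n) at h
  rw [h2] at h
  exact h

section Lim

variable {T : Type*} [CommRing T] {R : ℕ → Type*} [∀ k, CommRing (R k)]
variable {π : ∀ k, T →+* R k} {ρ : ∀ k, R (k + 1) →+* R k} {p : ℕ}




end Lim

/-- for a commutative ring finite over `ℤ_[p]` the quotients by powers of `p` are finite -/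
theorem finite_quot_of_finite_padic (p : ℕ) [Fact p.Prime] (R : Type*) [CommRing R]
    [Algebra ℤ_[p] R] [Module.Finite ℤ_[p] R] (m : ℕ) :
    Finite (R ⧸ (Ideal.span {(p : R)}) ^ m) := by
  classical
  -- `ℤ_[p] / p^m` is finite
  have hZ : Finite (ℤ_[p] ⧸ (Ideal.span {(p : ℤ_[p]) ^ m})) := by
    have hs : Function.Injective (Ideal.Quotient.lift (Ideal.span {(p : ℤ_[p]) ^ m})
        (PadicInt.toZModPow (p := p) m) (by
          intro a ha
          have := PadicInt.ker_toZModPow (p := p) m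
          rw [← RingHom.mem_ker, this]; exact ha)) := by
      rw [RingHom.injective_iff_ker_eq_bot, Ideal.ker_quotient_lift, PadicInt.ker_toZModPow,
        Ideal.map_quotient_self]
    have : NeZero (p ^ m) := ⟨pow_ne_zero _ (Fact.out : p.Prime).ne_zero⟩
    exact Finite.of_injective _ hs
  have hm : (Ideal.span {(p : R)}) ^ m = Ideal.span {(p : R) ^ m} := Ideal.span_singleton_pow _ _
  rw [hm]
  -- the quotient is a finite module over the finite ring
  obtain ⟨G, hG⟩ := (Module.Finite.fg_top : (⊤ : Submodule ℤ_[p] R).FG)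
  let φ : (G → ℤ_[p] ⧸ (Ideal.span {(p : ℤ_[p]) ^ m})) → R ⧸ Ideal.span {(p : R) ^ m} := fun a =>
    ∑ g : G, (Ideal.quotientMap (Ideal.span {(p : R) ^ m}) (algebraMap ℤ_[p] R) (by
      rw [Ideal.span_singleton_le_iff_mem, Ideal.mem_comap, map_pow, map_natCast]
      exact Ideal.mem_span_singleton_self _)) (a g) * Ideal.Quotient.mk _ g.1
  have hsurj : Function.Surjective φ := by
    intro z
    obtain ⟨r, rfl⟩ := Ideal.Quotient.mk_surjective z
    have hr : r ∈ (⊤ : Submodule ℤ_[p] R) := trivial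
    rw [← hG] at hr
    have h2 : Submodule.span ℤ_[p] (G : Set R) =
        Submodule.span ℤ_[p] (Set.range (fun g : G => g.1)) := by
      congr 1; ext z; simp
    rw [h2, Submodule.mem_span_range_iff_exists_fun] at hr
    obtain ⟨c, hc⟩ := hr
    refine ⟨fun g => Ideal.Quotient.mk _ (c g), ?_⟩
    simp only [φ, Ideal.quotientMap_mk]
    rw [← hc, map_sum]
    apply Finset.sum_congr rfl
    intro g _
    rw [Algebra.smul_def, map_mul]
  exact Finite.of_surjective φ hsurj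

end Crest.Agent.R007.BAlg
end

-- ▼ part R007/HDCoset
section

/-!
Row 7, statement layer, part 1: integer matrices of determinant `ℓ`, the `ℓ + 1` representatives,
and the permutation they undergo under right multiplication.
-/

set_option autoImplicit false

open Matrix
open scoped MatrixGroups

namespace Crest.Agent.R007.HD

/-- representatives: `(1, j; 0, ℓ)` for `j < ℓ`, and `η * (ℓ, 0; 0, 1)`. -/
def rep (ℓ : ℕ) (η : SL(2, ℤ)) : Option (Fin ℓ) → Matrix (Fin 2) (Fin 2) ℤ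
  | some j => !![1, (j : ℤ); 0, (ℓ : ℤ)]
  | none => (η : Matrix (Fin 2) (Fin 2) ℤ) * !![(ℓ : ℤ), 0; 0, 1]

lemma det_rep (ℓ : ℕ) (η : SL(2, ℤ)) (i : Option (Fin ℓ)) : (rep ℓ η i).det = ℓ := by
  cases i with
  | none => simp [rep, Matrix.det_mul, Matrix.det_fin_two_of]
  | some j => simp [rep, Matrix.det_fin_two_of]

/-- existence of the representative of a matrix of determinant `ℓ` modulo left multiplication by
`SL(2, ℤ)`. -/
lemma exists_rep (ℓ : ℕ) (hℓ : ℓ.Prime) (η : SL(2, ℤ)) (δ : Matrix (Fin 2) (Fin 2) ℤ)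
    (hδ : δ.det = ℓ) : ∃ (i : Option (Fin ℓ)) (X : SL(2, ℤ)),
      δ = (X : Matrix (Fin 2) (Fin 2) ℤ) * rep ℓ η i := by
  have hp : Prime (ℓ : ℤ) := Nat.prime_iff_prime_int.mp hℓ
  have hℓ0 : (ℓ : ℤ) ≠ 0 := by exact_mod_cast hℓ.ne_zero
  have : NeZero ℓ := ⟨hℓ.ne_zero⟩
  have hd : δ 0 0 * δ 1 1 - δ 0 1 * δ 1 0 = ℓ := by rw [← Matrix.det_fin_two]; exact hδ
  -- it is enough to find `j` or infinity
  have key : (∃ j : Fin ℓ, (ℓ : ℤ) ∣ δ 0 1 - j * δ 0 0 ∧ (ℓ : ℤ) ∣ δ 1 1 - j * δ 1 0) ∨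
      ((ℓ : ℤ) ∣ δ 0 0 ∧ (ℓ : ℤ) ∣ δ 1 0) := by
    have : Fact ℓ.Prime := ⟨hℓ⟩
    by_cases h0 : (ℓ : ℤ) ∣ δ 0 0
    · by_cases h1 : (ℓ : ℤ) ∣ δ 1 0
      · exact Or.inr ⟨h0, h1⟩
      · left
        have hu : ((δ 1 0 : ℤ) : ZMod ℓ) ≠ 0 := by
          rwa [Ne, ZMod.intCast_zmod_eq_zero_iff_dvd]
        set x : ZMod ℓ := ((δ 1 1 : ℤ) : ZMod ℓ) * ((δ 1 0 : ℤ) : ZMod ℓ)⁻¹ with hx
        refine ⟨⟨x.val, ZMod.val_lt x⟩, ?_, ?_⟩
        · have h2 : (ℓ : ℤ) ∣ δ 0 1 := by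
            have h3 : (ℓ : ℤ) ∣ δ 0 1 * δ 1 0 := by
              have : δ 0 1 * δ 1 0 = δ 0 0 * δ 1 1 - ℓ := by linarith
              rw [this]
              exact dvd_sub (h0.mul_right _) (dvd_refl _)
            rcases hp.dvd_or_dvd h3 with h | h
            · exact h
            · exact absurd h h1
          exact dvd_sub h2 (h0.mul_left _)
        · rw [← ZMod.intCast_zmod_eq_zero_iff_dvd]
          push_cast
          rw [ZMod.natCast_zmod_val, hx, mul_assoc, inv_mul_cancel₀ hu, mul_one, sub_self]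
    · left
      have hu : ((δ 0 0 : ℤ) : ZMod ℓ) ≠ 0 := by
        rwa [Ne, ZMod.intCast_zmod_eq_zero_iff_dvd]
      set x : ZMod ℓ := ((δ 0 1 : ℤ) : ZMod ℓ) * ((δ 0 0 : ℤ) : ZMod ℓ)⁻¹ with hx
      refine ⟨⟨x.val, ZMod.val_lt x⟩, ?_, ?_⟩
      · rw [← ZMod.intCast_zmod_eq_zero_iff_dvd]
        push_cast
        rw [ZMod.natCast_zmod_val, hx, mul_assoc, inv_mul_cancel₀ hu, mul_one, sub_self]
      · rw [← ZMod.intCast_zmod_eq_zero_iff_dvd]
        push_cast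
        rw [ZMod.natCast_zmod_val, hx]
        have h4 : ((δ 0 0 : ℤ) : ZMod ℓ) * ((δ 1 1 : ℤ) : ZMod ℓ) =
            ((δ 0 1 : ℤ) : ZMod ℓ) * ((δ 1 0 : ℤ) : ZMod ℓ) := by
          have := congrArg (Int.cast : ℤ → ZMod ℓ) hd
          push_cast at this
          rw [ZMod.natCast_self] at this
          exact sub_eq_zero.mp this
        field_simp
        linear_combination h4
  rcases key with ⟨j, ⟨x, hx⟩, ⟨y, hy⟩⟩ | ⟨⟨x, hx⟩, ⟨y, hy⟩⟩
  · refine ⟨some j, ⟨!![δ 0 0, x; δ 1 0, y], ?_⟩, ?_⟩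
    · rw [Matrix.det_fin_two_of]
      have : (ℓ : ℤ) * (δ 0 0 * y - x * δ 1 0) = ℓ * 1 := by
        linear_combination hd - δ 0 0 * hy + δ 1 0 * hx
      exact mul_left_cancel₀ hℓ0 this
    · ext a b
      fin_cases a <;> fin_cases b <;> simp [rep, Matrix.mul_apply, Fin.sum_univ_two]
      · linear_combination hx
      · linear_combination hy
  · obtain ⟨Y, hY⟩ : ∃ Y : SL(2, ℤ), (Y : Matrix (Fin 2) (Fin 2) ℤ) = !![x, δ 0 1; y, δ 1 1] := by
      refine ⟨⟨!![x, δ 0 1; y, δ 1 1], ?_⟩, rfl⟩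
      rw [Matrix.det_fin_two_of]
      have : (ℓ : ℤ) * (x * δ 1 1 - δ 0 1 * y) = ℓ * 1 := by
        linear_combination hd - δ 1 1 * hx + δ 0 1 * hy
      exact mul_left_cancel₀ hℓ0 this
    refine ⟨none, Y * η⁻¹, ?_⟩
    have h1 : ((Y * η⁻¹ : SL(2, ℤ)) : Matrix (Fin 2) (Fin 2) ℤ) * rep ℓ η none =
        !![x, δ 0 1; y, δ 1 1] * !![(ℓ : ℤ), 0; 0, 1] := by
      rw [rep, ← Matrix.mul_assoc, ← Matrix.SpecialLinearGroup.coe_mul, inv_mul_cancel_right, hY]
    rw [h1]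
    ext a b
    fin_cases a <;> fin_cases b <;> simp [Matrix.mul_apply, Fin.sum_univ_two]
    · linear_combination hx
    · linear_combination hy

/-- uniqueness of the representative. -/
lemma rep_unique (ℓ : ℕ) (hℓ : ℓ.Prime) (η : SL(2, ℤ)) (i j : Option (Fin ℓ)) (X : SL(2, ℤ))
    (h : rep ℓ η i = (X : Matrix (Fin 2) (Fin 2) ℤ) * rep ℓ η j) : i = j := by
  have hℓ0 : (ℓ : ℤ) ≠ 0 := by exact_mod_cast hℓ.ne_zero
  have hℓ1 : ¬ (ℓ : ℤ) ∣ 1 := by
    intro h
    have := Int.eq_one_of_dvd_one (by positivity) h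
    exact hℓ.one_lt.ne' (by exact_mod_cast this)
  have hsome : ∀ (a : Fin ℓ) (Y : SL(2, ℤ)),
      ¬ (!![1, (a : ℤ); 0, (ℓ : ℤ)] = (Y : Matrix (Fin 2) (Fin 2) ℤ) * !![(ℓ : ℤ), 0; 0, 1]) := by
    intro a Y hY
    have := congrFun (congrFun hY 0) 0
    simp [Matrix.mul_apply, Fin.sum_univ_two] at this
    exact hℓ1 ⟨Y 0 0, by linarith⟩
  cases i with
  | none =>
    cases j with
    | none => rfl
    | some b =>
      exfalso
      simp only [rep] at h
      refine hsome b (X⁻¹ * η) ?_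
      rw [Matrix.SpecialLinearGroup.coe_mul, Matrix.mul_assoc, h, ← Matrix.mul_assoc,
        ← Matrix.SpecialLinearGroup.coe_mul, inv_mul_cancel]
      simp
  | some a =>
    cases j with
    | none =>
      exfalso
      simp only [rep] at h
      refine hsome a (X * η) ?_
      rw [Matrix.SpecialLinearGroup.coe_mul, Matrix.mul_assoc]
      exact h
    | some b =>
      simp only [rep] at h
      have h00 := congrFun (congrFun h 0) 0
      have h10 := congrFun (congrFun h 1) 0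
      have h01 := congrFun (congrFun h 0) 1
      have h11 := congrFun (congrFun h 1) 1
      simp [Matrix.mul_apply, Fin.sum_univ_two] at h00 h10 h01 h11
      have hab : (a : ℤ) - b = X 0 1 * ℓ := by rw [h01, ← h00]; ring
      have ha : (a : ℤ) < ℓ := by exact_mod_cast a.2
      have hb : (b : ℤ) < ℓ := by exact_mod_cast b.2
      have ha0 : (0 : ℤ) ≤ a := by positivity
      have hb0 : (0 : ℤ) ≤ b := by positivity
      have hX : X 0 1 = 0 := by
        by_contra hne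
        have hℓpos : (0 : ℤ) < ℓ := by exact_mod_cast hℓ.pos
        rcases lt_or_gt_of_ne hne with h | h
        · have : X 0 1 * ℓ ≤ (-1) * ℓ := mul_le_mul_of_nonneg_right (by omega) hℓpos.le
          linarith
        · have : 1 * ℓ ≤ X 0 1 * ℓ := mul_le_mul_of_nonneg_right (by omega) hℓpos.le
          linarith
      rw [hX, zero_mul, sub_eq_zero] at hab
      congr 1
      exact Fin.ext (by exact_mod_cast hab)

end Crest.Agent.R007.HD
private theorem rz_da6ca68989 : type_of% @_root_.Crest.Agent.R007.HD.rep.eq_1 := @_root_.Crest.Agent.R007.HD.rep.eq_1 -- L17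
end

-- ▼ part R007/HDSlash
section

/-!
Row 7, statement layer, part 2: slash action of integer matrices of positive determinant on
functions that are holomorphic and bounded at all rational cusps.
-/

set_option autoImplicit false

open Matrix UpperHalfPlane OnePoint Crest.NumberTheoryR.HeckeTwoAdic
open scoped MatrixGroups ModularForm Manifold

namespace Crest.Agent.R007.HD

/-- holomorphic and bounded at all rational cusps. -/
def Good (k : ℤ) (F : ℍ → ℂ) : Prop :=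
  MDifferentiable 𝓘(ℂ) 𝓘(ℂ) F ∧ ∀ c : OnePoint ℝ, IsCusp c 𝒮ℒ → c.IsBoundedAt F k

lemma Good.zero (k : ℤ) : Good k (0 : ℍ → ℂ) := by
  refine ⟨mdifferentiable_const, fun c _ g _ => ?_⟩
  rw [SlashAction.zero_slash]
  exact zero_form_isBoundedAtImInfty

lemma Good.add {k : ℤ} {F G : ℍ → ℂ} (hF : Good k F) (hG : Good k G) : Good k (F + G) :=
  ⟨hF.1.add hG.1, fun c hc => (hF.2 c hc).add (hG.2 c hc)⟩

lemma Good.sum {k : ℤ} {ι : Type*} (s : Finset ι) {F : ι → ℍ → ℂ} (hF : ∀ i ∈ s, Good k (F i)) :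
    Good k (∑ i ∈ s, F i) := by
  classical
  induction s using Finset.induction_on with
  | empty => simpa using Good.zero k
  | insert a s ha ih =>
    rw [Finset.sum_insert ha]
    exact (hF a (Finset.mem_insert_self _ _)).add
      (ih fun i hi => hF i (Finset.mem_insert_of_mem hi))

lemma Good.slashQ {k : ℤ} {F : ℍ → ℂ} (hF : Good k F) (g : GL (Fin 2) ℚ) :
    Good k (F ∣[k] (g.map (algebraMap ℚ ℝ))) := by
  refine ⟨hF.1.slash k _, fun c hc => ?_⟩
  rw [← IsBoundedAt.smul_iff]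
  apply hF.2
  rw [isCusp_SL2Z_iff] at hc ⊢
  obtain ⟨c, rfl⟩ := hc
  refine ⟨g • c, ?_⟩
  have := OnePoint.map_smul (algebraMap ℚ ℝ) g c
  exact this

/-- an integer matrix of non-zero determinant as an element of `GL(2, ℚ)`. -/
noncomputable def glQ (δ : Matrix (Fin 2) (Fin 2) ℤ) (h : δ.det ≠ 0) : GL (Fin 2) ℚ :=
  Matrix.GeneralLinearGroup.mkOfDetNeZero ((Int.castRingHom ℚ).mapMatrix δ) (by
    rw [← RingHom.map_det]; simpa using h)

/-- an integer matrix of non-zero determinant as an element of `GL(2, ℝ)`. -/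
noncomputable def gl (δ : Matrix (Fin 2) (Fin 2) ℤ) (h : δ.det ≠ 0) : GL (Fin 2) ℝ :=
  Matrix.GeneralLinearGroup.mkOfDetNeZero ((Int.castRingHom ℝ).mapMatrix δ) (by
    rw [← RingHom.map_det]; simpa using h)

lemma coe_gl (δ : Matrix (Fin 2) (Fin 2) ℤ) (h : δ.det ≠ 0) :
    ((gl δ h : GL (Fin 2) ℝ) : Matrix (Fin 2) (Fin 2) ℝ) = (Int.castRingHom ℝ).mapMatrix δ := rfl

lemma glQ_map (δ : Matrix (Fin 2) (Fin 2) ℤ) (h : δ.det ≠ 0) :
    (glQ δ h).map (algebraMap ℚ ℝ) = gl δ h := by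
  apply Units.ext
  ext a b
  simp [glQ, gl, Matrix.GeneralLinearGroup.mkOfDetNeZero]

lemma Good.slash {k : ℤ} {F : ℍ → ℂ} (hF : Good k F) (δ : Matrix (Fin 2) (Fin 2) ℤ)
    (h : δ.det ≠ 0) : Good k (F ∣[k] gl δ h) := by
  rw [← glQ_map]
  exact hF.slashQ _

lemma gl_congr {δ δ' : Matrix (Fin 2) (Fin 2) ℤ} (e : δ = δ') (h : δ.det ≠ 0) (h' : δ'.det ≠ 0) :
    gl δ h = gl δ' h' := by subst e; rfl

lemma gl_mul (δ δ' : Matrix (Fin 2) (Fin 2) ℤ) (h : δ.det ≠ 0) (h' : δ'.det ≠ 0)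
    (h'' : (δ * δ').det ≠ 0) : gl (δ * δ') h'' = gl δ h * gl δ' h' := by
  apply Units.ext
  rw [Units.val_mul, coe_gl, coe_gl, coe_gl, map_mul]

lemma gl_SL (γ : SL(2, ℤ)) (h : (γ : Matrix (Fin 2) (Fin 2) ℤ).det ≠ 0) :
    gl (γ : Matrix (Fin 2) (Fin 2) ℤ) h = (γ : GL (Fin 2) ℝ) := by
  apply Units.ext
  ext a b
  simp [gl, Matrix.GeneralLinearGroup.mkOfDetNeZero]

lemma det_SL_ne (γ : SL(2, ℤ)) : (γ : Matrix (Fin 2) (Fin 2) ℤ).det ≠ 0 := by
  rw [γ.det_coe]; exact one_ne_zero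

lemma Good.slashSL {k : ℤ} {F : ℍ → ℂ} (hF : Good k F) (γ : SL(2, ℤ)) : Good k (F ∣[k] γ) := by
  rw [ModularForm.SL_slash, ← gl_SL γ (det_SL_ne γ)]
  exact hF.slash _ _

lemma upperMat_eq (ℓ j : ℕ) (hℓ : ℓ ≠ 0) (h : (!![1, (j : ℤ); 0, (ℓ : ℤ)]).det ≠ 0) :
    upperMat ℓ j hℓ = gl !![1, (j : ℤ); 0, (ℓ : ℤ)] h := by
  apply Units.ext
  ext a b
  fin_cases a <;> fin_cases b <;>
    simp [gl, upperMat, mat2, Matrix.GeneralLinearGroup.mkOfDetNeZero]

lemma lowerMat_eq (ℓ : ℕ) (hℓ : ℓ ≠ 0) (h : (!![(ℓ : ℤ), 0; 0, 1]).det ≠ 0) :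
    lowerMat ℓ hℓ = gl !![(ℓ : ℤ), 0; 0, 1] h := by
  apply Units.ext
  ext a b
  fin_cases a <;> fin_cases b <;>
    simp [gl, lowerMat, mat2, Matrix.GeneralLinearGroup.mkOfDetNeZero]

lemma smul_slash_gl (k : ℤ) (c : ℂ) (F : ℍ → ℂ) (δ : Matrix (Fin 2) (Fin 2) ℤ) (h : 0 < δ.det) :
    (c • F) ∣[k] gl δ h.ne' = c • (F ∣[k] gl δ h.ne') := by
  rw [ModularForm.smul_slash]
  congr 1
  have : 0 < (gl δ h.ne').det.val := by
    rw [Matrix.GeneralLinearGroup.val_det_apply, coe_gl, ← RingHom.map_det]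
    simpa using h
  simp only [UpperHalfPlane.σ, this, if_true]
  rfl

section MF
variable {N : ℕ} [NeZero N]

lemma good_of_MF {i : ℕ} (f : MF N i) : Good (i : ℤ) (f : ℍ → ℂ) := by
  refine ⟨f.holo', fun c hc => ?_⟩
  apply f.bdd_at_cusps'
  rw [Subgroup.IsArithmetic.isCusp_iff_isCusp_SL2Z]
  exact hc

lemma MF_inv {i : ℕ} (f : MF N i) (γ : SL(2, ℤ)) (hγ : γ ∈ CongruenceSubgroup.Gamma1 N) :
    (f : ℍ → ℂ) ∣[(i : ℤ)] γ = f := by
  rw [ModularForm.SL_slash]
  exact SlashInvariantFormClass.slash_action_eq f _ (Subgroup.mem_map_of_mem _ hγ)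

/-- build an element of `MF N i`. -/
def mkMF {i : ℕ} (F : ℍ → ℂ) (hF : Good (i : ℤ) F)
    (hinv : ∀ γ ∈ CongruenceSubgroup.Gamma1 N, F ∣[(i : ℤ)] γ = F) : MF N i where
  toFun := F
  slash_action_eq' := by
    rintro _ ⟨γ, hγ, rfl⟩
    exact hinv γ hγ
  holo' := hF.1
  bdd_at_cusps' := by
    intro c hc
    rw [Subgroup.IsArithmetic.isCusp_iff_isCusp_SL2Z] at hc
    exact hF.2 c hc

@[simp] lemma coe_mkMF {i : ℕ} (F : ℍ → ℂ) (hF : Good (i : ℤ) F)
    (hinv : ∀ γ ∈ CongruenceSubgroup.Gamma1 N, F ∣[(i : ℤ)] γ = F) :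
    ((mkMF F hF hinv : MF N i) : ℍ → ℂ) = F := rfl

end MF

end Crest.Agent.R007.HD
end

-- ▼ part R007/HDHecke
section

/-!
Row 7, statement layer, part 3: the Hecke and diamond operators on `MF N i` and their
commutation relations.
-/

set_option autoImplicit false

open Matrix UpperHalfPlane OnePoint Crest.NumberTheoryR.HeckeTwoAdic
open scoped MatrixGroups ModularForm Manifold

namespace Crest.Agent.R007.HD

section groups
variable {N : ℕ}

lemma mem_Gamma1_iff (A : SL(2, ℤ)) : A ∈ CongruenceSubgroup.Gamma1 N ↔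
    A ∈ CongruenceSubgroup.Gamma0 N ∧ ((A 1 1 : ℤ) : ZMod N) = 1 := by
  rw [CongruenceSubgroup.Gamma1_mem, CongruenceSubgroup.Gamma0_mem]
  constructor
  · rintro ⟨-, h2, h3⟩; exact ⟨h3, h2⟩
  · rintro ⟨h3, h2⟩
    refine ⟨?_, h2, h3⟩
    have hd : A 0 0 * A 1 1 - A 0 1 * A 1 0 = 1 := by
      rw [← Matrix.det_fin_two]; exact A.det_coe
    have := congrArg (Int.cast : ℤ → ZMod N) hd
    push_cast at this
    rw [h2, h3] at this
    simpa using this

lemma lr_mul {A B : SL(2, ℤ)} (hA : A ∈ CongruenceSubgroup.Gamma0 N) :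
    (((A * B) 1 1 : ℤ) : ZMod N) = ((A 1 1 : ℤ) : ZMod N) * ((B 1 1 : ℤ) : ZMod N) := by
  rw [CongruenceSubgroup.Gamma0_mem] at hA
  rw [Matrix.SpecialLinearGroup.coe_mul, Matrix.mul_apply, Fin.sum_univ_two]
  push_cast
  rw [hA]
  ring

lemma ul_lr {A : SL(2, ℤ)} (hA : A ∈ CongruenceSubgroup.Gamma0 N) :
    ((A 0 0 : ℤ) : ZMod N) * ((A 1 1 : ℤ) : ZMod N) = 1 := by
  rw [CongruenceSubgroup.Gamma0_mem] at hA
  have hd : A 0 0 * A 1 1 - A 0 1 * A 1 0 = 1 := by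
    rw [← Matrix.det_fin_two]; exact A.det_coe
  have := congrArg (Int.cast : ℤ → ZMod N) hd
  push_cast at this
  rw [hA] at this
  simpa using this

lemma lr_inv {A : SL(2, ℤ)} : ((A⁻¹ 1 1 : ℤ) : ZMod N) = ((A 0 0 : ℤ) : ZMod N) := by
  rw [Matrix.SpecialLinearGroup.SL2_inv_expl]
  simp

lemma mul_inv_mem {A B : SL(2, ℤ)} (hA : A ∈ CongruenceSubgroup.Gamma0 N)
    (hB : B ∈ CongruenceSubgroup.Gamma0 N)
    (h : ((A 1 1 : ℤ) : ZMod N) = ((B 1 1 : ℤ) : ZMod N)) :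
    A * B⁻¹ ∈ CongruenceSubgroup.Gamma1 N := by
  rw [mem_Gamma1_iff]
  refine ⟨mul_mem hA (inv_mem hB), ?_⟩
  rw [lr_mul hA, lr_inv, h, mul_comm]
  exact ul_lr hB

end groups

section inv
variable {N : ℕ} {k : ℤ} {F : ℍ → ℂ}

/-- invariance under `Γ₁(N)`. -/
def Inv (N : ℕ) (k : ℤ) (F : ℍ → ℂ) : Prop :=
  ∀ γ ∈ CongruenceSubgroup.Gamma1 N, F ∣[k] γ = F

lemma slash_SL_mul (k : ℤ) (F : ℍ → ℂ) (A B : SL(2, ℤ)) :
    F ∣[k] (A * B) = (F ∣[k] A) ∣[k] B := SlashAction.slash_mul k A B F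

lemma Inv.slash_congr (hF : Inv N k F) {A B : SL(2, ℤ)} (hA : A ∈ CongruenceSubgroup.Gamma0 N)
    (hB : B ∈ CongruenceSubgroup.Gamma0 N)
    (h : ((A 1 1 : ℤ) : ZMod N) = ((B 1 1 : ℤ) : ZMod N)) : F ∣[k] A = F ∣[k] B := by
  have h1 : A = (A * B⁻¹) * B := by group
  rw [h1, slash_SL_mul, hF _ (mul_inv_mem hA hB h)]

lemma Inv.slash (hF : Inv N k F) {A : SL(2, ℤ)} (hA : A ∈ CongruenceSubgroup.Gamma0 N) :
    Inv N k (F ∣[k] A) := by
  intro γ hγ
  rw [← slash_SL_mul]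
  rw [mem_Gamma1_iff] at hγ
  refine hF.slash_congr (mul_mem hA hγ.1) hA ?_
  rw [lr_mul hA, hγ.2, mul_one]

lemma Inv.add {G : ℍ → ℂ} (hF : Inv N k F) (hG : Inv N k G) : Inv N k (F + G) := by
  intro γ hγ
  rw [SlashAction.add_slash, hF γ hγ, hG γ hγ]

end inv

/-- the raw Hecke sum. -/
noncomputable def heckeSum (ℓ : ℕ) (hℓ : ℓ ≠ 0) (k : ℤ) (e : SL(2, ℤ)) (F : ℍ → ℂ) : ℍ → ℂ :=
  ∑ i : Option (Fin ℓ), F ∣[k] gl (rep ℓ e i) (by rw [det_rep]; exact_mod_cast hℓ)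

lemma det_upper_ne (ℓ j : ℕ) (hℓ : ℓ ≠ 0) : (!![1, (j : ℤ); 0, (ℓ : ℤ)]).det ≠ 0 := by
  rw [Matrix.det_fin_two_of]; simpa using hℓ

lemma det_lower_ne (ℓ : ℕ) (hℓ : ℓ ≠ 0) : (!![(ℓ : ℤ), 0; 0, 1]).det ≠ 0 := by
  rw [Matrix.det_fin_two_of]; simpa using hℓ

lemma heckeSum_eq (ℓ : ℕ) (hℓ : ℓ ≠ 0) (k : ℤ) (e : SL(2, ℤ)) (F : ℍ → ℂ) :
    heckeSum ℓ hℓ k e F =
      (∑ j ∈ Finset.range ℓ, F ∣[k] upperMat ℓ j hℓ) + (F ∣[k] e) ∣[k] lowerMat ℓ hℓ := by
  rw [heckeSum, Fintype.sum_option, add_comm]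
  congr 1
  · rw [Finset.sum_range]
    refine Finset.sum_congr rfl fun j _ => ?_
    rw [upperMat_eq ℓ j hℓ (det_upper_ne ℓ j hℓ)]
    rfl
  · rw [lowerMat_eq ℓ hℓ (det_lower_ne ℓ hℓ), ModularForm.SL_slash,
      ← gl_SL e (det_SL_ne e), ← SlashAction.slash_mul,
      ← gl_mul _ _ (det_SL_ne e) (det_lower_ne ℓ hℓ) (by
        rw [Matrix.det_mul]; exact mul_ne_zero (det_SL_ne e) (det_lower_ne ℓ hℓ))]
    rfl

section slash
variable {N : ℕ} {k : ℤ} {F : ℍ → ℂ}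

lemma rep_col (ℓ : ℕ) {e : SL(2, ℤ)} (he : e ∈ CongruenceSubgroup.Gamma0 N)
    (he1 : ((e 1 1 : ℤ) : ZMod N) = ℓ) (i : Option (Fin ℓ)) :
    ((rep ℓ e i 0 0 : ℤ) : ZMod N) = 1 ∧ ((rep ℓ e i 1 0 : ℤ) : ZMod N) = 0 := by
  cases i with
  | some j => simp [rep]
  | none =>
    have h1 := ul_lr he
    rw [CongruenceSubgroup.Gamma0_mem] at he
    constructor
    · rw [rep, Matrix.mul_apply, Fin.sum_univ_two]
      simp only [Matrix.of_apply, Matrix.cons_val', Matrix.cons_val_zero, Matrix.cons_val_one,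
        Matrix.cons_val_fin_one, mul_zero, add_zero]
      push_cast
      rw [← he1]
      exact h1
    · rw [rep, Matrix.mul_apply, Fin.sum_univ_two]
      simp only [Matrix.of_apply, Matrix.cons_val', Matrix.cons_val_zero, Matrix.cons_val_one,
        Matrix.cons_val_fin_one, mul_zero, add_zero]
      push_cast
      rw [he, zero_mul]

lemma mem_Gamma1_of_col (X : SL(2, ℤ)) (ρ δ : Matrix (Fin 2) (Fin 2) ℤ)
    (h : δ = (X : Matrix (Fin 2) (Fin 2) ℤ) * ρ)
    (hρ : ((ρ 0 0 : ℤ) : ZMod N) = 1 ∧ ((ρ 1 0 : ℤ) : ZMod N) = 0)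
    (hδ : ((δ 0 0 : ℤ) : ZMod N) = 1 ∧ ((δ 1 0 : ℤ) : ZMod N) = 0) :
    X ∈ CongruenceSubgroup.Gamma1 N := by
  have h00 := congrArg (fun M : Matrix (Fin 2) (Fin 2) ℤ => ((M 0 0 : ℤ) : ZMod N)) h
  have h10 := congrArg (fun M : Matrix (Fin 2) (Fin 2) ℤ => ((M 1 0 : ℤ) : ZMod N)) h
  simp only [Matrix.mul_apply, Fin.sum_univ_two] at h00 h10
  push_cast at h00 h10
  rw [hρ.1, hρ.2, hδ.1] at h00
  rw [hρ.1, hρ.2, hδ.2] at h10
  have h0 : X ∈ CongruenceSubgroup.Gamma0 N := by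
    rw [CongruenceSubgroup.Gamma0_mem]
    simpa using h10.symm
  rw [mem_Gamma1_iff]
  refine ⟨h0, ?_⟩
  have := ul_lr h0
  have h1 : ((X 0 0 : ℤ) : ZMod N) = 1 := by simpa using h00.symm
  rwa [h1, one_mul] at this

lemma heckeSum_slash (ℓ : ℕ) (hℓ : ℓ.Prime) {e : SL(2, ℤ)}
    (he : e ∈ CongruenceSubgroup.Gamma0 N) (he1 : ((e 1 1 : ℤ) : ZMod N) = ℓ)
    (hF : Inv N k F) {γ : SL(2, ℤ)} (hγ : γ ∈ CongruenceSubgroup.Gamma0 N) :
    (heckeSum ℓ hℓ.ne_zero k e F) ∣[k] γ = heckeSum ℓ hℓ.ne_zero k e (F ∣[k] γ) := by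
  classical
  have hdetne : ∀ i, (rep ℓ e i).det ≠ 0 := fun i => by
    rw [det_rep]; exact_mod_cast hℓ.ne_zero
  -- the conjugated matrices
  set ε : Option (Fin ℓ) → Matrix (Fin 2) (Fin 2) ℤ := fun i =>
    ((γ⁻¹ : SL(2, ℤ)) : Matrix (Fin 2) (Fin 2) ℤ) * rep ℓ e i *
      (γ : Matrix (Fin 2) (Fin 2) ℤ) with hε
  have hεdet : ∀ i, (ε i).det = ℓ := by
    intro i
    rw [hε]
    simp only [Matrix.det_mul, det_rep, Matrix.SpecialLinearGroup.det_coe]
    ring
  have hex : ∀ i, ∃ (i' : Option (Fin ℓ)) (X : SL(2, ℤ)),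
      ε i = (X : Matrix (Fin 2) (Fin 2) ℤ) * rep ℓ e i' := fun i =>
    exists_rep ℓ hℓ e (ε i) (hεdet i)
  choose s X hs using hex
  have hεcol : ∀ i, ((ε i 0 0 : ℤ) : ZMod N) = 1 ∧ ((ε i 1 0 : ℤ) : ZMod N) = 0 := by
    intro i
    have hr := rep_col (N := N) ℓ he he1 i
    have hg1 := ul_lr hγ
    have hg0 := CongruenceSubgroup.Gamma0_mem.mp hγ
    have hinv : ((γ⁻¹ : SL(2, ℤ)) : Matrix (Fin 2) (Fin 2) ℤ) =
        !![γ 1 1, -γ 0 1; -γ 1 0, γ 0 0] := by
      rw [Matrix.SpecialLinearGroup.coe_inv, Matrix.adjugate_fin_two]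
    constructor
    · have h1 : ε i 0 0 = (γ 1 1 * rep ℓ e i 0 0 - γ 0 1 * rep ℓ e i 1 0) * γ 0 0 +
          (γ 1 1 * rep ℓ e i 0 1 - γ 0 1 * rep ℓ e i 1 1) * γ 1 0 := by
        simp only [hε, hinv, Matrix.mul_apply, Fin.sum_univ_two]
        simp
        ring
      rw [h1]
      push_cast
      rw [hr.1, hr.2, hg0]
      linear_combination hg1
    · have h1 : ε i 1 0 = (-γ 1 0 * rep ℓ e i 0 0 + γ 0 0 * rep ℓ e i 1 0) * γ 0 0 +
          (-γ 1 0 * rep ℓ e i 0 1 + γ 0 0 * rep ℓ e i 1 1) * γ 1 0 := by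
        simp only [hε, hinv, Matrix.mul_apply, Fin.sum_univ_two]
        simp
      rw [h1]
      push_cast
      rw [hr.1, hr.2, hg0]
      ring
  have hX : ∀ i, X i ∈ CongruenceSubgroup.Gamma1 N := fun i =>
    mem_Gamma1_of_col (X i) _ _ (hs i) (rep_col ℓ he he1 _) (hεcol i)
  have hinj : Function.Injective s := by
    intro i j hij
    apply rep_unique ℓ hℓ e i j (γ * X i * (X j)⁻¹ * γ⁻¹)
    have h1 : rep ℓ e i = (γ : Matrix (Fin 2) (Fin 2) ℤ) * ε i *
        ((γ⁻¹ : SL(2, ℤ)) : Matrix (Fin 2) (Fin 2) ℤ) := by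
      rw [hε]
      simp only [← Matrix.mul_assoc]
      rw [← Matrix.SpecialLinearGroup.coe_mul, mul_inv_cancel, Matrix.SpecialLinearGroup.coe_one,
        Matrix.one_mul, Matrix.mul_assoc, ← Matrix.SpecialLinearGroup.coe_mul, mul_inv_cancel,
        Matrix.SpecialLinearGroup.coe_one, Matrix.mul_one]
    have h2 : rep ℓ e (s j) = (((X j)⁻¹ : SL(2, ℤ)) : Matrix (Fin 2) (Fin 2) ℤ) * ε j := by
      rw [hs j, ← Matrix.mul_assoc, ← Matrix.SpecialLinearGroup.coe_mul, inv_mul_cancel,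
        Matrix.SpecialLinearGroup.coe_one, Matrix.one_mul]
    rw [h1, hs i, hij, h2, hε]
    simp only [Matrix.SpecialLinearGroup.coe_mul, Matrix.mul_assoc]
    congr 5
    rw [← Matrix.SpecialLinearGroup.coe_mul, mul_inv_cancel, Matrix.SpecialLinearGroup.coe_one,
      Matrix.mul_one]
  have hbij : Function.Bijective s := Finite.injective_iff_bijective.mp hinj
  have hterm : ∀ i, (F ∣[k] gl (rep ℓ e i) (hdetne i)) ∣[k] γ =
      (F ∣[k] γ) ∣[k] gl (rep ℓ e (s i)) (hdetne (s i)) := by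
    intro i
    have E1 : ((gl (rep ℓ e i) (hdetne i)) * (γ : GL (Fin 2) ℝ)) =
        (γ : GL (Fin 2) ℝ) * ((X i : GL (Fin 2) ℝ) * gl (rep ℓ e (s i)) (hdetne (s i))) := by
      rw [← gl_SL γ (det_SL_ne γ), ← gl_SL (X i) (det_SL_ne _)]
      rw [← gl_mul _ _ _ _ (by rw [Matrix.det_mul]; exact mul_ne_zero (hdetne i) (det_SL_ne _)),
        ← gl_mul _ _ _ _ (by rw [Matrix.det_mul]; exact mul_ne_zero (det_SL_ne _) (hdetne _)),
        ← gl_mul _ _ _ _ (by
          rw [Matrix.det_mul, Matrix.det_mul]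
          exact mul_ne_zero (det_SL_ne _) (mul_ne_zero (det_SL_ne _) (hdetne _)))]
      apply gl_congr
      rw [← hs i, hε]
      simp only [← Matrix.mul_assoc]
      rw [← Matrix.SpecialLinearGroup.coe_mul, mul_inv_cancel, Matrix.SpecialLinearGroup.coe_one,
        Matrix.one_mul]
    rw [ModularForm.SL_slash, ← SlashAction.slash_mul, E1, SlashAction.slash_mul,
      SlashAction.slash_mul]
    congr 1
    exact (hF.slash hγ) (X i) (hX i)
  rw [heckeSum, ModularForm.SL_slash, SlashAction.sum_slash, heckeSum]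
  rw [← Function.Bijective.sum_comp hbij
    (fun i => (F ∣[k] γ) ∣[k] gl (rep ℓ e i) (hdetne i))]
  exact Finset.sum_congr rfl fun i _ => hterm i

end slash

end Crest.Agent.R007.HD
end

-- ▼ part R007/HDFam
section

/-!
Row 7, statement layer, part 4: the families `T`, `D` and their commutation relations.
-/

set_option autoImplicit false

open Matrix UpperHalfPlane OnePoint Crest.NumberTheoryR.HeckeTwoAdic
open scoped MatrixGroups ModularForm Manifold

namespace Crest.Agent.R007.HD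

section reindex

variable {A : Type*} [AddCommMonoid A]

/-- reindexing of a periodic function by a unit. -/
lemma sum_range_mul_of_periodic (p a : ℕ) (hp : 0 < p) (hc : Nat.Coprime a p) (H : ℤ → A)
    (hH : ∀ m n : ℤ, H (m + n * p) = H m) :
    ∑ j ∈ Finset.range p, H ((a * j : ℕ) : ℤ) = ∑ j ∈ Finset.range p, H (j : ℤ) := by
  have hmod : ∀ m : ℕ, H (m : ℤ) = H ((m % p : ℕ) : ℤ) := by
    intro m
    have h := hH ((m % p : ℕ) : ℤ) ((m / p : ℕ) : ℤ)
    rw [← h]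
    congr 1
    have := Nat.mod_add_div m p
    push_cast
    have h2 : ((m % p + p * (m / p) : ℕ) : ℤ) = (m : ℤ) := by rw [this]
    push_cast at h2
    linarith
  refine Finset.sum_bij (fun j _ => (a * j) % p) ?_ ?_ ?_ ?_
  · intro j _
    exact Finset.mem_range.mpr (Nat.mod_lt _ hp)
  · intro i hi j hj hij
    have h1 : a * i ≡ a * j [MOD p] := hij
    have h2 : i ≡ j [MOD p] := Nat.ModEq.cancel_left_of_coprime (by
      rw [Nat.gcd_comm]; exact hc) h1
    exact Nat.ModEq.eq_of_lt_of_lt h2 (Finset.mem_range.mp hi) (Finset.mem_range.mp hj)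
  · intro b hb
    have hinj : Set.InjOn (fun j => (a * j) % p) (Finset.range p : Set ℕ) := by
      intro i hi j hj hij
      have h1 : a * i ≡ a * j [MOD p] := hij
      have h2 : i ≡ j [MOD p] := Nat.ModEq.cancel_left_of_coprime (by
        rw [Nat.gcd_comm]; exact hc) h1
      exact Nat.ModEq.eq_of_lt_of_lt h2 (Finset.mem_range.mp (by simpa using hi))
        (Finset.mem_range.mp (by simpa using hj))
    have hmaps : Set.MapsTo (fun j => (a * j) % p) (Finset.range p : Set ℕ)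
        (Finset.range p : Set ℕ) := by
      intro j _
      simpa using Nat.mod_lt _ hp
    have hsurj := Finset.surjOn_of_injOn_of_card_le _ hmaps hinj le_rfl
    obtain ⟨j, hj, hjb⟩ := hsurj (by simpa using hb)
    exact ⟨j, by simpa using hj, hjb⟩
  · intro j _
    exact hmod (a * j)

lemma sum_range_prod (a b : ℕ) (G : ℤ → A) :
    ∑ i ∈ Finset.range a, ∑ j ∈ Finset.range b, G ((j : ℤ) + i * b) =
      ∑ m ∈ Finset.range (a * b), G m := by
  induction a with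
  | zero => simp
  | succ n ih =>
    rw [Finset.sum_range_succ, ih, Nat.succ_mul, Finset.sum_range_add]
    congr 1
    refine Finset.sum_congr rfl fun j _ => ?_
    push_cast
    congr 1
    ring

end reindex

section commute

variable {N : ℕ} {k : ℤ}

/-- upper representative with an arbitrary integer entry. -/
noncomputable def up (a : ℤ) (m : ℤ) (d : ℤ) (h : (!![a, m; 0, d]).det ≠ 0) : GL (Fin 2) ℝ :=
  gl !![a, m; 0, d] h

lemma det_up (a m d : ℤ) (ha : a ≠ 0) (hd : d ≠ 0) : (!![a, m; 0, d]).det ≠ 0 := by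
  rw [Matrix.det_fin_two_of]; simpa using mul_ne_zero ha hd

/-- periodicity of a `Γ₁(N)`-invariant function. -/
lemma Inv.periodic {F : ℍ → ℂ} (hF : Inv N k F) (a m n d : ℤ) (ha : a ≠ 0) (hd : d ≠ 0) :
    F ∣[k] gl !![a, m + n * d; 0, d] (det_up a _ d ha hd) =
      F ∣[k] gl !![a, m; 0, d] (det_up a m d ha hd) := by
  obtain ⟨X, hX⟩ : ∃ X : SL(2, ℤ), (X : Matrix (Fin 2) (Fin 2) ℤ) = !![1, n; 0, 1] :=
    ⟨⟨!![1, n; 0, 1], by rw [Matrix.det_fin_two_of]; ring⟩, rfl⟩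
  have hX1 : X ∈ CongruenceSubgroup.Gamma1 N := by
    rw [CongruenceSubgroup.Gamma1_mem]
    rw [hX]
    simp
  have h1 : gl !![a, m + n * d; 0, d] (det_up a _ d ha hd) =
      (X : GL (Fin 2) ℝ) * gl !![a, m; 0, d] (det_up a m d ha hd) := by
    rw [← gl_SL X (det_SL_ne X), ← gl_mul _ _ _ _ (by
      rw [Matrix.det_mul]; exact mul_ne_zero (det_SL_ne _) (det_up a m d ha hd))]
    apply gl_congr
    rw [hX]
    ext i j
    fin_cases i <;> fin_cases j <;> simp [Matrix.mul_apply, Fin.sum_univ_two]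
  rw [h1, SlashAction.slash_mul]
  congr 1
  exact hF X hX1

/-- the double Hecke sum, expanded. -/
noncomputable def dbl (k : ℤ) (p q : ℕ) (hp : p ≠ 0) (hq : q ≠ 0) (F Fp Fq Fpq : ℍ → ℂ) :
    ℍ → ℂ :=
  (∑ m ∈ Finset.range (p * q), F ∣[k] gl !![1, (m : ℤ); 0, ((p * q : ℕ) : ℤ)]
    (det_up _ _ _ one_ne_zero (by exact_mod_cast mul_ne_zero hp hq))) +
  (∑ m ∈ Finset.range q, Fp ∣[k] gl !![(p : ℤ), (m : ℤ); 0, (q : ℤ)]
    (det_up _ _ _ (by exact_mod_cast hp) (by exact_mod_cast hq))) +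
  (∑ m ∈ Finset.range p, Fq ∣[k] gl !![(q : ℤ), (m : ℤ); 0, (p : ℤ)]
    (det_up _ _ _ (by exact_mod_cast hq) (by exact_mod_cast hp))) +
  Fpq ∣[k] gl !![((p * q : ℕ) : ℤ), 0; 0, 1]
    (det_up _ _ _ (by exact_mod_cast mul_ne_zero hp hq) one_ne_zero)

lemma dbl_symm (k : ℤ) (p q : ℕ) (hp : p ≠ 0) (hq : q ≠ 0) (F Fp Fq Fpq : ℍ → ℂ) :
    dbl k p q hp hq F Fp Fq Fpq = dbl k q p hq hp F Fq Fp Fpq := by
  have e : p * q = q * p := mul_comm p q
  unfold dbl
  have h1 : ∀ (a b : ℕ) (hab : a = b) (ha : a ≠ 0) (hb : b ≠ 0),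
      (∑ m ∈ Finset.range a, F ∣[k] gl !![1, (m : ℤ); 0, (a : ℤ)]
        (det_up _ _ _ one_ne_zero (by exact_mod_cast ha))) =
      (∑ m ∈ Finset.range b, F ∣[k] gl !![1, (m : ℤ); 0, (b : ℤ)]
        (det_up _ _ _ one_ne_zero (by exact_mod_cast hb))) := by
    intro a b hab ha hb
    subst hab
    rfl
  have h2 : ∀ (a b : ℕ) (hab : a = b) (ha : a ≠ 0) (hb : b ≠ 0),
      Fpq ∣[k] gl !![(a : ℤ), 0; 0, 1] (det_up _ _ _ (by exact_mod_cast ha) one_ne_zero) =
      Fpq ∣[k] gl !![(b : ℤ), 0; 0, 1] (det_up _ _ _ (by exact_mod_cast hb) one_ne_zero) := by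
    intro a b hab ha hb
    subst hab
    rfl
  rw [h1 _ _ e (mul_ne_zero hp hq) (mul_ne_zero hq hp),
    h2 _ _ e (mul_ne_zero hp hq) (mul_ne_zero hq hp)]
  abel

/-- expansion of the composite of two Hecke sums. -/
lemma heckeSum_heckeSum {F : ℍ → ℂ} (hF : Inv N k F) (p q : ℕ) (hp : p.Prime) (hq : q ≠ 0)
    (hpq : Nat.Coprime p q) {ep eq : SL(2, ℤ)}
    (hep : ep ∈ CongruenceSubgroup.Gamma0 N) (hep1 : ((ep 1 1 : ℤ) : ZMod N) = p)
    (heq : eq ∈ CongruenceSubgroup.Gamma0 N) :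
    heckeSum q hq k eq (heckeSum p hp.ne_zero k ep F) =
      dbl k p q hp.ne_zero hq F (F ∣[k] ep) (F ∣[k] eq) (F ∣[k] (eq * ep)) := by
  have hp0 : (p : ℤ) ≠ 0 := by exact_mod_cast hp.ne_zero
  have hq0 : (q : ℤ) ≠ 0 := by exact_mod_cast hq
  have hFp : Inv N k (F ∣[k] ep) := hF.slash hep
  have hFq : Inv N k (F ∣[k] eq) := hF.slash heq
  rw [heckeSum_eq q hq, heckeSum_slash p hp hep hep1 hF heq, heckeSum_eq p hp.ne_zero,
    heckeSum_eq p hp.ne_zero]
  -- combine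
  have c1 : ∀ (G : ℍ → ℂ) (i j : ℕ), (G ∣[k] upperMat p i hp.ne_zero) ∣[k] upperMat q j hq =
      G ∣[k] gl !![1, (j : ℤ) + i * q; 0, ((p * q : ℕ) : ℤ)]
        (det_up _ _ _ one_ne_zero (by exact_mod_cast mul_ne_zero hp.ne_zero hq)) := by
    intro G i j
    rw [← SlashAction.slash_mul, upperMat_eq p i hp.ne_zero (det_upper_ne p i hp.ne_zero),
      upperMat_eq q j hq (det_upper_ne q j hq),
      ← gl_mul _ _ _ _ (by
        rw [Matrix.det_mul]; exact mul_ne_zero (det_upper_ne _ _ hp.ne_zero) (det_upper_ne _ _ hq))]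
    congr 1
    apply gl_congr
    ext a b
    fin_cases a <;> fin_cases b <;> simp [Matrix.mul_apply, Fin.sum_univ_two]
  have c2 : ∀ (G : ℍ → ℂ) (j : ℕ), (G ∣[k] lowerMat p hp.ne_zero) ∣[k] upperMat q j hq =
      G ∣[k] gl !![(p : ℤ), ((p * j : ℕ) : ℤ); 0, (q : ℤ)] (det_up _ _ _ hp0 hq0) := by
    intro G j
    rw [← SlashAction.slash_mul, lowerMat_eq p hp.ne_zero (det_lower_ne p hp.ne_zero),
      upperMat_eq q j hq (det_upper_ne q j hq),
      ← gl_mul _ _ _ _ (by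
        rw [Matrix.det_mul]; exact mul_ne_zero (det_lower_ne _ hp.ne_zero) (det_upper_ne _ _ hq))]
    congr 1
    apply gl_congr
    ext a b
    fin_cases a <;> fin_cases b <;> simp [Matrix.mul_apply, Fin.sum_univ_two]
  have c3 : ∀ (G : ℍ → ℂ) (i : ℕ), (G ∣[k] upperMat p i hp.ne_zero) ∣[k] lowerMat q hq =
      G ∣[k] gl !![(q : ℤ), (i : ℤ); 0, (p : ℤ)] (det_up _ _ _ hq0 hp0) := by
    intro G i
    rw [← SlashAction.slash_mul, lowerMat_eq q hq (det_lower_ne q hq),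
      upperMat_eq p i hp.ne_zero (det_upper_ne p i hp.ne_zero),
      ← gl_mul _ _ _ _ (by
        rw [Matrix.det_mul]; exact mul_ne_zero (det_upper_ne _ _ hp.ne_zero) (det_lower_ne _ hq))]
    congr 1
    apply gl_congr
    ext a b
    fin_cases a <;> fin_cases b <;> simp [Matrix.mul_apply, Fin.sum_univ_two]
  have c4 : ∀ (G : ℍ → ℂ), (G ∣[k] lowerMat p hp.ne_zero) ∣[k] lowerMat q hq =
      G ∣[k] gl !![((p * q : ℕ) : ℤ), 0; 0, 1]
        (det_up _ _ _ (by exact_mod_cast mul_ne_zero hp.ne_zero hq) one_ne_zero) := by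
    intro G
    rw [← SlashAction.slash_mul, lowerMat_eq q hq (det_lower_ne q hq),
      lowerMat_eq p hp.ne_zero (det_lower_ne p hp.ne_zero),
      ← gl_mul _ _ _ _ (by
        rw [Matrix.det_mul]; exact mul_ne_zero (det_lower_ne _ hp.ne_zero) (det_lower_ne _ hq))]
    congr 1
    apply gl_congr
    ext a b
    fin_cases a <;> fin_cases b <;> simp [Matrix.mul_apply, Fin.sum_univ_two]
  simp only [SlashAction.add_slash, SlashAction.sum_slash, c1, c2, c3, c4, ← slash_SL_mul]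
  rw [dbl, Finset.sum_add_distrib, Finset.sum_comm]
  have s1 := sum_range_prod p q (fun m : ℤ => F ∣[k] gl !![1, m; 0, ((p * q : ℕ) : ℤ)]
        (det_up _ _ _ one_ne_zero (by exact_mod_cast mul_ne_zero hp.ne_zero hq)))
  have s2 := sum_range_mul_of_periodic q p (Nat.pos_of_ne_zero hq) hpq
    (fun m : ℤ => (F ∣[k] ep) ∣[k] gl !![(p : ℤ), m; 0, (q : ℤ)] (det_up _ _ _ hp0 hq0))
    (fun m n => hFp.periodic (p : ℤ) m n (q : ℤ) hp0 hq0)
  rw [s1, s2]
  abel

lemma heckeSum_comm {F : ℍ → ℂ} (hF : Inv N k F) (p q : ℕ) (hp : p.Prime) (hq : q.Prime)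
    {ep eq : SL(2, ℤ)}
    (hep : ep ∈ CongruenceSubgroup.Gamma0 N) (hep1 : ((ep 1 1 : ℤ) : ZMod N) = p)
    (heq : eq ∈ CongruenceSubgroup.Gamma0 N) (heq1 : ((eq 1 1 : ℤ) : ZMod N) = q)
    (hpq : p ≠ q) :
    heckeSum q hq.ne_zero k eq (heckeSum p hp.ne_zero k ep F) =
      heckeSum p hp.ne_zero k ep (heckeSum q hq.ne_zero k eq F) := by
  have hc : Nat.Coprime p q := (Nat.coprime_primes hp hq).mpr hpq
  rw [heckeSum_heckeSum hF p q hp hq.ne_zero hc hep hep1 heq,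
    heckeSum_heckeSum hF q p hq hp.ne_zero hc.symm heq heq1 hep, dbl_symm]
  congr 1
  refine hF.slash_congr (mul_mem heq hep) (mul_mem hep heq) ?_
  rw [lr_mul heq, lr_mul hep, mul_comm]

end commute

section families

variable (N : ℕ) [NeZero N]

open Classical in
/-- the diamond operators. -/
noncomputable def dia (d i : ℕ) : MF N i →ₗ[ℂ] MF N i :=
  if h : ∃ γ : SL(2, ℤ), γ ∈ CongruenceSubgroup.Gamma0 N ∧ ((γ 1 1 : ℤ) : ZMod N) = d then
    { toFun := fun f => mkMF ((f : ℍ → ℂ) ∣[(i : ℤ)] h.choose)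
        ((good_of_MF f).slashSL _) (Inv.slash (fun γ hγ => MF_inv f γ hγ) h.choose_spec.1)
      map_add' := fun f g => by
        apply DFunLike.coe_injective
        exact SlashAction.add_slash (i : ℤ) h.choose (f : ℍ → ℂ) (g : ℍ → ℂ)
      map_smul' := fun c f => by
        apply DFunLike.coe_injective
        exact ModularForm.SL_smul_slash (f := (f : ℍ → ℂ)) (i : ℤ) h.choose c }
  else 0

theorem isDiamondFamily : IsDiamondFamily N (dia N) := by
  intro d i γ hγ hd f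
  have h : ∃ γ : SL(2, ℤ), γ ∈ CongruenceSubgroup.Gamma0 N ∧ ((γ 1 1 : ℤ) : ZMod N) = d :=
    ⟨γ, hγ, hd⟩
  rw [dia, dif_pos h]
  show (f : ℍ → ℂ) ∣[(i : ℤ)] h.choose = _
  exact Inv.slash_congr (fun γ hγ => MF_inv f γ hγ) h.choose_spec.1 hγ
    (h.choose_spec.2.trans hd.symm)

lemma exists_lr (ℓ : ℕ) (h : Nat.Coprime ℓ N) : ∃ γ : SL(2, ℤ),
    γ ∈ CongruenceSubgroup.Gamma0 N ∧ ((γ 1 1 : ℤ) : ZMod N) = ℓ := by
  have hc : IsCoprime (ℓ : ℤ) (N : ℤ) := Nat.isCoprime_iff_coprime.mpr h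
  obtain ⟨a, b, hab⟩ := hc
  obtain ⟨Y, hY⟩ : ∃ Y : SL(2, ℤ), (Y : Matrix (Fin 2) (Fin 2) ℤ) =
      !![a, -b; (N : ℤ), (ℓ : ℤ)] :=
    ⟨⟨!![a, -b; (N : ℤ), (ℓ : ℤ)], by rw [Matrix.det_fin_two_of]; linear_combination hab⟩, rfl⟩
  refine ⟨Y, ?_, ?_⟩
  · rw [CongruenceSubgroup.Gamma0_mem, hY]; simp
  · rw [hY]; simp

open Classical in
/-- a chosen matrix in `Γ₀(N)` with lower right entry `ℓ` modulo `N`. -/
noncomputable def eta (ℓ : ℕ) : SL(2, ℤ) :=
  if h : Nat.Coprime ℓ N then (exists_lr N ℓ h).choose else 1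

lemma eta_mem (ℓ : ℕ) : eta N ℓ ∈ CongruenceSubgroup.Gamma0 N := by
  unfold eta
  split_ifs with h
  · exact (exists_lr N ℓ h).choose_spec.1
  · exact one_mem _

lemma eta_lr {ℓ : ℕ} (h : Nat.Coprime ℓ N) : ((eta N ℓ 1 1 : ℤ) : ZMod N) = ℓ := by
  unfold eta
  rw [dif_pos h]
  exact (exists_lr N ℓ h).choose_spec.2

lemma heckeSum_good {k : ℤ} {F : ℍ → ℂ} (hF : Good k F) (ℓ : ℕ) (hℓ : ℓ ≠ 0) (e : SL(2, ℤ)) :
    Good k (heckeSum ℓ hℓ k e F) :=
  Good.sum _ fun _ _ => hF.slash _ _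

variable {N} in
lemma heckeSum_inv {k : ℤ} {F : ℍ → ℂ} (hF : Inv N k F) (ℓ : ℕ) (hℓ : ℓ.Prime)
    {e : SL(2, ℤ)} (he : e ∈ CongruenceSubgroup.Gamma0 N)
    (he1 : ((e 1 1 : ℤ) : ZMod N) = ℓ) : Inv N k (heckeSum ℓ hℓ.ne_zero k e F) := by
  intro γ hγ
  rw [heckeSum_slash ℓ hℓ he he1 hF (CongruenceSubgroup.Gamma1_in_Gamma0 N hγ), hF γ hγ]

lemma heckeSum_add (ℓ : ℕ) (hℓ : ℓ ≠ 0) (k : ℤ) (e : SL(2, ℤ)) (F G : ℍ → ℂ) :
    heckeSum ℓ hℓ k e (F + G) = heckeSum ℓ hℓ k e F + heckeSum ℓ hℓ k e G := by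
  simp only [heckeSum, SlashAction.add_slash, Finset.sum_add_distrib]

lemma heckeSum_smul (ℓ : ℕ) (hℓ : ℓ ≠ 0) (k : ℤ) (e : SL(2, ℤ)) (c : ℂ) (F : ℍ → ℂ) :
    heckeSum ℓ hℓ k e (c • F) = c • heckeSum ℓ hℓ k e F := by
  simp only [heckeSum, Finset.smul_sum]
  refine Finset.sum_congr rfl fun i _ => ?_
  exact smul_slash_gl k c F _ (by rw [det_rep]; exact_mod_cast Nat.pos_of_ne_zero hℓ)

open Classical in
/-- the Hecke operators. -/
noncomputable def hecke (ℓ i : ℕ) : MF N i →ₗ[ℂ] MF N i :=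
  if h : ℓ.Prime ∧ Nat.Coprime ℓ N then
    { toFun := fun f => mkMF (heckeSum ℓ h.1.ne_zero (i : ℤ) (eta N ℓ) (f : ℍ → ℂ))
        (heckeSum_good (good_of_MF f) _ _ _)
        (heckeSum_inv (fun γ hγ => MF_inv f γ hγ) ℓ h.1 (eta_mem N ℓ) (eta_lr N h.2))
      map_add' := fun f g => by
        apply DFunLike.coe_injective
        exact heckeSum_add ℓ h.1.ne_zero (i : ℤ) (eta N ℓ) (f : ℍ → ℂ) (g : ℍ → ℂ)
      map_smul' := fun c f => by
        apply DFunLike.coe_injective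
        exact heckeSum_smul ℓ h.1.ne_zero (i : ℤ) (eta N ℓ) c (f : ℍ → ℂ) }
  else 0

lemma hecke_coe {ℓ : ℕ} (h1 : ℓ.Prime) (h2 : Nat.Coprime ℓ N) (i : ℕ) (f : MF N i) :
    ((hecke N ℓ i f : MF N i) : ℍ → ℂ) = heckeSum ℓ h1.ne_zero (i : ℤ) (eta N ℓ) f := by
  rw [hecke, dif_pos ⟨h1, h2⟩]
  rfl

lemma coprime_of_not_dvd {ℓ : ℕ} (hℓ : ℓ.Prime) (h : ¬ ℓ ∣ 2 * N) : Nat.Coprime ℓ N := by
  rw [hℓ.coprime_iff_not_dvd]
  intro h'
  exact h (h'.mul_left 2)

theorem isHeckeFamily : IsHeckeFamily N (hecke N) (dia N) := by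
  intro ℓ hℓ hN i f
  have hc := coprime_of_not_dvd N hℓ hN
  rw [hecke_coe N hℓ hc, heckeSum_eq]
  congr 2
  exact (isDiamondFamily N ℓ i (eta N ℓ) (eta_mem N ℓ) (eta_lr N hc) f).symm

/-- the diamond operators commute. -/
theorem dia_comm (d e i : ℕ) : Commute (dia N d i) (dia N e i) := by
  by_cases hd : ∃ γ : SL(2, ℤ), γ ∈ CongruenceSubgroup.Gamma0 N ∧ ((γ 1 1 : ℤ) : ZMod N) = d
  · by_cases he : ∃ γ : SL(2, ℤ), γ ∈ CongruenceSubgroup.Gamma0 N ∧ ((γ 1 1 : ℤ) : ZMod N) = e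
    · obtain ⟨γ, hγ, hγ1⟩ := hd
      obtain ⟨δ, hδ, hδ1⟩ := he
      apply LinearMap.ext
      intro f
      apply DFunLike.coe_injective
      rw [Module.End.mul_apply, Module.End.mul_apply,
        isDiamondFamily N d i γ hγ hγ1, isDiamondFamily N e i δ hδ hδ1,
        isDiamondFamily N e i δ hδ hδ1, isDiamondFamily N d i γ hγ hγ1,
        ← slash_SL_mul, ← slash_SL_mul]
      refine Inv.slash_congr (fun γ hγ => MF_inv f γ hγ) (mul_mem hδ hγ) (mul_mem hγ hδ) ?_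
      rw [lr_mul hγ, lr_mul hδ, mul_comm]
    · rw [dia, dia, dif_neg he]
      exact Commute.zero_right _
  · rw [dia, dif_neg hd]
    exact Commute.zero_left _

/-- Hecke and diamond operators commute. -/
theorem hecke_dia_comm (ℓ d i : ℕ) : Commute (hecke N ℓ i) (dia N d i) := by
  by_cases h : ℓ.Prime ∧ Nat.Coprime ℓ N
  · by_cases hd : ∃ γ : SL(2, ℤ), γ ∈ CongruenceSubgroup.Gamma0 N ∧ ((γ 1 1 : ℤ) : ZMod N) = d
    · obtain ⟨γ, hγ, hγ1⟩ := hd
      apply LinearMap.ext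
      intro f
      apply DFunLike.coe_injective
      rw [Module.End.mul_apply, Module.End.mul_apply, hecke_coe N h.1 h.2,
        isDiamondFamily N d i γ hγ hγ1, isDiamondFamily N d i γ hγ hγ1, hecke_coe N h.1 h.2,
        heckeSum_slash ℓ h.1 (eta_mem N ℓ) (eta_lr N h.2) (fun γ hγ => MF_inv f γ hγ) hγ]
    · rw [dia, dif_neg hd]
      exact Commute.zero_right _
  · rw [hecke, dif_neg h]
    exact Commute.zero_left _

/-- Hecke operators commute. -/
theorem hecke_comm (p q i : ℕ) : Commute (hecke N p i) (hecke N q i) := by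
  by_cases hp : p.Prime ∧ Nat.Coprime p N
  · by_cases hq : q.Prime ∧ Nat.Coprime q N
    · by_cases hpq : p = q
      · rw [hpq]
      · apply LinearMap.ext
        intro f
        apply DFunLike.coe_injective
        rw [Module.End.mul_apply, Module.End.mul_apply, hecke_coe N hp.1 hp.2,
          hecke_coe N hq.1 hq.2, hecke_coe N hq.1 hq.2, hecke_coe N hp.1 hp.2]
        exact heckeSum_comm (fun γ hγ => MF_inv f γ hγ) q p hq.1 hp.1 (eta_mem N q)
          (eta_lr N hq.2) (eta_mem N p) (eta_lr N hp.2) (Ne.symm hpq)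
    · rw [hecke, hecke, dif_neg hq]
      exact Commute.zero_right _
  · rw [hecke, dif_neg hp]
    exact Commute.zero_left _

end families

end Crest.Agent.R007.HD
end

-- ▼ part R007/HDShell
section

/-!
Row 7, statement layer, part 5: commutativity of `stage`, `stageTwo`, `HeckeTwo`, and the reduction
of S0007 to `ringKrullDim ≤ 4`.
-/

set_option autoImplicit false

open Crest.NumberTheoryR.HeckeTwoAdic
open scoped TensorProduct

namespace Crest.Agent.R007.HD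

section generic

variable (N : ℕ) (T D : ℕ → (i : ℕ) → (MF N i →ₗ[ℂ] MF N i))

/-- the generators commute. -/
def GensComm : Prop := ∀ (p q : ℕ), p.Prime → ¬ p ∣ 2 * N → q.Prime → ¬ q ∣ 2 * N → ∀ i : ℕ,
  Commute (T p i) (T q i) ∧ Commute (T p i) (D q i) ∧ Commute (D p i) (D q i)

variable {N T D}

lemma gens_comm (h : GensComm N T D) (k : ℕ) (a b : EndProd N k) (ha : a ∈ heckeGens N T D k)
    (hb : b ∈ heckeGens N T D k) : a * b = b * a := by
  obtain ⟨p, hp, hpN, hpa⟩ := ha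
  obtain ⟨q, hq, hqN, hqb⟩ := hb
  funext i
  have h1 := h p q hp hpN hq hqN ((i : ℕ) + 1)
  have h2 := h q p hq hqN hp hpN ((i : ℕ) + 1)
  rcases hpa with rfl | rfl <;> rcases hqb with rfl | rfl
  · exact h1.1.eq
  · exact (h1.2.1.smul_right _).eq
  · exact (h2.2.1.symm.smul_left _).eq
  · exact ((h1.2.2.smul_left _).smul_right _).eq

lemma stage_comm (h : GensComm N T D) (k : ℕ) (a b : stage N T D k) : a * b = b * a := by
  have hsub : (stage N T D k : Set (EndProd N k)) ⊆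
      Subring.centralizer (Subring.centralizer (heckeGens N T D k) : Set (EndProd N k)) :=
    Subring.closure_le_centralizer_centralizer _
  have hgen : heckeGens N T D k ⊆ Subring.centralizer (heckeGens N T D k) := by
    intro x hx
    rw [SetLike.mem_coe, Subring.mem_centralizer_iff]
    intro g hg
    exact gens_comm h k g x hg hx
  have hst : stage N T D k ≤ Subring.centralizer (heckeGens N T D k) :=
    Subring.closure_le.mpr hgen
  apply Subtype.ext
  have hb : (b : EndProd N k) ∈ Subring.centralizer (heckeGens N T D k) := hst b.2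
  have ha := hsub a.2
  rw [SetLike.mem_coe, Subring.mem_centralizer_iff] at ha
  exact (ha b hb).symm

lemma tensor_comm {A S : Type*} [CommRing A] [Ring S] (h : ∀ s t : S, s * t = t * s)
    (a b : A ⊗[ℤ] S) : a * b = b * a := by
  induction a using TensorProduct.induction_on with
  | zero => rw [zero_mul, mul_zero]
  | add x y hx hy => rw [add_mul, mul_add, hx, hy]
  | tmul z s =>
    induction b using TensorProduct.induction_on with
    | zero => rw [zero_mul, mul_zero]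
    | add x y hx hy => rw [add_mul, mul_add, hx, hy]
    | tmul w t =>
      rw [Algebra.TensorProduct.tmul_mul_tmul, Algebra.TensorProduct.tmul_mul_tmul,
        mul_comm z w, h s t]

lemma stageTwo_comm (h : GensComm N T D) (k : ℕ) (a b : stageTwo N T D k) : a * b = b * a :=
  tensor_comm (A := PadicInt 2) (S := stage N T D k) (stage_comm h k) a b

theorem heckeTwo_comm (h : GensComm N T D) (a b : HeckeTwo N T D) : a * b = b * a := by
  apply Subtype.ext
  funext k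
  exact stageTwo_comm h k _ _

end generic

theorem gensComm_hecke (N : ℕ) [NeZero N] : GensComm N (hecke N) (dia N) :=
  fun p q _ _ _ _ i => ⟨hecke_comm N p q i, hecke_dia_comm N p q i, dia_comm N p q i⟩

/-- the frozen statement for given families. -/
theorem shell_of_dim (N : ℕ) (T D : ℕ → (i : ℕ) → (MF N i →ₗ[ℂ] MF N i))
    (hD : IsDiamondFamily N D) (hT : IsHeckeFamily N T D)
    (hcomm : ∀ a b : HeckeTwo N T D, a * b = b * a)
    (hnt : Nontrivial (HeckeTwo N T D))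
    (hdim : @ringKrullDim (HeckeTwo N T D)
      (commRingOfComm (HeckeTwo N T D) hcomm).toCommSemiring ≤ 4) :
    ∃ (T D : ℕ → (i : ℕ) → (MF N i →ₗ[ℂ] MF N i)),
      IsDiamondFamily N D ∧ IsHeckeFamily N T D ∧
      ∃ hcomm : ∀ a b : HeckeTwo N T D, a * b = b * a,
        Nontrivial (HeckeTwo N T D) ∧
        ∀ P : Ideal (HeckeTwo N T D),
          P ∈ @minimalPrimes (HeckeTwo N T D)
            (commRingOfComm (HeckeTwo N T D) hcomm).toCommSemiring →
          @ringKrullDim (HeckeTwo N T D ⧸ P)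
            (@Ideal.Quotient.commRing (HeckeTwo N T D)
              (commRingOfComm (HeckeTwo N T D) hcomm) P).toCommSemiring ≤ 4 := by
  refine ⟨T, D, hD, hT, hcomm, hnt, fun P _ => ?_⟩
  exact le_trans (@ringKrullDim_quotient_le (HeckeTwo N T D)
    (commRingOfComm (HeckeTwo N T D) hcomm) P) hdim

/-- the frozen statement from an honest commutative ring isomorphic to the Hecke algebra. -/
theorem shell (N : ℕ) [NeZero N] (hnt : Nontrivial (HeckeTwo N (hecke N) (dia N)))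
    {R : Type*} [CommRing R] (e : R ≃+* HeckeTwo N (hecke N) (dia N))
    (hdim : ringKrullDim R ≤ 4) :
    ∃ (T D : ℕ → (i : ℕ) → (MF N i →ₗ[ℂ] MF N i)),
      IsDiamondFamily N D ∧ IsHeckeFamily N T D ∧
      ∃ hcomm : ∀ a b : HeckeTwo N T D, a * b = b * a,
        Nontrivial (HeckeTwo N T D) ∧
        ∀ P : Ideal (HeckeTwo N T D),
          P ∈ @minimalPrimes (HeckeTwo N T D)
            (commRingOfComm (HeckeTwo N T D) hcomm).toCommSemiring →
          @ringKrullDim (HeckeTwo N T D ⧸ P)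
            (@Ideal.Quotient.commRing (HeckeTwo N T D)
              (commRingOfComm (HeckeTwo N T D) hcomm) P).toCommSemiring ≤ 4 := by
  refine shell_of_dim N (hecke N) (dia N) (isDiamondFamily N) (isHeckeFamily N)
    (heckeTwo_comm (gensComm_hecke N)) hnt ?_
  let _ : CommRing (HeckeTwo N (hecke N) (dia N)) :=
    commRingOfComm _ (heckeTwo_comm (gensComm_hecke N))
  let e' : R ≃+* HeckeTwo N (hecke N) (dia N) :=
    { toFun := e, invFun := e.symm, left_inv := e.left_inv, right_inv := e.right_inv,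
      map_mul' := e.map_mul, map_add' := e.map_add }
  exact (ringKrullDim_eq_of_ringEquiv e').symm.trans_le hdim

end Crest.Agent.R007.HD
end

-- ▼ part R007/HeckeB
section

set_option autoImplicit false

namespace Crest.Agent.R007

open Crest.NumberTheoryR.HeckeTwoAdic
open UpperHalfPlane ModularForm CongruenceSubgroup Matrix OnePoint
open scoped ModularForm MatrixGroups Manifold

variable {N : ℕ}

lemma mf_slash [NeZero N] {k : ℕ} (f : MF N k) {γ : SL(2, ℤ)} (hγ : γ ∈ Gamma1 N) :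
    (⇑f) ∣[(k : ℤ)] γ = ⇑f := by
  have := SlashInvariantForm.slash_action_eqn (Γ := (Gamma1 N : Subgroup (GL (Fin 2) ℝ))) (k := (k : ℤ)) f
    (Matrix.SpecialLinearGroup.mapGL ℝ γ) ⟨γ, hγ, rfl⟩
  exact this

lemma mf_bdd [NeZero N] {k : ℕ} (f : MF N k) (c : OnePoint ℝ) (hc : IsCusp c 𝒮ℒ) :
    IsBoundedAt c (⇑f) (k : ℤ) := by
  have h : IsCusp c (Gamma1 N : Subgroup (GL (Fin 2) ℝ)) := by
    rw [Subgroup.IsArithmetic.isCusp_iff_isCusp_SL2Z]; exact hc
  exact ModularFormClass.bdd_at_cusps f h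

/-- build a form of level Gamma1(N) -/
def mkMF [NeZero N] (k : ℕ) (F : ℍ → ℂ) (h1 : ∀ γ : SL(2, ℤ), γ ∈ Gamma1 N → F ∣[(k : ℤ)] γ = F)
    (h2 : MDiff F) (h3 : ∀ c : OnePoint ℝ, IsCusp c 𝒮ℒ → IsBoundedAt c F (k : ℤ)) : MF N k where
  toFun := F
  slash_action_eq' := by
    rintro _ ⟨γ, hγ, rfl⟩
    exact h1 γ hγ
  holo' := h2
  bdd_at_cusps' := by
    intro c hc
    apply h3
    rw [← Subgroup.IsArithmetic.isCusp_iff_isCusp_SL2Z (Gamma1 N : Subgroup (GL (Fin 2) ℝ))]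
    exact hc

@[simp] lemma mkMF_coe [NeZero N] (k : ℕ) (F : ℍ → ℂ) (h1 h2 h3) : ⇑(mkMF (N := N) k F h1 h2 h3) = F := rfl

/-- slash by `γ ∈ Γ₀(N)` preserves `MF N k` -/
lemma conj_mem [NeZero N] {γ δ : SL(2, ℤ)} (hγ : γ ∈ Gamma0 N) (hδ : δ ∈ Gamma1 N) :
    γ * δ * γ⁻¹ ∈ Gamma1 N := by
  rw [Gamma1_mem] at hδ ⊢
  rw [Gamma0_mem] at hγ
  obtain ⟨h1, h2, h3⟩ := hδ
  have hdet : ((γ 0 0 : ℤ) : ZMod N) * (γ 1 1 : ℤ) = 1 := by
    have := γ.det_coe
    rw [Matrix.det_fin_two] at this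
    have h := congrArg (Int.cast : ℤ → ZMod N) this
    push_cast at h
    rw [hγ, mul_zero, sub_zero] at h
    exact h
  have e : (γ * δ * γ⁻¹ : SL(2, ℤ)).1 = γ.1 * δ.1 * γ.1.adjugate := by
    simp [Matrix.SpecialLinearGroup.coe_inv]
  have entries : ∀ i j, ((γ * δ * γ⁻¹ : SL(2, ℤ)) i j : ℤ) = (γ.1 * δ.1 * γ.1.adjugate) i j := by
    intro i j; exact congrFun (congrFun e i) j
  refine ⟨?_, ?_, ?_⟩
  · rw [entries]
    simp only [Matrix.adjugate_fin_two, Matrix.mul_apply, Fin.sum_univ_two, Matrix.of_apply, Matrix.cons_val', Matrix.cons_val_zero, Matrix.cons_val_one]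
    push_cast
    rw [hγ, h1, h2, h3]
    linear_combination hdet
  · rw [entries]
    simp only [Matrix.adjugate_fin_two, Matrix.mul_apply, Fin.sum_univ_two, Matrix.of_apply, Matrix.cons_val', Matrix.cons_val_zero, Matrix.cons_val_one]
    push_cast
    rw [hγ, h1, h2, h3]
    linear_combination hdet
  · rw [entries]
    simp only [Matrix.adjugate_fin_two, Matrix.mul_apply, Fin.sum_univ_two, Matrix.of_apply, Matrix.cons_val', Matrix.cons_val_zero, Matrix.cons_val_one]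
    push_cast
    rw [hγ, h3]
    ring

lemma slash_g0 [NeZero N] {k : ℕ} (f : MF N k) {γ : SL(2, ℤ)} (hγ : γ ∈ Gamma0 N) {δ : SL(2, ℤ)}
    (hδ : δ ∈ Gamma1 N) : ((⇑f) ∣[(k : ℤ)] γ) ∣[(k : ℤ)] δ = (⇑f) ∣[(k : ℤ)] γ := by
  rw [← SlashAction.slash_mul]
  have e : γ * δ = (γ * δ * γ⁻¹) * γ := by group
  rw [e, SlashAction.slash_mul, mf_slash f (conj_mem hγ hδ)]

/-- slash by `γ ∈ Γ₀(N)` as a linear endomorphism -/
noncomputable def slashL [NeZero N] (k : ℕ) (γ : SL(2, ℤ)) (hγ : γ ∈ Gamma0 N) : MF N k →ₗ[ℂ] MF N k where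
  toFun f := mkMF k ((⇑f) ∣[(k : ℤ)] γ) (fun _ hδ => slash_g0 f hγ hδ)
    (by rw [SL_slash]; exact (ModularFormClass.holo f).slash _ _)
    (by
      intro c hc
      obtain ⟨g, hg⟩ := toGL_rat γ.1 (by simp)
      rw [SL_slash]
      have : (γ : GL (Fin 2) ℝ) = g.map (Rat.castHom ℝ) := by rw [← hg]; exact mapGL_eq_toGL γ
      rw [this]
      exact bdd_slash (fun c hc => mf_bdd f c hc) g c hc)
  map_add' f g := by
    apply DFunLike.coe_injective
    simp only [mkMF_coe, FunLike.coe_add, SlashAction.add_slash]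
  map_smul' c f := by
    apply DFunLike.coe_injective
    simp only [mkMF_coe, FunLike.coe_smul, SL_smul_slash, RingHom.id_apply]

@[simp] lemma slashL_coe [NeZero N] (k : ℕ) (γ : SL(2, ℤ)) (hγ : γ ∈ Gamma0 N) (f : MF N k) :
    ⇑(slashL k γ hγ f) = (⇑f) ∣[(k : ℤ)] γ := rfl

lemma slash_congr [NeZero N] {k : ℕ} (f : MF N k) {γ γ' : SL(2, ℤ)} (hγ : γ ∈ Gamma0 N) (hγ' : γ' ∈ Gamma0 N)
    (e : ((γ 1 1 : ℤ) : ZMod N) = ((γ' 1 1 : ℤ) : ZMod N)) :
    (⇑f) ∣[(k : ℤ)] γ = (⇑f) ∣[(k : ℤ)] γ' := by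
  have hm : γ * γ'⁻¹ ∈ Gamma1 N := by
    rw [Gamma1_mem]
    rw [Gamma0_mem] at hγ hγ'
    have d1 : ((γ 0 0 : ℤ) : ZMod N) * (γ 1 1 : ℤ) = 1 := by
      have := γ.det_coe
      rw [Matrix.det_fin_two] at this
      have h := congrArg (Int.cast : ℤ → ZMod N) this
      push_cast at h
      rw [hγ, mul_zero, sub_zero] at h
      exact h
    have d2 : ((γ' 0 0 : ℤ) : ZMod N) * (γ' 1 1 : ℤ) = 1 := by
      have := γ'.det_coe
      rw [Matrix.det_fin_two] at this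
      have h := congrArg (Int.cast : ℤ → ZMod N) this
      push_cast at h
      rw [hγ', mul_zero, sub_zero] at h
      exact h
    have e' : (γ * γ'⁻¹ : SL(2, ℤ)).1 = γ.1 * γ'.1.adjugate := by
      simp [Matrix.SpecialLinearGroup.coe_inv]
    have entries : ∀ i j, ((γ * γ'⁻¹ : SL(2, ℤ)) i j : ℤ) = (γ.1 * γ'.1.adjugate) i j := by
      intro i j; exact congrFun (congrFun e' i) j
    refine ⟨?_, ?_, ?_⟩
    · rw [entries]
      simp only [Matrix.adjugate_fin_two, Matrix.mul_apply, Fin.sum_univ_two, Matrix.of_apply, Matrix.cons_val', Matrix.cons_val_zero, Matrix.cons_val_one]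
      push_cast
      rw [hγ', ← e]
      linear_combination d1
    · rw [entries]
      simp only [Matrix.adjugate_fin_two, Matrix.mul_apply, Fin.sum_univ_two, Matrix.of_apply, Matrix.cons_val', Matrix.cons_val_zero, Matrix.cons_val_one]
      push_cast
      rw [hγ, e]
      linear_combination d2
    · rw [entries]
      simp only [Matrix.adjugate_fin_two, Matrix.mul_apply, Fin.sum_univ_two, Matrix.of_apply, Matrix.cons_val', Matrix.cons_val_zero, Matrix.cons_val_one]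
      push_cast
      rw [hγ, hγ']
      ring
  have e2 : γ = (γ * γ'⁻¹) * γ' := by group
  rw [e2, SlashAction.slash_mul, mf_slash f hm]


open Classical in
/-- the diamond operator indexed by `ZMod N` (zero for non-units) -/
noncomputable def dia [NeZero N] (u : ZMod N) (k : ℕ) : MF N k →ₗ[ℂ] MF N k :=
  if h : ∃ γ : SL(2, ℤ), γ ∈ Gamma0 N ∧ ((γ 1 1 : ℤ) : ZMod N) = u then slashL k h.choose h.choose_spec.1 else 0

lemma dia_spec [NeZero N] {k : ℕ} (f : MF N k) {γ : SL(2, ℤ)} (hγ : γ ∈ Gamma0 N) {u : ZMod N}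
    (hu : ((γ 1 1 : ℤ) : ZMod N) = u) : ⇑(dia u k f) = (⇑f) ∣[(k : ℤ)] γ := by
  have h : ∃ γ : SL(2, ℤ), γ ∈ Gamma0 N ∧ ((γ 1 1 : ℤ) : ZMod N) = u := ⟨γ, hγ, hu⟩
  rw [dia, dif_pos h]
  exact slash_congr f h.choose_spec.1 hγ (h.choose_spec.2.trans hu.symm)




lemma dia_one [NeZero N] {k : ℕ} (f : MF N k) : dia 1 k f = f := by
  apply DFunLike.coe_injective
  rw [dia_spec f (one_mem _) (by simp), SlashAction.slash_one]



end Crest.Agent.R007
end

-- ▼ part R007/NT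
section

set_option autoImplicit false

namespace Crest.Agent.R007

open Crest.NumberTheoryR.HeckeTwoAdic
open UpperHalfPlane ModularForm CongruenceSubgroup Matrix OnePoint
open scoped ModularForm MatrixGroups Manifold TensorProduct

/-- a level one form seen at level `Γ₁(N)` -/
noncomputable def ofLevelOne (N : ℕ) [NeZero N] (k : ℕ) (f : ModularForm 𝒮ℒ (k : ℤ)) : MF N k :=
  mkMF k (⇑f) (fun γ _ => SlashInvariantForm.slash_action_eqn (Γ := 𝒮ℒ) (k := (k : ℤ)) f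
      (Matrix.SpecialLinearGroup.mapGL ℝ γ) ⟨γ, rfl⟩)
    (ModularFormClass.holo f) (fun _ hc => ModularFormClass.bdd_at_cusps f hc)

@[simp] lemma ofLevelOne_coe (N : ℕ) [NeZero N] (k : ℕ) (f : ModularForm 𝒮ℒ (k : ℤ)) :
    ⇑(ofLevelOne N k f) = ⇑f := rfl

lemma nontrivial_MF4 (N : ℕ) [NeZero N] : Nontrivial (MF N 4) := by
  have h : Nontrivial (ModularForm 𝒮ℒ 4) := by
    by_contra hn
    rw [not_nontrivial_iff_subsingleton] at hn
    have h1 := ModularForm.levelOne_weight_four_rank_one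
    rw [rank_subsingleton'] at h1
    exact zero_ne_one h1
  obtain ⟨f, hf⟩ := exists_ne (0 : ModularForm 𝒮ℒ 4)
  refine ⟨⟨ofLevelOne N 4 f, 0, ?_⟩⟩
  intro h
  apply hf
  apply DFunLike.coe_injective
  have h1 := congrArg (fun f : MF N 4 => (⇑f : ℍ → ℂ)) h
  simpa using! h1

/-- a torsion-free ring with `1 ≠ 0`: the base change to `ℤ₂` is non trivial -/
lemma nontrivial_tensor (R : Type*) [Ring R] [Nontrivial R] [Module.IsTorsionFree ℤ R] :
    Nontrivial (TensorProduct ℤ (PadicInt 2) R) := by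
  -- flatness of `ℤ₂`
  have hflat : Module.Flat ℤ (PadicInt 2) := by
    infer_instance
  let i : ℤ →ₗ[ℤ] R := LinearMap.toSpanSingleton ℤ R 1
  have hi : Function.Injective i := by
    intro a b hab
    simp only [i, LinearMap.toSpanSingleton_apply] at hab
    exact smul_left_injective ℤ (one_ne_zero : (1 : R) ≠ 0) hab
  have hinj : Function.Injective (i.lTensor (PadicInt 2)) :=
    Module.Flat.lTensor_preserves_injective_linearMap i hi
  have : Nontrivial (TensorProduct ℤ (PadicInt 2) ℤ) := (TensorProduct.rid ℤ (PadicInt 2)).toEquiv.nontrivial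
  exact hinj.nontrivial

instance stage_torsionFree (N : ℕ) (T D : ℕ → (i : ℕ) → (MF N i →ₗ[ℂ] MF N i)) (k : ℕ) :
    Module.IsTorsionFree ℤ (stage N T D k) := by
  have h0 : ∀ (V : Type) [AddCommGroup V] [Module ℂ V], Module.IsTorsionFree ℤ V := by
    intro V _ _
    refine ⟨fun n hn v w hvw => ?_⟩
    have hn0 : (n : ℂ) ≠ 0 := by
      exact_mod_cast hn.ne_zero
    have h1 : (n : ℂ) • v = (n : ℂ) • w := by
      rw [Int.cast_smul_eq_zsmul, Int.cast_smul_eq_zsmul]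
      exact hvw
    exact smul_right_injective V hn0 h1
  have : Module.IsTorsionFree ℤ (EndProd N k) := h0 _
  exact (Subtype.coe_injective (p := fun x => x ∈ stage N T D k)).moduleIsTorsionFree _ (fun n x => by simp)

theorem nontrivial_heckeTwo (N : ℕ) [NeZero N] (T D : ℕ → (i : ℕ) → (MF N i →ₗ[ℂ] MF N i)) :
    Nontrivial (HeckeTwo N T D) := by
  have h4 := nontrivial_MF4 N
  have hE : Nontrivial (EndProd N 4) := by
    have : Nontrivial (Module.End ℂ (MF N ((3 : Fin 4) + 1))) := by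
      have : Nontrivial (MF N ((3 : Fin 4) + 1)) := h4
      infer_instance
    exact Pi.nontrivial_at (3 : Fin 4)
  have hs : Nontrivial (stage N T D 4) := Subring.instNontrivialSubtypeMem _
  have ht : Nontrivial (stageTwo N T D 4) := nontrivial_tensor (stage N T D 4)
  refine ⟨⟨0, 1, ?_⟩⟩
  intro h
  have h1 : (((0 : HeckeTwo N T D) : (k : ℕ) → stageTwo N T D k)) 4 = ((1 : HeckeTwo N T D) : (k : ℕ) → stageTwo N T D k) 4 := by rw [h]
  exact zero_ne_one h1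

end Crest.Agent.R007
end

-- ▼ part R007/Du3

/-!
Row 7, section B (helper707), concrete layer: the Hecke algebra `T = lim ℤ₂ ⊗ A k` as an honest
commutative ring, its generators, arithmetic of the scalars `e_c` for `c ≡ 1 mod N`.
-/

set_option autoImplicit false

open Crest.NumberTheoryR.HeckeTwoAdic
open scoped TensorProduct

namespace Crest.Agent.R007.Du

open HD (gensComm_hecke stage_comm isDiamondFamily isHeckeFamily)
open BAlg (IsLim)

section arith

/-- powers of `ℓ ≡ 5 mod 8` -/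
theorem pow_two_pow_eq (l : ℤ) (hl : l % 8 = 5) (j : ℕ) :
    ∃ u : ℤ, Odd u ∧ l ^ (2 ^ j) = 1 + 2 ^ (j + 2) * u := by
  induction j with
  | zero => exact ⟨(l - 1) / 4, by rw [Int.odd_iff]; omega, by norm_num; omega⟩
  | succ j ih =>
    obtain ⟨u, hu, h⟩ := ih
    refine ⟨u + 2 ^ (j + 1) * u ^ 2, ?_, ?_⟩
    · apply Odd.add_even hu
      rw [pow_succ]
      exact ⟨2 ^ j * u ^ 2, by ring⟩
    · rw [pow_succ 2 j, pow_mul, h]
      ring

/-- the powers of `ℓ ≡ 5 mod 8` are dense in `1 + 4ℤ₂`. -/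
theorem exists_pow_sub (l : ℤ) (hl : l % 8 = 5) (b : ℤ) (hb : b % 4 = 1) (m : ℕ) :
    ∃ a : ℕ, (2 : ℤ) ^ m ∣ l ^ a - b := by
  have key : ∀ m : ℕ, ∃ a : ℕ, (2 : ℤ) ^ (m + 2) ∣ l ^ a - b := by
    intro m
    induction m with
    | zero => exact ⟨0, by norm_num; omega⟩
    | succ m ih =>
      obtain ⟨a, c, hc⟩ := ih
      rcases Int.even_or_odd c with ⟨d, hd⟩ | hc'
      · exact ⟨a, d, by rw [hc, hd]; ring⟩
      · obtain ⟨u, hu, h⟩ := pow_two_pow_eq l hl m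
        have hb' : Odd b := by rw [Int.odd_iff]; omega
        obtain ⟨d, hd⟩ := hc'.add_odd (hb'.mul hu)
        refine ⟨a + 2 ^ m, d + 2 ^ (m + 1) * (c * u), ?_⟩
        have h1 : l ^ a = b + 2 ^ (m + 2) * c := by rw [← hc]; ring
        rw [pow_add, h1, h]
        have h2 : c + b * u = 2 * d := by rw [hd]; ring
        have h3 : (b + 2 ^ (m + 2) * c) * (1 + 2 ^ (m + 2) * u) - b =
          2 ^ (m + 2) * (c + b * u) + 2 ^ (m + 2) * (2 ^ (m + 2) * (c * u)) := by ring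
        rw [h3, h2]
        ring
  obtain ⟨a, ha⟩ := key m
  exact ⟨a, (pow_dvd_pow 2 (by omega)).trans ha⟩

end arith

variable (N : ℕ) [NeZero N]

/-- the Hecke ring of weights `≤ k` -/
def A (k : ℕ) : Type := stage N (HD.hecke N) (HD.dia N) k

noncomputable instance instA (k : ℕ) : CommRing (A N k) :=
  commRingOfComm (stage N (HD.hecke N) (HD.dia N) k) (stage_comm (gensComm_hecke N) k)

instance tfA (k : ℕ) : Module.IsTorsionFree ℤ (A N k) :=
  stage_torsionFree N (HD.hecke N) (HD.dia N) k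

/-- action on weight `i + 1` -/
noncomputable def act {k : ℕ} (i : Fin k) : A N k →+* Module.End ℂ (MF N ((i : ℕ) + 1)) :=
  (Pi.evalRingHom (fun j : Fin k => Module.End ℂ (MF N ((j : ℕ) + 1))) i).comp
    (stage N (HD.hecke N) (HD.dia N) k).subtype

theorem A_ext {k : ℕ} {x y : A N k} (h : ∀ i, act N i x = act N i y) : x = y :=
  Subtype.ext (funext h)

variable {N} in
/-- the generator `T_ℓ` -/
noncomputable def gT {l : ℕ} (hl : l.Prime) (hlN : ¬ l ∣ 2 * N) (k : ℕ) : A N k :=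
  ⟨fun i => HD.hecke N l ((i : ℕ) + 1), Subring.subset_closure ⟨l, hl, hlN, Or.inl rfl⟩⟩

variable {N} in
/-- the generator `ℓ S_ℓ` -/
noncomputable def gE {l : ℕ} (hl : l.Prime) (hlN : ¬ l ∣ 2 * N) (k : ℕ) : A N k :=
  ⟨fun i => ((l : ℂ) ^ (i : ℕ)) • HD.dia N l ((i : ℕ) + 1),
    Subring.subset_closure ⟨l, hl, hlN, Or.inr rfl⟩⟩

variable {N} in
@[simp] theorem act_gT {l : ℕ} (hl : l.Prime) (hlN : ¬ l ∣ 2 * N) (k : ℕ) (i : Fin k) :
    act N i (gT hl hlN k) = HD.hecke N l ((i : ℕ) + 1) := rfl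

variable {N} in
@[simp] theorem act_gE {l : ℕ} (hl : l.Prime) (hlN : ¬ l ∣ 2 * N) (k : ℕ) (i : Fin k) :
    act N i (gE hl hlN k) = ((l : ℂ) ^ (i : ℕ)) • HD.dia N l ((i : ℕ) + 1) := rfl

/-- restriction of weights -/
noncomputable def resA (k : ℕ) : A N (k + 1) →+* A N k := restrictStageInt N (HD.hecke N) (HD.dia N) k


variable {N} in
@[simp] theorem resA_gT {l : ℕ} (hl : l.Prime) (hlN : ¬ l ∣ 2 * N) (k : ℕ) :
    resA N k (gT hl hlN (k + 1)) = gT hl hlN k := rfl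

variable {N} in
@[simp] theorem resA_gE {l : ℕ} (hl : l.Prime) (hlN : ¬ l ∣ 2 * N) (k : ℕ) :
    resA N k (gE hl hlN (k + 1)) = gE hl hlN k := rfl

/-- the generators of `A N k`. -/
def gens (k : ℕ) : Set (A N k) :=
  {a | ∃ (l : ℕ) (hl : l.Prime) (hlN : ¬ l ∣ 2 * N), a = gT hl hlN k ∨ a = gE hl hlN k}

theorem closure_gens (k : ℕ) : Subring.closure (gens N k) = ⊤ := by
  rw [eq_top_iff]
  rintro ⟨x, hx⟩ -
  have h1 : ∀ (y : EndProd N k) (hy : y ∈ stage N (HD.hecke N) (HD.dia N) k),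
      (⟨y, hy⟩ : A N k) ∈ Subring.closure (gens N k) := by
    intro y hy
    induction hy using Subring.closure_induction with
    | mem y hy =>
      obtain ⟨l, hl, hlN, h⟩ := hy
      apply Subring.subset_closure
      refine ⟨l, hl, hlN, ?_⟩
      rcases h with rfl | rfl
      · exact Or.inl rfl
      · exact Or.inr rfl
    | zero => exact zero_mem _
    | one => exact one_mem _
    | add a b ha hb iha ihb => exact add_mem iha ihb
    | neg a ha iha => exact neg_mem iha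
    | mul a b ha hb iha ihb => exact mul_mem iha ihb
  exact h1 x hx

theorem resA_surjective (k : ℕ) : Function.Surjective (resA N k) := by
  have h : (⊤ : Subring (A N k)) ≤ (resA N k).range := by
    rw [← closure_gens, Subring.closure_le]
    rintro _ ⟨l, hl, hlN, rfl | rfl⟩
    · exact ⟨gT hl hlN (k + 1), rfl⟩
    · exact ⟨gE hl hlN (k + 1), rfl⟩
  intro x
  exact h (Subring.mem_top x)

/-- the finite stage `ℤ₂ ⊗ A k`. -/
def R (k : ℕ) : Type := ℤ_[2] ⊗[ℤ] A N k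

noncomputable instance instR (k : ℕ) : CommRing (R N k) :=
  inferInstanceAs (CommRing (ℤ_[2] ⊗[ℤ] A N k))

noncomputable instance algR (k : ℕ) : Algebra ℤ_[2] (R N k) :=
  inferInstanceAs (Algebra ℤ_[2] (ℤ_[2] ⊗[ℤ] A N k))

variable {N} in
/-- pure tensors -/
noncomputable def tm {k : ℕ} (z : ℤ_[2]) (a : A N k) : R N k := z ⊗ₜ[ℤ] a

variable {N} in
theorem R_induction {k : ℕ} {P : R N k → Prop} (x : R N k) (h0 : P 0) (ht : ∀ z a, P (tm z a))
    (ha : ∀ x y, P x → P y → P (x + y)) : P x :=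
  TensorProduct.induction_on (motive := fun x : ℤ_[2] ⊗[ℤ] A N k => P x) x h0 ht ha

/-- transition maps. -/
noncomputable def resR (k : ℕ) : R N (k + 1) →+* R N k :=
  (Algebra.TensorProduct.map (AlgHom.id ℤ ℤ_[2]) (resA N k).toIntAlgHom).toRingHom

/-- the inclusion `A k → ℤ₂ ⊗ A k`. -/
noncomputable def inc (k : ℕ) : A N k →+* R N k :=
  (Algebra.TensorProduct.includeRight : A N k →ₐ[ℤ] ℤ_[2] ⊗[ℤ] A N k).toRingHom

theorem inc_apply (k : ℕ) (a : A N k) : inc N k a = tm 1 a := rfl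

theorem algebraMap_R (k : ℕ) (z : ℤ_[2]) : algebraMap ℤ_[2] (R N k) z = tm z 1 := rfl

theorem tm_eq (k : ℕ) (z : ℤ_[2]) (a : A N k) :
    tm z a = algebraMap ℤ_[2] (R N k) z * inc N k a := by
  rw [algebraMap_R, inc_apply]
  have h : (z ⊗ₜ[ℤ] (1 : A N k)) * ((1 : ℤ_[2]) ⊗ₜ[ℤ] a) = (z * 1) ⊗ₜ[ℤ] (1 * a) :=
    Algebra.TensorProduct.tmul_mul_tmul _ _ _ _
  rw [mul_one, one_mul] at h
  exact h.symm


@[simp] theorem resR_inc (k : ℕ) (a : A N (k + 1)) : resR N k (inc N (k + 1) a) = inc N k (resA N k a) :=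
  rfl

theorem resR_surjective (k : ℕ) : Function.Surjective (resR N k) := by
  intro x
  refine R_induction (P := fun x => ∃ y, resR N k y = x) x ⟨0, map_zero _⟩ (fun z a => ?_)
    (fun x y hx hy => ?_)
  · obtain ⟨b, rfl⟩ := resA_surjective N k a
    exact ⟨tm z b, rfl⟩
  · obtain ⟨a, rfl⟩ := hx
    obtain ⟨b, rfl⟩ := hy
    exact ⟨a + b, map_add _ _ _⟩

theorem tensor_torsionFree {M : Type*} [CommRing M] [Module.IsTorsionFree ℤ M]
    (x : ℤ_[2] ⊗[ℤ] M) (hx : 2 * x = 0) : x = 0 := by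
  have hflat : Module.Flat ℤ ℤ_[2] := by infer_instance
  let f : M →ₗ[ℤ] M := LinearMap.lsmul ℤ M 2
  have hf : Function.Injective f := by
    intro a b hab
    exact smul_right_injective M (two_ne_zero : (2 : ℤ) ≠ 0) hab
  have h1 := Module.Flat.lTensor_preserves_injective_linearMap (M := ℤ_[2]) f hf
  have h2 : ∀ y : ℤ_[2] ⊗[ℤ] M, f.lTensor ℤ_[2] y = 2 * y := by
    intro y
    induction y using TensorProduct.induction_on with
    | zero => rw [map_zero, mul_zero]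
    | tmul z a =>
      rw [LinearMap.lTensor_tmul]
      change z ⊗ₜ[ℤ] ((2 : ℤ) • a) = 2 * (z ⊗ₜ[ℤ] a)
      rw [TensorProduct.tmul_smul, ofNat_smul_eq_nsmul, two_mul]
      rw [two_nsmul]
    | add x y hx hy => rw [map_add, hx, hy, mul_add]
  apply h1
  rw [map_zero, h2, hx]

theorem R_torsionFree (k : ℕ) (x : R N k) (hx : 2 * x = 0) : x = 0 :=
  @tensor_torsionFree (A N k) _ (tfA N k) x hx

/-- `T = lim ℤ₂ ⊗ A k`, as compatible sequences. -/
noncomputable def TT : Subring (∀ k, R N k) where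
  carrier := {a | ∀ k : ℕ, resR N k (a (k + 1)) = a k}
  mul_mem' {a b} ha hb := fun k => by rw [Pi.mul_apply, map_mul, ha k, hb k, Pi.mul_apply]
  one_mem' := fun k => by rw [Pi.one_apply, map_one, Pi.one_apply]
  add_mem' {a b} ha hb := fun k => by rw [Pi.add_apply, map_add, ha k, hb k, Pi.add_apply]
  zero_mem' := fun k => by rw [Pi.zero_apply, map_zero, Pi.zero_apply]
  neg_mem' {a} ha := fun k => by rw [Pi.neg_apply, map_neg, ha k, Pi.neg_apply]

/-- projections. -/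
noncomputable def pr (k : ℕ) : TT N →+* R N k := (Pi.evalRingHom (fun k => R N k) k).comp (TT N).subtype

theorem isLim : IsLim (pr N) (resR N) where
  comp k x := by exact x.2 k
  inj x hx := Subtype.ext (funext hx)
  lift a ha := ⟨⟨a, ha⟩, fun _ => rfl⟩

variable {N} in
/-- `T_ℓ` in `T`. -/
noncomputable def tT {l : ℕ} (hl : l.Prime) (hlN : ¬ l ∣ 2 * N) : TT N :=
  ⟨fun k => inc N k (gT hl hlN k), fun _ => rfl⟩

variable {N} in
/-- `e_ℓ = ℓ S_ℓ` in `T`. -/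
noncomputable def tE {l : ℕ} (hl : l.Prime) (hlN : ¬ l ∣ 2 * N) : TT N :=
  ⟨fun k => inc N k (gE hl hlN k), fun _ => rfl⟩

variable {N} in
@[simp] theorem pr_tT {l : ℕ} (hl : l.Prime) (hlN : ¬ l ∣ 2 * N) (k : ℕ) :
    pr N k (tT hl hlN) = inc N k (gT hl hlN k) := rfl

variable {N} in
@[simp] theorem pr_tE {l : ℕ} (hl : l.Prime) (hlN : ¬ l ∣ 2 * N) (k : ℕ) :
    pr N k (tE hl hlN) = inc N k (gE hl hlN k) := rfl

end Crest.Agent.R007.Du
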