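import Mathlib

/-! Row 7, node DENSITY: `⟨5 mod 8⟩, ⟨3 mod 4⟩` generate `(ℤ/2^R)ˣ`; primes in progressions;
`ℓ^w ≡ 1`. -/

set_option autoImplicit false

namespace Crest.Agent.R007.EmbDens

lemma pow_two_pow {l : ℕ} (hl : l % 8 = 5) (j : ℕ) :
    ∃ u : ℤ, Odd u ∧ (l : ℤ) ^ (2 ^ j) = 1 + 2 ^ (j + 2) * u := by
  induction j with
  | zero =>
    refine ⟨((l / 4 : ℕ) : ℤ), ?_, ?_⟩
    · have : Odd (l / 4) := by
        rw [Nat.odd_iff]; omega
      exact_mod_cast this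
    · have : l = 1 + 4 * (l / 4) := by omega
      have h2 : (l : ℤ) = 1 + 4 * ((l / 4 : ℕ) : ℤ) := by exact_mod_cast this
      simpa using h2
  | succ j ih =>
    obtain ⟨u, hu, h⟩ := ih
    refine ⟨u + 2 ^ (j + 1) * u ^ 2, ?_, ?_⟩
    · apply hu.add_even
      exact (Even.mul_right ((Int.even_pow.2 ⟨even_two, by omega⟩)) _)
    · rw [pow_succ, pow_mul, h]
      ring

lemma exists_pow {l : ℕ} (hl : l % 8 = 5) {c : ℤ} (hc : c ≡ 1 [ZMOD 4]) (R : ℕ) :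
    ∃ a : ℕ, (l : ℤ) ^ a ≡ c [ZMOD 2 ^ (R + 2)] := by
  induction R with
  | zero =>
    refine ⟨0, ?_⟩
    rw [pow_zero]
    exact hc.symm
  | succ R ih =>
    obtain ⟨a, ha⟩ := ih
    obtain ⟨k, hk⟩ := ha.dvd
    -- c - l^a = 2^(R+2) k
    rcases Int.even_or_odd k with hke | hko
    · obtain ⟨k', hk'⟩ := hke
      refine ⟨a, ?_⟩
      rw [Int.modEq_iff_dvd]
      refine ⟨k', ?_⟩
      rw [hk, hk']
      ring
    · obtain ⟨u, hu, h⟩ := pow_two_pow hl R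
      refine ⟨a + 2 ^ R, ?_⟩
      have hla : Odd ((l : ℤ) ^ a) := by
        have : Odd l := by rw [Nat.odd_iff]; omega
        have : Odd (l : ℤ) := by exact_mod_cast this
        exact this.pow
      have hodd : Odd ((l : ℤ) ^ a * u) := hla.mul hu
      obtain ⟨t, ht⟩ := hko.sub_odd hodd
      rw [Int.modEq_iff_dvd]
      refine ⟨t, ?_⟩
      rw [pow_add, h]
      have h1 : c = (l : ℤ) ^ a + 2 ^ (R + 2) * k := by rw [← hk]; ring
      have h2 : k = (l : ℤ) ^ a * u + (t + t) := by rw [← ht]; ring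
      rw [h1, h2]
      ring

theorem dens {l n : ℕ} (hl : l % 8 = 5) (hn : n % 4 = 3) (R c : ℕ) (hc : Odd c) :
    ∃ a b : ℕ, l ^ a * n ^ b ≡ c [MOD 2 ^ R] := by
  have hnodd : Odd n := by rw [Nat.odd_iff]; omega
  have hcop : Nat.Coprime n (2 ^ (R + 2)) := Nat.Coprime.pow_right _ (Nat.coprime_two_right.2 hnodd)
  have htot : n ^ (2 ^ (R + 2)).totient ≡ 1 [MOD 2 ^ (R + 2)] := Nat.ModEq.pow_totient hcop
  have hpos : 0 < (2 ^ (R + 2)).totient := Nat.totient_pos.2 (by positivity)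
  have hdiv : (2 : ℕ) ^ R ∣ 2 ^ (R + 2) := pow_dvd_pow 2 (by omega)
  have h4 : c % 4 = 1 ∨ c % 4 = 3 := by
    have := Nat.odd_iff.1 hc
    omega
  rcases h4 with h4 | h4
  · have hc1 : (c : ℤ) ≡ 1 [ZMOD 4] := by
      have : c ≡ 1 [MOD 4] := h4
      exact_mod_cast (Int.natCast_modEq_iff.2 this)
    obtain ⟨a, ha⟩ := exists_pow hl hc1 R
    refine ⟨a, 0, ?_⟩
    rw [pow_zero, mul_one]
    have : l ^ a ≡ c [MOD 2 ^ (R + 2)] := by
      rw [← Int.natCast_modEq_iff]; exact_mod_cast ha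
    exact this.of_dvd hdiv
  · -- c * n^(φ-1) ≡ 1 mod 4
    set φ := (2 ^ (R + 2)).totient with hφ
    have heven : Even φ := by
      rw [hφ]
      apply Nat.totient_even
      have : 2 ^ 2 ≤ 2 ^ (R + 2) := Nat.pow_le_pow_right (by norm_num) (by omega)
      omega
    obtain ⟨s, hs⟩ := heven
    have hφ1 : φ - 1 = 2 * (s - 1) + 1 := by omega
    have hc1 : c * n ^ (φ - 1) ≡ 1 [MOD 4] := by
      rw [hφ1, pow_succ, pow_mul]
      have h5 : n ^ 2 ≡ 1 [MOD 4] := by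
        have : n ≡ 3 [MOD 4] := hn
        exact (this.pow 2).trans (by decide)
      have h6 : (n ^ 2) ^ (s - 1) ≡ 1 [MOD 4] := by
        have := h5.pow (s - 1)
        rwa [one_pow] at this
      have h7 : (n ^ 2) ^ (s - 1) * n ≡ 1 * 3 [MOD 4] := h6.mul hn
      have h8 : c * ((n ^ 2) ^ (s - 1) * n) ≡ 3 * (1 * 3) [MOD 4] :=
        Nat.ModEq.mul (show c ≡ 3 [MOD 4] from h4) h7
      exact h8.trans (by decide)
    have hc2 : ((c * n ^ (φ - 1) : ℕ) : ℤ) ≡ 1 [ZMOD 4] := by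
      exact_mod_cast (Int.natCast_modEq_iff.2 hc1)
    obtain ⟨a, ha⟩ := exists_pow hl hc2 R
    refine ⟨a, 1, ?_⟩
    have h9 : l ^ a ≡ c * n ^ (φ - 1) [MOD 2 ^ (R + 2)] := by
      rw [← Int.natCast_modEq_iff]; exact_mod_cast ha
    have h10 : l ^ a * n ^ 1 ≡ c * n ^ (φ - 1) * n ^ 1 [MOD 2 ^ (R + 2)] :=
      h9.mul_right _
    have h11 : c * n ^ (φ - 1) * n ^ 1 = c * n ^ φ := by
      rw [mul_assoc, ← pow_add]
      congr 2
      omega
    rw [h11] at h10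
    have h12 : c * n ^ φ ≡ c * 1 [MOD 2 ^ (R + 2)] := Nat.ModEq.mul_left _ htot
    rw [mul_one] at h12
    exact (h10.trans h12).of_dvd hdiv

/-- primes in the needed progressions -/
theorem exists_prime {N q : ℕ} (hN : Odd N) (hq : q = 4 ∨ q = 8) {r : ℕ} (hr : Odd r) (hrq : r < q)
    (B : ℕ) : ∃ l : ℕ, l.Prime ∧ B < l ∧ l % q = r ∧ l ≡ 1 [MOD N] := by
  have hqpow : ∃ e, q = 2 ^ e := by
    rcases hq with rfl | rfl
    · exact ⟨2, rfl⟩
    · exact ⟨3, rfl⟩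
  obtain ⟨e, he⟩ := hqpow
  have hcop : Nat.Coprime q N := by
    rw [he]; exact Nat.Coprime.pow_left _ (Nat.coprime_two_left.2 hN)
  obtain ⟨x, hx1, hx2⟩ := Nat.chineseRemainder hcop r 1
  have hN0 : N ≠ 0 := hN.pos.ne'
  have hq0 : q ≠ 0 := by rcases hq with rfl | rfl <;> norm_num
  have : NeZero (q * N) := ⟨Nat.mul_ne_zero hq0 hN0⟩
  have hxu : IsUnit ((x : ℕ) : ZMod (q * N)) := by
    rw [ZMod.isUnit_iff_coprime]
    apply Nat.Coprime.mul_right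
    · rw [he]
      apply Nat.Coprime.pow_right
      rw [Nat.coprime_two_right]
      -- x ≡ r mod q, q even
      have h2 : x ≡ r [MOD 2] := hx1.of_dvd (by rcases hq with rfl | rfl <;> norm_num)
      rw [Nat.odd_iff]
      have := Nat.odd_iff.1 hr
      rw [← this]; exact h2
    · have h3 : Nat.gcd x N = Nat.gcd 1 N := Nat.ModEq.gcd_eq hx2
      rw [Nat.coprime_iff_gcd_eq_one, h3, Nat.gcd_one_left]
  obtain ⟨l, hl1, hl2, hl3⟩ := Nat.forall_exists_prime_gt_and_eq_mod hxu B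
  have hmod : l ≡ x [MOD q * N] := (ZMod.natCast_eq_natCast_iff _ _ _).1 hl3
  refine ⟨l, hl2, hl1, ?_, ?_⟩
  · have h1 : l ≡ r [MOD q] := (hmod.of_dvd (Dvd.intro _ rfl)).trans hx1
    have h2 : l % q = r % q := h1
    rw [h2, Nat.mod_eq_of_lt hrq]
  · exact (hmod.of_dvd (Dvd.intro_left _ rfl)).trans hx2

theorem exists_prime_five {N : ℕ} (hN : Odd N) (B : ℕ) :
    ∃ l : ℕ, l.Prime ∧ B < l ∧ l % 8 = 5 ∧ l ≡ 1 [MOD N] :=
  exists_prime hN (Or.inr rfl) (by decide) (by norm_num) B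

theorem exists_prime_three {N : ℕ} (hN : Odd N) (B : ℕ) :
    ∃ l : ℕ, l.Prime ∧ B < l ∧ l % 4 = 3 ∧ l ≡ 1 [MOD N] :=
  exists_prime hN (Or.inl rfl) (by decide) (by norm_num) B




end Crest.Agent.R007.EmbDens
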