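import Crest.Agent.R007.Du3
import Crest.Agent.R007.Du2
import Crest.Agent.R007.EmbDens

-- ▼ part R007/Du4
section

/-!
Row 7, section B (helper707): identification with `HeckeTwo`.
-/

set_option autoImplicit false

open Crest.NumberTheoryR.HeckeTwoAdic
open scoped TensorProduct

namespace Crest.Agent.R007.Du

variable (N : ℕ) [NeZero N]

/-- `A k` is the stage. -/
noncomputable def eA (k : ℕ) : A N k ≃+* stage N (HD.hecke N) (HD.dia N) k where
  toFun x := x
  invFun x := x
  left_inv _ := rfl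
  right_inv _ := rfl
  map_mul' _ _ := rfl
  map_add' _ _ := rfl

/-- `ℤ₂ ⊗ A k` is the finite stage of the statement. -/
noncomputable def eR (k : ℕ) : R N k ≃+* stageTwo N (HD.hecke N) (HD.dia N) k :=
  (Algebra.TensorProduct.congr (AlgEquiv.refl : PadicInt 2 ≃ₐ[ℤ] PadicInt 2)
    (eA N k).toIntAlgEquiv).toRingEquiv

theorem restrict_eR (k : ℕ) (x : R N (k + 1)) :
    restrictStage N (HD.hecke N) (HD.dia N) k (eR N (k + 1) x) = eR N k (resR N k x) := by
  refine R_induction (P := fun x => restrictStage N (HD.hecke N) (HD.dia N) k (eR N (k + 1) x) =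
    eR N k (resR N k x)) x ?_ (fun z a => ?_) (fun x y hx hy => ?_)
  · rw [map_zero, map_zero, map_zero, map_zero]
  · rfl
  · rw [map_add, map_add, map_add, map_add, hx, hy]

theorem restrict_eR_symm (k : ℕ) (x : stageTwo N (HD.hecke N) (HD.dia N) (k + 1)) :
    resR N k ((eR N (k + 1)).symm x) =
      (eR N k).symm (restrictStage N (HD.hecke N) (HD.dia N) k x) := by
  rw [RingEquiv.eq_symm_apply, ← restrict_eR, RingEquiv.apply_symm_apply]

/-- `T` is the ring of the statement. -/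
noncomputable def equivHecke : TT N ≃+* HeckeTwo N (HD.hecke N) (HD.dia N) where
  toFun x := ⟨fun k => eR N k (x.1 k), fun k => by rw [restrict_eR]; exact congrArg _ (x.2 k)⟩
  invFun x := ⟨fun k => (eR N k).symm (x.1 k), fun k => by
    rw [restrict_eR_symm]; exact congrArg _ (x.2 k)⟩
  left_inv x := Subtype.ext (funext fun k => (eR N k).symm_apply_apply _)
  right_inv x := Subtype.ext (funext fun k => (eR N k).apply_symm_apply _)
  map_mul' x y := Subtype.ext (funext fun k => map_mul (eR N k) _ _)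
  map_add' x y := Subtype.ext (funext fun k => map_add (eR N k) _ _)

end Crest.Agent.R007.Du
end

-- ▼ part R007/Du5
section

/-!
Row 7, section B (helper707): scalar elements of the Hecke rings.
-/

set_option autoImplicit false

open Crest.NumberTheoryR.HeckeTwoAdic
open Polynomial

namespace Crest.Agent.R007.Du

variable {N : ℕ} [NeZero N]

/-- `x` acts on weight `i + 1` by the integer `f i`. -/
def IsSc {k : ℕ} (x : A N k) (f : ℕ → ℤ) : Prop :=
  ∀ i : Fin k, act N i x = ((f (i : ℕ) : ℤ) : Module.End ℂ (MF N ((i : ℕ) + 1)))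

theorem dia_one {l : ℕ} (h : (l : ZMod N) = 1) (i : ℕ) : HD.dia N l i = 1 := by
  refine LinearMap.ext fun f => DFunLike.coe_injective ?_
  rw [HD.isDiamondFamily N l i 1 (one_mem _) (by simp [h]) f]
  simp

theorem isSc_gE {l : ℕ} (hl : l.Prime) (hlN : ¬ l ∣ 2 * N) (h : (l : ZMod N) = 1) (k : ℕ) :
    IsSc (gE hl hlN k : A N k) (fun i => (l : ℤ) ^ i) := by
  intro i
  rw [act_gE, dia_one h]
  refine LinearMap.ext fun f => ?_
  rw [LinearMap.smul_apply, Module.End.one_apply, Module.End.intCast_apply]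
  push_cast
  rw [← Int.cast_smul_eq_zsmul ℂ]
  push_cast
  rfl

theorem IsSc.mul {k : ℕ} {x y : A N k} {f g : ℕ → ℤ} (hx : IsSc x f) (hy : IsSc y g) :
    IsSc (x * y) (fun i => f i * g i) := by
  intro i
  rw [map_mul, hx i, hy i, Int.cast_mul]

theorem IsSc.sub {k : ℕ} {x y : A N k} {f g : ℕ → ℤ} (hx : IsSc x f) (hy : IsSc y g) :
    IsSc (x - y) (fun i => f i - g i) := by
  intro i
  rw [map_sub, hx i, hy i, Int.cast_sub]

theorem IsSc.pow {k : ℕ} {x : A N k} {f : ℕ → ℤ} (hx : IsSc x f) (n : ℕ) :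
    IsSc (x ^ n) (fun i => f i ^ n) := by
  intro i
  rw [map_pow, hx i, Int.cast_pow]

theorem IsSc.aeval {k : ℕ} {x : A N k} {f : ℕ → ℤ} (hx : IsSc x f) (p : ℤ[X]) :
    IsSc (aeval x p) (fun i => p.eval (f i)) := by
  intro i
  rw [aeval_def, hom_eval₂, hx i]
  have h : (act N i).comp (algebraMap ℤ (A N k)) =
    Int.castRingHom (Module.End ℂ (MF N ((i : ℕ) + 1))) := RingHom.ext_int _ _
  rw [h]
  exact eval₂_at_apply _ _

theorem IsSc.eq {k : ℕ} {x y : A N k} {f g : ℕ → ℤ} (hx : IsSc x f) (hy : IsSc y g)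
    (h : ∀ i, i < k → f i = g i) : x = y := by
  apply A_ext
  intro i
  rw [hx i, hy i, h i i.2]

theorem isSc_intCast (k : ℕ) (n : ℤ) : IsSc ((n : ℤ) : A N k) (fun _ => n) := by
  intro i
  rw [map_intCast]

/-- `e_ℓ - 1` is nilpotent modulo 2. -/
theorem nil_mod_two {k : ℕ} {x : A N k} {l : ℤ} (hl : Odd l) (hx : IsSc x (fun i => l ^ i)) :
    (x - 1) ^ k ∈ Ideal.span {(2 : A N k)} := by
  let p : ℤ[X] := ∏ i ∈ Finset.range k, (X - C (l ^ i))
  have h0 : aeval x p = 0 := by
    have h1 : IsSc (0 : A N k) (fun _ => 0) := by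
      intro i; rw [map_zero, Int.cast_zero]
    refine (hx.aeval p).eq h1 (fun i hi => ?_)
    rw [eval_prod]
    apply Finset.prod_eq_zero (Finset.mem_range.mpr hi)
    simp
  rw [← Ideal.Quotient.eq_zero_iff_mem]
  have h2 : aeval x p = ∏ i ∈ Finset.range k, (x - ((l ^ i : ℤ) : A N k)) := by
    rw [map_prod]
    refine Finset.prod_congr rfl fun i _ => ?_
    rw [map_sub, aeval_X, aeval_C]
    rfl
  have h3 : Ideal.Quotient.mk (Ideal.span {(2 : A N k)}) (∏ i ∈ Finset.range k,
      (x - ((l ^ i : ℤ) : A N k))) = Ideal.Quotient.mk (Ideal.span {(2 : A N k)}) ((x - 1) ^ k) := by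
    have h4 : (x - 1) ^ k = ∏ _i ∈ Finset.range k, (x - 1) := by
      rw [Finset.prod_const, Finset.card_range]
    rw [h4, map_prod, map_prod]
    refine Finset.prod_congr rfl fun i _ => ?_
    rw [Ideal.Quotient.eq]
    obtain ⟨c, hc⟩ := (hl.pow (n := i)).sub_odd (odd_one : Odd (1 : ℤ))
    have h5 : x - ((l ^ i : ℤ) : A N k) - (x - 1) = ((-c : ℤ) : A N k) * 2 := by
      have h6 : ((l ^ i : ℤ) : A N k) - 1 = ((c + c : ℤ) : A N k) := by
        rw [← hc]; push_cast; ring
      have h7 : x - ((l ^ i : ℤ) : A N k) - (x - 1) = -(((l ^ i : ℤ) : A N k) - 1) := by ring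
      rw [h7, h6]; push_cast; ring
    rw [h5]
    exact Ideal.mul_mem_left _ _ (Ideal.mem_span_singleton_self _)
  rw [← h3, ← h2, h0, map_zero]

/-- scalar elements divisible by a high power of 2 in every weight are divisible by 2. -/
theorem close {k : ℕ} {x : A N k} {l : ℤ} (hl : 2 ≤ l) (hx : IsSc x (fun i => l ^ i)) :
    ∃ m : ℕ, ∀ (z : A N k) (w : ℕ → ℤ), IsSc z w → (∀ i, i < k → (2 : ℤ) ^ m ∣ w i) →
      z ∈ Ideal.span {(2 : A N k)} := by
  classical
  let p : ℕ → ℤ[X] := fun i => ∏ j ∈ (Finset.range k).erase i, (X - C (l ^ j))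
  let c : ℕ → ℤ := fun i => (p i).eval (l ^ i)
  have hc : ∀ i, c i ≠ 0 := by
    intro i
    change (p i).eval (l ^ i) ≠ 0
    rw [eval_prod, Finset.prod_ne_zero_iff]
    intro j hj
    rw [Finset.mem_erase] at hj
    rw [eval_sub, eval_X, eval_C, sub_ne_zero]
    intro h
    exact hj.1 (Int.pow_right_injective (by omega) h.symm)
  have hp0 : ∀ i j, i < k → i ≠ j → (p j).eval (l ^ i) = 0 := by
    intro i j hi hij
    rw [eval_prod]
    apply Finset.prod_eq_zero (Finset.mem_erase.mpr ⟨hij, Finset.mem_range.mpr hi⟩)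
    simp
  let D : ℤ := ∏ i ∈ Finset.range k, c i
  have hD : D ≠ 0 := Finset.prod_ne_zero_iff.mpr fun i _ => hc i
  obtain ⟨s, o', ho', hDo⟩ := Nat.exists_eq_two_pow_mul_odd (n := D.natAbs) (by
    rwa [Int.natAbs_ne_zero])
  obtain ⟨o, ho, hDo2⟩ : ∃ o : ℤ, Odd o ∧ D = 2 ^ s * o := by
    rcases Int.natAbs_eq D with h | h
    · exact ⟨o', by exact_mod_cast ho', by rw [h, hDo]; push_cast; ring⟩
    · exact ⟨-o', by simpa using ho', by rw [h, hDo]; push_cast; ring⟩
  refine ⟨s + 1, fun z w hz hw => ?_⟩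
  choose w' hw' using fun i (hi : i < k) => hw i hi
  let v : ℕ → ℤ := fun i => if hi : i < k then w' i hi else 0
  have hv : ∀ i, i < k → w i = 2 ^ (s + 1) * v i := by
    intro i hi
    simp only [v, dif_pos hi]
    exact hw' i hi
  let g : ℤ[X] := ∑ i ∈ Finset.range k, C (v i * ∏ j ∈ (Finset.range k).erase i, c j) * p i
  have hg : ∀ i, i < k → g.eval (l ^ i) = v i * D := by
    intro i hi
    change (∑ j ∈ Finset.range k, _ : ℤ[X]).eval (l ^ i) = _
    rw [eval_finset_sum, Finset.sum_eq_single_of_mem i (Finset.mem_range.mpr hi)]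
    · rw [eval_mul, eval_C]
      change v i * (∏ j ∈ (Finset.range k).erase i, c j) * c i = v i * D
      rw [mul_assoc, Finset.prod_erase_mul _ _ (Finset.mem_range.mpr hi)]
    · intro j _ hji
      rw [eval_mul, hp0 i j hi (Ne.symm hji), mul_zero]
  -- `o z = 2 g(x)`
  have h1 : ((o : ℤ) : A N k) * z = ((2 : ℤ) : A N k) * aeval x g := by
    refine ((isSc_intCast k o).mul hz).eq ((isSc_intCast k 2).mul (hx.aeval g)) (fun i hi => ?_)
    rw [hg i hi, hv i hi, hDo2]
    ring
  obtain ⟨q, hq⟩ := ho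
  have h2 : z = 2 * (aeval x g - (q : A N k) * z) := by
    have h3 : ((o : ℤ) : A N k) * z = 2 * ((q : A N k) * z) + z := by
      rw [hq]; push_cast; ring
    rw [h3] at h1
    have h4 : z = ((2 : ℤ) : A N k) * aeval x g - 2 * ((q : A N k) * z) := by
      rw [← h1]; ring
    have h5 : ((2 : ℤ) : A N k) = 2 := by norm_num
    rw [h5] at h4
    rw [mul_sub, ← h4]
  rw [h2]
  exact Ideal.mul_mem_right _ _ (Ideal.mem_span_singleton_self _)

/-- scalars `b ^ i` with `b ≡ 1 mod 4` are `≡ 1` modulo `(2, e_ℓ - 1)`. -/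
theorem mem_span_of_isSc {k : ℕ} {x z : A N k} {l b : ℤ} (hl8 : l % 8 = 5) (hl : 2 ≤ l)
    (hx : IsSc x (fun i => l ^ i)) (hb : b % 4 = 1) (hz : IsSc z (fun i => b ^ i)) :
    z - 1 ∈ Ideal.span {(2 : A N k), x - 1} := by
  obtain ⟨m, hm⟩ := close hl hx
  obtain ⟨a, ha⟩ := exists_pow_sub l hl8 b hb m
  have h1 : z - x ^ a ∈ Ideal.span {(2 : A N k)} := by
    refine hm _ _ (hz.sub (hx.pow a)) (fun i _ => ?_)
    have h2 : (b ^ i - (l ^ i) ^ a : ℤ) = -((l ^ a) ^ i - b ^ i) := by
      rw [← pow_mul, ← pow_mul, mul_comm i a]; ring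
    rw [h2, dvd_neg]
    exact ha.trans (sub_dvd_pow_sub_pow _ _ _)
  have h3 : z - 1 = (z - x ^ a) + (x ^ a - 1) := by ring
  rw [h3]
  apply Ideal.add_mem
  · exact Ideal.span_mono (by simp) h1
  · have h4 : x - 1 ∣ x ^ a - 1 := by
      simpa using sub_dvd_pow_sub_pow x 1 a
    obtain ⟨u, hu⟩ := h4
    rw [hu]
    exact Ideal.mul_mem_right _ _ (Ideal.subset_span (by simp))

end Crest.Agent.R007.Du
end

-- ▼ part R007/Du6
section

/-!
Row 7, section B (helper707): the chain of `T ⧸ J` for an inverse limit `T` and a closed ideal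
`J ∋ 2`.
-/

set_option autoImplicit false

namespace Crest.Agent.R007.Du

open BAlg (IsLim)

section algTwo

/-- a ring with `2 = 0` is an `F₂`-algebra. -/
noncomputable def homTwo {B : Type*} [CommRing B] (h : (2 : B) = 0) : ZMod 2 →+* B :=
  (Ideal.Quotient.lift (Ideal.span {(2 : ℤ)}) (Int.castRingHom B) (fun a ha => by
    obtain ⟨c, rfl⟩ := Ideal.mem_span_singleton'.mp ha
    rw [map_mul, map_ofNat, h, mul_zero])).comp
    (Int.quotientSpanNatEquivZMod 2).symm.toRingHom

end algTwo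

section Lim

variable {T : Type*} [CommRing T] {R : ℕ → Type} [∀ k, CommRing (R k)]
  {π : ∀ k, T →+* R k} {ρ : ∀ k, R (k + 1) →+* R k}

theorem two_mem_K (hπ : ∀ k, Function.Surjective (π k)) (J : Ideal T) (h2 : (2 : T) ∈ J)
    (k : ℕ) (x : T) (hx : π k x ∈ Ideal.span {(2 : R k)}) :
    Ideal.Quotient.mk J x ∈ (RingHom.ker (π k)).map (Ideal.Quotient.mk J) := by
  rw [Ideal.mem_quotient_iff_mem_sup]
  obtain ⟨r, hr⟩ := Ideal.mem_span_singleton'.mp hx
  obtain ⟨s, rfl⟩ := hπ k r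
  have h3 : x = (x - s * 2) + s * 2 := by ring
  rw [h3]
  apply Ideal.add_mem
  · apply Ideal.mem_sup_left
    rw [RingHom.mem_ker, map_sub, map_mul, map_ofNat, hr, sub_self]
  · exact Ideal.mem_sup_right (Ideal.mul_mem_left _ _ h2)

/-- the chain. -/
noncomputable def chainOf (hT : IsLim π ρ) (hρ : ∀ k, Function.Surjective (ρ k))
    (hfin : ∀ k, Finite (R k ⧸ Ideal.span {(2 : R k)})) (J : Ideal T) (h2 : (2 : T) ∈ J)
    (hcl : ∀ x, (∀ k, π k x ∈ J.map (π k)) → x ∈ J) [Algebra (ZMod 2) (T ⧸ J)] :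
    Chain (ZMod 2) (T ⧸ J) where
  K k := (RingHom.ker (π k)).map (Ideal.Quotient.mk J)
  anti k := Ideal.map_mono (ker_anti hT k)
  fin k := by
    have hπ := pi_surjective hT hρ
    have := hfin k
    choose s hs using hπ k
    let f : (R k ⧸ Ideal.span {(2 : R k)}) →
        ((T ⧸ J) ⧸ (RingHom.ker (π k)).map (Ideal.Quotient.mk J)) :=
      fun q => Ideal.Quotient.mk _ (Ideal.Quotient.mk J (s (Quotient.out q)))
    have hf : Function.Surjective f := by
      intro z
      obtain ⟨z, rfl⟩ := Ideal.Quotient.mk_surjective z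
      obtain ⟨z, rfl⟩ := Ideal.Quotient.mk_surjective z
      refine ⟨Ideal.Quotient.mk _ (π k z), ?_⟩
      change Ideal.Quotient.mk _ (Ideal.Quotient.mk J _) = _
      rw [Ideal.Quotient.eq, ← map_sub]
      apply two_mem_K hπ J h2
      rw [map_sub, hs, ← Ideal.Quotient.eq]
      exact Quotient.out_eq _
    have : Finite ((T ⧸ J) ⧸ (RingHom.ker (π k)).map (Ideal.Quotient.mk J)) :=
      Finite.of_surjective f hf
    exact Module.Finite.of_finite
  sep x hx := by
    obtain ⟨x, rfl⟩ := Ideal.Quotient.mk_surjective x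
    rw [Ideal.Quotient.eq_zero_iff_mem]
    apply hcl
    intro k
    have h := hx k
    rw [Ideal.mem_quotient_iff_mem_sup, Submodule.mem_sup] at h
    obtain ⟨a, ha, b, hb, hab⟩ := h
    rw [← hab, map_add, (RingHom.mem_ker).mp ha, zero_add]
    exact Ideal.mem_map_of_mem _ hb
  compl x hx := by
    choose a ha using fun k => Ideal.Quotient.mk_surjective (x k)
    have h1 : ∀ k, ∃ n ∈ RingHom.ker (π k), ∃ j ∈ J, n + j = a (k + 1) - a k := by
      intro k
      have h := hx k
      rw [← ha, ← ha, ← map_sub, Ideal.mem_quotient_iff_mem_sup, Submodule.mem_sup] at h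
      exact h
    choose n hn j hj hnj using h1
    let z : ℕ → T := fun k => a k - ∑ i ∈ Finset.range k, j i
    have hz : ∀ k, z (k + 1) - z k ∈ RingHom.ker (π k) := by
      intro k
      have : z (k + 1) - z k = n k := by
        simp only [z, Finset.sum_range_succ]
        have := hnj k
        linear_combination -this
      rw [this]; exact hn k
    obtain ⟨y, hy⟩ := hT.lift (fun k => π k (z k)) (fun k => by
      rw [hT.comp]
      have := hz k
      rwa [RingHom.mem_ker, map_sub, sub_eq_zero] at this)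
    refine ⟨Ideal.Quotient.mk J y, fun k => ?_⟩
    have h2 : Ideal.Quotient.mk J (z k) = x k := by
      rw [← ha, Ideal.Quotient.eq]
      have : z k - a k = - ∑ i ∈ Finset.range k, j i := by simp only [z]; ring
      rw [this]
      exact neg_mem (Ideal.sum_mem _ fun i _ => hj i)
    rw [← h2, ← map_sub]
    apply Ideal.mem_map_of_mem
    rw [RingHom.mem_ker, map_sub, hy, sub_self]

end Lim

end Crest.Agent.R007.Du
end

-- ▼ part R007/Du7
section

/-!
Row 7, section B (helper707): `T0 = T/(2, y, y')`, its smooth dual `W0`, exports for the assembly.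
-/

set_option autoImplicit false

open Crest.NumberTheoryR.HeckeTwoAdic

namespace Crest.Agent.R007.Du

open BAlg (IsLim)

/-- the two auxiliary primes. -/
structure PP (N : ℕ) where
  l : ℕ
  hl : l.Prime
  hlN : ¬ l ∣ 2 * N
  l8 : l % 8 = 5
  lN : (l : ZMod N) = 1
  n : ℕ
  hn : n.Prime
  hnN : ¬ n ∣ 2 * N
  n4 : n % 4 = 3
  nN : (n : ZMod N) = 1

theorem exists_PP {N : ℕ} [NeZero N] (hN : Odd N) : Nonempty (PP N) := by
  obtain ⟨l, hl, hlB, h8, hlN⟩ := EmbDens.exists_prime_five hN (2 * N)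
  obtain ⟨n, hn, hnB, h4, hnN⟩ := EmbDens.exists_prime_three hN (2 * N)
  have hN0 : 0 < 2 * N := Nat.mul_pos two_pos (Nat.pos_of_ne_zero (NeZero.ne N))
  exact ⟨⟨l, hl, fun h => absurd (Nat.le_of_dvd hN0 h) (by omega), h8,
    by simpa using (ZMod.natCast_eq_natCast_iff l 1 N).2 hlN, n, hn,
    fun h => absurd (Nat.le_of_dvd hN0 h) (by omega), h4,
    by simpa using (ZMod.natCast_eq_natCast_iff n 1 N).2 hnN⟩⟩

variable {N : ℕ} [NeZero N]

/-- `t` acts on every stage by the scalars `b ^ i`. -/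
def ScT (t : TT N) (b : ℤ) : Prop :=
  ∀ k, ∃ z : A N k, pr N k t = inc N k z ∧ IsSc z (fun i => b ^ i)

theorem scT_tE {l : ℕ} (hl : l.Prime) (hlN : ¬ l ∣ 2 * N) (h : (l : ZMod N) = 1) :
    ScT (tE hl hlN : TT N) l :=
  fun k => ⟨gE hl hlN k, rfl, isSc_gE hl hlN h k⟩

theorem ScT.mul {s t : TT N} {b c : ℤ} (hs : ScT s b) (ht : ScT t c) : ScT (s * t) (b * c) := by
  intro k
  obtain ⟨z, hz, hz'⟩ := hs k
  obtain ⟨w, hw, hw'⟩ := ht k
  refine ⟨z * w, by rw [map_mul, map_mul, hz, hw], ?_⟩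
  have := hz'.mul hw'
  intro i
  rw [this i]
  dsimp only
  rw [mul_pow]

section fin

variable (hfin : ∀ k, Module.Finite ℤ_[2] (R N k))
include hfin

theorem finite_mod_two (k : ℕ) : Finite (R N k ⧸ Ideal.span {(2 : R N k)}) := by
  have := hfin k
  have h := BAlg.finite_quot_of_finite_padic 2 (R N k) 1
  rw [pow_one, Nat.cast_ofNat] at h
  exact h

theorem closed {ι : Type} [Finite ι] (y : ι → TT N) (x : TT N)
    (hx : ∀ k, pr N k x ∈ Ideal.span (insert (2 : R N k) (Set.range (fun i => pr N k (y i))))) :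
    x ∈ Ideal.span (insert (2 : TT N) (Set.range y)) :=
  closed_span (isLim N) (resR_surjective N) (finite_mod_two hfin) (R_torsionFree N) y x hx

variable (c : PP N)

omit hfin in
/-- `y = e_ℓ - 1` -/
noncomputable def yy (c : PP N) : TT N := tE c.hl c.hlN - 1

omit hfin in
/-- `y' = e_{n'} - 1` -/
noncomputable def yy' (c : PP N) : TT N := tE c.hn c.hnN - 1

omit hfin in
/-- the ideal `(2, y, y')` -/
noncomputable def JJ (c : PP N) : Ideal (TT N) := Ideal.span {2, yy c, yy' c}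

theorem scal_four {t : TT N} {b : ℤ} (ht : ScT t b) (hb : b % 4 = 1) :
    t - 1 ∈ Ideal.span {2, yy c} := by
  have h0 : (insert (2 : TT N) (Set.range (fun _ : Unit => yy c))) = {2, yy c} := by
    rw [Set.range_const]
  rw [← h0]
  apply closed hfin
  intro k
  rw [Set.range_const]
  obtain ⟨z, hz, hz'⟩ := ht k
  have hl2 : (2 : ℤ) ≤ c.l := by exact_mod_cast c.hl.two_le
  have hl8 : (c.l : ℤ) % 8 = 5 := by have := c.l8; omega
  have h1 := mem_span_of_isSc hl8 hl2 (isSc_gE c.hl c.hlN c.lN k) hb hz'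
  have h2 := Ideal.mem_map_of_mem (inc N k) h1
  rw [Ideal.map_span, Set.image_pair, map_ofNat, map_sub, map_sub, map_one] at h2
  rw [map_sub, map_one, hz]
  have h3 : pr N k (yy c) = inc N k (gE c.hl c.hlN k) - 1 := by
    rw [yy, map_sub, map_one, pr_tE]
  rw [h3]
  exact h2

omit hfin in
theorem span_le_JJ : (Ideal.span {2, yy c} : Ideal (TT N)) ≤ JJ c := by
  apply Ideal.span_mono
  intro x hx
  rcases hx with rfl | rfl
  · simp
  · simp

omit hfin in
theorem yy'_mem : yy' c ∈ JJ c := Ideal.subset_span (by simp)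


omit hfin in
theorem two_mem : (2 : TT N) ∈ JJ c := Ideal.subset_span (by simp)

/-- the scalars `e_b`, `b ≡ 1 mod N` prime, are `1` in `T0`. -/
theorem scal {b : ℕ} (hb : b.Prime) (hbN : ¬ b ∣ 2 * N) (h : (b : ZMod N) = 1) :
    tE hb hbN - 1 ∈ JJ c := by
  have hodd : b % 2 = 1 := by
    rcases Nat.Prime.eq_two_or_odd hb with h2 | h2
    · exact absurd (by rw [h2]; exact dvd_mul_right 2 N) hbN
    · exact h2
  have h4 : b % 4 = 1 ∨ b % 4 = 3 := by omega
  rcases h4 with h4 | h4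
  · exact span_le_JJ c (scal_four hfin c (scT_tE hb hbN h) (by omega))
  · have h5 : ((b : ℤ) * c.n) % 4 = 1 := by
      have := c.n4
      rw [Int.mul_emod]
      have e1 : (b : ℤ) % 4 = 3 := by omega
      have e2 : (c.n : ℤ) % 4 = 3 := by omega
      rw [e1, e2]; norm_num
    have h6 := span_le_JJ c (scal_four hfin c ((scT_tE hb hbN h).mul (scT_tE c.hn c.hnN c.nN)) h5)
    have h7 : tE hb hbN - 1 = (tE hb hbN * tE c.hn c.hnN - 1) - tE hb hbN * yy' c := by
      rw [yy']; ring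
    rw [h7]
    exact Ideal.sub_mem _ h6 (Ideal.mul_mem_left _ _ (yy'_mem c))

theorem yy'_sq : yy' c ^ 2 ∈ Ideal.span {2, yy c} := by
  have h5 : ((c.n : ℤ) * c.n) % 4 = 1 := by
    have := c.n4
    rw [Int.mul_emod]
    have e2 : (c.n : ℤ) % 4 = 3 := by omega
    rw [e2]; norm_num
  have h6 := scal_four hfin c ((scT_tE c.hn c.hnN c.nN).mul (scT_tE c.hn c.hnN c.nN)) h5
  have h7 : yy' c ^ 2 = (tE c.hn c.hnN * tE c.hn c.hnN - 1) - (tE c.hn c.hnN - 1) * 2 := by
    rw [yy']; ring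
  rw [h7]
  exact Ideal.sub_mem _ h6 (Ideal.mul_mem_left _ _ (Ideal.subset_span (by simp)))

/-- `T` is complete for `(2, y)`. -/
theorem adic : IsAdicComplete (Ideal.span {2, yy c}) (TT N) := by
  classical
  have h1 : ∀ k, IsAdicComplete (Ideal.span {((2 : ℕ) : R N k)}) (R N k) := by
    intro k
    have := hfin k
    exact BAlg.isAdicComplete_of_finite_padic 2 (R N k)
  have h2 : BAlg.TopNil 2 (pr N) (Ideal.span {((2 : ℕ) : TT N), yy c}) := by
    apply BAlg.topNil_pair
    intro k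
    refine ⟨k, ?_⟩
    have hodd : Odd (c.l : ℤ) := by
      rw [Int.odd_iff]; have := c.l8; omega
    have h3 := Ideal.mem_map_of_mem (inc N k) (nil_mod_two hodd (isSc_gE c.hl c.hlN c.lN k))
    rw [Ideal.map_span, Set.image_singleton, map_ofNat, map_pow, map_sub, map_one] at h3
    have h4 : pr N k (yy c) = inc N k (gE c.hl c.hlN k) - 1 := by
      rw [yy, map_sub, map_one, pr_tE]
    rw [h4, Nat.cast_ofNat]
    exact h3
  have h3 := BAlg.isAdicComplete_of_isLim (p := 2) (isLim N) (Ideal.span {((2 : ℕ) : TT N), yy c})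
    ⟨{((2 : ℕ) : TT N), yy c}, by simp⟩ h2
  rw [Nat.cast_ofNat] at h3
  exact h3

/-- **Reduction of the dimension bound to `T0`.** -/
theorem dim_TT (h1 : IsNoetherianRing (TT N ⧸ JJ c)) (h2 : ringKrullDim (TT N ⧸ JJ c) ≤ 2) :
    IsNoetherianRing (TT N) ∧ ringKrullDim (TT N) ≤ 4 := by
  have := adic hfin c
  exact BAlg.dim_le_four 2 (yy c) (yy' c) (yy'_sq hfin c) h1 h2

theorem closed_JJ (x : TT N) (hx : ∀ k, pr N k x ∈ (JJ c).map (pr N k)) : x ∈ JJ c := by
  have h0 : (insert (2 : TT N) (Set.range (fun b : Bool => if b then yy c else yy' c))) =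
      {2, yy c, yy' c} := by
    ext z
    simp only [Set.mem_insert_iff, Set.mem_range, Bool.exists_bool, Set.mem_singleton_iff,
      Bool.false_eq_true, if_false, if_true]
    tauto
  rw [JJ, ← h0]
  apply closed hfin
  intro k
  have h1 := hx k
  rw [JJ, ← h0, Ideal.map_span, Set.image_insert_eq, map_ofNat, ← Set.range_comp] at h1
  exact h1

end fin

end Crest.Agent.R007.Du
end

-- ▼ part R007/Du8

/-!
Row 7, section B (helper707): `T0 = T/(2, y, y')`, its smooth dual `W0`, exports for the assembly.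
-/

set_option autoImplicit false

open Crest.NumberTheoryR.HeckeTwoAdic

namespace Crest.Agent.R007.Du

open BAlg (IsLim)

variable {N : ℕ} [NeZero N]

/-- `T0 = T/(2,y,y')`. -/
def T0 (c : PP N) : Type := TT N ⧸ JJ c

noncomputable instance instT0 (c : PP N) : CommRing (T0 c) :=
  inferInstanceAs (CommRing (TT N ⧸ JJ c))

/-- the projection. -/
noncomputable def mk0 (c : PP N) : TT N →+* T0 c := Ideal.Quotient.mk (JJ c)

theorem mk0_surjective (c : PP N) : Function.Surjective (mk0 c) := Ideal.Quotient.mk_surjective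

theorem mk0_eq_zero (c : PP N) (x : TT N) : mk0 c x = 0 ↔ x ∈ JJ c :=
  Ideal.Quotient.eq_zero_iff_mem

theorem two_eq_zero (c : PP N) : (2 : T0 c) = 0 := by
  have h := (mk0_eq_zero c 2).mpr (two_mem c)
  rwa [map_ofNat] at h

noncomputable instance algT0 (c : PP N) : Algebra (ZMod 2) (T0 c) :=
  (homTwo (two_eq_zero c)).toAlgebra

section

variable (c : PP N) (hfin : ∀ k, Module.Finite ℤ_[2] (R N k))

/-- the chain of cofinite ideals. -/
noncomputable def chain : Chain (ZMod 2) (T0 c) :=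
  @chainOf (TT N) _ (R N) _ (pr N) (resR N) (isLim N) (resR_surjective N)
    (finite_mod_two hfin) (JJ c) (two_mem c) (closed_JJ hfin c) (algT0 c)

theorem mem_chain (k : ℕ) (x : TT N) (hx : pr N k x ∈ Ideal.span {(2 : R N k)}) :
    mk0 c x ∈ (chain c hfin).K k :=
  two_mem_K (pi_surjective (isLim N) (resR_surjective N)) (JJ c) (two_mem c) k x hx

theorem mem_chain_ker (k : ℕ) (x : TT N) (hx : pr N k x = 0) :
    mk0 c x ∈ (chain c hfin).K k := by
  apply mem_chain
  rw [hx]
  exact zero_mem _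

/-- `W0`, the smooth dual of `T0`. -/
abbrev WW : Type := W0 (chain c hfin)

/-- the first coefficient functional. -/
noncomputable def a1 : WW c hfin →ₗ[ZMod 2] ZMod 2 where
  toFun w := W0.fn w 1
  map_add' _ _ := rfl
  map_smul' _ _ := rfl

theorem a1_smul (t : T0 c) (w : WW c hfin) : a1 c hfin (t • w) = W0.fn w t := by
  change W0.fn (t • w) 1 = _
  rw [W0.fn_smul, mul_one]

theorem dual_inj (t : T0 c) (h : ∀ w : WW c hfin, a1 c hfin (t • w) = 0) : t = 0 := by
  apply evD_injective (chain c hfin)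
  refine LinearMap.ext fun w => ?_
  rw [evD_apply, evD_apply, map_zero, ← a1_smul, h]

theorem dual_surj (f : WW c hfin →ₗ[ZMod 2] ZMod 2) :
    ∃ t : T0 c, ∀ w, f w = a1 c hfin (t • w) := by
  obtain ⟨t, ht⟩ := evD_surjective (chain c hfin) f
  refine ⟨t, fun w => ?_⟩
  rw [a1_smul, ← ht, evD_apply]

/-- Index set of the generators. -/
def Gen (N : ℕ) : Type := {l : ℕ // l.Prime ∧ ¬ l ∣ 2 * N} × Bool

/-- generators: `(l, true) ↦ T_l`, `(l, false) ↦ e_l`. -/
noncomputable def genT (i : Gen N) : TT N :=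
  if i.2 then tT i.1.2.1 i.1.2.2 else tE i.1.2.1 i.1.2.2

/-- generators in `T0`. -/
noncomputable def gen0 (i : Gen N) : T0 c := mk0 c (genT i)



theorem lift_A (k : ℕ) (a : A N k) : ∃ u : TT N, pr N k u = inc N k a ∧
    mk0 c u ∈ Algebra.adjoin (ZMod 2) (Set.range (gen0 c)) := by
  have ha : a ∈ Subring.closure (gens N k) := by rw [closure_gens]; exact Subring.mem_top a
  induction ha using Subring.closure_induction with
  | mem a ha =>
    obtain ⟨l, hl, hlN, h⟩ := ha
    rcases h with rfl | rfl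
    · exact ⟨tT hl hlN, rfl, Algebra.subset_adjoin ⟨⟨⟨l, hl, hlN⟩, true⟩, rfl⟩⟩
    · exact ⟨tE hl hlN, rfl, Algebra.subset_adjoin ⟨⟨⟨l, hl, hlN⟩, false⟩, rfl⟩⟩
  | zero => exact ⟨0, by rw [map_zero, map_zero], by rw [map_zero]; exact zero_mem _⟩
  | one => exact ⟨1, by rw [map_one, map_one], by rw [map_one]; exact one_mem _⟩
  | add x y _ _ hx hy =>
    obtain ⟨u, hu, hu'⟩ := hx
    obtain ⟨v, hv, hv'⟩ := hy
    exact ⟨u + v, by rw [map_add, map_add, hu, hv], by rw [map_add]; exact add_mem hu' hv'⟩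
  | neg x _ hx =>
    obtain ⟨u, hu, hu'⟩ := hx
    exact ⟨-u, by rw [map_neg, map_neg, hu], by rw [map_neg]; exact neg_mem hu'⟩
  | mul x y _ _ hx hy =>
    obtain ⟨u, hu, hu'⟩ := hx
    obtain ⟨v, hv, hv'⟩ := hy
    exact ⟨u * v, by rw [map_mul, map_mul, hu, hv], by rw [map_mul]; exact mul_mem hu' hv'⟩

/-- every 2-adic integer is `0` or `1` modulo 2. -/
theorem padic_mod_two (z : ℤ_[2]) : ∃ (n : ℕ) (y : ℤ_[2]), z = n + 2 * y := by
  obtain ⟨n, -, hn⟩ := PadicInt.exists_mem_range (p := 2) z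
  rw [PadicInt.maximalIdeal_eq_span_p, Ideal.mem_span_singleton] at hn
  obtain ⟨y, hy⟩ := hn
  exact ⟨n, y, by rw [sub_eq_iff_eq_add'] at hy; rw [hy]; push_cast; ring⟩

theorem R_mod_two (k : ℕ) (x : R N k) : ∃ a : A N k, x - inc N k a ∈ Ideal.span {(2 : R N k)} := by
  refine R_induction (P := fun x => ∃ a : A N k, x - inc N k a ∈ Ideal.span {(2 : R N k)}) x
    ⟨0, by rw [map_zero, sub_zero]; exact zero_mem _⟩ (fun z a => ?_) (fun x y hx hy => ?_)
  · obtain ⟨n, y, rfl⟩ := padic_mod_two z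
    refine ⟨n * a, ?_⟩
    rw [tm_eq, map_add, map_mul, map_natCast, map_ofNat, map_mul, map_natCast]
    have : ((n : R N k) + 2 * algebraMap ℤ_[2] (R N k) y) * inc N k a - (n : R N k) * inc N k a =
      (algebraMap ℤ_[2] (R N k) y * inc N k a) * 2 := by ring
    rw [this]
    exact Ideal.mul_mem_left _ _ (Ideal.mem_span_singleton_self _)
  · obtain ⟨a, ha⟩ := hx
    obtain ⟨b, hb⟩ := hy
    refine ⟨a + b, ?_⟩
    have : x + y - inc N k (a + b) = (x - inc N k a) + (y - inc N k b) := by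
      rw [map_add]; ring
    rw [this]
    exact add_mem ha hb

theorem exists_level (s : Finset (WW c hfin)) :
    ∃ k, ∀ w ∈ s, ∀ x ∈ (chain c hfin).K k, W0.fn w x = 0 := by
  classical
  induction s using Finset.induction_on with
  | empty => exact ⟨0, fun w hw => absurd hw (Finset.notMem_empty w)⟩
  | insert w s _ ih =>
    obtain ⟨k, hk⟩ := ih
    obtain ⟨l, hl⟩ := W0.fn_smooth w
    refine ⟨max k l, fun v hv x hx => ?_⟩
    rcases Finset.mem_insert.mp hv with rfl | hv
    · exact hl x ((chain c hfin).antitone (le_max_right k l) hx)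
    · exact hk v hv x ((chain c hfin).antitone (le_max_left k l) hx)

theorem smul_eq_of_level {k : ℕ} {w : WW c hfin} (hk : ∀ x ∈ (chain c hfin).K k, W0.fn w x = 0)
    {s t : T0 c} (h : s - t ∈ (chain c hfin).K k) : s • w = t • w := by
  apply W0.ext
  intro x
  rw [W0.fn_smul, W0.fn_smul, ← sub_eq_zero, ← map_sub, ← sub_mul]
  exact hk _ (Ideal.mul_mem_right _ _ h)

/-- **Local approximation** by polynomials in the generators. -/
theorem approx (s : Finset (WW c hfin)) (t : T0 c) :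
    ∃ x ∈ Algebra.adjoin (ZMod 2) (Set.range (gen0 c)), ∀ w ∈ s, t • w = x • w := by
  obtain ⟨k, hk⟩ := exists_level c hfin s
  obtain ⟨t, rfl⟩ := mk0_surjective c t
  obtain ⟨a, ha⟩ := R_mod_two k (pr N k t)
  obtain ⟨u, hu, hu'⟩ := lift_A c k a
  refine ⟨mk0 c u, hu', fun w hw => smul_eq_of_level c hfin (hk w hw) ?_⟩
  rw [← map_sub]
  apply mem_chain
  rw [map_sub, hu]
  exact ha

/-- **Orbits are finite-dimensional.** -/
theorem locfin (w : WW c hfin) : Module.Finite (ZMod 2) (Submodule.span (T0 c) {w}) := by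
  obtain ⟨k, hk⟩ := W0.fn_smooth w
  have h1 : Module.Finite (ZMod 2) (T0 c ⧸ (chain c hfin).K k) := (chain c hfin).fin k
  have h2 : Finite (Module.Dual (ZMod 2) (T0 c ⧸ (chain c hfin).K k)) :=
    Module.finite_of_finite (ZMod 2)
  have h3 : ((Submodule.span (T0 c) {w} : Submodule (T0 c) (WW c hfin)) : Set (WW c hfin)) ⊆
      Set.range (ofLevel (chain c hfin) k) := by
    intro v hv
    obtain ⟨t, rfl⟩ := Submodule.mem_span_singleton.mp hv
    apply exists_ofLevel
    intro x hx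
    rw [W0.fn_smul]
    exact hk _ (Ideal.mul_mem_left _ _ hx)
  have h4 : Finite (Submodule.span (T0 c) {w} : Submodule (T0 c) (WW c hfin)) :=
    (Set.finite_range (ofLevel (chain c hfin) k)).subset h3
  exact Module.Finite.of_finite

/-- `e_b = 1` in `T0` for `b ≡ 1 mod N`. -/
theorem mk0_tE (hfin : ∀ k, Module.Finite ℤ_[2] (R N k)) {b : ℕ} (hb : b.Prime)
    (hbN : ¬ b ∣ 2 * N) (h : (b : ZMod N) = 1) : mk0 c (tE hb hbN) = 1 := by
  rw [← sub_eq_zero, ← map_one (mk0 c), ← map_sub, mk0_eq_zero]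
  exact scal hfin c hb hbN h

/-- **Stage form of an element of `W0`.** -/
theorem exists_stage (w : WW c hfin) : ∃ (k : ℕ) (φ : A N k →+ ZMod 2),
    ∀ (s : A N k) (t : TT N), pr N k t = inc N k s → W0.fn w (mk0 c t) = φ s := by
  obtain ⟨k, hk⟩ := W0.fn_smooth w
  choose u hu hu' using fun a : A N k => lift_A c k a
  have key : ∀ (s : A N k) (t : TT N), pr N k t = inc N k s →
      W0.fn w (mk0 c t) = W0.fn w (mk0 c (u s)) := by
    intro s t ht
    rw [← sub_eq_zero, ← map_sub, ← map_sub]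
    apply hk
    apply mem_chain_ker
    rw [map_sub, ht, hu, sub_self]
  refine ⟨k, { toFun := fun s => W0.fn w (mk0 c (u s)), map_zero' := ?_, map_add' := fun s t => ?_ },
    key⟩
  · rw [← key 0 0 (by rw [map_zero, map_zero]), map_zero, map_zero]
  · rw [← key (s + t) (u s + u t) (by rw [map_add, map_add, hu, hu]), map_add, map_add]


/-- `a1 (t • w) = φ s`. -/
theorem a1_stage (w : WW c hfin) {k : ℕ} {φ : A N k →+ ZMod 2}
    (h : ∀ (s : A N k) (t : TT N), pr N k t = inc N k s → W0.fn w (mk0 c t) = φ s)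
    (s : A N k) (t : TT N) (hst : pr N k t = inc N k s) : a1 c hfin (mk0 c t • w) = φ s := by
  rw [a1_smul, h s t hst]

/-- **Final reduction**: the statement for `T0` implies `dim T ≤ 4`. -/
theorem final (hfin : ∀ k, Module.Finite ℤ_[2] (R N k))
    (h : IsNoetherianRing (T0 c) ∧ ringKrullDim (T0 c) ≤ 2) :
    IsNoetherianRing (TT N) ∧ ringKrullDim (TT N) ≤ 4 :=
  dim_TT hfin c h.1 h.2

end

end Crest.Agent.R007.Du
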