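import Crest.Agent.R007.RatBasic

-- ▼ part R007/RatTrace
section

/-!
Row 7 (S0007), section A: translates, traces, and the interpolation identity.
-/

set_option autoImplicit false

noncomputable section

namespace Crest.Agent.R007.Rat

open UpperHalfPlane ModularForm CongruenceSubgroup Matrix.SpecialLinearGroup
open scoped MatrixGroups Manifold

variable {M : ℕ} {k l : ℤ} {f f' : ℍ → ℂ}

instance instNormalGamma (M : ℕ) : (Gamma M).Normal := Gamma_normal M

/-- The finite group `SL₂(ℤ)/Γ(M)`. -/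
abbrev GM (M : ℕ) : Type := SL(2, ℤ) ⧸ Gamma M

instance instFiniteGM [NeZero M] : Finite (GM M) := Subgroup.finite_quotient_of_finiteIndex

instance instFintypeGM [NeZero M] : Fintype (GM M) := Fintype.ofFinite _

/-- translate by a coset -/
def tr (k : ℤ) (f : ℍ → ℂ) (a : GM M) : ℍ → ℂ := f ∣[k] a.out

lemma tr_mk (hf : IsF M k f) (g : SL(2, ℤ)) : tr k f (g : GM M) = f ∣[k] g := by
  obtain ⟨h, hh⟩ := QuotientGroup.mk_out_eq_mul (Gamma M) g
  rw [tr, hh, SlashAction.slash_mul, (hf.slash_SL g).slash _ h.2]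

lemma tr_one (hf : IsF M k f) : tr k f (1 : GM M) = f := by
  have := tr_mk hf 1
  simpa using this

lemma tr_slash (hf : IsF M k f) (a : GM M) (g : SL(2, ℤ)) :
    tr k f a ∣[k] g = tr k f (a * (g : GM M)) := by
  induction a using QuotientGroup.induction_on with
  | H a => rw [← QuotientGroup.mk_mul, tr_mk hf, tr_mk hf, SlashAction.slash_mul]

lemma IsF.tr (hf : IsF M k f) (a : GM M) : IsF M k (tr k f a) := hf.slash_SL _

lemma tr_tr (hf : IsF M k f) (a b : GM M) : tr k (tr k f a) b = tr k f (a * b) := by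
  induction b using QuotientGroup.induction_on with
  | H b => rw [tr_mk (hf.tr a), tr_slash hf]


lemma tr_mul (a : GM M) : tr (k + l) (f * f') a = tr k f a * tr l f' a := mul_slash_SL2 _ _ _ _ _

lemma tr_prod {ι : Type*} (s : Finset ι) (F : ι → ℍ → ℂ) (k : ℤ) (a : GM M) :
    tr ((s.card : ℤ) * k) (∏ i ∈ s, F i) a = ∏ i ∈ s, tr k (F i) a := prod_slash' _ _ _ _

/-- The trace to level one. -/
def Tr (M : ℕ) [NeZero M] (k : ℤ) (f : ℍ → ℂ) : ℍ → ℂ := ∑ a : GM M, tr k f a

lemma IsF.Tr [NeZero M] (hf : IsF M k f) : IsF 1 k (Tr M k f) where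
  slash γ _ := by
    rw [Rat.Tr, SlashAction.sum_slash]
    simp_rw [tr_slash hf]
    exact Fintype.sum_equiv (Equiv.mulRight (γ : GM M)) _ _ (fun a => rfl)
  holo := (IsF.sum (M := M) Finset.univ _ (fun a _ => hf.tr a)).holo
  bdd g := (IsF.sum (M := M) Finset.univ _ (fun a _ => hf.tr a)).bdd g

/-- The set of nontrivial cosets. -/
def nt (M : ℕ) [NeZero M] : Finset (GM M) := by classical exact Finset.univ.erase 1

lemma mem_nt [NeZero M] (a : GM M) : a ∈ nt M ↔ a ≠ 1 := by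
  classical
  simp [nt]

/-- `δ = ∏_{a ≠ 1} (θ - θ|a)` -/
def del (M : ℕ) [NeZero M] (k : ℤ) (θ : ℍ → ℂ) : ℍ → ℂ := ∏ a ∈ nt M, (θ - tr k θ a)

/-- weight of δ -/
def wdel (M : ℕ) [NeZero M] (k : ℤ) : ℤ := ((nt M).card : ℤ) * k

lemma IsF.del [NeZero M] {θ : ℍ → ℂ} (hθ : IsF M k θ) : IsF M (wdel M k) (del M k θ) :=
  IsF.prod _ _ fun a _ => hθ.sub (hθ.tr a)

lemma del_ne_zero [NeZero M] {θ : ℍ → ℂ} (hθ : IsF M k θ)
    (h : ∀ g : SL(2, ℤ), g ∉ Gamma M → θ ∣[k] g ≠ θ) : del M k θ ≠ 0 := by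
  intro h0
  rw [del, prod_eq_zero_iff (fun a _ => (hθ.sub (hθ.tr a)).holo)] at h0
  obtain ⟨a, ha, h1⟩ := h0
  rw [mem_nt] at ha
  induction a using QuotientGroup.induction_on with
  | H g =>
    rw [tr_mk hθ] at h1
    refine h g ?_ (sub_eq_zero.mp h1).symm
    intro hg
    exact ha ((QuotientGroup.eq_one_iff g).mpr hg)

/-- The interpolation identity:
`F δ = ∑_t (-1)^|t| θ^{|s \ t|} Tr (F ∏_{a ∈ t} θ|a)`, `s` the set of nontrivial cosets. -/
theorem interp [NeZero M] {θ F : ℍ → ℂ} {k₀ : ℤ} (hθ : IsF M k₀ θ) (hF : IsF M k F) :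
    F * del M k₀ θ = ∑ t ∈ (nt M).powerset, ((-1 : ℂ) ^ t.card) •
      (θ ^ ((nt M).card - t.card) * Tr M (k + (t.card : ℤ) * k₀) (F * ∏ a ∈ t, tr k₀ θ a)) := by
  classical
  have key : ∀ b : GM M, ∏ a ∈ nt M, (θ - tr k₀ θ (a * b)) =
      ∑ t ∈ (nt M).powerset, ((-1 : ℂ) ^ t.card) •
        (θ ^ ((nt M).card - t.card) * ∏ a ∈ t, tr k₀ θ (a * b)) := by
    intro b
    have h1 : ∀ a, θ - tr k₀ θ (a * b) = (- tr k₀ θ (a * b)) + θ := by intro a; ring
    simp_rw [h1]
    rw [Finset.prod_add]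
    refine Finset.sum_congr rfl fun t ht => ?_
    rw [Finset.mem_powerset] at ht
    rw [Finset.prod_neg, Finset.prod_const, Finset.card_sdiff_of_subset ht]
    ext τ
    simp
    ring
  have htr : ∀ b : GM M, ∀ t : Finset (GM M),
      tr (k + (t.card : ℤ) * k₀) (F * ∏ a ∈ t, tr k₀ θ a) b =
        tr k F b * ∏ a ∈ t, tr k₀ θ (a * b) := by
    intro b t
    rw [tr_mul, tr_prod]
    simp_rw [tr_tr hθ]
  simp_rw [Tr, htr]
  have h2 : ∑ t ∈ (nt M).powerset, ((-1 : ℂ) ^ t.card) •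
      (θ ^ ((nt M).card - t.card) * ∑ b : GM M, tr k F b * ∏ a ∈ t, tr k₀ θ (a * b)) =
      ∑ b : GM M, tr k F b * ∏ a ∈ nt M, (θ - tr k₀ θ (a * b)) := by
    simp_rw [key, Finset.mul_sum, Finset.smul_sum]
    rw [Finset.sum_comm]
    refine Finset.sum_congr rfl fun b _ => Finset.sum_congr rfl fun t _ => ?_
    ext τ
    simp
    ring
  rw [h2, Finset.sum_eq_single (1 : GM M)]
  · rw [tr_one hF]
    simp [del]
  · intro b _ hb
    have : ∏ a ∈ nt M, (θ - tr k₀ θ (a * b)) = 0 := by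
      refine Finset.prod_eq_zero (i := b⁻¹) ?_ ?_
      · rw [mem_nt]; simpa using hb
      · rw [inv_mul_cancel, tr_one hθ, sub_self]
    rw [this, mul_zero]
  · simp

/-- elementary symmetric functions of the translates -/
def esy (M : ℕ) [NeZero M] (k : ℤ) (F : ℍ → ℂ) (i : ℕ) : ℍ → ℂ :=
  ∑ t ∈ Finset.powersetCard i (Finset.univ : Finset (GM M)), ∏ a ∈ t, tr k F a

lemma esy_zero [NeZero M] (k : ℤ) (F : ℍ → ℂ) : esy M k F 0 = 1 := by
  simp [esy]

lemma IsF.esy [NeZero M] {F : ℍ → ℂ} (hF : IsF M k F) (i : ℕ) : IsF 1 ((i : ℤ) * k) (esy M k F i) := by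
  classical
  have h0 : IsF M ((i : ℤ) * k) (Rat.esy M k F i) := by
    refine IsF.sum _ _ fun t ht => ?_
    rw [Finset.mem_powersetCard] at ht
    have := IsF.prod t (fun a => Rat.tr k F a) (fun a _ => hF.tr a)
    rwa [ht.2] at this
  refine ⟨?_, h0.holo, h0.bdd⟩
  intro γ _
  rw [Rat.esy, SlashAction.sum_slash]
  have h1 : ∀ t ∈ Finset.powersetCard i (Finset.univ : Finset (GM M)),
      (∏ a ∈ t, Rat.tr k F a) ∣[(i : ℤ) * k] γ = ∏ a ∈ t.map (Equiv.mulRight (γ : GM M)).toEmbedding,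
        Rat.tr k F a := by
    intro t ht
    rw [Finset.mem_powersetCard] at ht
    have := prod_slash' t (fun a => Rat.tr k F a) k γ
    rw [ht.2] at this
    rw [this, Finset.prod_map]
    exact Finset.prod_congr rfl fun a _ => tr_slash hF a γ
  rw [Finset.sum_congr rfl h1]
  refine Finset.sum_bij' (fun t _ => t.map (Equiv.mulRight (γ : GM M)).toEmbedding)
    (fun t _ => t.map (Equiv.mulRight (γ : GM M)).symm.toEmbedding) ?_ ?_ ?_ ?_ ?_
  · intro t ht
    rw [Finset.mem_powersetCard] at ht ⊢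
    exact ⟨Finset.subset_univ _, by rw [Finset.card_map, ht.2]⟩
  · intro t ht
    rw [Finset.mem_powersetCard] at ht ⊢
    exact ⟨Finset.subset_univ _, by rw [Finset.card_map, ht.2]⟩
  · intro t _
    ext x
    simp
  · intro t _
    ext x
    simp
  · intro t _
    rfl

/-- `F` is a root of its norm polynomial. -/
theorem norm_root [NeZero M] {F : ℍ → ℂ} (hF : IsF M k F) :
    ∑ i ∈ Finset.range (Fintype.card (GM M) + 1), ((-1 : ℂ) ^ i) •
      (esy M k F i * F ^ (Fintype.card (GM M) - i)) = 0 := by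
  classical
  have h0 : ∏ a : GM M, (F - tr k F a) = 0 :=
    Finset.prod_eq_zero (i := (1 : GM M)) (Finset.mem_univ _) (by rw [tr_one hF, sub_self])
  rw [← h0]
  have h1 : ∀ a : GM M, F - tr k F a = (- tr k F a) + F := by intro a; ring
  simp_rw [h1]
  rw [Finset.prod_add, Finset.sum_powerset]
  rw [Finset.card_univ]
  refine Finset.sum_congr rfl fun i _ => ?_
  rw [esy, Finset.sum_mul, Finset.smul_sum]
  refine Finset.sum_congr rfl fun t ht => ?_
  rw [Finset.mem_powersetCard] at ht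
  rw [Finset.prod_neg, Finset.prod_const, Finset.card_sdiff_of_subset ht.1, ht.2, Finset.card_univ]
  ext τ
  simp
  ring

end Crest.Agent.R007.Rat
end
end

-- ▼ part R007/RatRing

/-!
Row 7 (S0007), section A: forms whose q-expansions at all cusps have coefficients in a subring.
-/

set_option autoImplicit false

noncomputable section

namespace Crest.Agent.R007.Rat

open UpperHalfPlane ModularForm CongruenceSubgroup Matrix.SpecialLinearGroup
open scoped MatrixGroups Manifold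

/-- Power series with coefficients in `S`. -/
def CoeffIn (S : Subring ℂ) (p : PowerSeries ℂ) : Prop := ∀ n, PowerSeries.coeff n p ∈ S

section CoeffIn

variable {S : Subring ℂ} {p q : PowerSeries ℂ}

lemma CoeffIn.zero : CoeffIn S 0 := fun n => by rw [map_zero]; exact S.zero_mem
lemma CoeffIn.one : CoeffIn S 1 := fun n => by
  rw [PowerSeries.coeff_one]; split_ifs; exacts [S.one_mem, S.zero_mem]
lemma CoeffIn.add (hp : CoeffIn S p) (hq : CoeffIn S q) : CoeffIn S (p + q) := fun n => by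
  rw [map_add]; exact S.add_mem (hp n) (hq n)
lemma CoeffIn.neg (hp : CoeffIn S p) : CoeffIn S (-p) := fun n => by
  rw [map_neg]; exact S.neg_mem (hp n)
lemma CoeffIn.sub (hp : CoeffIn S p) (hq : CoeffIn S q) : CoeffIn S (p - q) := by
  rw [sub_eq_add_neg]; exact hp.add hq.neg
lemma CoeffIn.mul (hp : CoeffIn S p) (hq : CoeffIn S q) : CoeffIn S (p * q) := fun n => by
  rw [PowerSeries.coeff_mul]; exact S.sum_mem fun x _ => S.mul_mem (hp _) (hq _)
lemma CoeffIn.smul {c : ℂ} (hc : c ∈ S) (hp : CoeffIn S p) : CoeffIn S (c • p) := fun n => by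
  rw [PowerSeries.coeff_smul]; exact S.mul_mem hc (hp n)
lemma CoeffIn.mono {S' : Subring ℂ} (h : S ≤ S') (hp : CoeffIn S p) : CoeffIn S' p := fun n => h (hp n)

end CoeffIn

/-- `f` is a form of weight `k`, level `Γ(M)` whose q-expansions (period `M`) at infinity of all
`f ∣ g`, `g ∈ SL₂(ℤ)`, have coefficients in `S`. -/
structure IsR (S : Subring ℂ) (M : ℕ) (k : ℤ) (f : ℍ → ℂ) : Prop where
  isF : IsF M k f
  coeff : ∀ g : SL(2, ℤ), CoeffIn S (qe M (f ∣[k] g))

section

variable {S : Subring ℂ} {M : ℕ} [NeZero M] {k l : ℤ} {f f' : ℍ → ℂ}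

omit [NeZero M] in
lemma IsR.cast {k k' : ℤ} (hk : k = k') (hf : IsR S M k f) : IsR S M k' f := hk ▸ hf

omit [NeZero M] in
lemma IsR.zero : IsR S M k 0 := ⟨IsF.zero, fun g => by
  rw [SlashAction.zero_slash, qe_zero]; exact CoeffIn.zero⟩

omit [NeZero M] in
lemma IsR.one : IsR S M 0 1 := ⟨IsF.one, fun g => by
  rw [one_slash, qe_one]; exact CoeffIn.one⟩

lemma IsR.add (hf : IsR S M k f) (hf' : IsR S M k f') : IsR S M k (f + f') :=
  ⟨hf.isF.add hf'.isF, fun g => by
    rw [SlashAction.add_slash, qe_add (hf.isF.slash_SL g) (hf'.isF.slash_SL g)]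
    exact (hf.coeff g).add (hf'.coeff g)⟩

lemma IsR.smul {c : ℂ} (hc : c ∈ S) (hf : IsR S M k f) : IsR S M k (c • f) :=
  ⟨hf.isF.smul c, fun g => by
    rw [SL_smul_slash, qe_smul (hf.isF.slash_SL g)]
    exact (hf.coeff g).smul hc⟩

lemma IsR.neg (hf : IsR S M k f) : IsR S M k (-f) := by
  simpa using hf.smul (S.neg_mem S.one_mem)

lemma IsR.sub (hf : IsR S M k f) (hf' : IsR S M k f') : IsR S M k (f - f') := by
  simpa [sub_eq_add_neg] using hf.add hf'.neg

lemma IsR.mul (hf : IsR S M k f) (hf' : IsR S M l f') : IsR S M (k + l) (f * f') :=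
  ⟨hf.isF.mul hf'.isF, fun g => by
    rw [mul_slash_SL2, qe_mul (hf.isF.slash_SL g) (hf'.isF.slash_SL g)]
    exact (hf.coeff g).mul (hf'.coeff g)⟩

lemma IsR.sum {ι : Type*} (s : Finset ι) (F : ι → ℍ → ℂ) (h : ∀ i ∈ s, IsR S M k (F i)) :
    IsR S M k (∑ i ∈ s, F i) := by
  classical
  induction s using Finset.induction_on with
  | empty => simpa using IsR.zero
  | insert a s ha ih =>
    rw [Finset.sum_insert ha]
    exact (h a (by simp)).add (ih fun i hi => h i (by simp [hi]))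

lemma IsR.prod {ι : Type*} (s : Finset ι) (F : ι → ℍ → ℂ) (h : ∀ i ∈ s, IsR S M k (F i)) :
    IsR S M ((s.card : ℤ) * k) (∏ i ∈ s, F i) := by
  classical
  induction s using Finset.induction_on with
  | empty => simpa using IsR.one
  | insert a s ha ih =>
    rw [Finset.prod_insert ha, Finset.card_insert_of_notMem ha]
    exact ((h a (by simp)).mul (ih fun i hi => h i (by simp [hi]))).cast (by push_cast; ring)

lemma IsR.pow (hf : IsR S M k f) (n : ℕ) : IsR S M ((n : ℤ) * k) (f ^ n) := by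
  induction n with
  | zero => simpa using IsR.one
  | succ n ih => rw [pow_succ]; exact (ih.mul hf).cast (by push_cast; ring)

omit [NeZero M] in
lemma IsR.slash_SL (hf : IsR S M k f) (g : SL(2, ℤ)) : IsR S M k (f ∣[k] g) :=
  ⟨hf.isF.slash_SL g, fun h => by rw [← SlashAction.slash_mul]; exact hf.coeff _⟩

omit [NeZero M] in
lemma IsR.tr (hf : IsR S M k f) (a : GM M) : IsR S M k (tr k f a) := hf.slash_SL _

lemma IsR.del {θ : ℍ → ℂ} (hθ : IsR S M k θ) : IsR S M (wdel M k) (del M k θ) :=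
  IsR.prod _ _ fun a _ => hθ.sub (hθ.tr a)

omit [NeZero M] in
lemma IsR.mono_ring {S' : Subring ℂ} (h : S ≤ S') (hf : IsR S M k f) : IsR S' M k f :=
  ⟨hf.isF, fun g => (hf.coeff g).mono h⟩

/-- change of period in q-expansions -/
lemma qe_mul_level (hf : IsF M k f) (d : ℕ) [NeZero d] (n : ℕ) :
    PowerSeries.coeff n (qe (M * d) f) = if d ∣ n then PowerSeries.coeff (n / d) (qe M f) else 0 := by
  have hMd : NeZero (M * d) := ⟨mul_ne_zero (NeZero.ne M) (NeZero.ne d)⟩
  have hf' : IsF (M * d) k f := hf.mono (Dvd.intro d rfl)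
  have key := ModularFormClass.qExpansion_coeff_unique (f := hf'.toModularForm)
    (h := ((M * d : ℕ) : ℝ))
    (c := fun n => if d ∣ n then PowerSeries.coeff (n / d) (qe M f) else 0) Mpos
    mem_strictPeriods ?_ n
  · exact key.symm
  · intro τ
    have h1 := hasSum_qExpansion (h := (M : ℝ)) Mpos hf.periodic hf.holo hf.bdd_infty τ
    have hq : Function.Periodic.qParam (M : ℝ) (τ : ℂ) =
        Function.Periodic.qParam ((M * d : ℕ) : ℝ) (τ : ℂ) ^ d := by
      rw [Function.Periodic.qParam, Function.Periodic.qParam, ← Complex.exp_nat_mul]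
      congr 1
      push_cast
      have h2 : (M : ℂ) ≠ 0 := by exact_mod_cast NeZero.ne M
      have h3 : (d : ℂ) ≠ 0 := by exact_mod_cast NeZero.ne d
      field_simp
    have hinj : Function.Injective (fun m : ℕ => d * m) := fun a b hab =>
      Nat.eq_of_mul_eq_mul_left (Nat.pos_of_ne_zero (NeZero.ne d)) hab
    rw [← hinj.hasSum_iff]
    · change HasSum _ (f τ)
      convert h1 using 2 with m
      simp only [Function.comp_apply, dvd_mul_right, if_true]
      rw [Nat.mul_div_cancel_left _ (Nat.pos_of_ne_zero (NeZero.ne d)), pow_mul, ← hq]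
      rfl
    · intro m hm
      have : ¬ d ∣ m := fun ⟨c, hc⟩ => hm ⟨c, hc.symm⟩
      simp [this]

lemma IsR.mono_level {M' : ℕ} [NeZero M'] (h : M ∣ M') (hf : IsR S M k f) : IsR S M' k f := by
  obtain ⟨d, rfl⟩ := h
  have hd : NeZero d := ⟨fun h0 => NeZero.ne (M * d) (by rw [h0, mul_zero])⟩
  refine ⟨hf.isF.mono (Dvd.intro d rfl), fun g n => ?_⟩
  rw [qe_mul_level (hf.isF.slash_SL g)]
  split_ifs
  · exact hf.coeff g _
  · exact S.zero_mem

end

/-! ### conjugation of coefficients -/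

/-- `f'` is the `σ`-conjugate of `f` (at all cusps). -/
structure Cj (σ : ℂ →+* ℂ) (M : ℕ) (k : ℤ) (f f' : ℍ → ℂ) : Prop where
  left : IsF M k f
  right : IsF M k f'
  eq : ∀ g : SL(2, ℤ), qe M (f' ∣[k] g) = PowerSeries.map σ (qe M (f ∣[k] g))

section

variable {σ : ℂ →+* ℂ} {M : ℕ} [NeZero M] {k l : ℤ} {f f' h h' : ℍ → ℂ}

omit [NeZero M] in
lemma Cj.cast {k k' : ℤ} (hk : k = k') (hf : Cj σ M k f f') : Cj σ M k' f f' := hk ▸ hf

omit [NeZero M] in
lemma Cj.zero : Cj σ M k 0 0 := ⟨IsF.zero, IsF.zero, fun g => by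
  rw [SlashAction.zero_slash, qe_zero, map_zero]⟩

omit [NeZero M] in
lemma Cj.one : Cj σ M 0 1 1 := ⟨IsF.one, IsF.one, fun g => by
  rw [one_slash, qe_one, map_one]⟩

lemma Cj.add (hf : Cj σ M k f f') (hh : Cj σ M k h h') : Cj σ M k (f + h) (f' + h') :=
  ⟨hf.left.add hh.left, hf.right.add hh.right, fun g => by
    rw [SlashAction.add_slash, SlashAction.add_slash, qe_add (hf.left.slash_SL g) (hh.left.slash_SL g),
      qe_add (hf.right.slash_SL g) (hh.right.slash_SL g), map_add, hf.eq, hh.eq]⟩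

lemma map_smul_ps (σ : ℂ →+* ℂ) (c : ℂ) (p : PowerSeries ℂ) :
    PowerSeries.map σ (c • p) = σ c • PowerSeries.map σ p := by
  ext n
  simp

lemma Cj.smul (c : ℂ) (hf : Cj σ M k f f') : Cj σ M k (c • f) (σ c • f') :=
  ⟨hf.left.smul c, hf.right.smul _, fun g => by
    rw [SL_smul_slash, SL_smul_slash, qe_smul (hf.left.slash_SL g), qe_smul (hf.right.slash_SL g),
      map_smul_ps, hf.eq]⟩

lemma Cj.mul (hf : Cj σ M k f f') (hh : Cj σ M l h h') : Cj σ M (k + l) (f * h) (f' * h') :=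
  ⟨hf.left.mul hh.left, hf.right.mul hh.right, fun g => by
    rw [mul_slash_SL2, mul_slash_SL2, qe_mul (hf.left.slash_SL g) (hh.left.slash_SL g),
      qe_mul (hf.right.slash_SL g) (hh.right.slash_SL g), map_mul, hf.eq, hh.eq]⟩

lemma Cj.sum {ι : Type*} (s : Finset ι) (F F' : ι → ℍ → ℂ) (hF : ∀ i ∈ s, Cj σ M k (F i) (F' i)) :
    Cj σ M k (∑ i ∈ s, F i) (∑ i ∈ s, F' i) := by
  classical
  induction s using Finset.induction_on with
  | empty => simpa using Cj.zero
  | insert a s ha ih =>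
    rw [Finset.sum_insert ha, Finset.sum_insert ha]
    exact (hF a (by simp)).add (ih fun i hi => hF i (by simp [hi]))

lemma Cj.pow (hf : Cj σ M k f f') (n : ℕ) : Cj σ M ((n : ℤ) * k) (f ^ n) (f' ^ n) := by
  induction n with
  | zero => simpa using Cj.one
  | succ n ih => rw [pow_succ, pow_succ]; exact (ih.mul hf).cast (by push_cast; ring)

omit [NeZero M] in
lemma Cj.of_isR {S : Subring ℂ} (hσ : ∀ c ∈ S, σ c = c) (hf : IsR S M k f) : Cj σ M k f f :=
  ⟨hf.isF, hf.isF, fun g => by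
    ext n
    rw [PowerSeries.coeff_map, hσ _ (hf.coeff g n)]⟩

/-- Uniqueness of conjugates. -/
lemma Cj.unique (h1 : Cj σ M k f f') (h2 : Cj σ M k f h') : f' = h' := by
  refine qe_inj h1.right h2.right ?_
  have e1 := h1.eq 1
  have e2 := h2.eq 1
  simp only [SlashAction.slash_one] at e1 e2
  rw [e1, e2]

/-- the C-span of the forms with coefficients in S -/
def Sp (S : Subring ℂ) (M : ℕ) (k : ℤ) : Submodule ℂ (ℍ → ℂ) :=
  Submodule.span ℂ {f | IsR S M k f}

omit [NeZero M] in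
lemma Sp.isF {S : Subring ℂ} (hf : f ∈ Sp S M k) : IsF M k f := by
  induction hf using Submodule.span_induction with
  | mem x hx => exact hx.isF
  | zero => exact IsF.zero
  | add x y _ _ hx hy => exact hx.add hy
  | smul c x _ hx => exact hx.smul c

lemma Sp.mul {S : Subring ℂ} (hf : f ∈ Sp S M k) (hh : h ∈ Sp S M l) : f * h ∈ Sp S M (k + l) := by
  induction hf using Submodule.span_induction with
  | mem x hx =>
    induction hh using Submodule.span_induction with
    | mem y hy => exact Submodule.subset_span (hx.mul hy)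
    | zero => rw [mul_zero]; exact Submodule.zero_mem _
    | add y z _ _ hy hz => rw [mul_add]; exact Submodule.add_mem _ hy hz
    | smul c y _ hy => rw [mul_smul_comm]; exact Submodule.smul_mem _ _ hy
  | zero => rw [zero_mul]; exact Submodule.zero_mem _
  | add y z _ _ hy hz => rw [add_mul]; exact Submodule.add_mem _ hy hz
  | smul c y _ hy => rw [smul_mul_assoc]; exact Submodule.smul_mem _ _ hy

lemma Sp.exists_cj {S : Subring ℂ} (hσ : ∀ c ∈ S, σ c = c) (hf : f ∈ Sp S M k) :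
    ∃ f', Cj σ M k f f' := by
  induction hf using Submodule.span_induction with
  | mem x hx => exact ⟨x, Cj.of_isR hσ hx⟩
  | zero => exact ⟨0, Cj.zero⟩
  | add x y _ _ hx hy =>
    obtain ⟨x', hx'⟩ := hx
    obtain ⟨y', hy'⟩ := hy
    exact ⟨_, hx'.add hy'⟩
  | smul c x _ hx =>
    obtain ⟨x', hx'⟩ := hx
    exact ⟨_, hx'.smul c⟩

end

end Crest.Agent.R007.Rat
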