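import Crest.Agent.R007.Wp4
import Crest.Agent.R007.RatBasic

-- ▼ part R007/Wp5
section

/-!
R007/Wp5: the division values are modular forms of level Γ(M).
-/

set_option autoImplicit false

namespace Crest.Agent.R007.Wp

open UpperHalfPlane hiding I
open Complex PeriodPair ModularForm Matrix Function Filter CongruenceSubgroup
open scoped MatrixGroups Real PeriodPair Nat Topology Manifold

local notation "𝕢" => Function.Periodic.qParam

noncomputable section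

section general

variable {h : ℝ} {c : ℕ → ℂ} {f : ℍ → ℂ}

lemma hasSum_of_norm_lt (hh : 0 < h) (hf : ∀ τ : ℍ, HasSum (fun n => c n * 𝕢 h τ ^ n) (f τ))
    {q : ℂ} (hq : ‖q‖ < 1) : Summable (fun n => c n * q ^ n) := by
  rcases eq_or_ne q 0 with rfl | hq0
  · exact (hasSum_single (f := fun n => c n * (0 : ℂ) ^ n) 0 (by
      intro n hn; simp [zero_pow hn])).summable
  · have h1 := Periodic.im_invQParam_pos_of_norm_lt_one hh hq hq0
    have := (hf ⟨Periodic.invQParam h q, h1⟩).summable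
    simpa [Periodic.qParam_right_inv hh.ne' hq0] using this

lemma hasFPowerSeries_of_hasSum (hh : 0 < h)
    (hf : ∀ τ : ℍ, HasSum (fun n => c n * 𝕢 h τ ^ n) (f τ)) :
    HasFPowerSeriesOnBall (fun q : ℂ => ∑' n, c n * q ^ n) (.ofScalars ℂ c) 0 1 := by
  constructor
  · refine le_of_forall_lt_imp_le_of_dense fun r hr ↦ ?_
    lift r to NNReal using hr.ne_top
    apply FormalMultilinearSeries.le_radius_of_summable
    have hr' : ‖(r : ℂ)‖ < 1 := by simpa using hr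
    simpa [smul_eq_mul, norm_mul, mul_comm, mul_left_comm, mul_assoc] using
      (hasSum_of_norm_lt hh hf hr').norm
  · simp
  · intro y hy
    rw [← ENNReal.coe_one, Metric.eball_coe, NNReal.coe_one, mem_ball_zero_iff] at hy
    simpa [mul_comm] using (hasSum_of_norm_lt hh hf hy).hasSum

lemma mdiff_of_hasSum (hh : 0 < h)
    (hf : ∀ τ : ℍ, HasSum (fun n => c n * 𝕢 h τ ^ n) (f τ)) : MDiff f := by
  rw [UpperHalfPlane.mdifferentiable_iff]
  have h1 := (hasFPowerSeries_of_hasSum hh hf).differentiableOn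
  have h2 : DifferentiableOn ℂ (fun z : ℂ => 𝕢 h z) {z | 0 < z.im} :=
    (Periodic.differentiable_qParam).differentiableOn
  have h3 : Set.MapsTo (fun z : ℂ => 𝕢 h z) {z | 0 < z.im} (Metric.eball (0 : ℂ) 1) := by
    intro z hz
    rw [← ENNReal.coe_one, Metric.eball_coe, NNReal.coe_one, mem_ball_zero_iff]
    exact Periodic.norm_qParam_lt_one hh hz
  refine (h1.comp h2 h3).congr fun z hz => ?_
  have := hf (ofComplex z)
  rw [ofComplex_apply_of_im_pos hz] at this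
  simp only [Function.comp_apply]
  rw [ofComplex_apply_of_im_pos hz]
  exact this.tsum_eq.symm

lemma bdd_of_hasSum (hh : 0 < h)
    (hf : ∀ τ : ℍ, HasSum (fun n => c n * 𝕢 h τ ^ n) (f τ)) : IsBoundedAtImInfty f :=
  isBoundedAtImInfty_of_hasSum_qExpansion hh (c := c) (by simpa using hf)

end general

lemma vecMul_mem_Gamma {M : ℕ} {γ : SL(2, ℤ)} (hγ : γ ∈ CongruenceSubgroup.Gamma M) (v : Fin 2 → ℤ) (i : Fin 2) :
    (((v ᵥ* (γ : Matrix (Fin 2) (Fin 2) ℤ)) i : ℤ) : ZMod M) = v i := by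
  rw [Gamma_mem] at hγ
  obtain ⟨h1, h2, h3, h4⟩ := hγ
  fin_cases i <;> simp [Matrix.vecMul, dotProduct, Fin.sum_univ_two, h1, h2, h3, h4]

theorem isF_P {M : ℕ} (hM : M ≠ 0) (v : Fin 2 → ℤ) : Rat.IsF M 2 (P M v) where
  slash γ hγ := by
    rw [P_slash]
    exact P_congr hM (vecMul_mem_Gamma hγ v)
  holo := mdiff_of_hasSum (h := M) (by positivity) (hasSum_P hM v)
  bdd g := by
    rw [P_slash]
    exact bdd_of_hasSum (h := M) (by positivity) (hasSum_P hM _)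

theorem isF_Q {M : ℕ} (hM : M ≠ 0) (v : Fin 2 → ℤ) : Rat.IsF M 3 (Q M v) where
  slash γ hγ := by
    rw [Q_slash]
    exact Q_congr hM (vecMul_mem_Gamma hγ v)
  holo := mdiff_of_hasSum (h := M) (by positivity) (hasSum_Q hM v)
  bdd g := by
    rw [Q_slash]
    exact bdd_of_hasSum (h := M) (by positivity) (hasSum_Q hM _)

theorem coeff_qe_of_hasSum {M : ℕ} [NeZero M] {k : ℤ} {f : ℍ → ℂ} (hf : Rat.IsF M k f) {c : ℕ → ℂ}
    (hs : ∀ τ : ℍ, HasSum (fun n => c n * 𝕢 (M : ℝ) τ ^ n) (f τ)) (n : ℕ) :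
    (Rat.qe M f).coeff n = c n := by
  have h1 : ∀ τ : ℍ, HasSum (fun m => c m • 𝕢 (M : ℝ) τ ^ m) (f τ) := fun τ => by
    simpa only [smul_eq_mul] using hs τ
  have h2 := ModularFormClass.qExpansion_coeff_unique (f := hf.toModularForm) (h := (M : ℝ))
    (k := k) (c := c) Rat.Mpos Rat.mem_strictPeriods h1 n
  rw [h2]
  rfl

theorem qe_P {M : ℕ} [NeZero M] (v : Fin 2 → ℤ) : Rat.qe M (P M v) = PowerSeries.mk (cP M v) := by
  ext n
  rw [coeff_qe_of_hasSum (isF_P (NeZero.ne M) v) (hasSum_P (NeZero.ne M) v), PowerSeries.coeff_mk]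

theorem qe_Q {M : ℕ} [NeZero M] (v : Fin 2 → ℤ) : Rat.qe M (Q M v) = PowerSeries.mk (cQ M v) := by
  ext n
  rw [coeff_qe_of_hasSum (isF_Q (NeZero.ne M) v) (hasSum_Q (NeZero.ne M) v), PowerSeries.coeff_mk]

/-! ### rationality of the coefficients -/

lemma chi_mem {M : ℕ} {K : Subfield ℂ} (hz : zeta M ∈ K) (s : ℕ) (a b : ℤ) (d e : ℕ) :
    chi M s a b d e ∈ K := by
  unfold chi
  have h1 : ∀ n : ℤ, zeta M ^ n ∈ K := fun n => zpow_mem hz n
  refine add_mem ?_ (mul_mem (pow_mem (neg_mem (one_mem _)) _) ?_)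
  · split_ifs
    · exact mul_mem (pow_mem (natCast_mem _ _) _) (pow_mem (h1 _) _)
    · exact zero_mem _
  · split_ifs
    · exact mul_mem (pow_mem (natCast_mem _ _) _) (pow_mem (h1 _) _)
    · exact zero_mem _

theorem cQ_mem {M : ℕ} (hM : M ≠ 0) {K : Subfield ℂ} (hz : zeta M ∈ K) {v : Fin 2 → ℤ}
    (hv : (v 0 : ZMod M) ≠ 0 ∨ (v 1 : ZMod M) ≠ 0) (n : ℕ) : cQ M v n ∈ K := by
  have h1 : ∀ n : ℤ, zeta M ^ n ∈ K := fun n => zpow_mem hz n
  refine add_mem ?_ (sum_mem fun p _ => chi_mem hz _ _ _ _ _)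
  split_ifs
  · rw [cQ0_eq hM hv]
    split_ifs
    · exact div_mem (mul_mem (h1 _) (add_mem (one_mem _) (h1 _))) (pow_mem (sub_mem (one_mem _) (h1 _)) _)
    · exact zero_mem _
  · exact zero_mem _


/-- nonzero vectors mod `M` stay nonzero under `SL(2,ℤ)`. -/
lemma vecMul_ne {M : ℕ} {v : Fin 2 → ℤ} (hv : (v 0 : ZMod M) ≠ 0 ∨ (v 1 : ZMod M) ≠ 0)
    (g : SL(2, ℤ)) : (((v ᵥ* (g : Matrix (Fin 2) (Fin 2) ℤ)) 0 : ℤ) : ZMod M) ≠ 0 ∨
      (((v ᵥ* (g : Matrix (Fin 2) (Fin 2) ℤ)) 1 : ℤ) : ZMod M) ≠ 0 := by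
  by_contra hcon
  push Not at hcon
  obtain ⟨h0, h1⟩ := hcon
  have hd := g.det_coe
  rw [Matrix.det_fin_two] at hd
  have hd' : ((g 0 0 : ℤ) : ZMod M) * (g 1 1 : ℤ) - ((g 0 1 : ℤ) : ZMod M) * (g 1 0 : ℤ) = 1 := by
    exact_mod_cast congrArg (Int.cast : ℤ → ZMod M) hd
  simp only [Matrix.vecMul, dotProduct, Fin.sum_univ_two] at h0 h1
  push_cast at h0 h1
  rcases hv with hv | hv
  · apply hv
    linear_combination (-(v 0 : ZMod M)) * hd' + ((g 1 1 : ℤ) : ZMod M) * h0 - ((g 1 0 : ℤ) : ZMod M) * h1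
  · apply hv
    linear_combination (-(v 1 : ZMod M)) * hd' - ((g 0 1 : ℤ) : ZMod M) * h0 + ((g 0 0 : ℤ) : ZMod M) * h1

theorem qe_Q_slash_mem {M : ℕ} [NeZero M] {K : Subfield ℂ} (hz : zeta M ∈ K) {v : Fin 2 → ℤ}
    (hv : (v 0 : ZMod M) ≠ 0 ∨ (v 1 : ZMod M) ≠ 0) (g : SL(2, ℤ)) (n : ℕ) :
    (Rat.qe M (Q M v ∣[(3 : ℤ)] g)).coeff n ∈ K := by
  rw [Q_slash, qe_Q, PowerSeries.coeff_mk]
  exact cQ_mem (NeZero.ne M) hz (vecMul_ne hv g) n


end

end Crest.Agent.R007.Wp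
end

-- ▼ part R007/Wp6

/-!
R007/Wp6: the weight 3 forms `Q M ![1,0]`, `Q M ![0,1]` separate `SL(2,ℤ)/Γ(M)` (`M ≥ 3`).
-/

set_option autoImplicit false

namespace Crest.Agent.R007.Wp

open UpperHalfPlane hiding I
open Complex PeriodPair ModularForm Matrix Function Filter CongruenceSubgroup
open scoped MatrixGroups Real PeriodPair Nat Topology Manifold

noncomputable section

lemma cQ_eq_of_eq {M : ℕ} (hM : M ≠ 0) {v w : Fin 2 → ℤ} (h : Q M v = Q M w) : cQ M v = cQ M w := by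
  haveI : NeZero M := ⟨hM⟩
  have h1 := congrArg (Rat.qe M) h
  rw [qe_Q, qe_Q] at h1
  funext n
  have := congrArg (PowerSeries.coeff n) h1
  simpa using this


lemma cQ_zero (M : ℕ) (v : Fin 2 → ℤ) : cQ M v 0 = cQ0 M v := by simp [cQ]

lemma cP_zero (M : ℕ) (v : Fin 2 → ℤ) : cP M v 0 = cP0 M v := by simp [cP]

lemma cQ_one (M : ℕ) (v : Fin 2 → ℤ) : cQ M v 1 = chi M 2 (v 0) (v 1) 1 1 := by simp [cQ]

/-- coefficient of `q = 𝕢^M` when `v 0 ≡ 0`. -/
lemma cQ_M {M : ℕ} (hM : M ≠ 0) {v : Fin 2 → ℤ} (h0 : (v 0 : ZMod M) = 0) :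
    cQ M v M = zeta M ^ (v 1) - zeta M ^ (-(v 1)) := by
  rw [cQ, if_neg hM, zero_add, Finset.sum_eq_single (M, 1)]
  · simp [chi, h0]
    ring
  · rintro ⟨e, d⟩ hp hne
    rw [Nat.mem_divisorsAntidiagonal] at hp
    obtain ⟨hp, -⟩ := hp
    simp only at hp ⊢
    have hndvd : ¬ ((e : ZMod M) = 0) := by
      intro h
      rw [ZMod.natCast_eq_zero_iff] at h
      have he : e ∣ M := ⟨d, hp.symm⟩
      have h1 : e = M := Nat.dvd_antisymm he h
      subst h1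
      have h2 : d = 1 := by
        have : e * d = e * 1 := by rw [hp, mul_one]
        exact Nat.eq_of_mul_eq_mul_left (Nat.pos_of_ne_zero hM) this
      exact hne (by rw [h2])
    simp [chi, h0, hndvd]
  · intro h
    exact absurd (Nat.mem_divisorsAntidiagonal.2 ⟨mul_one M, hM⟩) h

lemma zeta_zpow_eq_iff {M : ℕ} (hM : M ≠ 0) (a b : ℤ) :
    zeta M ^ a = zeta M ^ b ↔ (a : ZMod M) = b := by
  have hp := isPrimitiveRoot_zeta hM
  have hz := zeta_ne_zero M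
  have h1 : zeta M ^ a = zeta M ^ b ↔ zeta M ^ (a - b) = 1 := by
    rw [zpow_sub₀ hz, div_eq_one_iff_eq (zpow_ne_zero _ hz)]
  rw [h1, hp.zpow_eq_one_iff_dvd, ← ZMod.intCast_zmod_eq_zero_iff_dvd, Int.cast_sub, sub_eq_zero]

lemma zeta_zpow_ne_one {M : ℕ} (hM : M ≠ 0) {b : ℤ} (hb : (b : ZMod M) ≠ 0) : 1 - zeta M ^ b ≠ 0 := by
  intro h
  apply hb
  have := (zeta_zpow_eq_iff hM b 0).1 (by rw [zpow_zero]; linear_combination -h)
  simpa using this

lemma row_one_of_eq {M : ℕ} (hM : 3 ≤ M) {w : Fin 2 → ℤ} (hw : (w 0 : ZMod M) ≠ 0 ∨ (w 1 : ZMod M) ≠ 0)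
    (h : Q M w = Q M ![0, 1]) : (w 0 : ZMod M) = 0 ∧ (w 1 : ZMod M) = 1 := by
  have hM0 : M ≠ 0 := by omega
  haveI : Fact (1 < M) := ⟨by omega⟩
  have hone : (1 : ZMod M) ≠ 0 := one_ne_zero
  have hc := cQ_eq_of_eq hM0 h
  have e0 : cQ0 M w = cQ0 M ![0, 1] := by rw [← cQ_zero, ← cQ_zero, hc]
  have hv : ((![0, 1] : Fin 2 → ℤ) 0 : ZMod M) ≠ 0 ∨ ((![0, 1] : Fin 2 → ℤ) 1 : ZMod M) ≠ 0 :=
    Or.inr (by simp)
  rw [cQ0_eq hM0 hw, cQ0_eq hM0 hv] at e0
  simp only [Matrix.cons_val_zero, Int.cast_zero, if_true, Matrix.cons_val_one, zpow_one] at e0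
  set y := zeta M with hy
  have hz := isPrimitiveRoot_zeta hM0
  have hy0 : y ≠ 0 := zeta_ne_zero M
  have hy1 : 1 - y ≠ 0 := by
    have := zeta_zpow_ne_one hM0 (b := 1) (by simp)
    simpa using this
  have hy2 : 1 + y ≠ 0 := by
    intro h2
    have h3 : y ^ 2 = 1 := by linear_combination (y - 1) * h2
    have := hz.dvd_of_pow_eq_one 2 h3
    have := Nat.le_of_dvd (by norm_num) this
    omega
  have hne : y * (1 + y) / (1 - y) ^ 3 ≠ 0 :=
    div_ne_zero (mul_ne_zero hy0 hy2) (pow_ne_zero _ hy1)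
  have hw0 : (w 0 : ZMod M) = 0 := by
    by_contra hcon
    rw [if_neg hcon] at e0
    exact hne e0.symm
  refine ⟨hw0, ?_⟩
  rw [if_pos hw0] at e0
  have hw1 : (w 1 : ZMod M) ≠ 0 := by tauto
  have eM : cQ M w M = cQ M ![0, 1] M := by rw [hc]
  rw [cQ_M hM0 hw0, cQ_M hM0 (v := ![0, 1]) (by simp)] at eM
  simp only [Matrix.cons_val_one, zpow_one, _root_.zpow_neg, ← hy] at eM
  set x := y ^ (w 1) with hx
  have hx0 : x ≠ 0 := zpow_ne_zero _ hy0
  have hx1 : 1 - x ≠ 0 := zeta_zpow_ne_one hM0 hw1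
  have key : (x - y) * (x * y + 1) = 0 := by
    have h5 : x - x⁻¹ = y - y⁻¹ := by simpa using eM
    field_simp at h5
    linear_combination h5
  have hxy : x = y := by
    rcases mul_eq_zero.1 key with h6 | h6
    · linear_combination h6
    · -- x y = -1
      rw [div_eq_div_iff (pow_ne_zero _ hx1) (pow_ne_zero _ hy1)] at e0
      have hx' : x = -y⁻¹ := by
        field_simp
        linear_combination h6
      rw [hx'] at e0
      field_simp at e0
      have h7 : y ^ 2 + 1 = 0 := by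
        have h8 : 8 * y * (y ^ 2 + 1) = 0 := by
          first
          | linear_combination e0
          | linear_combination -e0
        rcases mul_eq_zero.1 h8 with h9 | h9
        · exact absurd h9 (by simpa using hy0)
        · exact h9
      rw [hx']
      field_simp
      linear_combination -h7
  have := (zeta_zpow_eq_iff hM0 (w 1) 1).1 (by rw [zpow_one]; exact hxy)
  simpa using this

lemma row_zero_of_eq {M : ℕ} (hM : 3 ≤ M) {w : Fin 2 → ℤ} (hw0 : (w 0 : ZMod M) = 1)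
    (h : Q M w = Q M ![1, 0]) : (w 1 : ZMod M) = 0 := by
  have hM0 : M ≠ 0 := by omega
  have hc := cQ_eq_of_eq hM0 h
  have e1 : cQ M w 1 = cQ M ![1, 0] 1 := by rw [hc]
  have hne : ¬ ((-1 : ZMod M) = 1) := by
    intro h1
    have h2 : ((2 : ℕ) : ZMod M) = 0 := by
      push_cast
      linear_combination -h1
    rw [ZMod.natCast_eq_zero_iff] at h2
    have := Nat.le_of_dvd (by norm_num) h2
    omega
  rw [cQ_one, cQ_one] at e1
  simp [chi, hw0, hne] at e1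
  have := (zeta_zpow_eq_iff hM0 (w 1) 0).1 (by rw [zpow_zero]; exact e1)
  simpa using this

/-- **Separation**: the weight `3` forms `Q M ![1,0]`, `Q M ![0,1]` of level `Γ(M)`, `M ≥ 3`, are
both fixed by `g ∈ SL(2,ℤ)` only if `g ∈ Γ(M)`. -/
theorem mem_Gamma_of_Q_fixed {M : ℕ} (hM : 3 ≤ M) {g : SL(2, ℤ)}
    (h0 : Q M ![1, 0] ∣[(3 : ℤ)] g = Q M ![1, 0]) (h1 : Q M ![0, 1] ∣[(3 : ℤ)] g = Q M ![0, 1]) :
    g ∈ CongruenceSubgroup.Gamma M := by
  have hM0 : M ≠ 0 := by omega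
  haveI : Fact (1 < M) := ⟨by omega⟩
  rw [Q_slash] at h0 h1
  have hv : ((![0, 1] : Fin 2 → ℤ) 0 : ZMod M) ≠ 0 ∨ ((![0, 1] : Fin 2 → ℤ) 1 : ZMod M) ≠ 0 :=
    Or.inr (by simp)
  obtain ⟨hc, hd⟩ := row_one_of_eq hM (vecMul_ne hv g) h1
  simp [Matrix.vecMul, dotProduct, Fin.sum_univ_two] at hc hd
  have hdet := g.det_coe
  rw [Matrix.det_fin_two] at hdet
  have hdet' : ((g 0 0 : ℤ) : ZMod M) * (g 1 1 : ℤ) - ((g 0 1 : ℤ) : ZMod M) * (g 1 0 : ℤ) = 1 := by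
    exact_mod_cast congrArg (Int.cast : ℤ → ZMod M) hdet
  rw [hc, hd] at hdet'
  have ha : ((g 0 0 : ℤ) : ZMod M) = 1 := by linear_combination hdet'
  have hb := row_zero_of_eq hM (w := ![1, 0] ᵥ* (g : Matrix (Fin 2) (Fin 2) ℤ))
    (by simp [Matrix.vecMul, dotProduct, Fin.sum_univ_two, ha]) h0
  simp [Matrix.vecMul, dotProduct, Fin.sum_univ_two] at hb
  rw [Gamma_mem]
  exact ⟨ha, hb, hc, hd⟩

end

end Crest.Agent.R007.Wp
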