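import Mathlib

-- ▼ part R007/WpBase
section

/-!
Row 7, M1 part 1: Liouville for elliptic functions, second order ODE of `℘`, Taylor expansions.
-/

set_option autoImplicit false

open Filter Topology PeriodPair Function

noncomputable section

namespace Crest.Agent.R007.WpId

section liouville

variable (L : PeriodPair)

/-- Liouville's theorem for elliptic functions with removable singularities. -/
theorem liouville (f : ℂ → ℂ) (hper : ∀ (l : L.lattice) (z : ℂ), f (z + l) = f z)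
    (h : ∀ z, ∃ g : ℂ → ℂ, AnalyticAt ℂ g z ∧ f =ᶠ[𝓝[≠] z] g) :
    ∃ c : ℂ, ∀ z, f =ᶠ[𝓝[≠] z] fun _ => c := by
  choose g hg hfg using h
  set F : ℂ → ℂ := fun z => g z z with hF
  have hlim : ∀ z, Tendsto f (𝓝[≠] z) (𝓝 (F z)) := fun z =>
    ((hg z).continuousAt.tendsto.mono_left nhdsWithin_le_nhds).congr' (hfg z).symm
  have hFg : ∀ z, F =ᶠ[𝓝 z] g z := by
    intro z
    have h1 : ∀ᶠ w in 𝓝 z, w ≠ z → f w = g z w := eventually_nhdsWithin_iff.mp (hfg z)
    have h2 : ∀ᶠ w in 𝓝 z, AnalyticAt ℂ (g z) w := (hg z).eventually_analyticAt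
    filter_upwards [h1.eventually_nhds, h2] with w hw1 hw2
    by_cases hwz : w = z
    · subst hwz; rfl
    · have h3 : f =ᶠ[𝓝[≠] w] g z := by
        have h4 : ∀ᶠ v in 𝓝 w, v ≠ z := isOpen_ne.mem_nhds hwz
        filter_upwards [nhdsWithin_le_nhds hw1, nhdsWithin_le_nhds h4] with v hv1 hv2
        exact hv1 hv2
      exact tendsto_nhds_unique (hlim w)
        ((hw2.continuousAt.tendsto.mono_left nhdsWithin_le_nhds).congr' h3.symm)
  have hFan : ∀ z, AnalyticAt ℂ F z := fun z => (hg z).congr (hFg z).symm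
  have hFper : ∀ (l : L.lattice) (z : ℂ), F (z + l) = F z := by
    intro l z
    have h1 : Tendsto (fun w : ℂ => w + l) (𝓝[≠] z) (𝓝[≠] (z + l)) := by
      refine tendsto_nhdsWithin_of_tendsto_nhds_of_eventually_within _ ?_ ?_
      · exact (continuous_id.add continuous_const).continuousAt.tendsto.mono_left
          nhdsWithin_le_nhds
      · filter_upwards [self_mem_nhdsWithin] with w hw
        simpa using hw
    have h2 : Tendsto (fun w => f (w + l)) (𝓝[≠] z) (𝓝 (F (z + l))) := (hlim (z + l)).comp h1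
    have h3 : (fun w => f (w + l)) = f := funext fun w => hper l w
    rw [h3] at h2
    exact tendsto_nhds_unique h2 (hlim z)
  have hdiff : Differentiable ℂ F := fun z => (hFan z).differentiableAt
  have hb := (IsZLattice.isCompact_range_of_periodic L.lattice F hdiff.continuous
    (fun z w hw => by lift w to L.lattice using hw; exact hFper w z)).isBounded
  refine ⟨F 0, fun z => ?_⟩
  have h5 : f =ᶠ[𝓝[≠] z] F := (hfg z).trans ((hFg z).symm.filter_mono nhdsWithin_le_nhds)
  filter_upwards [h5] with w hw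
  rw [hw]
  exact hdiff.apply_eq_apply_of_bounded hb w 0

end liouville

section taylor

/-- Taylor expansion of order three with analytic remainder. -/
theorem taylor3 {f : ℂ → ℂ} {a : ℂ} (hf : AnalyticAt ℂ f a) :
    ∃ R : ℂ → ℂ, AnalyticAt ℂ R 0 ∧ R 0 = iteratedDeriv 3 f a / 6 ∧
      ∀ h : ℂ, f (a + h) = f a + deriv f a * h + iteratedDeriv 2 f a / 2 * h ^ 2 +
        h ^ 3 * R h := by
  have hp' := AnalyticAt.hasFPowerSeriesAt hf
  set φ : ℕ → ℂ → ℂ := fun n => (swap dslope a)^[n] f with hφ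
  have hcoeff : ∀ n, φ n a = iteratedDeriv n f a / (n.factorial : ℂ) := by
    intro n
    have h1 := hp'.has_fpower_series_iterate_dslope_fslope n
    have h2 := h1.coeff_zero 1
    rw [← FormalMultilinearSeries.coeff, FormalMultilinearSeries.coeff_iterate_fslope,
      zero_add, FormalMultilinearSeries.coeff_ofScalars] at h2
    exact h2.symm
  have hrec : ∀ n z, φ n z = φ n a + (z - a) * φ (n + 1) z := by
    intro n z
    have h1 : φ (n + 1) = dslope (φ n) a := by
      simp only [hφ, Function.iterate_succ_apply']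
    rw [h1]
    have h2 := sub_smul_dslope (φ n) a z
    rw [smul_eq_mul] at h2
    rw [h2]
    ring
  have han : AnalyticAt ℂ (φ 3) a :=
    ⟨_, hp'.has_fpower_series_iterate_dslope_fslope 3⟩
  refine ⟨fun h => φ 3 (a + h), ?_, ?_, ?_⟩
  · have h1 : AnalyticAt ℂ (fun h : ℂ => a + h) 0 := analyticAt_const.add analyticAt_id
    exact AnalyticAt.fun_comp (by simpa using han) h1
  · simp only [add_zero]
    rw [hcoeff 3]
    norm_num [Nat.factorial]
  · intro h
    have e0 := hrec 0 (a + h)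
    have e1 := hrec 1 (a + h)
    have e2 := hrec 2 (a + h)
    have c1 := hcoeff 1
    have c2 := hcoeff 2
    have f0 : φ 0 = f := rfl
    rw [iteratedDeriv_one] at c1
    norm_num [Nat.factorial] at c1 c2
    rw [f0] at e0
    simp only [add_sub_cancel_left] at e0 e1 e2
    norm_num at e1 e2 e0
    rw [e0, e1, e2, c1, c2]
    ring

/-- Taylor expansion of order two with analytic remainder. -/
theorem taylor2 {f : ℂ → ℂ} {a : ℂ} (hf : AnalyticAt ℂ f a) :
    ∃ R : ℂ → ℂ, AnalyticAt ℂ R 0 ∧ R 0 = iteratedDeriv 2 f a / 2 ∧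
      ∀ h : ℂ, f (a + h) = f a + deriv f a * h + h ^ 2 * R h := by
  obtain ⟨R, hR, hR0, hf3⟩ := taylor3 hf
  refine ⟨fun h => iteratedDeriv 2 f a / 2 + h * R h, ?_, ?_, ?_⟩
  · exact analyticAt_const.add (analyticAt_id.mul hR)
  · simp
  · intro h
    rw [hf3]
    ring

/-- Taylor expansion of order one with analytic remainder. -/
theorem taylor1 {f : ℂ → ℂ} {a : ℂ} (hf : AnalyticAt ℂ f a) :
    ∃ R : ℂ → ℂ, AnalyticAt ℂ R 0 ∧ R 0 = deriv f a ∧
      ∀ h : ℂ, f (a + h) = f a + h * R h := by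
  obtain ⟨R, hR, hR0, hf2⟩ := taylor2 hf
  refine ⟨fun h => deriv f a + h * R h, ?_, ?_, ?_⟩
  · exact analyticAt_const.add (analyticAt_id.mul hR)
  · simp
  · intro h
    rw [hf2]
    ring

end taylor

section ode

variable (L : PeriodPair)

lemma analyticAt_wp {z : ℂ} (hz : z ∉ L.lattice) : AnalyticAt ℂ ℘[L] z :=
  L.analyticOnNhd_weierstrassP z hz

lemma analyticAt_dwp {z : ℂ} (hz : z ∉ L.lattice) : AnalyticAt ℂ ℘'[L] z :=
  L.analyticOnNhd_derivWeierstrassP z hz

/-- the regular part of `℘` at the origin. -/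
def E : ℂ → ℂ := ℘[L - (0 : ℂ)]

/-- the regular part of `℘'` at the origin. -/
def E' : ℂ → ℂ := ℘'[L - (0 : ℂ)]

lemma analyticAt_E : AnalyticAt ℂ (E L) 0 := L.analyticAt_weierstrassPExcept 0

lemma analyticAt_E' : AnalyticAt ℂ (E' L) 0 := L.analyticAt_derivWeierstrassPExcept 0

lemma E_zero : E L 0 = 0 := L.weierstrassPExcept_zero 0

lemma wp_eq (z : ℂ) : ℘[L] z = (z ^ 2)⁻¹ + E L z := by
  have h := L.weierstrassPExcept_def (0 : L.lattice) z
  simp only [ZeroMemClass.coe_zero, sub_zero] at h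
  rw [E, h]
  norm_num

lemma dwp_eq (z : ℂ) : ℘'[L] z = -2 * (z ^ 3)⁻¹ + E' L z := by
  have h := L.derivWeierstrassPExcept_def (0 : L.lattice) z
  simp only [ZeroMemClass.coe_zero, sub_zero] at h
  rw [E', h]
  ring

lemma not_mem_eventually (z₀ : ℂ) : ∀ᶠ z in 𝓝[≠] z₀, z ∉ L.lattice := by
  filter_upwards [nhdsWithin_le_nhds (L.compl_lattice_sdiff_singleton_mem_nhds z₀),
    self_mem_nhdsWithin] with z hz hz' hmem
  exact hz ⟨hmem, hz'⟩

lemma isPreconnected_compl : IsPreconnected ((L.lattice : Set ℂ)ᶜ) := by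
  refine (Set.Countable.isConnected_compl_of_one_lt_rank (by simp) ?_).2
  exact countable_of_Lindelof_of_discrete (X := L.lattice) |> Set.countable_coe_iff.mp

lemma isOpen_compl : IsOpen ((L.lattice : Set ℂ)ᶜ) := L.isClosed_lattice.isOpen_compl

/-- `℘'` does not vanish identically near any point. -/
lemma dwp_not_eventually_zero (z₀ : ℂ) : ¬ (∀ᶠ z in 𝓝[≠] z₀, ℘'[L] z = 0) := by
  intro h
  -- a regular point where it vanishes in a neighbourhood
  have h1 : ∀ᶠ z in 𝓝[≠] z₀, z ∉ L.lattice ∧ (∀ᶠ w in 𝓝 z, ℘'[L] w = 0) := by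
    have h2 : ∀ᶠ z in 𝓝[≠] z₀, ∀ᶠ w in 𝓝 z, w ≠ z₀ → ℘'[L] w = 0 := by
      have := (eventually_nhdsWithin_iff.mp h).eventually_nhds
      exact this.filter_mono nhdsWithin_le_nhds
    filter_upwards [not_mem_eventually L z₀, h2, self_mem_nhdsWithin] with z hz hz2 hz3
    refine ⟨hz, ?_⟩
    have h4 : ∀ᶠ v in 𝓝 z, v ≠ z₀ := isOpen_ne.mem_nhds hz3
    filter_upwards [hz2, h4] with w hw1 hw2 using hw1 hw2
  obtain ⟨z₁, hz₁, hz₁'⟩ := h1.exists
  have h5 : Set.EqOn ℘'[L] 0 ((L.lattice : Set ℂ)ᶜ) :=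
    L.analyticOnNhd_derivWeierstrassP.eqOn_zero_of_preconnected_of_eventuallyEq_zero
      (isPreconnected_compl L) hz₁ hz₁'
  -- contradiction at the pole `0`
  have h6 : ∀ᶠ z in 𝓝[≠] (0 : ℂ), z ^ 3 * E' L z = 2 := by
    filter_upwards [not_mem_eventually L 0, self_mem_nhdsWithin] with z hz hz0
    have h7 := h5 hz
    rw [dwp_eq] at h7
    simp only [Pi.zero_apply] at h7
    have hz3 : (z : ℂ) ^ 3 ≠ 0 := pow_ne_zero 3 hz0
    have h8 : E' L z = 2 * (z ^ 3)⁻¹ := by linear_combination h7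
    rw [h8, mul_left_comm, mul_inv_cancel₀ hz3, mul_one]
  have h9 : Tendsto (fun z => z ^ 3 * E' L z) (𝓝[≠] (0 : ℂ)) (𝓝 ((0 : ℂ) ^ 3 * E' L 0)) :=
    (((continuousAt_id.pow 3).mul (analyticAt_E' L).continuousAt).tendsto).mono_left
      nhdsWithin_le_nhds
  have h10 : Tendsto (fun z => z ^ 3 * E' L z) (𝓝[≠] (0 : ℂ)) (𝓝 2) :=
    tendsto_const_nhds.congr' (by filter_upwards [h6] with z hz using hz.symm)
  have := tendsto_nhds_unique h9 h10
  norm_num at this

/-- `℘` takes a value `c` only at isolated points. -/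
lemma wp_ne_eventually (c z₀ : ℂ) : ∀ᶠ z in 𝓝[≠] z₀, ℘[L] z ≠ c := by
  have hmer : MeromorphicAt (fun z => ℘[L] z - c) z₀ :=
    (L.meromorphic_weierstrassP z₀).sub (MeromorphicAt.const c z₀)
  rcases hmer.eventually_eq_zero_or_eventually_ne_zero with h | h
  · exfalso
    refine dwp_not_eventually_zero L z₀ ?_
    have h1 := (eventually_nhdsWithin_iff.mp h).eventually_nhds
    filter_upwards [nhdsWithin_le_nhds h1, self_mem_nhdsWithin] with z hz hz0
    have h4 : ∀ᶠ v in 𝓝 z, v ≠ z₀ := isOpen_ne.mem_nhds hz0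
    have h2 : ℘[L] =ᶠ[𝓝 z] fun _ => c := by
      filter_upwards [hz, h4] with w hw1 hw2
      exact sub_eq_zero.mp (hw1 hw2)
    rw [← L.deriv_weierstrassP, h2.deriv_eq]
    simp
  · filter_upwards [h] with z hz
    exact sub_ne_zero.mp hz

/-- `℘'' = 6 ℘² - g₂ / 2`. -/
theorem deriv_dwp {z : ℂ} (hz : z ∉ L.lattice) :
    deriv ℘'[L] z = 6 * ℘[L] z ^ 2 - L.g₂ / 2 := by
  have key : ∀ w ∉ L.lattice, ℘'[L] w * (deriv ℘'[L] w - (6 * ℘[L] w ^ 2 - L.g₂ / 2)) = 0 := by
    intro w hw
    have h1 : (fun v => ℘'[L] v ^ 2) =ᶠ[𝓝 w]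
        fun v => 4 * ℘[L] v ^ 3 - L.g₂ * ℘[L] v - L.g₃ := by
      filter_upwards [(isOpen_compl L).mem_nhds hw] with v hv
      exact L.derivWeierstrassP_sq v hv
    have h2 := h1.deriv_eq
    have d1 : HasDerivAt ℘'[L] (deriv ℘'[L] w) w :=
      (analyticAt_dwp L hw).differentiableAt.hasDerivAt
    have d0 : HasDerivAt ℘[L] (℘'[L] w) w := by
      have := (analyticAt_wp L hw).differentiableAt.hasDerivAt
      rwa [L.deriv_weierstrassP] at this
    have d2 : HasDerivAt (fun v => ℘'[L] v ^ 2) _ w := d1.pow 2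
    have d3 : HasDerivAt (fun v => 4 * ℘[L] v ^ 3 - L.g₂ * ℘[L] v - L.g₃) _ w :=
      (((d0.pow 3).const_mul 4).sub (d0.const_mul L.g₂)).sub_const L.g₃
    rw [d2.deriv, d3.deriv] at h2
    push_cast at h2
    norm_num at h2
    linear_combination h2 / 2
  set W : ℂ → ℂ := fun w => deriv ℘'[L] w - (6 * ℘[L] w ^ 2 - L.g₂ / 2) with hW
  have hWan : AnalyticOnNhd ℂ W ((L.lattice : Set ℂ)ᶜ) := by
    intro w hw
    have a1 : AnalyticAt ℂ (deriv ℘'[L]) w := (analyticAt_dwp L hw).deriv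
    have a2 := analyticAt_wp L hw
    exact a1.sub ((analyticAt_const.mul (a2.pow 2)).sub analyticAt_const)
  rcases L.analyticOnNhd_derivWeierstrassP.eq_zero_or_eq_zero_of_mul_eq_zero hWan
    (fun w hw => key w hw) (isPreconnected_compl L) with h | h
  · exfalso
    refine dwp_not_eventually_zero L z ?_
    filter_upwards [not_mem_eventually L z] with w hw using h w hw
  · exact sub_eq_zero.mp (h z hz)

lemma hasDerivAt_wp {z : ℂ} (hz : z ∉ L.lattice) : HasDerivAt ℘[L] (℘'[L] z) z := by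
  have := (analyticAt_wp L hz).differentiableAt.hasDerivAt
  rwa [L.deriv_weierstrassP] at this

lemma iteratedDeriv_two_wp {z : ℂ} (hz : z ∉ L.lattice) :
    iteratedDeriv 2 ℘[L] z = 6 * ℘[L] z ^ 2 - L.g₂ / 2 := by
  rw [iteratedDeriv_succ, iteratedDeriv_one, L.deriv_weierstrassP]
  exact deriv_dwp L hz

/-- `℘''' = 12 ℘ ℘'`. -/
lemma iteratedDeriv_two_dwp {z : ℂ} (hz : z ∉ L.lattice) :
    iteratedDeriv 2 ℘'[L] z = 12 * ℘[L] z * ℘'[L] z := by
  rw [iteratedDeriv_succ, iteratedDeriv_one]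
  have h1 : deriv ℘'[L] =ᶠ[𝓝 z] fun v => 6 * ℘[L] v ^ 2 - L.g₂ / 2 := by
    filter_upwards [(isOpen_compl L).mem_nhds hz] with v hv
    exact deriv_dwp L hv
  rw [h1.deriv_eq]
  have d3 : HasDerivAt (fun v => 6 * ℘[L] v ^ 2 - L.g₂ / 2) _ z :=
    (((hasDerivAt_wp L hz).pow 2).const_mul 6).sub_const (L.g₂ / 2)
  rw [d3.deriv]
  push_cast
  ring

lemma iteratedDeriv_three_wp {z : ℂ} (hz : z ∉ L.lattice) :
    iteratedDeriv 3 ℘[L] z = 12 * ℘[L] z * ℘'[L] z := by
  rw [iteratedDeriv_succ', L.deriv_weierstrassP]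
  exact iteratedDeriv_two_dwp L hz

end ode

end Crest.Agent.R007.WpId
end
end

-- ▼ part R007/WpId
section

/-!
Row 7, M1 part 2: addition-type identity, zeros of `℘'`, injectivity of `℘` modulo `±1`,
3-torsion: the flex relation and the Tate normal form.
-/

set_option autoImplicit false

open Filter Topology PeriodPair Function

noncomputable section

namespace Crest.Agent.R007.WpId

variable (L : PeriodPair)

lemma neg_mem_iff {z : ℂ} : -z ∈ L.lattice ↔ z ∈ L.lattice := L.lattice.neg_mem_iff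

lemma wp_add {z l : ℂ} (hl : l ∈ L.lattice) : ℘[L] (z + l) = ℘[L] z :=
  L.weierstrassP_add_coe z ⟨l, hl⟩

lemma dwp_add {z l : ℂ} (hl : l ∈ L.lattice) : ℘'[L] (z + l) = ℘'[L] z :=
  L.derivWeierstrassP_add_coe z ⟨l, hl⟩

/-- transport of a removable singularity along a period. -/
lemma removable_add (f : ℂ → ℂ) (hper : ∀ (l : L.lattice) (z : ℂ), f (z + l) = f z)
    (z : ℂ) (l : L.lattice) (h : ∃ g : ℂ → ℂ, AnalyticAt ℂ g z ∧ f =ᶠ[𝓝[≠] z] g) :
    ∃ g : ℂ → ℂ, AnalyticAt ℂ g (z + l) ∧ f =ᶠ[𝓝[≠] (z + l)] g := by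
  obtain ⟨g, hg, hfg⟩ := h
  refine ⟨fun w => g (w - l), ?_, ?_⟩
  · have h1 : AnalyticAt ℂ (fun w : ℂ => w - l) (z + l) := analyticAt_id.sub analyticAt_const
    exact AnalyticAt.fun_comp (by simpa using hg) h1
  · have h1 : Tendsto (fun w : ℂ => w - l) (𝓝[≠] (z + l)) (𝓝[≠] z) := by
      refine tendsto_nhdsWithin_of_tendsto_nhds_of_eventually_within _ ?_ ?_
      · have : ContinuousAt (fun w : ℂ => w - l) (z + l) :=
          (continuous_id.sub continuous_const).continuousAt
        have h2 := this.tendsto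
        simp only [add_sub_cancel_right] at h2
        exact h2.mono_left nhdsWithin_le_nhds
      · filter_upwards [self_mem_nhdsWithin] with w hw
        intro hw'
        apply hw
        simp only [Set.mem_singleton_iff] at hw' ⊢
        rw [← hw']
        ring
    have h2 := h1.eventually hfg
    filter_upwards [h2] with w hw
    rw [← hw, ← hper l (w - l), sub_add_cancel]

lemma tendsto_shift (b : ℂ) : Tendsto (fun h : ℂ => b + h) (𝓝[≠] 0) (𝓝[≠] b) := by
  refine tendsto_nhdsWithin_of_tendsto_nhds_of_eventually_within _ ?_ ?_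
  · have : ContinuousAt (fun h : ℂ => b + h) 0 := (continuous_const.add continuous_id).continuousAt
    have h2 := this.tendsto
    simp only [add_zero] at h2
    exact h2.mono_left nhdsWithin_le_nhds
  · filter_upwards [self_mem_nhdsWithin] with w hw
    simpa using hw

/-- moving the analytic extension to the origin. -/
lemma removable_of_origin (f : ℂ → ℂ) (b : ℂ)
    (h : ∃ g : ℂ → ℂ, AnalyticAt ℂ g 0 ∧ ∀ᶠ h in 𝓝[≠] (0 : ℂ), f (b + h) = g h) :
    ∃ g : ℂ → ℂ, AnalyticAt ℂ g b ∧ f =ᶠ[𝓝[≠] b] g := by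
  obtain ⟨g, hg, hfg⟩ := h
  refine ⟨fun w => g (w - b), ?_, ?_⟩
  · have h1 : AnalyticAt ℂ (fun w : ℂ => w - b) b := analyticAt_id.sub analyticAt_const
    exact AnalyticAt.fun_comp (by simpa using hg) h1
  · have h1 : Tendsto (fun w : ℂ => w - b) (𝓝[≠] b) (𝓝[≠] 0) := by
      refine tendsto_nhdsWithin_of_tendsto_nhds_of_eventually_within _ ?_ ?_
      · have : ContinuousAt (fun w : ℂ => w - b) b :=
          (continuous_id.sub continuous_const).continuousAt
        have h2 := this.tendsto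
        simp only [sub_self] at h2
        exact h2.mono_left nhdsWithin_le_nhds
      · filter_upwards [self_mem_nhdsWithin] with w hw
        simpa [sub_eq_zero] using hw
    filter_upwards [h1.eventually hfg] with w hw
    rw [← hw]
    congr 1
    ring

/-- an even analytic function composed etc.: the odd function `℘(h+b) - ℘(h-b)`. -/
lemma wp_neg_add (b h : ℂ) : ℘[L] (h - b) = ℘[L] (b - h) := by
  rw [← L.weierstrassP_neg, neg_sub]

section additive

variable {L} {b : ℂ}

/-- the auxiliary function of the addition-type identity. -/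
def aux (L : PeriodPair) (b z : ℂ) : ℂ :=
  (℘[L] (z + b) - ℘[L] (z - b)) * (℘[L] z - ℘[L] b) ^ 2 + ℘'[L] z * ℘'[L] b

lemma aux_per (L : PeriodPair) (b : ℂ) (l : L.lattice) (z : ℂ) :
    aux L b (z + l) = aux L b z := by
  unfold aux
  rw [show z + l + b = (z + b) + l by ring, show z + l - b = (z - b) + l by ring]
  simp

lemma aux_origin (hb : b ∉ L.lattice) :
    ∃ g : ℂ → ℂ, AnalyticAt ℂ g 0 ∧ ∀ᶠ h in 𝓝[≠] (0 : ℂ), aux L b (0 + h) = g h := by
  obtain ⟨R, hR, hR0, hTay⟩ := taylor3 (analyticAt_wp L hb)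
  rw [iteratedDeriv_three_wp L hb] at hR0
  rw [L.deriv_weierstrassP] at hTay
  set p := ℘[L] b with hp
  set p' := ℘'[L] b with hp'
  set m := iteratedDeriv 2 ℘[L] b / 2 with hm
  -- ℘(b+h) - ℘(b-h) = 2 p' h + h^3 S(h)
  set S : ℂ → ℂ := fun h => R h + R (-h) with hS
  have hRneg : AnalyticAt ℂ (fun h : ℂ => R (-h)) 0 :=
    AnalyticAt.fun_comp (by simpa using hR) analyticAt_id.neg
  have hSan : AnalyticAt ℂ S 0 := hR.add hRneg
  have hS0 : S 0 = 4 * p * p' := by
    simp only [hS, neg_zero, hR0]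
    ring
  have hD : ∀ h : ℂ, ℘[L] (h + b) - ℘[L] (h - b) = 2 * p' * h + h ^ 3 * S h := by
    intro h
    rw [wp_neg_add, add_comm h b, hTay h, sub_eq_add_neg b h, hTay (-h)]
    simp only [hS]
    ring
  -- bracket
  set B : ℂ → ℂ := fun h => 4 * p' * (E L h - p) + 2 * p' * h ^ 2 * (E L h - p) ^ 2 +
    S h * (1 + h ^ 2 * (E L h - p)) ^ 2 with hB
  have hE := analyticAt_E L
  have hBan : AnalyticAt ℂ B 0 := by
    have e1 : AnalyticAt ℂ (fun h => E L h - p) 0 := hE.sub analyticAt_const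
    have e2 : AnalyticAt ℂ (fun h : ℂ => h ^ 2) 0 := analyticAt_id.pow 2
    exact ((analyticAt_const.mul e1).add ((analyticAt_const.mul e2).mul (e1.pow 2))).add
      (hSan.mul ((analyticAt_const.add (e2.mul e1)).pow 2))
  have hB0 : B 0 = 0 := by
    simp only [hB, E_zero, hS0]
    ring
  obtain ⟨B1, hB1, -, hB1e⟩ := taylor1 hBan
  refine ⟨fun h => B1 h + E' L h * p', ?_, ?_⟩
  · exact hB1.add ((analyticAt_E' L).mul analyticAt_const)
  · filter_upwards [self_mem_nhdsWithin] with h hh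
    have hh0 : h ≠ 0 := hh
    have hBh : B h = h * B1 h := by
      have := hB1e h
      rw [zero_add, hB0, zero_add] at this
      exact this
    rw [zero_add]
    unfold aux
    rw [hD h, wp_eq L h, dwp_eq L h, ← hp, ← hp']
    have e : h * (B1 h + E' L h * p') = B h + h * (E' L h * p') := by rw [hBh]; ring
    apply mul_left_cancel₀ hh0
    rw [e]
    simp only [hB]
    field_simp
    ring

lemma aux_pole (hb : b ∉ L.lattice) (h2b : 2 * b ∉ L.lattice) :
    ∃ g : ℂ → ℂ, AnalyticAt ℂ g 0 ∧ ∀ᶠ h in 𝓝[≠] (0 : ℂ), aux L b (b + h) = g h := by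
  obtain ⟨R, hR, hR0, hTay⟩ := taylor1 (analyticAt_wp L hb)
  set p := ℘[L] b with hp
  set p' := ℘'[L] b with hp'
  have a1 : AnalyticAt ℂ (fun h : ℂ => ℘[L] (b + h + b)) 0 := by
    have : AnalyticAt ℂ (fun h : ℂ => b + h + b) 0 :=
      (analyticAt_const.add analyticAt_id).add analyticAt_const
    exact AnalyticAt.fun_comp (by
      have : (b + 0 + b : ℂ) = 2 * b := by ring
      rw [this]
      exact analyticAt_wp L h2b) this
  have a2 : AnalyticAt ℂ (fun h : ℂ => ℘'[L] (b + h)) 0 := by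
    have : AnalyticAt ℂ (fun h : ℂ => b + h) 0 := analyticAt_const.add analyticAt_id
    exact AnalyticAt.fun_comp (by
      rw [add_zero]
      exact analyticAt_dwp L hb) this
  refine ⟨fun h => (℘[L] (b + h + b) - E L h) * (h * R h) ^ 2 - R h ^ 2 + ℘'[L] (b + h) * p',
    ?_, ?_⟩
  · exact (((a1.sub (analyticAt_E L)).mul ((analyticAt_id.mul hR).pow 2)).sub (hR.pow 2)).add
      (a2.mul analyticAt_const)
  · filter_upwards [self_mem_nhdsWithin] with h hh
    have hh0 : h ≠ 0 := hh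
    unfold aux
    rw [hTay h, add_sub_cancel_left, wp_eq L h, ← hp, ← hp', add_sub_cancel_left]
    field_simp
    ring

lemma aux_neg (b z : ℂ) : aux L b (-z) = - aux L b z := by
  unfold aux
  rw [show -z + b = -(z - b) by ring, show -z - b = -(z + b) by ring]
  simp only [L.weierstrassP_neg, L.derivWeierstrassP_neg]
  ring

/-- **addition-type identity**. -/
theorem wp_add_sub {z : ℂ} (hz : z ∉ L.lattice) (hb : b ∉ L.lattice)
    (h1 : z + b ∉ L.lattice) (h2 : z - b ∉ L.lattice) :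
    (℘[L] (z + b) - ℘[L] (z - b)) * (℘[L] z - ℘[L] b) ^ 2 = - (℘'[L] z * ℘'[L] b) := by
  by_cases h2b : 2 * b ∈ L.lattice
  · have e1 : ℘[L] (z + b) = ℘[L] (z - b) := by
      rw [show z + b = (z - b) + 2 * b by ring, wp_add L h2b]
    have e2 : ℘'[L] b = 0 := by
      have h3 : ℘'[L] b = ℘'[L] (-b) := by
        rw [show b = -b + 2 * b by ring, dwp_add L h2b, show -(-b + 2 * b) = -b by ring]
      rw [L.derivWeierstrassP_neg] at h3
      have : (2 : ℂ) * ℘'[L] b = 0 := by linear_combination h3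
      exact (mul_eq_zero.mp this).resolve_left two_ne_zero
    rw [e1, e2]
    ring
  · have hb' : ∀ w : ℂ, ∃ g : ℂ → ℂ, AnalyticAt ℂ g w ∧ aux L b =ᶠ[𝓝[≠] w] g := by
      intro w
      by_cases hw : w ∈ L.lattice
      · have := removable_add L (aux L b) (aux_per L b) 0 ⟨w, hw⟩
          (removable_of_origin _ 0 (aux_origin hb))
        simpa using this
      by_cases hw1 : w - b ∈ L.lattice
      · have := removable_add L (aux L b) (aux_per L b) b ⟨w - b, hw1⟩
          (removable_of_origin _ b (aux_pole hb h2b))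
        simpa using this
      by_cases hw2 : w + b ∈ L.lattice
      · -- by symmetry
        have h3 : ∃ g : ℂ → ℂ, AnalyticAt ℂ g 0 ∧
            ∀ᶠ h in 𝓝[≠] (0 : ℂ), aux L b (-b + h) = g h := by
          obtain ⟨g, hg, hge⟩ := aux_pole hb h2b
          refine ⟨fun h => - g (-h), ?_, ?_⟩
          · exact (AnalyticAt.fun_comp (by simpa using hg) analyticAt_id.neg).neg
          · have hneg : Tendsto (fun h : ℂ => -h) (𝓝[≠] 0) (𝓝[≠] 0) := by
              refine tendsto_nhdsWithin_of_tendsto_nhds_of_eventually_within _ ?_ ?_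
              · have := (continuous_neg (G := ℂ)).tendsto 0
                simp only [neg_zero] at this
                exact this.mono_left nhdsWithin_le_nhds
              · filter_upwards [self_mem_nhdsWithin] with v hv
                simpa using hv
            filter_upwards [hneg.eventually hge] with h hh
            rw [← hh, ← aux_neg]
            congr 1
            ring
        have := removable_add L (aux L b) (aux_per L b) (-b) ⟨w + b, hw2⟩
          (removable_of_origin _ (-b) h3)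
        simpa using this
      · refine ⟨aux L b, ?_, EventuallyEq.rfl⟩
        have a1 : AnalyticAt ℂ (fun z : ℂ => ℘[L] (z + b)) w :=
          AnalyticAt.fun_comp (analyticAt_wp L hw2) (analyticAt_id.add analyticAt_const)
        have a2 : AnalyticAt ℂ (fun z : ℂ => ℘[L] (z - b)) w :=
          AnalyticAt.fun_comp (analyticAt_wp L hw1) (analyticAt_id.sub analyticAt_const)
        exact ((a1.sub a2).mul (((analyticAt_wp L hw).sub analyticAt_const).pow 2)).add
          ((analyticAt_dwp L hw).mul analyticAt_const)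
    obtain ⟨c, hc⟩ := liouville L (aux L b) (aux_per L b) hb'
    have hc0 : c = 0 := by
      have hneg : Tendsto (fun h : ℂ => -h) (𝓝[≠] 0) (𝓝[≠] 0) := by
        refine tendsto_nhdsWithin_of_tendsto_nhds_of_eventually_within _ ?_ ?_
        · have := (continuous_neg (G := ℂ)).tendsto 0
          simp only [neg_zero] at this
          exact this.mono_left nhdsWithin_le_nhds
        · filter_upwards [self_mem_nhdsWithin] with v hv
          simpa using hv
      obtain ⟨h, hh1, hh2⟩ := ((hc 0).and (hneg.eventually (hc 0))).exists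
      rw [aux_neg, hh1] at hh2
      have : (2 : ℂ) * c = 0 := by linear_combination -hh2
      exact (mul_eq_zero.mp this).resolve_left two_ne_zero
    have hcont : ContinuousAt (aux L b) z := by
      have a1 : AnalyticAt ℂ (fun z : ℂ => ℘[L] (z + b)) z :=
        AnalyticAt.fun_comp (analyticAt_wp L h1) (analyticAt_id.add analyticAt_const)
      have a2 : AnalyticAt ℂ (fun z : ℂ => ℘[L] (z - b)) z :=
        AnalyticAt.fun_comp (analyticAt_wp L h2) (analyticAt_id.sub analyticAt_const)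
      exact (((a1.sub a2).mul (((analyticAt_wp L hz).sub analyticAt_const).pow 2)).add
          ((analyticAt_dwp L hz).mul analyticAt_const)).continuousAt
    have h3 : Tendsto (aux L b) (𝓝[≠] z) (𝓝 (aux L b z)) :=
      hcont.tendsto.mono_left nhdsWithin_le_nhds
    have h4 : Tendsto (aux L b) (𝓝[≠] z) (𝓝 c) :=
      tendsto_const_nhds.congr' (by filter_upwards [hc z] with w hw using hw.symm)
    have h5 : aux L b z = 0 := (tendsto_nhds_unique h3 h4).trans hc0
    unfold aux at h5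
    linear_combination h5

end additive

end Crest.Agent.R007.WpId
end
end

-- ▼ part R007/WpTor

/-!
Row 7, M1 part 3: zeros of `℘'`, injectivity of `℘` modulo `±1`, flex relation at 3-torsion points
and the Tate normal form.
-/

set_option autoImplicit false

open Filter Topology PeriodPair Function

noncomputable section

namespace Crest.Agent.R007.WpId

variable (L : PeriodPair) {b : ℂ}

lemma dwp_of_two_torsion (h2b : 2 * b ∈ L.lattice) : ℘'[L] b = 0 := by
  have h3 : ℘'[L] b = ℘'[L] (-b) := by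
    rw [show b = -b + 2 * b by ring, dwp_add L h2b, show -(-b + 2 * b) = -b by ring]
  rw [L.derivWeierstrassP_neg] at h3
  have : (2 : ℂ) * ℘'[L] b = 0 := by linear_combination h3
  exact (mul_eq_zero.mp this).resolve_left two_ne_zero

lemma eventually_shift (c : ℂ) (z₀ : ℂ) {P : ℂ → Prop} (h : ∀ᶠ w in 𝓝[≠] (z₀ + c), P w) :
    ∀ᶠ z in 𝓝[≠] z₀, P (z + c) := by
  have h1 : Tendsto (fun z : ℂ => z + c) (𝓝[≠] z₀) (𝓝[≠] (z₀ + c)) := by
    refine tendsto_nhdsWithin_of_tendsto_nhds_of_eventually_within _ ?_ ?_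
    · exact (continuous_id.add continuous_const).continuousAt.tendsto.mono_left nhdsWithin_le_nhds
    · filter_upwards [self_mem_nhdsWithin] with w hw
      simpa using hw
  exact h1.eventually h

/-- **zeros of `℘'`**. -/
theorem dwp_eq_zero_iff (hb : b ∉ L.lattice) : ℘'[L] b = 0 ↔ 2 * b ∈ L.lattice := by
  refine ⟨fun h0 => ?_, dwp_of_two_torsion L⟩
  by_contra h2b
  -- the identity gives ℘(z+b) = ℘(z-b) near -b
  have h1 : ∀ᶠ z in 𝓝[≠] (-b), ℘[L] (z + b) = ℘[L] (z - b) := by
    have e1 := not_mem_eventually L (-b)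
    have e2 := eventually_shift b (-b) (not_mem_eventually L (-b + b))
    have e3 := eventually_shift (-b) (-b) (not_mem_eventually L (-b + -b))
    have e4 := wp_ne_eventually L (℘[L] b) (-b)
    filter_upwards [e1, e2, e3, e4] with z h1 h2 h3 h4
    have h5 := wp_add_sub h1 hb h2 (by rwa [sub_eq_add_neg])
    rw [h0, mul_zero, neg_zero] at h5
    rcases mul_eq_zero.mp h5 with h6 | h6
    · exact sub_eq_zero.mp h6
    · exact absurd (sub_eq_zero.mp (pow_eq_zero_iff (two_ne_zero)|>.mp h6)) h4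
  -- contradiction with the pole
  have h2 : ∀ᶠ h in 𝓝[≠] (0 : ℂ), ℘[L] h = ℘[L] (h - 2 * b) := by
    have := eventually_shift (-b) 0 (by rwa [zero_add])
    filter_upwards [this] with h hh
    rw [neg_add_cancel_right] at hh
    rw [hh]
    congr 1
    ring
  have h3 : ∀ᶠ h in 𝓝[≠] (0 : ℂ), 1 + h ^ 2 * E L h = h ^ 2 * ℘[L] (h - 2 * b) := by
    filter_upwards [h2, self_mem_nhdsWithin] with h hh hh0
    have hh0' : h ≠ 0 := hh0
    rw [← hh, wp_eq]
    field_simp
  have h2b' : -(2 * b) ∉ L.lattice := fun h => h2b ((neg_mem_iff L).mp h)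
  have a1 : ContinuousAt (fun h : ℂ => ℘[L] (h - 2 * b)) 0 := by
    have : AnalyticAt ℂ (fun h : ℂ => ℘[L] (h - 2 * b)) 0 :=
      AnalyticAt.fun_comp (by rw [zero_sub]; exact analyticAt_wp L h2b')
        (analyticAt_id.sub analyticAt_const)
    exact this.continuousAt
  have l1 : Tendsto (fun h : ℂ => 1 + h ^ 2 * E L h) (𝓝[≠] 0)
      (𝓝 (1 + (0 : ℂ) ^ 2 * E L 0)) :=
    ((continuousAt_const.add ((continuousAt_id.pow 2).mul
      (analyticAt_E L).continuousAt)).tendsto).mono_left nhdsWithin_le_nhds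
  have l2 : Tendsto (fun h : ℂ => h ^ 2 * ℘[L] (h - 2 * b)) (𝓝[≠] 0)
      (𝓝 ((0 : ℂ) ^ 2 * ℘[L] (0 - 2 * b))) :=
    (((continuousAt_id.pow 2).mul a1).tendsto).mono_left nhdsWithin_le_nhds
  have l3 := tendsto_nhds_unique l1 (l2.congr' (by filter_upwards [h3] with h hh using hh.symm))
  norm_num at l3

/-- for a point of order two, `(℘(z+b)-e)(℘(z)-e)` is constant. -/
lemma half_period (hb : b ∉ L.lattice) (h2b : 2 * b ∈ L.lattice) :
    ∃ c : ℂ, ∀ z, (fun z => (℘[L] (z + b) - ℘[L] b) * (℘[L] z - ℘[L] b)) =ᶠ[𝓝[≠] z]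
      fun _ => c := by
  set f : ℂ → ℂ := fun z => (℘[L] (z + b) - ℘[L] b) * (℘[L] z - ℘[L] b) with hf
  have hper : ∀ (l : L.lattice) (z : ℂ), f (z + l) = f z := by
    intro l z
    simp only [hf]
    rw [show z + l + b = (z + b) + l by ring]
    simp
  have hb2 : ∀ z, f (z + b) = f z := by
    intro z
    simp only [hf]
    rw [show z + b + b = z + 2 * b by ring, wp_add L h2b, mul_comm]
  have h0 : ∃ g : ℂ → ℂ, AnalyticAt ℂ g 0 ∧ ∀ᶠ h in 𝓝[≠] (0 : ℂ), f (0 + h) = g h := by
    obtain ⟨R, hR, -, hTay⟩ := taylor2 (analyticAt_wp L hb)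
    rw [L.deriv_weierstrassP, dwp_of_two_torsion L h2b] at hTay
    refine ⟨fun h => R h * (1 + h ^ 2 * (E L h - ℘[L] b)), ?_, ?_⟩
    · exact hR.mul (analyticAt_const.add ((analyticAt_id.pow 2).mul
        ((analyticAt_E L).sub analyticAt_const)))
    · filter_upwards [self_mem_nhdsWithin] with h hh
      have hh0 : h ≠ 0 := hh
      simp only [hf]
      rw [zero_add, add_comm h b, hTay h, wp_eq L h]
      field_simp
      ring
  refine liouville L f hper fun w => ?_
  by_cases hw : w ∈ L.lattice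
  · have := removable_add L f hper 0 ⟨w, hw⟩ (removable_of_origin _ 0 h0)
    simpa using this
  by_cases hw1 : w + b ∈ L.lattice
  · have hw2 : w - b ∈ L.lattice := by
      have := L.lattice.sub_mem hw1 h2b
      rwa [show w + b - 2 * b = w - b by ring] at this
    have h1 : ∃ g : ℂ → ℂ, AnalyticAt ℂ g 0 ∧ ∀ᶠ h in 𝓝[≠] (0 : ℂ), f (b + h) = g h := by
      obtain ⟨g, hg, hge⟩ := h0
      refine ⟨g, hg, ?_⟩
      filter_upwards [hge] with h hh
      rw [← hh, zero_add, add_comm b h, hb2]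
    have := removable_add L f hper b ⟨w - b, hw2⟩ (removable_of_origin _ b h1)
    simpa using this
  · refine ⟨f, ?_, EventuallyEq.rfl⟩
    have a1 : AnalyticAt ℂ (fun z : ℂ => ℘[L] (z + b)) w :=
      AnalyticAt.fun_comp (analyticAt_wp L hw1) (analyticAt_id.add analyticAt_const)
    exact (a1.sub analyticAt_const).mul ((analyticAt_wp L hw).sub analyticAt_const)

/-- **injectivity of `℘` modulo `±1` and periods**. -/
theorem wp_eq_iff {a : ℂ} (ha : a ∉ L.lattice) (hb : b ∉ L.lattice) :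
    ℘[L] a = ℘[L] b ↔ a - b ∈ L.lattice ∨ a + b ∈ L.lattice := by
  constructor
  · intro h
    by_contra hcon
    rw [not_or] at hcon
    obtain ⟨h1, h2⟩ := hcon
    have h3 := wp_add_sub ha hb h2 h1
    rw [h, sub_self] at h3
    have h4 : ℘'[L] a * ℘'[L] b = 0 := by
      rw [zero_pow two_ne_zero, mul_zero] at h3
      exact neg_eq_zero.mp h3.symm
    have h5 : ℘'[L] a ^ 2 = ℘'[L] b ^ 2 := by
      rw [L.derivWeierstrassP_sq a ha, L.derivWeierstrassP_sq b hb, h]
    have h6 : ℘'[L] b = 0 := by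
      rcases mul_eq_zero.mp h4 with h6 | h6
      · rw [h6] at h5
        exact pow_eq_zero_iff two_ne_zero |>.mp (by rw [← h5]; ring)
      · exact h6
    have h2b : 2 * b ∈ L.lattice := (dwp_eq_zero_iff L hb).mp h6
    obtain ⟨c, hc⟩ := half_period L hb h2b
    -- value at `a`
    have hcont : ContinuousAt (fun z => (℘[L] (z + b) - ℘[L] b) * (℘[L] z - ℘[L] b)) a := by
      have a1 : AnalyticAt ℂ (fun z : ℂ => ℘[L] (z + b)) a :=
        AnalyticAt.fun_comp (analyticAt_wp L h2) (analyticAt_id.add analyticAt_const)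
      exact ((a1.sub analyticAt_const).mul
        ((analyticAt_wp L ha).sub analyticAt_const)).continuousAt
    have l1 := hcont.tendsto.mono_left (nhdsWithin_le_nhds (s := {a}ᶜ))
    have l2 : Tendsto (fun z => (℘[L] (z + b) - ℘[L] b) * (℘[L] z - ℘[L] b)) (𝓝[≠] a) (𝓝 c) :=
      tendsto_const_nhds.congr' (by filter_upwards [hc a] with w hw using hw.symm)
    have h7 := tendsto_nhds_unique l1 l2
    simp only [h, sub_self, mul_zero] at h7
    -- contradiction near `0`
    have e1 := eventually_shift b 0 (wp_ne_eventually L (℘[L] b) (0 + b))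
    have e2 := wp_ne_eventually L (℘[L] b) 0
    obtain ⟨z, h8, h9, h10⟩ := (e1.and (e2.and (hc 0))).exists
    simp only [← h7] at h10
    rcases mul_eq_zero.mp h10 with h11 | h11
    · exact h8 (sub_eq_zero.mp h11)
    · exact h9 (sub_eq_zero.mp h11)
  · rintro (h | h)
    · rw [show a = b + (a - b) by ring, wp_add L h]
    · rw [show a = -b + (a + b) by ring, wp_add L h, L.weierstrassP_neg]

/-- **flex relation** at a point of order three. -/
theorem flex (hb : b ∉ L.lattice) (h3b : 3 * b ∈ L.lattice) :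
    (6 * ℘[L] b ^ 2 - L.g₂ / 2) ^ 2 = 12 * ℘[L] b * ℘'[L] b ^ 2 := by
  have h2b : 2 * b ∉ L.lattice := by
    intro h
    apply hb
    have := L.lattice.sub_mem h3b h
    rwa [show 3 * b - 2 * b = b by ring] at this
  obtain ⟨R, hR, hR0, hTay⟩ := taylor3 (analyticAt_wp L hb)
  obtain ⟨S, hS, hS0, hTay'⟩ := taylor2 (analyticAt_dwp L hb)
  rw [iteratedDeriv_three_wp L hb] at hR0
  rw [iteratedDeriv_two_dwp L hb] at hS0
  rw [L.deriv_weierstrassP, iteratedDeriv_two_wp L hb] at hTay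
  rw [deriv_dwp L hb] at hTay'
  set p := ℘[L] b with hp
  set p1 := ℘'[L] b with hp1
  set p2 := 6 * p ^ 2 - L.g₂ / 2 with hp2
  -- the function whose value at 0 gives the relation
  set Ψ : ℂ → ℂ := fun h => (℘[L] (b - h) - E L h) * (p1 + p2 / 2 * h + h ^ 2 * R h) ^ 2 -
    p2 ^ 2 / 4 - 2 * p1 * R h - p2 * h * R h - h ^ 2 * R h ^ 2 + p1 * S h with hΨ
  have hev : ∀ᶠ h in 𝓝[≠] (0 : ℂ), Ψ h = 0 := by
    have e1 := eventually_shift b 0 (not_mem_eventually L (0 + b))
    have e2 := eventually_shift (2 * b) 0 (not_mem_eventually L (0 + 2 * b))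
    have e3 := not_mem_eventually L 0
    filter_upwards [e1, e2, e3, self_mem_nhdsWithin] with h h1 h2 h3 hh
    have hh0 : h ≠ 0 := hh
    have h4 := wp_add_sub (z := b + h) (by rwa [add_comm]) hb
      (by rwa [show b + h + b = h + 2 * b by ring]) (by rwa [add_sub_cancel_left])
    have h5 : ℘[L] (b + h + b) = ℘[L] (b - h) := by
      rw [show b + h + b = -(b - h) + 3 * b by ring, wp_add L h3b, L.weierstrassP_neg]
    rw [add_sub_cancel_left, h5, hTay h, hTay' h, wp_eq L h, ← hp, ← hp1] at h4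
    have h6 : h ^ 2 * Ψ h = 0 := by
      have h7 : (h ^ 2)⁻¹ * h ^ 2 = 1 := inv_mul_cancel₀ (pow_ne_zero 2 hh0)
      simp only [hΨ]
      have h8 : p + p1 * h + p2 / 2 * h ^ 2 + h ^ 3 * R h - p =
          h * (p1 + p2 / 2 * h + h ^ 2 * R h) := by ring
      rw [h8, mul_pow] at h4
      linear_combination h4 + (p1 + p2 / 2 * h + h ^ 2 * R h) ^ 2 * h7
    exact (mul_eq_zero.mp h6).resolve_left (pow_ne_zero 2 hh0)
  have hcont : ContinuousAt Ψ 0 := by
    have a1 : ContinuousAt (fun h : ℂ => ℘[L] (b - h)) 0 := by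
      have : AnalyticAt ℂ (fun h : ℂ => ℘[L] (b - h)) 0 :=
        AnalyticAt.fun_comp (by rw [sub_zero]; exact analyticAt_wp L hb)
          (analyticAt_const.sub analyticAt_id)
      exact this.continuousAt
    have a2 := (analyticAt_E L).continuousAt
    have a3 := hR.continuousAt
    have a4 := hS.continuousAt
    have a5 : ContinuousAt (fun h : ℂ => h) 0 := continuousAt_id
    have a6 : ∀ c : ℂ, ContinuousAt (fun _ : ℂ => c) 0 := fun c => continuousAt_const
    exact ((((((a1.sub a2).mul (((a6 p1).add ((a6 (p2 / 2)).mul a5)).add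
      ((a5.pow 2).mul a3) |>.pow 2)).sub (a6 (p2 ^ 2 / 4))).sub
      ((a6 (2 * p1)).mul a3)).sub (((a6 p2).mul a5).mul a3)).sub
      ((a5.pow 2).mul (a3.pow 2))).add ((a6 p1).mul a4)
  have l1 := hcont.tendsto.mono_left (nhdsWithin_le_nhds (s := {(0 : ℂ)}ᶜ))
  have l2 : Tendsto Ψ (𝓝[≠] 0) (𝓝 0) :=
    tendsto_const_nhds.congr' (by filter_upwards [hev] with w hw using hw.symm)
  have h9 := tendsto_nhds_unique l1 l2
  simp only [hΨ, sub_zero, E_zero, hR0, hS0, mul_zero, zero_mul, add_zero, ne_eq,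
    OfNat.ofNat_ne_zero, not_false_eq_true, zero_pow] at h9
  linear_combination (-4) * h9

section tate

/-- `A₃ = ℘'(b)`. -/
def tateA3 (L : PeriodPair) (b : ℂ) : ℂ := ℘'[L] b

/-- `A₁ = ℘''(b) / ℘'(b)`. -/
def tateA1 (L : PeriodPair) (b : ℂ) : ℂ := (6 * ℘[L] b ^ 2 - L.g₂ / 2) / ℘'[L] b

variable (hb : b ∉ L.lattice) (h3b : 3 * b ∈ L.lattice)
include hb h3b

lemma two_not_mem_of_three : 2 * b ∉ L.lattice := by
  intro h
  apply hb
  have := L.lattice.sub_mem h3b h
  rwa [show 3 * b - 2 * b = b by ring] at this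

lemma tateA3_ne_zero : tateA3 L b ≠ 0 := by
  intro h
  exact two_not_mem_of_three L hb h3b ((dwp_eq_zero_iff L hb).mp h)

lemma tateA1_mul : tateA1 L b * tateA3 L b = 6 * ℘[L] b ^ 2 - L.g₂ / 2 :=
  div_mul_cancel₀ _ (tateA3_ne_zero L hb h3b)

/-- `A₁² = 12 ℘(b)`. -/
theorem tateA1_sq : tateA1 L b ^ 2 = 12 * ℘[L] b := by
  have h1 := tateA1_mul L hb h3b
  have h2 := flex L hb h3b
  have h3 := tateA3_ne_zero L hb h3b
  rw [← h1] at h2
  have h4 : tateA3 L b ^ 2 * (tateA1 L b ^ 2 - 12 * ℘[L] b) = 0 := by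
    have h5 : (tateA1 L b * tateA3 L b) ^ 2 = 12 * ℘[L] b * tateA3 L b ^ 2 := h2
    linear_combination h5
  exact sub_eq_zero.mp ((mul_eq_zero.mp h4).resolve_left (pow_ne_zero 2 h3))

/-- `12 g₂ = A₁ (A₁³ - 24 A₃)`. -/
theorem tate_g2 : 12 * L.g₂ = tateA1 L b * (tateA1 L b ^ 3 - 24 * tateA3 L b) := by
  have h1 := tateA1_mul L hb h3b
  have h2 := tateA1_sq L hb h3b
  have h3 : tateA1 L b ^ 4 = 144 * ℘[L] b ^ 2 := by
    rw [show tateA1 L b ^ 4 = (tateA1 L b ^ 2) ^ 2 by ring, h2]; ring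
  linear_combination 24 * h1 - h3

/-- `216 g₃ = -(A₁⁶ - 36 A₁³ A₃ + 216 A₃²)`. -/
theorem tate_g3 : 216 * L.g₃ =
    -(tateA1 L b ^ 6 - 36 * tateA1 L b ^ 3 * tateA3 L b + 216 * tateA3 L b ^ 2) := by
  have h1 := tateA1_mul L hb h3b
  have h2 := tateA1_sq L hb h3b
  have h3 : tateA3 L b ^ 2 = 4 * ℘[L] b ^ 3 - L.g₂ * ℘[L] b - L.g₃ :=
    L.derivWeierstrassP_sq b hb
  have h4 := tate_g2 L hb h3b
  have h5 : ℘[L] b = tateA1 L b ^ 2 / 12 := by rw [h2]; ring
  have h6 : L.g₂ = tateA1 L b * (tateA1 L b ^ 3 - 24 * tateA3 L b) / 12 := by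
    rw [← h4]; ring
  rw [h5, h6] at h3
  linear_combination 216 * h3



end tate

end Crest.Agent.R007.WpId
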