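import Crest.Agent.R007.Wp4
import Crest.Agent.R007.RatRing
import Crest.Agent.R007.WpTor
import Crest.Agent.R007.Wp6
import Crest.Agent.R007.Wp7

-- ▼ part R007/Tc1
section

/-!
Row 7, section E (M2): 2-integrality of the coefficients of the Weierstrass division values.
-/

set_option autoImplicit false

namespace Crest.Agent.R007.Tc

open Crest.Agent.R007.Wp Crest.Agent.R007.Rat

noncomputable section

/-- A ring of coefficients: contains all roots of unity of odd order and the inverses of the odd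
numbers. -/
structure OddRing (O : Subring ℂ) : Prop where
  zeta_mem : ∀ M : ℕ, Odd M → zeta M ∈ O
  inv_mem : ∀ n : ℕ, Odd n → ((n : ℂ))⁻¹ ∈ O

variable {O : Subring ℂ} (hO : OddRing O)

lemma inv_root_mem {u : ℂ} {M : ℕ} (hM : Odd M) (hu : u ∈ O) (h1 : u ^ M = 1) : u⁻¹ ∈ O := by
  have hu0 : u ≠ 0 := by
    rintro rfl
    rw [zero_pow hM.pos.ne'] at h1
    exact zero_ne_one h1
  have : u⁻¹ = u ^ (M - 1) := by
    have h2 : u ^ (M - 1) * u = 1 := by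
      rw [← pow_succ, Nat.sub_add_cancel hM.pos, h1]
    exact (eq_inv_of_mul_eq_one_left h2).symm
  rw [this]
  exact O.pow_mem hu _

include hO in
lemma inv_one_sub_mem {u : ℂ} {M : ℕ} (hM : Odd M) (hu : u ∈ O) (h1 : u ^ M = 1) (hne : u ≠ 1) :
    (1 - u)⁻¹ ∈ O := by
  have hs : ∑ j ∈ Finset.range M, u ^ j = 0 := by
    have := mul_neg_geom_sum u M
    rw [h1, sub_self] at this
    rcases mul_eq_zero.1 this with h | h
    · exact absurd (sub_eq_zero.1 h).symm hne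
    · exact h
  have h2 : (M : ℂ) = (1 - u) * ∑ j ∈ Finset.range M, ∑ i ∈ Finset.range j, u ^ i := by
    rw [Finset.mul_sum]
    have : ∀ j ∈ Finset.range M, (1 - u) * ∑ i ∈ Finset.range j, u ^ i = 1 - u ^ j := by
      intro j _
      exact mul_neg_geom_sum u j
    rw [Finset.sum_congr rfl this, Finset.sum_sub_distrib, hs]
    simp
  have hM0 : (M : ℂ) ≠ 0 := by exact_mod_cast hM.pos.ne'
  have h3 : (1 - u)⁻¹ = (∑ j ∈ Finset.range M, ∑ i ∈ Finset.range j, u ^ i) * ((M : ℂ))⁻¹ := by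
    have h4 : 1 - u ≠ 0 := sub_ne_zero.2 hne.symm
    rw [eq_mul_inv_iff_mul_eq₀ hM0, h2, ← mul_assoc, inv_mul_cancel₀ h4, one_mul]
  rw [h3]
  exact O.mul_mem (O.sum_mem fun j _ => O.sum_mem fun i _ => O.pow_mem hu _) (hO.inv_mem M hM)



include hO in
lemma zeta_zpow_mem {M : ℕ} (hM : Odd M) (b : ℤ) : zeta M ^ b ∈ O := by
  have h1 := hO.zeta_mem M hM
  have h2 := inv_root_mem hM h1 (zeta_pow M hM.pos.ne')
  rcases Int.eq_nat_or_neg b with ⟨n, rfl | rfl⟩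
  · rw [zpow_natCast]; exact O.pow_mem h1 _
  · rw [zpow_neg, zpow_natCast, ← inv_pow]; exact O.pow_mem h2 _

lemma zeta_zpow_pow {M : ℕ} (hM : M ≠ 0) (b : ℤ) : (zeta M ^ b) ^ M = 1 := by
  rw [← zpow_natCast, ← zpow_mul, mul_comm, zpow_mul, zpow_natCast, zeta_pow M hM, one_zpow]

lemma zeta_zpow_ne_one {M : ℕ} (hM : M ≠ 0) {b : ℤ} (hb : (b : ZMod M) ≠ 0) : zeta M ^ b ≠ 1 := by
  intro h
  rw [(isPrimitiveRoot_zeta hM).zpow_eq_one_iff_dvd] at h
  exact hb ((ZMod.intCast_zmod_eq_zero_iff_dvd b M).2 h)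

lemma half_mem_of_even {x : ℤ} (h : Even x) : ((x : ℂ)) / 2 ∈ O := by
  obtain ⟨k, rfl⟩ := h
  have : (((k + k : ℤ)) : ℂ) / 2 = (k : ℂ) := by push_cast; ring
  rw [this]
  exact intCast_mem O k

include hO in
lemma chi_mem {M : ℕ} (hM : Odd M) (s : ℕ) (a β : ℤ) (d e : ℕ) : chi M s a β d e ∈ O := by
  unfold chi
  have h1 : ∀ b : ℤ, ∀ n : ℕ, (n : ℂ) ^ s * (zeta M ^ b) ^ n ∈ O := fun b n =>
    O.mul_mem (O.pow_mem (natCast_mem O n) _) (O.pow_mem (zeta_zpow_mem hO hM b) _)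
  refine O.add_mem ?_ (O.mul_mem (O.pow_mem (O.neg_mem O.one_mem) _) ?_)
  · split_ifs
    · exact h1 _ _
    · exact O.zero_mem
  · split_ifs
    · exact h1 _ _
    · exact O.zero_mem

include hO in
/-- the key congruence `d² ≡ d mod 2` (with the sign `-1 ≡ 1`). -/
lemma chi_sub_mem {M : ℕ} (hM : Odd M) (a β : ℤ) (d e : ℕ) :
    (chi M 2 a β d e - chi M 1 a β d e) / 2 ∈ O := by
  unfold chi
  have h1 : ∀ b : ℤ, ((d : ℂ) ^ 2 * (zeta M ^ b) ^ d - (d : ℂ) ^ 1 * (zeta M ^ b) ^ d) / 2 ∈ O := by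
    intro b
    have h2 : ((d : ℂ) ^ 2 * (zeta M ^ b) ^ d - (d : ℂ) ^ 1 * (zeta M ^ b) ^ d) / 2 =
        (((d : ℤ) * ((d : ℤ) - 1) : ℤ) : ℂ) / 2 * (zeta M ^ b) ^ d := by push_cast; ring
    rw [h2]
    exact O.mul_mem (half_mem_of_even (Int.even_mul_pred_self _)) (O.pow_mem (zeta_zpow_mem hO hM b) _)
  have h3 : ∀ b : ℤ, ((d : ℂ) ^ 2 * (zeta M ^ b) ^ d + (d : ℂ) ^ 1 * (zeta M ^ b) ^ d) / 2 ∈ O := by
    intro b
    have h2 : ((d : ℂ) ^ 2 * (zeta M ^ b) ^ d + (d : ℂ) ^ 1 * (zeta M ^ b) ^ d) / 2 =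
        (((d : ℤ) * ((d : ℤ) + 1) : ℤ) : ℂ) / 2 * (zeta M ^ b) ^ d := by push_cast; ring
    rw [h2]
    exact O.mul_mem (half_mem_of_even (Int.even_mul_succ_self _)) (O.pow_mem (zeta_zpow_mem hO hM b) _)
  have h4 := h1 β
  have h5 := h3 (-β)
  by_cases p : ((e : ℤ) : ZMod M) = a <;> by_cases r : ((-(e : ℤ) : ℤ) : ZMod M) = a
  · simp only [if_pos p, if_pos r]
    convert O.sub_mem h4 h5 using 1; ring
  · simp only [if_pos p, if_neg r]
    convert h4 using 1; ring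
  · simp only [if_neg p, if_pos r]
    convert O.neg_mem h5 using 1; ring
  · simp only [if_neg p, if_neg r]
    convert O.zero_mem using 1; ring

/-- nonzero mod `M` -/
def NZ (M : ℕ) (v : Fin 2 → ℤ) : Prop := (v 0 : ZMod M) ≠ 0 ∨ (v 1 : ZMod M) ≠ 0

section consts

variable {M : ℕ} {v w : Fin 2 → ℤ}

include hO in
lemma cQ0_mem (hM : Odd M) (hv : NZ M v) : cQ0 M v ∈ O := by
  rw [cQ0_eq hM.pos.ne' hv]
  split_ifs with h
  · have hb : (v 1 : ZMod M) ≠ 0 := by rcases hv with h' | h'; exacts [absurd h h', h']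
    have h1 := zeta_zpow_mem hO hM (v 1)
    have h2 := inv_one_sub_mem hO hM h1 (zeta_zpow_pow hM.pos.ne' _) (zeta_zpow_ne_one hM.pos.ne' hb)
    rw [div_eq_mul_inv, ← inv_pow]
    exact O.mul_mem (O.mul_mem h1 (O.add_mem O.one_mem h1)) (O.pow_mem h2 _)
  · exact O.zero_mem

include hO in
lemma cP0_mem (hM : Odd M) (hv : NZ M v) : cP0 M v - 1 / 12 ∈ O := by
  rw [cP0_eq hM.pos.ne' hv]
  split_ifs with h
  · have hb : (v 1 : ZMod M) ≠ 0 := by rcases hv with h' | h'; exacts [absurd h h', h']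
    have h1 := zeta_zpow_mem hO hM (v 1)
    have h2 := inv_one_sub_mem hO hM h1 (zeta_zpow_pow hM.pos.ne' _) (zeta_zpow_ne_one hM.pos.ne' hb)
    rw [add_sub_cancel_left, div_eq_mul_inv, ← inv_pow]
    exact O.mul_mem h1 (O.pow_mem h2 _)
  · convert O.zero_mem using 1; ring

include hO in
lemma cQ0_sub_cP0_mem (hM : Odd M) (hv : NZ M v) : (cQ0 M v - (cP0 M v - 1 / 12)) / 2 ∈ O := by
  rw [cQ0_eq hM.pos.ne' hv, cP0_eq hM.pos.ne' hv]
  split_ifs with h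
  · have hb : (v 1 : ZMod M) ≠ 0 := by rcases hv with h' | h'; exacts [absurd h h', h']
    have h1 := zeta_zpow_mem hO hM (v 1)
    have h3 := zeta_zpow_ne_one hM.pos.ne' hb
    have h2 := inv_one_sub_mem hO hM h1 (zeta_zpow_pow hM.pos.ne' _) h3
    have h4 : 1 - zeta M ^ v 1 ≠ 0 := sub_ne_zero.2 h3.symm
    have : (zeta M ^ v 1 * (1 + zeta M ^ v 1) / (1 - zeta M ^ v 1) ^ 3 -
      (1 / 12 + zeta M ^ v 1 / (1 - zeta M ^ v 1) ^ 2 - 1 / 12)) / 2 =
      (zeta M ^ v 1) ^ 2 * ((1 - zeta M ^ v 1)⁻¹) ^ 3 := by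
      field_simp
      ring
    rw [this]
    exact O.mul_mem (O.pow_mem h1 _) (O.pow_mem h2 _)
  · convert O.zero_mem using 1; ring

end consts

/-- coefficientwise membership in `2 O` -/
def In2 (O : Subring ℂ) (p : PowerSeries ℂ) : Prop := ∀ n, PowerSeries.coeff n p / 2 ∈ O

section In2

variable {p q : PowerSeries ℂ}

lemma In2.coeffIn (hp : In2 O p) : CoeffIn O p := fun n => by
  have := O.mul_mem (intCast_mem O 2) (hp n)
  convert this using 1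
  push_cast; ring

lemma In2.add (hp : In2 O p) (hq : In2 O q) : In2 O (p + q) := fun n => by
  rw [map_add, add_div]; exact O.add_mem (hp n) (hq n)

lemma In2.neg (hp : In2 O p) : In2 O (-p) := fun n => by
  rw [map_neg, neg_div]; exact O.neg_mem (hp n)

lemma In2.sub (hp : In2 O p) (hq : In2 O q) : In2 O (p - q) := by
  rw [sub_eq_add_neg]; exact hp.add hq.neg

lemma In2.zero : In2 O 0 := fun n => by
  rw [map_zero, zero_div]; exact O.zero_mem

lemma In2.mul_left (hp : CoeffIn O p) (hq : In2 O q) : In2 O (p * q) := fun n => by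
  rw [PowerSeries.coeff_mul, Finset.sum_div]
  refine O.sum_mem fun x _ => ?_
  rw [mul_div_assoc]
  exact O.mul_mem (hp _) (hq _)


lemma In2.smul {c : ℂ} (hc : c ∈ O) (hp : In2 O p) : In2 O (c • p) := fun n => by
  rw [PowerSeries.coeff_smul, smul_eq_mul, mul_div_assoc]; exact O.mul_mem hc (hp n)



lemma In2.half (hp : In2 O p) : CoeffIn O ((1 / 2 : ℂ) • p) := fun n => by
  rw [PowerSeries.coeff_smul, smul_eq_mul]
  convert hp n using 1; ring

lemma In2.C {c : ℂ} (hc : c / 2 ∈ O) : In2 O (PowerSeries.C c) := fun n => by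
  rw [PowerSeries.coeff_C]
  split_ifs
  · exact hc
  · rw [zero_div]; exact O.zero_mem

end In2

/-- the q-series of `Q` and `P` -/
def sQ (M : ℕ) (v : Fin 2 → ℤ) : PowerSeries ℂ := PowerSeries.mk (cQ M v)
def sP (M : ℕ) (v : Fin 2 → ℤ) : PowerSeries ℂ := PowerSeries.mk (cP M v)

section series

variable {M : ℕ} {v w : Fin 2 → ℤ}

include hO in
lemma sQ_coeffIn (hM : Odd M) (hv : NZ M v) : CoeffIn O (sQ M v) := fun n => by
  rw [sQ, PowerSeries.coeff_mk, cQ]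
  refine O.add_mem ?_ (O.sum_mem fun p _ => chi_mem hO hM _ _ _ _ _)
  split_ifs
  · exact cQ0_mem hO hM hv
  · exact O.zero_mem

include hO in
lemma sP_coeffIn (hM : Odd M) (hv : NZ M v) : CoeffIn O (sP M v - PowerSeries.C (1 / 12 : ℂ)) :=
  fun n => by
  rw [map_sub, sP, PowerSeries.coeff_mk, cP, PowerSeries.coeff_C]
  have h1 : ∑ p ∈ n.divisorsAntidiagonal, (chi M 1 (v 0) (v 1) p.2 p.1 - chi M 1 0 0 p.2 p.1) ∈ O :=
    O.sum_mem fun p _ => O.sub_mem (chi_mem hO hM _ _ _ _ _) (chi_mem hO hM _ _ _ _ _)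
  have h2 : (if n = 0 then cP0 M v else 0) - (if n = 0 then (1 / 12 : ℂ) else 0) ∈ O := by
    split_ifs
    · exact cP0_mem hO hM hv
    · rw [sub_zero]; exact O.zero_mem
  convert O.add_mem h2 h1 using 1
  ring

include hO in
lemma sP_sub_coeffIn (hM : Odd M) (hv : NZ M v) (hw : NZ M w) : CoeffIn O (sP M v - sP M w) := by
  have := (sP_coeffIn hO hM hv).sub (sP_coeffIn hO hM hw)
  convert this using 1
  ring


end series

end

end Crest.Agent.R007.Tc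
end

-- ▼ part R007/Tc2
section

/-!
Row 7, section E (M2): a power series whose square is `1 + 12 c` is `≡ 1 mod 2`.
-/

set_option autoImplicit false

namespace Crest.Agent.R007.Tc

open Crest.Agent.R007.Wp Crest.Agent.R007.Rat

noncomputable section

variable {O : Subring ℂ}

/-- square roots of series `≡ b₀ mod 4` -/
lemma In2_of_sq {a b : PowerSeries ℂ} (h : a ^ 2 = b)
    (h0 : PowerSeries.coeff 0 a ≠ 0) (h0' : (PowerSeries.coeff 0 a)⁻¹ ∈ O)
    (hb : ∀ n, 0 < n → PowerSeries.coeff n b / 4 ∈ O) :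
    ∀ n, 0 < n → PowerSeries.coeff n a / 2 ∈ O := by
  intro n
  induction n using Nat.strong_induction_on with
  | _ n ih =>
    intro hn
    obtain ⟨m, rfl⟩ : ∃ m, n = m + 1 := ⟨n - 1, by omega⟩
    have h1 : PowerSeries.coeff (m + 1) b =
        ∑ p ∈ Finset.HasAntidiagonal.antidiagonal (m + 1), PowerSeries.coeff p.1 a * PowerSeries.coeff p.2 a := by
      rw [← h, sq, PowerSeries.coeff_mul]
    rw [Finset.Nat.sum_antidiagonal_eq_sum_range_succ_mk, Finset.sum_range_succ,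
      Finset.sum_range_succ'] at h1
    simp only [Nat.sub_self, Nat.sub_zero] at h1
    set S := ∑ k ∈ Finset.range m, PowerSeries.coeff (k + 1) a * PowerSeries.coeff (m + 1 - (k + 1)) a
      with hS
    have hS4 : S / 4 ∈ O := by
      rw [hS, Finset.sum_div]
      refine O.sum_mem fun k hk => ?_
      have hk' := Finset.mem_range.1 hk
      have e1 := ih (k + 1) (by omega) (by omega)
      have e2 := ih (m + 1 - (k + 1)) (by omega) (by omega)
      convert O.mul_mem e1 e2 using 1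
      ring
    have h2 : PowerSeries.coeff (m + 1) a / 2 =
        (PowerSeries.coeff (m + 1) b / 4 - S / 4) * (PowerSeries.coeff 0 a)⁻¹ := by
      rw [h1]
      field_simp
      ring
    rw [h2]
    exact O.mul_mem (O.sub_mem (hb _ hn) hS4) h0'

lemma zeta3_sq {u : ℂ} (h3 : u ^ 3 = 1) (h1 : u ≠ 1) : u ^ 2 + u + 1 = 0 := by
  have : (u - 1) * (u ^ 2 + u + 1) = 0 := by linear_combination h3
  rcases mul_eq_zero.1 this with h | h
  · exact absurd (sub_eq_zero.1 h) h1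
  · exact h

/-- the constant term of `12 P_v` for vectors of order 3 -/
lemma cP0_three {v : Fin 2 → ℤ} (hv : NZ 3 v) :
    12 * cP0 3 v = if (v 0 : ZMod 3) = 0 then -3 else 1 := by
  rw [cP0_eq (by norm_num) hv]
  split_ifs with h
  · have hb : (v 1 : ZMod 3) ≠ 0 := by rcases hv with h' | h'; exacts [absurd h h', h']
    have h3 := zeta_zpow_pow (M := 3) (by norm_num) (v 1)
    have h1 := zeta_zpow_ne_one (M := 3) (by norm_num) hb
    have h2 := zeta3_sq h3 h1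
    have h4 : 1 - zeta 3 ^ v 1 ≠ 0 := sub_ne_zero.2 h1.symm
    have h5 : zeta 3 ^ v 1 ≠ 0 := zpow_ne_zero _ (zeta_ne_zero 3)
    have h6 : (1 - zeta 3 ^ v 1) ^ 2 = -3 * zeta 3 ^ v 1 := by linear_combination h2
    rw [h6]
    field_simp
    ring
  · ring

/-- HASSE at the level of series: if `a² = 12 P_v` then `a ≡ 1 mod 2`. -/
lemma hasse_series (hO : OddRing O) {v : Fin 2 → ℤ} (hv : NZ 3 v) {a : PowerSeries ℂ}
    (h : a ^ 2 = (12 : ℂ) • sP 3 v) : In2 O (a - 1) := by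
  have ho3 : Odd 3 := by decide
  have hc : PowerSeries.coeff 0 a ^ 2 = 12 * cP0 3 v := by
    have := congrArg (PowerSeries.coeff 0) h
    have e : PowerSeries.coeff 0 (a ^ 2) = PowerSeries.coeff 0 a ^ 2 := by
      simp
    rw [e] at this
    simpa [sP, cP] using this
  rw [cP0_three hv] at hc
  set a0 := PowerSeries.coeff 0 a with ha0
  have hz := hO.zeta_mem 3 ho3
  have hz3 : zeta 3 ^ 3 = 1 := zeta_pow 3 (by norm_num)
  have hz1 : zeta 3 ≠ 1 := (isPrimitiveRoot_zeta (M := 3) (by norm_num)).ne_one (by norm_num)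
  have hzz := zeta3_sq hz3 hz1
  have h3inv : ((3 : ℂ))⁻¹ ∈ O := by exact_mod_cast hO.inv_mem 3 ho3
  have key : (a0 - 1) / 2 ∈ O ∧ a0 ≠ 0 ∧ a0⁻¹ ∈ O := by
    split_ifs at hc with hv0
    · have h4 : (a0 - (2 * zeta 3 + 1)) * (a0 + (2 * zeta 3 + 1)) = 0 := by
        linear_combination hc - 4 * hzz
      have hne : a0 ≠ 0 := by rintro h0; rw [h0] at hc; norm_num at hc
      have hmem : a0 ∈ O := by
        rcases mul_eq_zero.1 h4 with h5 | h5
        · rw [sub_eq_zero.1 h5]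
          exact O.add_mem (O.mul_mem (intCast_mem O 2) hz) O.one_mem
        · rw [eq_neg_of_add_eq_zero_left h5]
          exact O.neg_mem (O.add_mem (O.mul_mem (intCast_mem O 2) hz) O.one_mem)
      refine ⟨?_, hne, ?_⟩
      · rcases mul_eq_zero.1 h4 with h5 | h5
        · rw [sub_eq_zero.1 h5]
          convert hz using 1; ring
        · rw [eq_neg_of_add_eq_zero_left h5]
          convert O.sub_mem (O.neg_mem hz) O.one_mem using 1; ring
      · have : a0⁻¹ = -(a0 * (3 : ℂ)⁻¹) := by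
          field_simp
          linear_combination hc
        rw [this]
        exact O.neg_mem (O.mul_mem hmem h3inv)
    · have h4 : (a0 - 1) * (a0 + 1) = 0 := by linear_combination hc
      rcases mul_eq_zero.1 h4 with h5 | h5
      · have : a0 = 1 := sub_eq_zero.1 h5
        rw [this]
        refine ⟨?_, one_ne_zero, ?_⟩
        · convert O.zero_mem using 1; ring
        · rw [inv_one]; exact O.one_mem
      · have : a0 = -1 := eq_neg_of_add_eq_zero_left h5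
        rw [this]
        refine ⟨?_, by norm_num, ?_⟩
        · convert O.neg_mem O.one_mem using 1; ring
        · convert O.neg_mem O.one_mem using 1; norm_num
  have h5 := In2_of_sq (O := O) h key.2.1 key.2.2 (by
    intro n hn
    rw [PowerSeries.coeff_smul, smul_eq_mul]
    have := sP_coeffIn hO ho3 hv n
    rw [map_sub, PowerSeries.coeff_C, if_neg hn.ne', sub_zero] at this
    convert O.mul_mem (intCast_mem O 3) this using 1
    push_cast; ring)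
  intro n
  rw [map_sub, PowerSeries.coeff_one]
  split_ifs with hn
  · subst hn; exact key.1
  · rw [sub_zero]; exact h5 n (Nat.pos_of_ne_zero hn)

end

end Crest.Agent.R007.Tc
end

-- ▼ part R007/Tc3

/-!
Row 7, section E (M1/M2): the forms `A₁` (weight 1) and `A₃ = Q 3 v` (weight 3) of level 3.
-/

set_option autoImplicit false

namespace Crest.Agent.R007.Tc

open Crest.Agent.R007.Wp Crest.Agent.R007.Rat Crest.Agent.R007.WpId
open UpperHalfPlane hiding I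
open Complex PeriodPair ModularForm Matrix Function Filter
open scoped MatrixGroups Real PeriodPair Manifold Topology

noncomputable section

/-- The weight one form attached to a vector of order 3. -/
def A1 (v : Fin 2 → ℤ) (τ : ℍ) : ℂ := (2 * π * I)⁻¹ * tateA1 (PP τ) (pt 3 v τ)

/-- The weight three form attached to a vector of order 3. -/
def A3 (v : Fin 2 → ℤ) : ℍ → ℂ := Q 3 v

lemma pt3_mem (v : Fin 2 → ℤ) (τ : ℍ) : 3 * pt 3 v τ ∈ (PP τ).lattice := by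
  rw [mem_PP]
  refine ⟨v 0, v 1, ?_⟩
  rw [pt]; push_cast; ring

variable {v w : Fin 2 → ℤ}

section
variable (hv : NZ 3 v) (τ : ℍ)
include hv

lemma pt3_notMem : pt 3 v τ ∉ (PP τ).lattice := pt_notMem (by norm_num) hv τ

omit hv in
lemma A3_eq : A3 v τ = ((2 * π * I) ^ 3)⁻¹ * tateA3 (PP τ) (pt 3 v τ) := rfl

lemma A3_ne_zero : A3 v τ ≠ 0 := by
  rw [A3_eq]
  refine mul_ne_zero (inv_ne_zero (pow_ne_zero _ two_pi_I_ne)) ?_
  exact tateA3_ne_zero _ (pt3_notMem hv τ) (pt3_mem v τ)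

theorem A1_sq : A1 v τ ^ 2 = 12 * P 3 v τ := by
  have h := tateA1_sq _ (pt3_notMem hv τ) (pt3_mem v τ)
  rw [A1, mul_pow, h, P]
  rw [← inv_pow]
  ring

theorem A1_mul : A1 v τ * A3 v τ = 6 * P 3 v τ ^ 2 - E (k := 4) (by norm_num) τ / 24 := by
  have h := tateA1_mul _ (pt3_notMem hv τ) (pt3_mem v τ)
  have hpi : (π : ℂ) ≠ 0 := by exact_mod_cast Real.pi_ne_zero
  have hI : (I : ℂ) ^ 4 = 1 := I_pow_four
  rw [g₂_PP] at h
  have e : A1 v τ * A3 v τ = ((2 * π * I) ^ 4)⁻¹ * (tateA1 (PP τ) (pt 3 v τ) * tateA3 (PP τ) (pt 3 v τ)) := by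
    rw [A3_eq, A1, ← inv_pow, ← inv_pow]; ring
  rw [e, h, P]
  have h2 : ((2 * π * I : ℂ) ^ 4)⁻¹ = (16 * (π : ℂ) ^ 4)⁻¹ := by
    rw [mul_pow, hI]; ring
  have h3 : (((2 * π * I : ℂ) ^ 2)⁻¹ * ℘[PP τ] (pt 3 v τ)) ^ 2 =
      (16 * (π : ℂ) ^ 4)⁻¹ * ℘[PP τ] (pt 3 v τ) ^ 2 := by
    rw [mul_pow, ← h2, ← inv_pow, ← inv_pow]; ring
  rw [h2, h3]
  field_simp
  ring

theorem E4_eq : (E (k := 4) (by norm_num) τ : ℂ) = A1 v τ * (A1 v τ ^ 3 - 24 * A3 v τ) := by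
  have h := tate_g2 _ (pt3_notMem hv τ) (pt3_mem v τ)
  have hpi : (π : ℂ) ≠ 0 := by exact_mod_cast Real.pi_ne_zero
  have hI : (I : ℂ) ^ 4 = 1 := I_pow_four
  rw [g₂_PP] at h
  have e : A1 v τ * (A1 v τ ^ 3 - 24 * A3 v τ) = ((2 * π * I) ^ 4)⁻¹ *
      (tateA1 (PP τ) (pt 3 v τ) * (tateA1 (PP τ) (pt 3 v τ) ^ 3 - 24 * tateA3 (PP τ) (pt 3 v τ))) := by
    rw [A3_eq, A1, ← inv_pow, ← inv_pow]; ring
  have h2 : ((2 * π * I : ℂ) ^ 4)⁻¹ = (16 * (π : ℂ) ^ 4)⁻¹ := by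
    rw [mul_pow, hI]; ring
  rw [e, ← h, h2]
  field_simp
  ring

theorem E6_eq : (E (k := 6) (by norm_num) τ : ℂ) =
    A1 v τ ^ 6 - 36 * A1 v τ ^ 3 * A3 v τ + 216 * A3 v τ ^ 2 := by
  have h := tate_g3 _ (pt3_notMem hv τ) (pt3_mem v τ)
  have hpi : (π : ℂ) ≠ 0 := by exact_mod_cast Real.pi_ne_zero
  have hI : (I : ℂ) ^ 2 = -1 := I_sq
  rw [g₃_PP] at h
  have e : A1 v τ ^ 6 - 36 * A1 v τ ^ 3 * A3 v τ + 216 * A3 v τ ^ 2 = -(((2 * π * I) ^ 6)⁻¹ *
      (-(tateA1 (PP τ) (pt 3 v τ) ^ 6 - 36 * tateA1 (PP τ) (pt 3 v τ) ^ 3 * tateA3 (PP τ) (pt 3 v τ) +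
        216 * tateA3 (PP τ) (pt 3 v τ) ^ 2))) := by
    rw [A3_eq, A1, ← inv_pow, ← inv_pow]; ring
  have h2 : ((2 * π * I : ℂ) ^ 6)⁻¹ = -(64 * (π : ℂ) ^ 6)⁻¹ := by
    have : (2 * π * I : ℂ) ^ 6 = -(64 * (π : ℂ) ^ 6) := by
      rw [mul_pow, show (I : ℂ) ^ 6 = (I ^ 2) ^ 3 by ring, hI]; ring
    rw [this, inv_neg]
  rw [e, ← h, h2]
  field_simp
  ring

theorem disc_eq : ModularForm.discriminant τ = A3 v τ ^ 3 * (A1 v τ ^ 3 - 27 * A3 v τ) := by
  rw [ModularForm.discriminant_eq_E₄_cube_sub_E₆_sq]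
  have h4 := E4_eq hv τ
  have h6 := E6_eq hv τ
  have e4 : (E₄ τ : ℂ) = E (k := 4) (by norm_num) τ := rfl
  have e6 : (E₆ τ : ℂ) = E (k := 6) (by norm_num) τ := rfl
  rw [e4, e6, h4, h6]
  ring

end

lemma NZ.vecMul {M : ℕ} {v : Fin 2 → ℤ} (hv : NZ M v) (g : SL(2, ℤ)) :
    NZ M (v ᵥ* (g : Matrix (Fin 2) (Fin 2) ℤ)) := vecMul_ne hv g

lemma E4_slash (γ : SL(2, ℤ)) : ((E (k := 4) (by norm_num) : ℍ → ℂ)) ∣[(4 : ℤ)] γ =
    (E (k := 4) (by norm_num) : ℍ → ℂ) :=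
  SlashInvariantForm.slash_action_eqn (Γ := 𝒮ℒ) (E (k := 4) (by norm_num)) _ ⟨γ, rfl⟩

theorem A1_slash (hv : NZ 3 v) (γ : SL(2, ℤ)) :
    A1 v ∣[(1 : ℤ)] γ = A1 (v ᵥ* (γ : Matrix (Fin 2) (Fin 2) ℤ)) := by
  have hf : A1 v * A3 v = (6 : ℂ) • (P 3 v * P 3 v) + (-(1 / 24) : ℂ) • (E (k := 4) (by norm_num) : ℍ → ℂ) := by
    funext τ
    have := A1_mul hv τ
    simp only [Pi.mul_apply, Pi.add_apply, Pi.smul_apply, smul_eq_mul]
    rw [this]; ring
  have hf' : (A1 v * A3 v) ∣[((1 : ℤ) + 3)] γ = _ := congrArg (fun F => F ∣[((1 : ℤ) + 3)] γ) hf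
  rw [mul_slash_SL2] at hf'
  have e2 : ((6 : ℂ) • (P 3 v * P 3 v) + (-(1 / 24) : ℂ) • (E (k := 4) (by norm_num) : ℍ → ℂ))
      ∣[((1 : ℤ) + 3)] γ = (6 : ℂ) • (P 3 (v ᵥ* (γ : Matrix (Fin 2) (Fin 2) ℤ)) *
        P 3 (v ᵥ* (γ : Matrix (Fin 2) (Fin 2) ℤ))) +
        (-(1 / 24) : ℂ) • (E (k := 4) (by norm_num) : ℍ → ℂ) := by
    rw [show ((1 : ℤ) + 3) = 2 + 2 by norm_num, SlashAction.add_slash, SL_smul_slash, SL_smul_slash,
      mul_slash_SL2, P_slash]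
    congr 2
    exact E4_slash γ
  rw [e2] at hf'
  funext τ
  have h1 := congrFun hf' τ
  rw [Pi.mul_apply, A3, Q_slash] at h1
  have h2 := A1_mul (hv.vecMul γ) τ
  have h3 := A3_ne_zero (hv.vecMul γ) τ
  have h4 : (A1 v ∣[(1 : ℤ)] γ) τ * A3 (v ᵥ* (γ : Matrix (Fin 2) (Fin 2) ℤ)) τ =
      A1 (v ᵥ* (γ : Matrix (Fin 2) (Fin 2) ℤ)) τ * A3 (v ᵥ* (γ : Matrix (Fin 2) (Fin 2) ℤ)) τ := by
    rw [h2]
    have h5 : (A1 v ∣[(1 : ℤ)] γ) τ * A3 (v ᵥ* (γ : Matrix (Fin 2) (Fin 2) ℤ)) τ = _ := h1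
    rw [h5]
    simp only [Pi.mul_apply, Pi.add_apply, Pi.smul_apply, smul_eq_mul]
    ring
  exact mul_right_cancel₀ h3 h4

lemma A1_congr (h : ∀ i, (v i : ZMod 3) = w i) (hv : NZ 3 v) : A1 v = A1 w := by
  have hw : NZ 3 w := by
    rcases hv with h' | h'
    · left; rwa [← h 0]
    · right; rwa [← h 1]
  funext τ
  have e1 := A1_mul hv τ
  have e2 := A1_mul hw τ
  have e3 : P 3 v = P 3 w := P_congr (by norm_num) h
  have e4 : Q 3 v = Q 3 w := Q_congr (by norm_num) h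
  rw [e3, A3, e4, ← e2] at e1
  exact mul_right_cancel₀ (A3_ne_zero hw τ) e1


lemma A1_mdiff (hv : NZ 3 v) : MDiff (A1 v) := by
  have h1 : A1 v = fun τ => (6 * P 3 v τ ^ 2 - E (k := 4) (by norm_num) τ / 24) / A3 v τ := by
    funext τ
    rw [eq_div_iff (A3_ne_zero hv τ)]
    exact A1_mul hv τ
  have hP := (isF_P (M := 3) (by norm_num) v).holo
  have hQ := (isF_Q (M := 3) (by norm_num) v).holo
  have hE : MDiff ((E (k := 4) (by norm_num) : ℍ → ℂ)) := ModularFormClass.holo _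
  rw [UpperHalfPlane.mdifferentiable_iff] at hP hQ hE ⊢
  rw [h1]
  have h2 : DifferentiableOn ℂ (fun z => (6 * ((P 3 v ∘ ofComplex) z) ^ 2 -
      (((E (k := 4) (by norm_num) : ℍ → ℂ)) ∘ ofComplex) z / 24) / ((Q 3 v ∘ ofComplex) z))
      {z | 0 < z.im} := by
    refine DifferentiableOn.div ?_ hQ ?_
    · exact ((hP.pow 2).const_mul 6).sub (hE.div_const 24)
    · intro z _
      exact A3_ne_zero hv _
  exact h2

lemma A1_bdd (hv : NZ 3 v) : IsBoundedAtImInfty (A1 v) := by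
  have h := (isF_P (M := 3) (by norm_num) v).bdd_infty
  rw [isBoundedAtImInfty_iff] at h ⊢
  obtain ⟨C, A, hCA⟩ := h
  refine ⟨12 * C + 1, A, fun τ hτ => ?_⟩
  have h1 := hCA τ hτ
  have h2 : ‖A1 v τ‖ ^ 2 = 12 * ‖P 3 v τ‖ := by
    rw [← norm_pow, A1_sq hv, norm_mul]; simp
  have h3 : 0 ≤ ‖A1 v τ‖ := norm_nonneg _
  have h4 : 0 ≤ C := (norm_nonneg _).trans h1
  nlinarith

theorem isF_A1 (hv : NZ 3 v) : IsF 3 1 (A1 v) where
  slash γ hγ := by
    rw [A1_slash hv]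
    exact A1_congr (vecMul_mem_Gamma hγ v) (hv.vecMul γ)
  holo := A1_mdiff hv
  bdd g := by rw [A1_slash hv]; exact A1_bdd (hv.vecMul g)

theorem isF_A3 (v : Fin 2 → ℤ) : IsF 3 3 (A3 v) := isF_Q (by norm_num) v

lemma A3_slash (γ : SL(2, ℤ)) : A3 v ∣[(3 : ℤ)] γ = A3 (v ᵥ* (γ : Matrix (Fin 2) (Fin 2) ℤ)) :=
  Q_slash γ 3 v

theorem qe_A1_sq (hv : NZ 3 v) : qe 3 (A1 v) ^ 2 = (12 : ℂ) • sP 3 v := by
  rw [← qe_pow (isF_A1 hv)]
  have : A1 v ^ 2 = (12 : ℂ) • P 3 v := by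
    funext τ
    rw [Pi.pow_apply, A1_sq hv]; rfl
  rw [this, qe_smul (isF_P (M := 3) (by norm_num) v), qe_P]
  rfl

/-- HASSE at all cusps of `SL₂(ℤ)`: `A₁ ≡ 1 mod 2`. -/
theorem hasse {O : Subring ℂ} (hO : OddRing O) (hv : NZ 3 v) : In2 O (qe 3 (A1 v) - 1) :=
  hasse_series hO hv (qe_A1_sq hv)

theorem isR_A1 {O : Subring ℂ} (hO : OddRing O) (hv : NZ 3 v) : IsR O 3 1 (A1 v) :=
  ⟨isF_A1 hv, fun g => by
    rw [A1_slash hv]
    have := (hasse hO (hv.vecMul g)).coeffIn.add (CoeffIn.one (S := O))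
    rwa [sub_add_cancel] at this⟩

theorem isR_Q {O : Subring ℂ} (hO : OddRing O) {M : ℕ} (hM : Odd M) {v : Fin 2 → ℤ} (hv : NZ M v) :
    IsR O M 3 (Q M v) :=
  ⟨isF_Q hM.pos.ne' v, fun g => by
    have : NeZero M := ⟨hM.pos.ne'⟩
    rw [Q_slash, qe_Q]
    exact sQ_coeffIn hO hM (hv.vecMul g)⟩

theorem isR_A3 {O : Subring ℂ} (hO : OddRing O) (hv : NZ 3 v) : IsR O 3 3 (A3 v) :=
  isR_Q hO (by decide) hv

end

end Crest.Agent.R007.Tc
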