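import Crest.Agent.R007.Mix1
import Crest.Agent.R007.G2Gen
import Crest.Agent.R007.Tc3

-- ▼ part R007/EHasse1
section

/-! Row 7: coefficients of `F ∥ δ`, `δ ∈ G2`, from the coefficients of `F ∥ γ`, `γ ∈ SL₂(ℤ)`. -/

set_option autoImplicit false

namespace Crest.Agent.R007.EH

open UpperHalfPlane ModularForm CongruenceSubgroup Matrix
open Crest.Agent.R007.Lat
open scoped MatrixGroups Manifold ModularForm

/-- `I` is an additive subgroup of `ℂ` stable under odd units and odd roots of unity -/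
structure OddStable (I : AddSubgroup ℂ) : Prop where
  inv_mem : ∀ n : ℕ, Odd n → ∀ x ∈ I, (n : ℂ)⁻¹ * x ∈ I
  root_mem : ∀ r : ℚ, Odd r.den → ∀ x ∈ I, ee r * x ∈ I

lemma OddStable.nat_mul {I : AddSubgroup ℂ} (n : ℕ) {x : ℂ} (hx : x ∈ I) : (n : ℂ) * x ∈ I := by
  have := I.nsmul_mem hx n
  rwa [nsmul_eq_mul] at this

/-- Hermite form with nonnegative upper right entry -/
lemma exists_hermite' (A : Matrix (Fin 2) (Fin 2) ℤ) (hA : 0 < A.det) :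
    ∃ (γ : SL(2, ℤ)) (a b d : ℕ), 0 < a ∧ 0 < d ∧ ((a * d : ℕ) : ℤ) = A.det ∧
      A = γ.1 * ut a b d := by
  obtain ⟨γ, a, b, d, ha, hd, had, hAe⟩ := exists_hermite A hA
  obtain ⟨a', rfl⟩ := Int.eq_ofNat_of_zero_le ha.le
  obtain ⟨d', rfl⟩ := Int.eq_ofNat_of_zero_le hd.le
  -- `b + m d ≥ 0`
  set m : ℤ := |b| with hm
  have hb : 0 ≤ b + m * d' := by
    have h1 : (1 : ℤ) ≤ d' := hd
    have h2 : |b| * 1 ≤ |b| * (d' : ℤ) := mul_le_mul_of_nonneg_left h1 (abs_nonneg b)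
    have h3 := neg_abs_le b
    rw [hm]; linarith
  obtain ⟨b', hb'⟩ := Int.eq_ofNat_of_zero_le hb
  refine ⟨γ * ⟨!![1, -m; 0, 1], by simp [Matrix.det_fin_two_of]⟩, a', b', d',
    by exact_mod_cast ha, by exact_mod_cast hd, by push_cast; exact had, ?_⟩
  rw [hAe]
  change _ = (γ.1 * !![1, -m; 0, 1]) * ut a' b' d'
  rw [Matrix.mul_assoc]
  congr 1
  rw [ut]
  ext i j
  fin_cases i <;> fin_cases j <;> simp [Matrix.mul_apply, Fin.sum_univ_two]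
  rw [← hb']; ring

/-- all coefficients of `f` lie in `I` -/
def Cin (I : AddSubgroup ℂ) (f : ℍ → ℂ) : Prop := f ∈ PO ∧ ∀ r : ℚ, (qf f).coeff r ∈ I

lemma Cin_smul {I : AddSubgroup ℂ} {c : ℂ} (hc : ∀ x ∈ I, c * x ∈ I) {f : ℍ → ℂ} (hf : Cin I f) :
    Cin I (c • f) := by
  refine ⟨Subalgebra.smul_mem _ hf.1 c, fun r => ?_⟩
  rw [qf_smul _ hf.1, HahnSeries.coeff_smul, smul_eq_mul]
  exact hc _ (hf.2 r)

lemma Cin_comp_ut {I : AddSubgroup ℂ} (hI : OddStable I) {f : ℍ → ℂ} (hf : Cin I f) {a b d : ℕ}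
    (ha : Odd a) (hd : Odd d) (h : 0 < (ut a b d).det) :
    Cin I (fun τ => f (iG (ut a b d) h • τ)) := by
  obtain ⟨M, hM, hfM⟩ := hf.1
  have : NeZero M := ⟨hM.pos.ne'⟩
  refine ⟨⟨M * d, hM.mul hd, PB_comp_ut hfM hd.pos h⟩, fun r => ?_⟩
  have ha0 : (a : ℚ) ≠ 0 := by exact_mod_cast ha.pos.ne'
  have hd0 : (d : ℚ) ≠ 0 := by exact_mod_cast hd.pos.ne'
  have hM0 : (M : ℚ) ≠ 0 := by exact_mod_cast hM.pos.ne'
  have e : r = (r * d / a) * a / d := by field_simp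
  rw [e, qf_comp_ut hf.1 ha hd h]
  by_cases hs : ∃ n : ℕ, (n : ℚ) / M = r * d / a
  · obtain ⟨n, hn⟩ := hs
    rw [← hn]
    apply hI.root_mem _ _ _ (hf.2 _)
    -- den of n / M * b / d divides M * d
    have h1 : ((n : ℚ) / M * b / d) = ((n * b : ℕ) : ℚ) / ((M * d : ℕ) : ℚ) := by
      push_cast
      field_simp
    rw [h1]
    have h2 : (((n * b : ℕ) : ℚ) / ((M * d : ℕ) : ℚ)).den ∣ (M * d) := by
      have h3 := Rat.den_dvd ((n * b : ℕ) : ℤ) ((M * d : ℕ) : ℤ)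
      rw [Rat.divInt_eq_div, Int.cast_natCast, Int.cast_natCast] at h3
      exact Int.natCast_dvd_natCast.1 h3
    exact (hM.mul hd).of_dvd_nat h2
  · push Not at hs
    rw [qf_coeff_of_notMem hM hfM hs, mul_zero]
    exact I.zero_mem

/-- decomposition of the elements of `G2` -/
theorem G2_decomp {δ : GL(2, ℝ)⁺} (hδ : δ ∈ G2) :
    ∃ (n : ℕ) (γ : SL(2, ℤ)) (a b d : ℕ) (hut : 0 < (ut a b d).det), Odd n ∧ Odd a ∧ Odd d ∧
      ∀ (k : ℕ) (F : X → ℂ), F ∈ Wt k → res (sl F δ) =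
        (((n : ℂ)) ^ k * (((d : ℕ) : ℂ)⁻¹) ^ k) •
          (fun τ => res (sl F (sG γ)) (iG (ut a b d) hut • τ)) := by
  obtain ⟨n, A, hn, hA, h1, h2, e1, e2⟩ := G2_exists hδ
  obtain ⟨γ, a, b, d, ha, hd, had, hAe⟩ := exists_hermite' A h1
  have hodd : Odd (a * d) := by
    have : Odd ((a * d : ℕ) : ℤ) := by rw [had]; exact hA
    exact_mod_cast this
  have haodd : Odd a := Nat.Odd.of_mul_left hodd
  have hdodd : Odd d := Nat.Odd.of_mul_right hodd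
  have hut : 0 < (ut a b d).det := by
    rw [ut_det]; exact_mod_cast Nat.mul_pos ha hd
  have e3 : iG A h1 = sG γ * iG (ut a b d) hut := by
    rw [sG, ← iG_mul _ _ _ _ (by rw [← hAe]; exact h1)]
    exact iG_congr hAe h1
  refine ⟨n, γ, a, b, d, hut, hn, haodd, hdodd, fun k F hF => ?_⟩
  have h3 : sl (sl F (iG (sc n) h2)) δ = sl F (iG A h1) := by rw [← sl_mul_right, e1]
  rw [sl_scalar hF n h2, sl_smul] at h3
  have h4 : sl F δ = ((n : ℂ)) ^ k • sl F (iG A h1) := by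
    rw [← h3, smul_smul]
    have : ((n : ℂ)) ^ k * ((((n : ℤ)) : ℂ)⁻¹) ^ k = 1 := by
      rw [← mul_pow]
      have : ((n : ℂ)) * ((((n : ℤ)) : ℂ)⁻¹) = 1 := by
        push_cast
        exact mul_inv_cancel₀ (by exact_mod_cast hn.pos.ne')
      rw [this, one_pow]
    rw [this, one_smul]
  rw [h4, res_smul, mul_smul]
  congr 1
  rw [e3, sl_mul_right]
  funext τ
  rw [res_sl_ut (Wt_sl hF _)]
  simp only [Pi.smul_apply, smul_eq_mul, Int.cast_natCast]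

/-- **stability under `G2`** -/
theorem Cin_G2 {I : AddSubgroup ℂ} (hI : OddStable I) {k : ℕ} {F : X → ℂ} (hF : F ∈ Wt k)
    (h : ∀ γ : SL(2, ℤ), Cin I (res (sl F (sG γ)))) {δ : GL(2, ℝ)⁺} (hδ : δ ∈ G2) :
    Cin I (res (sl F δ)) := by
  obtain ⟨n, γ, a, b, d, hut, hn, ha, hd, e⟩ := G2_decomp hδ
  rw [e k F hF]
  apply Cin_smul
  · intro x hx
    have h1 : (((n : ℂ)) ^ k * (((d : ℕ) : ℂ)⁻¹) ^ k) * x =
        ((n ^ k : ℕ) : ℂ) * ((((d ^ k : ℕ) : ℂ))⁻¹ * x) := by push_cast; rw [inv_pow]; ring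
    rw [h1]
    exact OddStable.nat_mul _ (hI.inv_mem _ hd.pow x hx)
  exact Cin_comp_ut hI (h γ) ha hd hut

/-! ### the subgroups `O` and `2 O` -/

/-- `2 O` as an additive subgroup -/
def twoO (O : Subring ℂ) : AddSubgroup ℂ where
  carrier := {x | ∃ y ∈ O, x = 2 * y}
  add_mem' := by
    rintro _ _ ⟨x, hx, rfl⟩ ⟨y, hy, rfl⟩
    exact ⟨x + y, O.add_mem hx hy, by ring⟩
  zero_mem' := ⟨0, O.zero_mem, by simp⟩
  neg_mem' := by
    rintro _ ⟨x, hx, rfl⟩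
    exact ⟨-x, O.neg_mem hx, by ring⟩

lemma mem_twoO {O : Subring ℂ} {x : ℂ} : x ∈ twoO O ↔ ∃ y ∈ O, x = 2 * y := Iff.rfl

lemma oddStable_O {O : Subring ℂ} (hinv : ∀ n : ℕ, Odd n → (n : ℂ)⁻¹ ∈ O)
    (hroot : ∀ r : ℚ, Odd r.den → ee r ∈ O) : OddStable O.toAddSubgroup where
  inv_mem n hn _ hx := O.mul_mem (hinv n hn) hx
  root_mem r hr _ hx := O.mul_mem (hroot r hr) hx

lemma oddStable_twoO {O : Subring ℂ} (hinv : ∀ n : ℕ, Odd n → (n : ℂ)⁻¹ ∈ O)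
    (hroot : ∀ r : ℚ, Odd r.den → ee r ∈ O) : OddStable (twoO O) where
  inv_mem n hn x hx := by
    obtain ⟨y, hy, rfl⟩ := hx
    exact ⟨_, O.mul_mem (hinv n hn) hy, by ring⟩
  root_mem r hr x hx := by
    obtain ⟨y, hy, rfl⟩ := hx
    exact ⟨_, O.mul_mem (hroot r hr) hy, by ring⟩

lemma Cin_O_iff {O : Subring ℂ} {f : ℍ → ℂ} : Cin O.toAddSubgroup f ↔ f ∈ Mix.IntO O := Iff.rfl


end Crest.Agent.R007.EH
end

-- ▼ part R007/EHasse

/-! Row 7: (H1) integral forms `IsR O M k f` lie in `Lk O k`; (H2) the Hasse congruence for all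
`δ ∈ G2`. -/

set_option autoImplicit false

namespace Crest.Agent.R007.EH

open UpperHalfPlane ModularForm CongruenceSubgroup Matrix
open Crest.Agent.R007.Lat Crest.Agent.R007.Rat Crest.Agent.R007.Tc
open scoped MatrixGroups Manifold ModularForm

lemma ee_eq_zeta (r : ℚ) : ee r = Wp.zeta r.den ^ r.num := by
  rw [ee, Wp.zeta, ← Complex.exp_int_mul]
  congr 1
  have h1 : (r : ℂ) = (r.num : ℂ) / (r.den : ℂ) := Rat.cast_def r
  rw [h1]
  ring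

lemma root_mem_of_oddRing {O : Subring ℂ} (hO : OddRing O) (r : ℚ) (hr : Odd r.den) : ee r ∈ O := by
  rw [ee_eq_zeta]
  exact zeta_zpow_mem hO hr _

lemma oddStable_two {O : Subring ℂ} (hO : OddRing O) : OddStable (twoO O) :=
  oddStable_twoO hO.inv_mem (root_mem_of_oddRing hO)

lemma isF_mem_MX {M k : ℕ} [NeZero M] {f : ℍ → ℂ} (hf : IsF M (k : ℤ) f) : lift k f ∈ MX M k :=
  ⟨hf.toModularForm, rfl⟩

lemma isF_mem_MO {M k : ℕ} (hM : Odd M) {f : ℍ → ℂ} (hf : IsF M (k : ℤ) f) : lift k f ∈ MO k := by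
  have : NeZero M := ⟨hM.pos.ne'⟩
  exact ⟨M, hM, isF_mem_MX hf⟩

lemma isF_mem_PB {M : ℕ} [NeZero M] {k : ℤ} {f : ℍ → ℂ} (hf : IsF M k f) : f ∈ PB M :=
  ⟨hf.periodic, hf.holo, hf.bdd_infty⟩

/-- coefficients of a form of level `Γ(M)`, `M` odd -/
lemma Cin_of_qe {I : AddSubgroup ℂ} {M : ℕ} (hM : Odd M) {k : ℤ} {f : ℍ → ℂ} (hf : IsF M k f)
    (h : ∀ n, PowerSeries.coeff n (qe M f) ∈ I) : Cin I f := by
  have : NeZero M := ⟨hM.pos.ne'⟩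
  have hPB := isF_mem_PB hf
  refine ⟨⟨M, hM, hPB⟩, fun r => ?_⟩
  by_cases hr : ∃ n : ℕ, (n : ℚ) / M = r
  · obtain ⟨n, rfl⟩ := hr
    rw [qf_eq' M hM hPB, emb_coeff]
    exact h n
  · push Not at hr
    rw [qf_coeff_of_notMem hM hPB hr]
    exact I.zero_mem

/-- (H1) -/
theorem isR_mem_Lk {O : Subring ℂ} (hO : OddRing O) {M k : ℕ} (hM : Odd M) {f : ℍ → ℂ}
    (hf : IsR O M (k : ℤ) f) : lift k f ∈ Mix.Lk O k := by
  refine ⟨isF_mem_MO hM hf.1, fun g hg => ?_⟩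
  rw [← Cin_O_iff]
  apply Cin_G2 (oddStable_O hO.inv_mem (root_mem_of_oddRing hO)) (lift_mem k f) _ hg
  intro γ
  rw [← slash_SL_eq_res]
  exact Cin_of_qe hM (hf.1.slash_SL γ) (hf.2 γ)


lemma Cin_const {I : AddSubgroup ℂ} {c : ℂ} (hc : c ∈ I) : Cin I (c • (1 : ℍ → ℂ)) := by
  have h1 : (1 : ℍ → ℂ) ∈ PO := one_mem _
  refine ⟨Subalgebra.smul_mem _ h1 c, fun r => ?_⟩
  rw [qf_smul _ h1, qf_one, HahnSeries.coeff_smul, HahnSeries.coeff_one]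
  split_ifs
  · simpa using hc
  · simp

lemma Cin_add {I : AddSubgroup ℂ} {f g : ℍ → ℂ} (hf : Cin I f) (hg : Cin I g) : Cin I (f + g) := by
  refine ⟨add_mem hf.1 hg.1, fun r => ?_⟩
  rw [qf_add hf.1 hg.1, HahnSeries.coeff_add]
  exact I.add_mem (hf.2 r) (hg.2 r)

lemma Cin_sub {I : AddSubgroup ℂ} {f g : ℍ → ℂ} (hf : Cin I f) (hg : Cin I g) : Cin I (f - g) := by
  refine ⟨sub_mem hf.1 hg.1, fun r => ?_⟩
  rw [qf_sub hf.1 hg.1, HahnSeries.coeff_sub]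
  exact I.sub_mem (hf.2 r) (hg.2 r)

/-- all expansions of `A₁ ∥ δ`, `δ ∈ G2`, are `≡ 1 mod 2` -/
theorem hasse_G2 {O : Subring ℂ} (hO : OddRing O) {v : Fin 2 → ℤ} (hv : NZ 3 v)
    {δ : GL(2, ℝ)⁺} (hδ : δ ∈ G2) : Cin (twoO O) (res (sl (lift 1 (A1 v)) δ) - 1) := by
  obtain ⟨n, γ, a, b, d, hut, hn, ha, hd, e⟩ := G2_decomp hδ
  have hodd3 : Odd 3 := by decide
  have h0 : Cin (twoO O) (res (sl (lift 1 (A1 v)) (sG γ)) - 1) := by
    rw [← slash_SL_eq_res]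
    have h1 : (A1 v) ∣[((1 : ℕ) : ℤ)] γ = A1 (v ᵥ* (γ : Matrix (Fin 2) (Fin 2) ℤ)) := A1_slash hv γ
    rw [h1]
    have hF : IsF 3 1 (A1 (v ᵥ* (γ : Matrix (Fin 2) (Fin 2) ℤ))) := isF_A1 (hv.vecMul γ)
    have hPB := isF_mem_PB hF
    have hPO : A1 (v ᵥ* (γ : Matrix (Fin 2) (Fin 2) ℤ)) ∈ PO := ⟨3, hodd3, hPB⟩
    refine ⟨sub_mem hPO (one_mem _), fun r => ?_⟩
    rw [qf_sub hPO (one_mem _), qf_one]
    have hh := hasse hO (hv.vecMul γ)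
    by_cases hr : ∃ m : ℕ, (m : ℚ) / ((3 : ℕ) : ℚ) = r
    · obtain ⟨m, rfl⟩ := hr
      rw [HahnSeries.coeff_sub, qf_eq' 3 hodd3 hPB, emb_coeff, HahnSeries.coeff_one]
      have h2 := hh m
      rw [map_sub, PowerSeries.coeff_one] at h2
      refine ⟨_, h2, ?_⟩
      have h3 : ((m : ℚ) / ((3 : ℕ) : ℚ) = 0) ↔ m = 0 := by
        constructor
        · intro h
          have : (m : ℚ) = 0 := by
            field_simp at h
            simpa using h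
          exact_mod_cast this
        · rintro rfl; simp
      by_cases hm : m = 0
      · rw [if_pos hm, if_pos (h3.2 hm)]
        change (qe 3 _).coeff m - 1 = _
        ring
      · rw [if_neg hm, if_neg (fun h => hm (h3.1 h))]
        change (qe 3 _).coeff m - 0 = _
        ring
    · push Not at hr
      have hr0 : r ≠ 0 := by
        rintro rfl
        exact hr 0 (by simp)
      rw [HahnSeries.coeff_sub, qf_coeff_of_notMem hodd3 hPB hr, HahnSeries.coeff_one, if_neg hr0,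
        sub_zero]
      exact (twoO O).zero_mem
  rw [e 1 _ (lift_mem 1 _)]
  set g : ℍ → ℂ := res (sl (lift 1 (A1 v)) (sG γ)) with hg
  have h5 := Cin_comp_ut (oddStable_two hO) h0 ha hd hut
  have hc : ((n : ℂ) ^ 1 * (((d : ℕ) : ℂ)⁻¹) ^ 1) = (n : ℂ) * ((d : ℕ) : ℂ)⁻¹ := by
    rw [pow_one, pow_one]
  rw [hc]
  have h6 : (((n : ℂ) * ((d : ℕ) : ℂ)⁻¹) • (fun τ => g (iG (ut a b d) hut • τ)) - 1 : ℍ → ℂ) =
      ((n : ℂ) * ((d : ℕ) : ℂ)⁻¹) • (fun τ => (g - 1) (iG (ut a b d) hut • τ)) +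
      (((n : ℂ) * ((d : ℕ) : ℂ)⁻¹) - 1) • (1 : ℍ → ℂ) := by
    funext τ
    simp only [Pi.sub_apply, Pi.smul_apply, Pi.add_apply, Pi.one_apply, smul_eq_mul]
    ring
  rw [h6]
  apply Cin_add
  · apply Cin_smul _ h5
    intro x hx
    rw [mul_assoc]
    exact OddStable.nat_mul _ ((oddStable_two hO).inv_mem _ hd x hx)
  · apply Cin_const
    -- n/d - 1 = 2 * (((n-d)/2) / d)
    obtain ⟨n', hn'⟩ := hn
    obtain ⟨d', hd'⟩ := hd
    refine ⟨(((n' : ℤ) - (d' : ℤ) : ℤ) : ℂ) * ((d : ℕ) : ℂ)⁻¹,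
      O.mul_mem (intCast_mem O _) (hO.inv_mem d ⟨d', hd'⟩), ?_⟩
    have hd0 : ((d : ℕ) : ℂ) ≠ 0 := by
      have : d ≠ 0 := by omega
      exact_mod_cast this
    have hn2 : (n : ℂ) = 2 * n' + 1 := by rw [hn']; push_cast; ring
    have hd2 : ((d : ℕ) : ℂ) = 2 * d' + 1 := by rw [hd']; push_cast; ring
    have h7 : (n : ℂ) = 2 * (((n' : ℤ) - (d' : ℤ) : ℤ) : ℂ) + ((d : ℕ) : ℂ) := by
      rw [hn2, hd2]; push_cast; ring
    rw [h7]
    field_simp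
    ring

lemma A1_mem_MO {v : Fin 2 → ℤ} (hv : NZ 3 v) : lift 1 (A1 v) ∈ MO 1 :=
  isF_mem_MO (M := 3) (by decide) (isF_A1 hv)

theorem A1_mem_Lk {O : Subring ℂ} (hO : OddRing O) {v : Fin 2 → ℤ} (hv : NZ 3 v) :
    lift 1 (A1 v) ∈ Mix.Lk O 1 := isR_mem_Lk hO (by decide) (isR_A1 hO hv)

theorem A3_mem_Lk {O : Subring ℂ} (hO : OddRing O) {v : Fin 2 → ℤ} (hv : NZ 3 v) :
    lift 3 (A3 v) ∈ Mix.Lk O 3 := isR_mem_Lk hO (by decide) (isR_A3 hO hv)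

/-- (H2) -/
theorem hasse_diff {O : Subring ℂ} (hO : OddRing O) {v : Fin 2 → ℤ} (hv : NZ 3 v)
    {δ : GL(2, ℝ)⁺} (hδ : δ ∈ G2) :
    ∃ G ∈ Mix.Lk O 1, sl (lift 1 (A1 v)) δ = lift 1 (A1 v) + 2 * G := by
  obtain ⟨G, hG, e⟩ := Mix.Lk_half (O := O) (k := 1) (F := sl (lift 1 (A1 v)) δ - lift 1 (A1 v))
    (Submodule.sub_mem _ (MO_sl (A1_mem_MO hv) hδ) (A1_mem_MO hv)) (fun g hg => by
      have h1 := hasse_G2 hO hv (G2.mul_mem hδ hg)
      have h2 := hasse_G2 hO hv hg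
      have h3 := (Cin_sub h1 h2).2
      have h4 : res (sl (sl (lift 1 (A1 v)) δ - lift 1 (A1 v)) g) =
          (res (sl (lift 1 (A1 v)) (δ * g)) - 1) - (res (sl (lift 1 (A1 v)) g) - 1) := by
        rw [sl_sub, res_sub, ← sl_mul_right]
        abel
      intro r
      rw [h4]
      exact h3 r)
  exact ⟨G, hG, by rw [← e]; abel⟩

/-- the expansion of `A₁` at infinity is `≡ 1 mod 2` -/
theorem hasse_inf {O : Subring ℂ} (hO : OddRing O) {v : Fin 2 → ℤ} (hv : NZ 3 v) :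
    Mix.Two O (res (lift 1 (A1 v)) - 1) := by
  have h := (hasse_G2 hO hv (one_mem G2)).2
  rw [sl_one_right] at h
  exact h

end Crest.Agent.R007.EH
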