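import Crest.Agent.R007.FRig

/-!
Row 7, section F (helper360): the group structure on `Pr D`, the constructor `Pr.ofHom`.
-/

set_option autoImplicit false

open PowerSeries Crest.LubinTate

namespace Crest.Agent.R007.F

theorem fmap_map {R S T : Type*} [CommRing R] [CommRing S] [CommRing T] (F : FormalGroup R)
    (f : R →+* S) (g : S →+* T) : (F.map f).map g = F.map (g.comp f) := by
  ext : 1
  simp only [FormalGroup.map_toPowerSeries]
  ext d
  simp

theorem fmap_id {R : Type*} [CommRing R] (F : FormalGroup R) : F.map (RingHom.id R) = F := by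
  ext : 1
  simp only [FormalGroup.map_toPowerSeries]
  ext d
  simp

theorem pmap_subst {A B : Type*} [CommRing A] [CommRing B] (f : A →+* B) {φ : PowerSeries A}
    (hφ : constantCoeff φ = 0) (ψ : PowerSeries A) :
    PowerSeries.map f (subst φ ψ : PowerSeries A) = subst (φ.map f) (ψ.map f) :=
  PowerSeries.map_subst (HasSubst.of_constantCoeff_zero' hφ) ψ

theorem pmap_map {A B C : Type*} [CommRing A] [CommRing B] [CommRing C] (f : A →+* B) (g : B →+* C)
    (φ : PowerSeries A) : (φ.map f).map g = φ.map (g.comp f) := by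
  ext i; simp

theorem cc_pmap {A B : Type*} [CommRing A] [CommRing B] (f : A →+* B) {φ : PowerSeries A}
    (hφ : constantCoeff φ = 0) : constantCoeff (φ.map f) = 0 := by
  rw [← PowerSeries.coeff_zero_eq_constantCoeff_apply, PowerSeries.coeff_map,
    PowerSeries.coeff_zero_eq_constantCoeff_apply, hφ, map_zero]

theorem coeff_one_subst {A : Type*} [CommRing A] {φ : PowerSeries A} (hφ : constantCoeff φ = 0)
    (ψ : PowerSeries A) : coeff 1 (subst φ ψ : PowerSeries A) = coeff 1 ψ * coeff 1 φ := by
  rw [coeff_subst_range hφ]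
  simp only [Finset.sum_range_succ, Finset.sum_range_zero, pow_zero, pow_one, zero_add]
  rw [PowerSeries.coeff_one, if_neg one_ne_zero, mul_zero, zero_add]

variable {κ : Type*} [Field κ] [CharP κ 2]

omit [CharP κ 2] in
theorem cc_comp (s : PowerSeries κ →ₐ[κ] PowerSeries κ) :
    (constantCoeff (R := κ)).comp (s : PowerSeries κ →+* PowerSeries κ) = constantCoeff :=
  RingHom.ext fun a => cc_map s a

namespace Pr

variable {D : FData κ}

/-- underlying algebra homomorphism -/
noncomputable abbrev σ (p : Pr D) : PowerSeries κ →ₐ[κ] PowerSeries κ := (p.s : PowerSeries κ →ₐ[κ] PowerSeries κ)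

theorem red_def (p : Pr D) : p.red = p.H.map (constantCoeff (R := κ)) := rfl

theorem cc (p : Pr D) : constantCoeff p.H = 0 := p.hom.1

theorem cc_red (p : Pr D) : constantCoeff p.red = 0 := cc_pmap _ p.cc


/-- the reduction is an automorphism of `Φ₀` -/
theorem red_hom (p : Pr D) : IsFGHom D.Φ0 D.Φ0 p.red := by
  have h := R227.IsFGHom.map (constantCoeff (R := κ)) p.hom
  rw [fmap_map] at h
  have h2 : (constantCoeff (R := κ)).comp (p.s : PowerSeries κ →+* PowerSeries κ) = constantCoeff :=
    cc_comp p.σ
  rw [h2] at h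
  exact h

/-- RIGIDITY -/
theorem red_inj {p q : Pr D} (h : p.red = q.red) : p = q := by
  obtain ⟨h1, h2⟩ := rigid D (s := p.σ) (s' := q.σ) p.hom p.unit q.hom q.unit h
  refine Pr.ext ?_ h2
  ext1 a
  exact DFunLike.congr_fun h1 a


theorem F1 (p : Pr D) : p.s X * coeff 1 p.H = X := F.F1 D (p.s : PowerSeries κ →+* PowerSeries κ) p.hom p.unit

noncomputable instance : One (Pr D) where
  one :=
    { s := AlgEquiv.refl
      H := X
      hom := by
        have h : ((AlgEquiv.refl : PowerSeries κ ≃ₐ[κ] PowerSeries κ) : PowerSeries κ →+* PowerSeries κ) =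
          RingHom.id _ := rfl
        rw [h, fmap_id]
        exact R227.IsFGHom.id D.Φ
      unit := by rw [PowerSeries.coeff_one_X]; exact isUnit_one }

theorem one_H : (1 : Pr D).H = X := rfl

noncomputable instance : Mul (Pr D) where
  mul p q :=
    { s := q.s.trans p.s
      H := subst p.H (q.H.map (p.s : PowerSeries κ →+* PowerSeries κ))
      hom := by
        have h := R227.IsFGHom.map (p.s : PowerSeries κ →+* PowerSeries κ) q.hom
        rw [fmap_map] at h
        exact R227.IsFGHom.comp p.hom h
      unit := by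
        rw [coeff_one_subst p.cc, PowerSeries.coeff_map]
        exact (q.unit.map _).mul p.unit }

theorem mul_H (p q : Pr D) :
    (p * q).H = subst p.H (q.H.map (p.s : PowerSeries κ →+* PowerSeries κ)) := rfl

theorem red_one : (1 : Pr D).red = X := by
  rw [red_def, one_H, PowerSeries.map_X]

/-- the reduction reverses composition: `red (p q) = red q ∘ red p` -/
theorem red_mul (p q : Pr D) : (p * q).red = subst p.red q.red := by
  rw [red_def, mul_H, pmap_subst _ p.cc, pmap_map]
  have h2 : (constantCoeff (R := κ)).comp (p.s : PowerSeries κ →+* PowerSeries κ) = constantCoeff :=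
    cc_comp p.σ
  rw [h2]
  rfl

theorem exists_inv (p : Pr D) : ∃ q : Pr D, q.s = p.s.symm ∧ subst q.red p.red = (X : PowerSeries κ) ∧
    subst p.red q.red = (X : PowerSeries κ) := by
  obtain ⟨ψ, hψ, h1, h2, hu⟩ := R227.IsFGHom.exists_inv p.hom p.unit
  have hcc : (constantCoeff (R := κ)).comp (p.s.symm : PowerSeries κ →+* PowerSeries κ) = constantCoeff :=
    cc_comp (p.s.symm : PowerSeries κ →ₐ[κ] PowerSeries κ)
  refine ⟨⟨p.s.symm, ψ.map (p.s.symm : PowerSeries κ →+* PowerSeries κ), ?_, ?_⟩, rfl, ?_, ?_⟩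
  · have h := R227.IsFGHom.map (p.s.symm : PowerSeries κ →+* PowerSeries κ) hψ
    rw [fmap_map] at h
    have e : (p.s.symm : PowerSeries κ →+* PowerSeries κ).comp
        (p.s : PowerSeries κ →+* PowerSeries κ) = RingHom.id _ :=
      RingHom.ext fun a => p.s.symm_apply_apply a
    rw [e, fmap_id] at h
    exact h
  · rw [PowerSeries.coeff_map]; exact hu.map _
  · rw [red_def, red_def, pmap_map, hcc, ← pmap_subst _ hψ.1, h2, PowerSeries.map_X]
  · rw [red_def, red_def, pmap_map, hcc, ← pmap_subst _ p.cc, h1, PowerSeries.map_X]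

noncomputable instance : Inv (Pr D) where
  inv p := p.exists_inv.choose


omit [CharP κ 2] in
theorem subst_assoc {a b : PowerSeries κ} (ha : constantCoeff a = 0) (hb : constantCoeff b = 0)
    (c : PowerSeries κ) :
    (subst a (subst b c : PowerSeries κ) : PowerSeries κ) = subst (subst a b : PowerSeries κ) c :=
  PowerSeries.subst_comp_subst_apply (HasSubst.of_constantCoeff_zero' hb)
    (HasSubst.of_constantCoeff_zero' ha) c

noncomputable instance : Group (Pr D) where
  mul_assoc p q r := by
    apply red_inj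
    rw [red_mul, red_mul, red_mul, red_mul, subst_assoc p.cc_red q.cc_red]
  one_mul p := by
    apply red_inj
    rw [red_mul, red_one]
    exact PowerSeries.X_subst p.red
  mul_one p := by
    apply red_inj
    rw [red_mul, red_one]
    exact PowerSeries.subst_X (HasSubst.of_constantCoeff_zero' p.cc_red)
  inv_mul_cancel p := by
    apply red_inj
    rw [red_mul, red_one]
    exact p.exists_inv.choose_spec.2.1

/-- the action on `κ⟦t⟧` as a group homomorphism -/
noncomputable def sHom (D : FData κ) : Pr D →* (PowerSeries κ ≃ₐ[κ] PowerSeries κ) where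
  toFun p := p.s
  map_one' := rfl
  map_mul' _ _ := rfl


/-- CONSTRUCTOR: a `κ`-algebra endomorphism `s` of `κ⟦t⟧` and a homomorphism `H : Φ → s Φ` with unit
linear coefficient give an element of `𝒢`. -/
theorem ofHom (D : FData κ) (s : PowerSeries κ →ₐ[κ] PowerSeries κ) {H : PowerSeries (PowerSeries κ)}
    (hH : IsFGHom D.Φ (D.Φ.map (s : PowerSeries κ →+* PowerSeries κ)) H) (hu : IsUnit (coeff 1 H)) :
    ∃ p : Pr D, (∀ a, p.s a = s a) ∧ p.H = H := by
  have h1 : s X * coeff 1 H = X := F.F1 D (s : PowerSeries κ →+* PowerSeries κ) hH hu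
  have hc : constantCoeff (s X) = 0 := by rw [← PowerSeries.X_dvd_iff]; exact X_dvd_map_X s
  have hu1 : IsUnit (coeff 1 (s X)) := by
    rw [isUnit_iff_ne_zero]
    intro h0
    have h2 := congrArg (coeff 1) h1
    have h3 : (X : PowerSeries κ) ^ 2 ∣ s X := by
      rw [PowerSeries.X_pow_dvd_iff]
      intro i hi
      interval_cases i
      · rw [PowerSeries.coeff_zero_eq_constantCoeff_apply, hc]
      · exact h0
    have h4 : coeff 1 (s X * coeff 1 H) = 0 :=
      (PowerSeries.X_pow_dvd_iff.1 (h3.mul_right (coeff 1 H))) 1 (by norm_num)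
    rw [h4, PowerSeries.coeff_one_X] at h2
    exact zero_ne_one h2
  obtain ⟨ψ, hψ0, -, hl, hr⟩ := R227.exists_sinv hc hu1
  have hψs : HasSubst ψ := HasSubst.of_constantCoeff_zero' hψ0
  let s' : PowerSeries κ →ₐ[κ] PowerSeries κ := PowerSeries.substAlgHom hψs
  have hs'X : s' X = ψ := by
    show PowerSeries.substAlgHom hψs X = ψ
    rw [PowerSeries.coe_substAlgHom, PowerSeries.subst_X hψs]
  have e1 : s.comp s' = AlgHom.id κ _ := by
    apply ext_X
    rw [AlgHom.comp_apply, hs'X, AlgHom.id_apply]
    have hsub : s = PowerSeries.substAlgHom (HasSubst.of_constantCoeff_zero' hc) := by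
      apply ext_X
      rw [PowerSeries.coe_substAlgHom, PowerSeries.subst_X (HasSubst.of_constantCoeff_zero' hc)]
    have h5 : s ψ = subst (s X) ψ := by
      conv_lhs => rw [hsub]
      rw [PowerSeries.coe_substAlgHom]
    rw [h5]
    exact hl
  have e2 : s'.comp s = AlgHom.id κ _ := by
    apply ext_X
    rw [AlgHom.comp_apply, AlgHom.id_apply]
    show PowerSeries.substAlgHom hψs (s X) = X
    rw [PowerSeries.coe_substAlgHom]
    exact hr
  let E : PowerSeries κ ≃ₐ[κ] PowerSeries κ := AlgEquiv.ofAlgHom s s' e1 e2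
  have hE : (E : PowerSeries κ →+* PowerSeries κ) = (s : PowerSeries κ →+* PowerSeries κ) :=
    RingHom.ext fun a => rfl
  exact ⟨{ s := E, H := H, hom := by rw [hE]; exact hH, unit := hu }, fun a => rfl, rfl⟩

end Pr

end Crest.Agent.R007.F
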