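import Crest.Agent.R007.Mix1
import Crest.Agent.R007.FGrp
import Crest.Agent.R007.FAct

-- ▼ part R007/EL
section

/-!
Row 7, section E (helper853): the graded ring `L = ⨁ L_k` (all odd levels) and its subring of level `M`,
with the action of `SL(2,ℤ) ⧸ Γ(M)`; the reduced `q`-expansion.
-/

set_option autoImplicit false

namespace Crest.Agent.R007.EL

open UpperHalfPlane ModularForm CongruenceSubgroup Matrix
open Crest.Agent.R007.Lat Crest.Agent.R007.Mix
open scoped MatrixGroups Manifold ModularForm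

/-! ### sums of a graded family -/

/-- a multiplicative family of pure weights -/
structure Fam (B : ℕ → AddSubgroup (X → ℂ)) : Prop where
  one : (1 : X → ℂ) ∈ B 0
  mul : ∀ {i j : ℕ} {F G : X → ℂ}, F ∈ B i → G ∈ B j → F * G ∈ B (i + j)
  wt : ∀ {k : ℕ} {F : X → ℂ}, F ∈ B k → F ∈ Wt k

section SR

variable {B : ℕ → AddSubgroup (X → ℂ)} (hB : Fam B)

/-- finite sums of elements of the `B k` -/
def SR (hB : Fam B) : Subring (X → ℂ) where
  carrier := {F | ∃ (n : ℕ) (f : ℕ → X → ℂ), (∀ k, f k ∈ B k) ∧ F = ∑ k ∈ Finset.range n, f k}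
  mul_mem' := by
    rintro F G ⟨n, f, hf, rfl⟩ ⟨m, g, hg, rfl⟩
    refine ⟨n + m, fun k => ∑ p ∈ (Finset.range n ×ˢ Finset.range m) with p.1 + p.2 = k, f p.1 * g p.2,
      fun k => sum_mem fun p hp => ?_, ?_⟩
    · rw [Finset.mem_filter] at hp
      rw [← hp.2]
      exact hB.mul (hf _) (hg _)
    · rw [Finset.sum_mul_sum, ← Finset.sum_product']
      rw [Finset.sum_fiberwise_of_maps_to]
      intro p hp
      rw [Finset.mem_product, Finset.mem_range, Finset.mem_range] at hp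
      rw [Finset.mem_range]
      omega
  one_mem' := by
    refine ⟨1, fun k => if k = 0 then 1 else 0, fun k => ?_, by simp⟩
    show (if k = 0 then (1 : X → ℂ) else 0) ∈ B k
    split_ifs with hk
    · subst hk; exact hB.one
    · exact zero_mem _
  add_mem' := by
    rintro F G ⟨n, f, hf, rfl⟩ ⟨m, g, hg, rfl⟩
    refine ⟨max n m, fun k => (if k < n then f k else 0) + (if k < m then g k else 0), fun k => ?_, ?_⟩
    · refine add_mem ?_ ?_
      · split_ifs
        · exact hf k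
        · exact zero_mem _
      · split_ifs
        · exact hg k
        · exact zero_mem _
    · rw [Finset.sum_add_distrib]
      congr 1
      · rw [← Finset.sum_filter]
        congr 1
        ext k; simp only [Finset.mem_filter, Finset.mem_range]; omega
      · rw [← Finset.sum_filter]
        congr 1
        ext k; simp only [Finset.mem_filter, Finset.mem_range]; omega
  zero_mem' := ⟨0, fun _ => 0, fun k => zero_mem _, by simp⟩
  neg_mem' := by
    rintro F ⟨n, f, hf, rfl⟩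
    exact ⟨n, fun k => - f k, fun k => neg_mem (hf k), by simp⟩


theorem le_SR {k : ℕ} {F : X → ℂ} (hF : F ∈ B k) : F ∈ SR hB := by
  refine ⟨k + 1, fun j => if j = k then F else 0, fun j => ?_, by simp⟩
  show (if j = k then F else 0) ∈ B j
  split_ifs with h
  · subst h; exact hF
  · exact zero_mem _

/-- the piece of weight `k` -/
def pc (hB : Fam B) (k : ℕ) : AddSubgroup (SR hB) :=
  (B k).comap (SR hB).subtype.toAddMonoidHom


theorem pc_one : (1 : SR hB) ∈ pc hB 0 := hB.one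

theorem pc_mul (i j : ℕ) (a b : SR hB) (ha : a ∈ pc hB i) (hb : b ∈ pc hB j) :
    a * b ∈ pc hB (i + j) := hB.mul ha hb

theorem pc_internal : DirectSum.IsInternal (pc hB) := by
  classical
  constructor
  · rw [injective_iff_map_eq_zero]
    intro x hx
    ext k
    have h0 : ∑ i ∈ x.support, ((x i : SR hB) : X → ℂ) = 0 := by
      have h1 := congrArg (Subtype.val : SR hB → X → ℂ) hx
      rw [DirectSum.coeAddMonoidHom_eq_dfinsuppSum] at h1
      refine Eq.trans ?_ (h1.trans rfl)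
      rw [DFinsupp.sum]
      exact (map_sum (SR hB).subtype _ _).symm
    let n := x.support.sup id + 1 + k + 1
    have h2 : ∑ i ∈ Finset.range n, ((x i : SR hB) : X → ℂ) = 0 := by
      rw [← h0]
      symm
      apply Finset.sum_subset
      · intro i hi
        rw [Finset.mem_range]
        have := Finset.le_sup (f := id) hi
        simp only [id] at this
        omega
      · intro i _ hi
        rw [DFinsupp.notMem_support_iff] at hi
        rw [hi]; rfl
    have h3 := Wt_indep (n := n) (F := fun i => ((x i : SR hB) : X → ℂ))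
      (fun i => hB.wt (x i).2) h2 k (by omega)
    have h4 : (x k : SR hB) = 0 := Subtype.ext h3
    rw [h4]; rfl
  · rintro ⟨F, n, f, hf, rfl⟩
    refine ⟨∑ k ∈ Finset.range n, DirectSum.of (fun k => pc hB k) k ⟨⟨f k, le_SR hB (hf k)⟩, hf k⟩, ?_⟩
    rw [map_sum]
    apply Subtype.ext
    simp only [DirectSum.coeAddMonoidHom_of]
    exact map_sum (SR hB).subtype _ _

/-- the slash action on `SR` -/
noncomputable def slR (hB : Fam B) (g : GL(2, ℝ)⁺) (hg : ∀ k, ∀ F ∈ B k, sl F g ∈ B k) :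
    SR hB →+* SR hB where
  toFun x := ⟨sl x g, by
    obtain ⟨n, f, hf, h⟩ := x.2
    refine ⟨n, fun k => sl (f k) g, fun k => hg k _ (hf k), ?_⟩
    rw [h, sl_sum]⟩
  map_one' := rfl
  map_mul' _ _ := rfl
  map_zero' := rfl
  map_add' _ _ := rfl

@[simp] theorem slR_coe (g : GL(2, ℝ)⁺) (hg : ∀ k, ∀ F ∈ B k, sl F g ∈ B k) (x : SR hB) :
    ((slR hB g hg x : SR hB) : X → ℂ) = sl x g := rfl

end SR

/-! ### `L` -/

variable (O : Subring ℂ)

theorem famL : Fam (Lk O) := ⟨Lk_one, fun h h' => Lk_mul h h', fun h => MO_le_Wt h.1⟩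

/-- `L`, all odd levels -/
abbrev LL : Subring (X → ℂ) := SR (famL O)

/-- the piece of weight `k` of `L` -/
abbrev piece (k : ℕ) : AddSubgroup (LL O) := pc (famL O) k

/-- the slash action of `G2` on `L` -/
noncomputable abbrev slL (g : GL(2, ℝ)⁺) (hg : g ∈ G2) : LL O →+* LL O :=
  slR (famL O) g (fun _ _ hF => Lk_sl hF hg)

/-- elements of `L` from elements of `L_k` -/
def mkL {k : ℕ} (F : X → ℂ) (hF : F ∈ Lk O k) : LL O := ⟨F, le_SR (famL O) hF⟩

@[simp] theorem mkL_coe {k : ℕ} (F : X → ℂ) (hF : F ∈ Lk O k) : ((mkL O F hF : LL O) : X → ℂ) = F := rfl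


/-- constants -/
noncomputable def cst : O →+* LL O where
  toFun c := mkL O ((c : ℂ) • (1 : X → ℂ)) (Lk_smul Lk_one c.2)
  map_one' := Subtype.ext (by simp [mkL])
  map_mul' a b := Subtype.ext (by simp [mkL, smul_smul, mul_comm])
  map_zero' := Subtype.ext (by simp [mkL])
  map_add' a b := Subtype.ext (by simp [mkL, add_smul])

theorem cst_mem (c : O) : cst O c ∈ piece O 0 := Lk_smul Lk_one c.2

@[simp] theorem cst_coe (c : O) : ((cst O c : LL O) : X → ℂ) = (c : ℂ) • (1 : X → ℂ) := rfl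

end Crest.Agent.R007.EL
end

-- ▼ part R007/ECore2
section

/-!
Row 7, section E, E-CORE-2 (helper853): cube roots in `κ⟦t⟧`, the automorphism `t ↦ t w`,
renormalisation of a ring homomorphism on a graded ring, and the two constancy lemmas.
-/

set_option autoImplicit false

open PowerSeries

namespace Crest.Agent.R007.ECore2

/-! ### (C2a) cube roots -/

section Cube

variable {κ : Type*} [Field κ]

theorem isUnit_iff_cc (b : PowerSeries κ) : IsUnit b ↔ constantCoeff b ≠ 0 := by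
  rw [PowerSeries.isUnit_iff_constantCoeff, isUnit_iff_ne_zero]

/-- every unit of `κ⟦t⟧` is an `n`-th power if `n ≠ 0` in `κ`, `κ` algebraically closed. -/
theorem exists_root [IsAlgClosed κ] {n : ℕ} (hn0 : 0 < n) (hn : (n : κ) ≠ 0)
    {b : PowerSeries κ} (hb : IsUnit b) : ∃ u : PowerSeries κ, IsUnit u ∧ u ^ n = b := by
  obtain ⟨γ, hγ⟩ := IsAlgClosed.exists_pow_nat_eq (constantCoeff b) hn0
  have hγ0 : γ ≠ 0 := by
    rintro rfl
    rw [zero_pow hn0.ne'] at hγ
    exact (isUnit_iff_cc b).1 hb hγ.symm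
  let I : Ideal (PowerSeries κ) := Ideal.span {X}
  have hmem : ∀ a : PowerSeries κ, a ∈ I ↔ constantCoeff a = 0 := by
    intro a
    rw [Ideal.mem_span_singleton, PowerSeries.X_dvd_iff]
  have hmon : (Polynomial.X ^ n - Polynomial.C b : Polynomial (PowerSeries κ)).Monic :=
    Polynomial.monic_X_pow_sub_C b hn0.ne'
  obtain ⟨u, hu, hu2⟩ := HenselianRing.is_henselian (I := I)
    (Polynomial.X ^ n - Polynomial.C b : Polynomial (PowerSeries κ)) hmon (C γ) (by
      rw [hmem]; simp [hγ]) (by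
      apply IsUnit.map
      rw [isUnit_iff_cc]
      simp only [Polynomial.derivative_sub, Polynomial.derivative_X_pow, Polynomial.derivative_C,
        sub_zero, Polynomial.eval_mul, Polynomial.eval_pow, Polynomial.eval_X,
        map_mul, map_pow, PowerSeries.constantCoeff_C, map_natCast]
      exact mul_ne_zero (by simpa using hn) (pow_ne_zero _ hγ0))
  have hu3 : u ^ n = b := by
    have := hu
    rw [Polynomial.IsRoot, Polynomial.eval_sub, Polynomial.eval_pow, Polynomial.eval_X,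
      Polynomial.eval_C, sub_eq_zero] at this
    exact this
  refine ⟨u, ?_, hu3⟩
  rw [← hu3] at hb
  exact (isUnit_pow_iff hn0.ne').1 hb

/-- (C2a) -/
theorem exists_cube_root [IsAlgClosed κ] [CharP κ 2] {b : PowerSeries κ} (hb : IsUnit b) :
    ∃ u : PowerSeries κ, IsUnit u ∧ u ^ 3 = b := by
  refine exists_root (by norm_num) ?_ hb
  have h2 : ((2 : ℕ) : κ) = 0 := CharP.cast_eq_zero κ 2
  intro h3
  have : (1 : κ) = ((3 : ℕ) : κ) - ((2 : ℕ) : κ) := by push_cast; ring
  rw [h3, h2, sub_zero] at this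
  exact one_ne_zero this

end Cube

/-! ### (C2b) the automorphism `t ↦ t w` -/

section Aut

variable {κ : Type*} [Field κ]

/-- (C2b) for a unit `w` there is a (unique, `F.ext_X`) `κ`-automorphism of `κ⟦t⟧` with `t ↦ t w`. -/
theorem exists_aut {w : PowerSeries κ} (hw : IsUnit w) :
    ∃ s : PowerSeries κ ≃ₐ[κ] PowerSeries κ, s X = X * w := by
  have hc : constantCoeff (X * w : PowerSeries κ) = 0 := by simp
  have hu1 : IsUnit (coeff 1 (X * w : PowerSeries κ)) := by
    rw [show (1 : ℕ) = 0 + 1 from rfl, PowerSeries.coeff_succ_X_mul,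
      PowerSeries.coeff_zero_eq_constantCoeff_apply, isUnit_iff_ne_zero]
    exact (isUnit_iff_cc w).1 hw
  obtain ⟨ψ, hψ0, -, hl, hr⟩ := R227.exists_sinv hc hu1
  have hψs : HasSubst ψ := HasSubst.of_constantCoeff_zero' hψ0
  have hws : HasSubst (X * w : PowerSeries κ) := HasSubst.of_constantCoeff_zero' hc
  let s : PowerSeries κ →ₐ[κ] PowerSeries κ := PowerSeries.substAlgHom hws
  let s' : PowerSeries κ →ₐ[κ] PowerSeries κ := PowerSeries.substAlgHom hψs
  have hsX : s X = X * w := by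
    show PowerSeries.substAlgHom hws X = _
    rw [PowerSeries.coe_substAlgHom, PowerSeries.subst_X hws]
  have hs'X : s' X = ψ := by
    show PowerSeries.substAlgHom hψs X = ψ
    rw [PowerSeries.coe_substAlgHom, PowerSeries.subst_X hψs]
  have e1 : s.comp s' = AlgHom.id κ _ := by
    apply F.ext_X
    rw [AlgHom.comp_apply, hs'X, AlgHom.id_apply]
    show PowerSeries.substAlgHom hws ψ = X
    rw [PowerSeries.coe_substAlgHom]
    exact hl
  have e2 : s'.comp s = AlgHom.id κ _ := by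
    apply F.ext_X
    rw [AlgHom.comp_apply, hsX, AlgHom.id_apply]
    show PowerSeries.substAlgHom hψs (X * w) = X
    rw [PowerSeries.coe_substAlgHom]
    exact hr
  exact ⟨AlgEquiv.ofAlgHom s s' e1 e2, hsX⟩

end Aut

/-! ### (C2c) renormalisation on a graded ring -/

section Renorm

variable {L R : Type*} [CommRing L] [CommRing R]

/-- (C2c), bundled form: `𝒜` a grading of `L`, `ψ : L →+* R`, `v : R`; the map `F ↦ v ^ k * ψ F` on
`𝒜 k` extends to a ring homomorphism. -/
theorem exists_twist {σ : Type*} [SetLike σ L] [AddSubmonoidClass σ L] (𝒜 : ℕ → σ) [GradedRing 𝒜]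
    (ψ : L →+* R) (v : R) :
    ∃ χ : L →+* R, ∀ k, ∀ F ∈ 𝒜 k, χ F = v ^ k * ψ F := by
  let f : ∀ k, 𝒜 k →+ R := fun k =>
    (AddMonoidHom.mulLeft (v ^ k)).comp ((ψ : L →+ R).comp (AddSubmonoidClass.subtype (𝒜 k)))
  have hf : ∀ k (x : 𝒜 k), f k x = v ^ k * ψ x := fun k x => rfl
  let χ : (DirectSum ℕ fun k => 𝒜 k) →+* R := DirectSum.toSemiring f
    (by
      rw [hf]
      change v ^ 0 * ψ ((1 : L)) = 1
      simp)
    (by
      intro i j a b
      rw [hf, hf, hf]
      change v ^ (i + j) * ψ ((a : L) * (b : L)) = _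
      rw [map_mul, pow_add]; ring)
  refine ⟨χ.comp (DirectSum.decomposeRingEquiv 𝒜 : L →+* _), fun k F hF => ?_⟩
  have h1 : (DirectSum.decomposeRingEquiv 𝒜 : L →+* _) F = DirectSum.of (fun k => 𝒜 k) k ⟨F, hF⟩ :=
    DirectSum.decompose_of_mem 𝒜 hF
  rw [RingHom.comp_apply, h1]
  show DirectSum.toSemiring f _ _ _ = _
  rw [DirectSum.toSemiring_of]
  rfl

/-- (C2c), unbundled form. -/
theorem exists_twist' (A : ℕ → AddSubgroup L) (h1 : (1 : L) ∈ A 0)
    (hmul : ∀ i j a b, a ∈ A i → b ∈ A j → a * b ∈ A (i + j)) (hint : DirectSum.IsInternal A)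
    (ψ : L →+* R) (v : R) :
    ∃ χ : L →+* R, ∀ k, ∀ F ∈ A k, χ F = v ^ k * ψ F := by
  classical
  let _ : DirectSum.Decomposition A := hint.chooseDecomposition
  let _ : SetLike.GradedMonoid A := { one_mem := h1, mul_mem := fun {i j a b} ha hb => hmul i j a b ha hb }
  let _ : GradedRing A := { }
  exact exists_twist A ψ v


end Renorm

/-! ### (C2d) -/

section JInv

variable {κ : Type*} [Field κ]

/-- (C2d) `∑ λ_c ((1+t³)/t¹²)^c` regular at `t = 0` only if `λ_c = 0` for `c > 0`. -/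
theorem coeff_eq_zero_of_regular (K : Type*) [Field K] [Algebra κ K] [Algebra (PowerSeries κ) K]
    [IsScalarTower κ (PowerSeries κ) K] [FaithfulSMul (PowerSeries κ) K]
    (p : Polynomial κ) (r : PowerSeries κ)
    (h : Polynomial.aeval (algebraMap (PowerSeries κ) K (1 + X ^ 3) /
      algebraMap (PowerSeries κ) K X ^ 12) p = algebraMap (PowerSeries κ) K r) :
    ∃ a : κ, p = Polynomial.C a := by
  by_contra hcon
  have hn : 0 < p.natDegree := by
    rw [Nat.pos_iff_ne_zero]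
    intro h0
    exact hcon ⟨_, Polynomial.eq_C_of_natDegree_eq_zero h0⟩
  set n := p.natDegree with hnd
  have hX : algebraMap (PowerSeries κ) K X ≠ 0 := by
    intro h0
    have := FaithfulSMul.algebraMap_injective (PowerSeries κ) K (h0.trans (map_zero _).symm)
    exact X_ne_zero this
  let q : PowerSeries κ := ∑ c ∈ Finset.range (n + 1),
    C (p.coeff c) * (1 + X ^ 3) ^ c * X ^ (12 * (n - c))
  have hq : q = X ^ (12 * n) * r := by
    apply FaithfulSMul.algebraMap_injective (PowerSeries κ) K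
    rw [map_mul, ← h, Polynomial.aeval_eq_sum_range, ← hnd, Finset.mul_sum, map_sum]
    refine Finset.sum_congr rfl fun c hc => ?_
    have hcn : c ≤ n := Nat.lt_succ_iff.1 (Finset.mem_range.1 hc)
    rw [map_mul, map_mul, map_pow, map_pow, map_pow, Algebra.smul_def, div_pow, ← pow_mul]
    have e1 : algebraMap κ K (p.coeff c) = algebraMap (PowerSeries κ) K (C (p.coeff c)) := by
      rw [IsScalarTower.algebraMap_apply κ (PowerSeries κ) K]; rfl
    have e2 : 12 * n = 12 * (n - c) + 12 * c := by omega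
    rw [e1, e2, pow_add]
    field_simp
  have h1 : constantCoeff q = p.coeff n := by
    show constantCoeff (∑ c ∈ Finset.range (n + 1), _) = _
    rw [map_sum, Finset.sum_range_succ, Finset.sum_eq_zero, zero_add]
    · simp
    · intro c hc
      have hcn : c < n := Finset.mem_range.1 hc
      have : 12 * (n - c) ≠ 0 := by omega
      simp [this]
  have h2 : constantCoeff q = 0 := by
    rw [hq]
    have : 12 * n ≠ 0 := by omega
    simp [this]
  rw [h1] at h2
  have h3 : p.leadingCoeff = 0 := h2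
  rw [Polynomial.leadingCoeff_eq_zero] at h3
  rw [hnd, h3] at hn
  simp at hn

end JInv

/-! ### (C2e) -/

/-- (C2e) an algebraic element over an algebraically closed field is constant. -/
theorem algebraic_const {κ A : Type*} [Field κ] [IsAlgClosed κ] [CommRing A] [IsDomain A]
    [Algebra κ A] {b : A} (hb : IsAlgebraic κ b) : ∃ a : κ, b = algebraMap κ A a := by
  have hint : IsIntegral κ b := hb.isIntegral
  have hirr := minpoly.irreducible hint
  have hdeg : (minpoly κ b).degree = 1 := IsAlgClosed.degree_eq_one_of_irreducible κ hirr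
  obtain ⟨a, ha⟩ := minpoly.mem_range_of_degree_eq_one κ b hdeg
  exact ⟨a, ha.symm⟩

/-- (C2e) the same in a ring `A` with a ring hom `f : κ →+* A` (no instances). -/
theorem algebraic_const_hom {κ A : Type*} [Field κ] [IsAlgClosed κ] [CommRing A] [IsDomain A]
    (f : κ →+* A) {b : A} {p : Polynomial κ} (hp : p ≠ 0) (hb : p.eval₂ f b = 0) :
    ∃ a : κ, b = f a := by
  let _ : Algebra κ A := f.toAlgebra
  obtain ⟨a, ha⟩ := algebraic_const (κ := κ) (A := A) (b := b) ⟨p, hp, hb⟩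
  exact ⟨a, ha⟩

theorem algebraic_const_hahn {κ : Type*} [Field κ] [IsAlgClosed κ] {b : HahnSeries ℚ κ}
    {p : Polynomial κ} (hp : p ≠ 0) (hb : p.eval₂ HahnSeries.C b = 0) :
    ∃ a : κ, b = HahnSeries.C a := by
  obtain ⟨a, ha⟩ := algebraic_const_hom (HahnSeries.C : κ →+* HahnSeries ℚ κ) hp hb
  exact ⟨a, ha⟩

end Crest.Agent.R007.ECore2
end

-- ▼ part R007/EStep
section

/-!
Row 7, section E (helper853): the step `e ↦ e'_δ` (pure algebra).

`ψ = e(· ∥ δ)`, `ψ A₁ = t`, `ψ A₃ = u³` a unit, `s t = t / u`, `e' = s⁻¹ (u^{-k} ψ)`.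
-/

set_option autoImplicit false

open PowerSeries Crest.LubinTate

namespace Crest.Agent.R007.EStep

open Crest.Agent.R007.F

section Regular

variable {κ : Type*} [Field κ]

/-- the cross-multiplied Hecke formula gives the formula in `K = κ((t))` -/
theorem ext_of_cross (s : PowerSeries κ ≃ₐ[κ] PowerSeries κ) {k : ℕ} {a b : PowerSeries κ}
    (h : a * s X ^ k = s b * X ^ k) :
    algebraMap (PowerSeries κ) (LaurentSeries κ) a /
        algebraMap (PowerSeries κ) (LaurentSeries κ) X ^ k =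
      extK s (algebraMap (PowerSeries κ) (LaurentSeries κ) b /
        algebraMap (PowerSeries κ) (LaurentSeries κ) X ^ k) := by
  have hinj := IsFractionRing.injective (PowerSeries κ) (LaurentSeries κ)
  have hX : algebraMap (PowerSeries κ) (LaurentSeries κ) X ≠ 0 := by
    intro h0
    exact X_ne_zero (hinj (h0.trans (map_zero _).symm))
  have hsX : algebraMap (PowerSeries κ) (LaurentSeries κ) (s X) ≠ 0 := by
    intro h0
    have h1 : s X = 0 := hinj (h0.trans (map_zero _).symm)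
    exact X_ne_zero (s.injective (h1.trans (map_zero s).symm))
  rw [map_div₀, map_pow, extK_algebraMap, extK_algebraMap, div_eq_div_iff (pow_ne_zero _ hX)
    (pow_ne_zero _ hsX)]
  have := congrArg (algebraMap (PowerSeries κ) (LaurentSeries κ)) h
  rwa [map_mul, map_mul, map_pow, map_pow] at this

/-- regularity is transported -/
theorem dvd_of_cross (s : PowerSeries κ ≃ₐ[κ] PowerSeries κ) {k : ℕ} {a b : PowerSeries κ}
    (h : a * s X ^ k = s b * X ^ k) : X ^ k ∣ a ↔ X ^ k ∣ b := by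
  have hsX : s X ≠ 0 := by
    intro h0
    exact X_ne_zero (s.injective (h0.trans (map_zero s).symm))
  constructor
  · rintro ⟨r, rfl⟩
    have h1 : s b = r * s X ^ k := by
      have hX : (X : PowerSeries κ) ^ k ≠ 0 := pow_ne_zero _ X_ne_zero
      apply mul_right_cancel₀ hX
      rw [← h]; ring
    refine ⟨s.symm r, ?_⟩
    apply s.injective
    rw [h1, map_mul, map_pow, s.apply_symm_apply, mul_comm]
  · rintro ⟨r, rfl⟩
    refine ⟨s r, ?_⟩
    apply mul_right_cancel₀ (pow_ne_zero k hsX)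
    rw [h, map_mul, map_pow]; ring

end Regular

variable {κ : Type*} [Field κ] [CharP κ 2]

/-- `(s, H) ∈ Pr D` from a homomorphism `Φ(t,b) → Φ(t,1)`, `b = u³`, `s t = t/u`. -/
theorem exists_pr (D : FData κ)
    (Phi : PowerSeries κ → PowerSeries κ → FormalGroup (PowerSeries κ))
    (hPhi : ∀ (f : PowerSeries κ →+* PowerSeries κ) (a b : PowerSeries κ),
      (Phi a b).map f = Phi (f a) (f b)) (hD : D.Φ = Phi X 1)
    (hsc : ∀ u a b : PowerSeries κ, IsUnit u → ∃ G, IsFGHom (Phi a b) (Phi (u * a) (u ^ 3 * b)) G ∧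
      IsUnit (coeff 1 G))
    {b u v : PowerSeries κ} (hu3 : u ^ 3 = b) (huv : u * v = 1)
    (s : PowerSeries κ ≃ₐ[κ] PowerSeries κ) (hs : s X = X * v)
    {H : PowerSeries (PowerSeries κ)} (hH : IsFGHom (Phi X b) (Phi X 1) H)
    (hu : IsUnit (coeff 1 H)) : ∃ p : Pr D, p.s = s := by
  have hvu : IsUnit v := IsUnit.of_mul_eq_one u (by rw [mul_comm]; exact huv)
  -- `Φ(t, b) → Φ(v t, v³ b) = Φ(t/u, 1)`
  obtain ⟨G, hG, hGu⟩ := hsc v X b hvu
  have e1 : v ^ 3 * b = 1 := by rw [← hu3, ← mul_pow, mul_comm v u, huv, one_pow]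
  rw [e1] at hG
  have hsΦ : D.Φ.map (s : PowerSeries κ →+* PowerSeries κ) = Phi (v * X) 1 := by
    rw [hD, hPhi]
    congr 1
    · exact hs.trans (mul_comm _ _)
    · exact map_one s
  obtain ⟨H', hH', -, -, hH'u⟩ := R227.IsFGHom.exists_inv hH hu
  have hcomp : IsFGHom D.Φ (D.Φ.map (s : PowerSeries κ →+* PowerSeries κ)) (subst H' G) := by
    rw [hsΦ, hD]
    exact R227.IsFGHom.comp hH' hG
  have hc1 : coeff 1 (subst H' G) = coeff 1 G * coeff 1 H' := by
    rw [coeff_one_subst hH'.1]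
  obtain ⟨p, hp, -⟩ := Pr.ofHom D (s : PowerSeries κ →ₐ[κ] PowerSeries κ) hcomp
    (by rw [hc1]; exact hGu.mul hH'u)
  exact ⟨p, AlgEquiv.ext hp⟩

variable [IsAlgClosed κ] {L : Type*} [CommRing L]

/-- THE STEP `e ↦ e'_δ`. -/
theorem step (A : ℕ → AddSubgroup L) (h1 : (1 : L) ∈ A 0)
    (hmul : ∀ (i j : ℕ) (a b : L), a ∈ A i → b ∈ A j → a * b ∈ A (i + j))
    (hint : DirectSum.IsInternal A) {A1 A3 : L} (hA1 : A1 ∈ A 1) (hA3 : A3 ∈ A 3)
    (D : FData κ) (Phi : PowerSeries κ → PowerSeries κ → FormalGroup (PowerSeries κ))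
    (hPhi : ∀ (f : PowerSeries κ →+* PowerSeries κ) (a b : PowerSeries κ),
      (Phi a b).map f = Phi (f a) (f b)) (hD : D.Φ = Phi X 1)
    (hsc : ∀ u a b : PowerSeries κ, IsUnit u → ∃ G, IsFGHom (Phi a b) (Phi (u * a) (u ^ 3 * b)) G ∧
      IsUnit (coeff 1 G))
    (ψ : L →+* PowerSeries κ) (hψ1 : ψ A1 = X) (hψ3 : IsUnit (ψ A3))
    {H : PowerSeries (PowerSeries κ)} (hH : IsFGHom (Phi (ψ A1) (ψ A3)) (Phi X 1) H)
    (hu : IsUnit (coeff 1 H)) :
    ∃ (p : Pr D) (e' : L →+* PowerSeries κ), e' A1 = X ∧ e' A3 = 1 ∧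
      (∀ a ∈ A 0, ∀ c : κ, ψ a = C c → e' a = C c) ∧
      (∀ k, ∀ F ∈ A k, ψ F * p.s X ^ k = p.s (e' F) * X ^ k) := by
  obtain ⟨u, huu, hu3⟩ := ECore2.exists_cube_root hψ3
  obtain ⟨v, huv⟩ := huu.exists_right_inv
  have hvu : IsUnit v := IsUnit.of_mul_eq_one u (by rw [mul_comm]; exact huv)
  obtain ⟨s, hs⟩ := ECore2.exists_aut hvu
  rw [hψ1] at hH
  obtain ⟨p, hp⟩ := exists_pr D Phi hPhi hD hsc hu3 huv s hs hH hu
  obtain ⟨χ, hχ⟩ := ECore2.exists_twist' A h1 hmul hint ψ v
  refine ⟨p, (s.symm : PowerSeries κ →+* PowerSeries κ).comp χ, ?_, ?_, ?_, ?_⟩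
  · have : χ A1 = s X := by rw [hχ 1 A1 hA1, hψ1, hs, pow_one, mul_comm]
    change s.symm (χ A1) = X
    rw [this, s.symm_apply_apply]
  · have : χ A3 = 1 := by
      rw [hχ 3 A3 hA3, ← hu3, ← mul_pow, mul_comm v u, huv, one_pow]
    change s.symm (χ A3) = 1
    rw [this, map_one]
  · intro a ha c hc
    change s.symm (χ a) = C c
    rw [hχ 0 a ha, pow_zero, one_mul, hc]
    exact s.symm.commutes c
  · intro k F hF
    have : s (s.symm (χ F)) = v ^ k * ψ F := by rw [s.apply_symm_apply, hχ k F hF]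
    rw [hp]
    change ψ F * s X ^ k = s (s.symm (χ F)) * X ^ k
    rw [this, hs]; ring

end Crest.Agent.R007.EStep
end

-- ▼ part R007/EIn

/-!
Row 7, section E (helper853): `EIn`, the input of the assembly of section E.
-/

set_option autoImplicit false

namespace Crest.Agent.R007.EL

open UpperHalfPlane ModularForm CongruenceSubgroup Matrix Crest.LubinTate
open Crest.Agent.R007.Lat Crest.Agent.R007.Mix
open scoped MatrixGroups Manifold ModularForm

/-- `Δ = A₃³ (A₁³ - 27 A₃)` -/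
def Disc (A1 A3 : X → ℂ) : X → ℂ := A3 ^ 3 * (A1 ^ 3 - 27 * A3)

/-- the points `Pt₀`: `e : L → κ⟦t⟧` over `O → κ` with `e A₁ = t`, `e A₃ = 1`. -/
structure IsPt {O : Subring ℂ} {κ : Type*} [Field κ] (ρ : O →+* κ) (A1 A3 : LL O)
    (e : LL O →+* PowerSeries κ) : Prop where
  c : ∀ c : O, e (cst O c) = PowerSeries.C (ρ c)
  A1 : e A1 = PowerSeries.X
  A3 : e A3 = 1

/-- THE INPUT of the assembly of section E. -/
structure EIn (O : Subring ℂ) {κ : Type*} [Field κ] [CharP κ 2] (ρ : O →+* κ) where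
  ρ_surj : Function.Surjective ρ
  ρ_ker : ∀ c : O, ρ c = 0 ↔ ∃ d : O, c = 2 * d
  A1 : X → ℂ
  A3 : X → ℂ
  A1_mem : A1 ∈ Lk O 1
  A3_mem : A3 ∈ Lk O 3
  /-- HASSE at infinity -/
  hasse_inf : Two O (res A1 - 1)
  /-- HASSE -/
  hasse : ∀ δ ∈ G2, ∃ G ∈ Lk O 1, sl A1 δ = A1 + 2 * G
  /-- `A₃ ∥ δ` divides a power of `Δ` in `L` -/
  unit : ∀ δ ∈ G2, ∃ (j : ℕ) (G : X → ℂ), G ∈ LL O ∧ sl A3 δ * G = (Disc A1 A3) ^ j
  /-- level one modulo 2 -/
  lev1 : ∀ (k : ℕ) (F : X → ℂ), F ∈ Lk O k → F ∈ MX 1 k → ∃ (c : ℕ → O) (G : X → ℂ), G ∈ Lk O k ∧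
    F = ∑ i ∈ Finset.range (k / 12 + 1), (c i : ℂ) • ((Disc A1 A3) ^ i * A1 ^ (k - 12 * i)) + 2 * G
  /-- the `q`-expansion principle (section D) -/
  qprin : ∀ (k : ℕ) (F : X → ℂ), F ∈ Lk O k → Two O (res F) → ∃ G ∈ Lk O k, F = 2 * G
  /-- the formal group over `κ⟦t⟧` -/
  D : F.FData κ
  Phi : PowerSeries κ → PowerSeries κ → FormalGroup (PowerSeries κ)
  Phi_map : ∀ (f : PowerSeries κ →+* PowerSeries κ) (a b : PowerSeries κ),
    (Phi a b).map f = Phi (f a) (f b)
  Phi_D : D.Φ = Phi PowerSeries.X 1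
  Phi_sc : ∀ u a b : PowerSeries κ, IsUnit u →
    ∃ G, IsFGHom (Phi a b) (Phi (u * a) (u ^ 3 * b)) G ∧ IsUnit (PowerSeries.coeff 1 G)
  /-- 801: `H_δ` -/
  fg : ∀ e : LL O →+* PowerSeries κ, IsPt ρ (mkL O A1 A1_mem) (mkL O A3 A3_mem) e →
    ∀ (δ : GL(2, ℝ)⁺) (hδ : δ ∈ G2), ∃ H,
      IsFGHom (Phi (e (slL O δ hδ (mkL O A1 A1_mem))) (e (slL O δ hδ (mkL O A3 A3_mem))))
        (Phi PowerSeries.X 1) H ∧ IsUnit (PowerSeries.coeff 1 H)
  /-- 938/879: existence of points -/
  exists_pt : ∃ e : LL O →+* PowerSeries κ, IsPt ρ (mkL O A1 A1_mem) (mkL O A3 A3_mem) e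

end Crest.Agent.R007.EL
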