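import Crest.Agent.R007.RatMain
import Crest.Agent.R007.Tc3
import Crest.Agent.R007.Mix1

-- ▼ part R007/Lev1
section

/-!
R007/Lev1: level one. `E₄, E₆, Δ` have integral q-expansions and every level one form with
coefficients in a subring `S` of `ℂ` is an `S`-combination of `E₄^a E₆^b Δ^c`.
-/

set_option autoImplicit false

namespace Crest.Agent.R007.Lev1

open UpperHalfPlane ModularForm CongruenceSubgroup Matrix.SpecialLinearGroup
open Crest.Agent.R007.Rat
open scoped MatrixGroups Manifold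

noncomputable section

/-- `E₄` as a function. -/
def E4 : ℍ → ℂ := ModularForm.E (k := 4) (by norm_num)

/-- `E₆` as a function. -/
def E6 : ℍ → ℂ := ModularForm.E (k := 6) (by norm_num)

/-- `Δ` as a function. -/
def Dl : ℍ → ℂ := ModularForm.discriminant

lemma isF_E4 : IsF 1 4 E4 := isF_of_isMF (RatAlg.isMF_of_SL (ModularForm.E (k := 4) (by norm_num)))

lemma isF_E6 : IsF 1 6 E6 := isF_of_isMF (RatAlg.isMF_of_SL (ModularForm.E (k := 6) (by norm_num)))

lemma isF_Dl : IsF 1 12 Dl := isF_of_isMF (RatAlg.isMF_of_cuspSL CuspForm.discriminant)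

lemma slash_one {k : ℤ} {F : ℍ → ℂ} (hF : IsF 1 k F) (g : SL(2, ℤ)) : F ∣[k] g = F :=
  RatAlg.slash_eq_one (isMF_of_isF hF) g

lemma isR_one_iff {S : Subring ℂ} {k : ℤ} {F : ℍ → ℂ} :
    IsR S 1 k F ↔ IsF 1 k F ∧ CoeffIn S (qe 1 F) := by
  constructor
  · intro h
    refine ⟨h.isF, ?_⟩
    have := h.coeff 1
    rwa [slash_one h.isF] at this
  · rintro ⟨h1, h2⟩
    refine ⟨h1, fun g => ?_⟩
    rwa [slash_one h1]

/-- `∑ σ₃(n) qⁿ` -/
def A : PowerSeries ℂ := PowerSeries.mk fun n => ((ArithmeticFunction.sigma 3 n : ℕ) : ℂ)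

/-- `∑ σ₅(n) qⁿ` -/
def B : PowerSeries ℂ := PowerSeries.mk fun n => ((ArithmeticFunction.sigma 5 n : ℕ) : ℂ)

/-- `∑ (5σ₃(n)+7σ₅(n))/12 qⁿ` -/
def C : PowerSeries ℂ :=
  PowerSeries.mk fun n => ((∑ d ∈ n.divisors, (5 * d ^ 3 + 7 * d ^ 5) / 12 : ℕ) : ℂ)

lemma dvd_aux (d : ℕ) : 12 ∣ 5 * d ^ 3 + 7 * d ^ 5 := by
  have h : ((5 * d ^ 3 + 7 * d ^ 5 : ℕ) : ZMod 12) = 0 := by
    push_cast
    generalize (d : ZMod 12) = x
    revert x
    decide
  exact (ZMod.natCast_eq_zero_iff _ _).1 h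

lemma C_eq : (12 : ℂ) • C = (5 : ℂ) • A + (7 : ℂ) • B := by
  ext n
  simp only [PowerSeries.coeff_smul, map_add, A, B, C, PowerSeries.coeff_mk, smul_eq_mul]
  rw [ArithmeticFunction.sigma_apply, ArithmeticFunction.sigma_apply]
  have : 12 * ∑ d ∈ n.divisors, (5 * d ^ 3 + 7 * d ^ 5) / 12 =
      5 * ∑ d ∈ n.divisors, d ^ 3 + 7 * ∑ d ∈ n.divisors, d ^ 5 := by
    rw [Finset.mul_sum, Finset.mul_sum, Finset.mul_sum, ← Finset.sum_add_distrib]
    refine Finset.sum_congr rfl fun d _ => ?_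
    rw [Nat.mul_div_cancel' (dvd_aux d)]
  exact_mod_cast this

lemma qe_E4 : qe 1 E4 = 1 + (240 : ℂ) • A := by
  ext n
  have h := EisensteinSeries.E_qExpansion_coeff (k := 4) (by norm_num) ⟨2, rfl⟩ n
  have hb : bernoulli 4 = -1 / 30 := by decide +kernel
  rw [qe, Nat.cast_one, E4, h, hb]
  simp only [map_add, PowerSeries.coeff_one, PowerSeries.coeff_smul, A, PowerSeries.coeff_mk,
    smul_eq_mul]
  by_cases hn : n = 0
  · simp [hn]
  · rw [if_neg hn, if_neg hn]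
    norm_num

lemma qe_E6 : qe 1 E6 = 1 + (-504 : ℂ) • B := by
  ext n
  have h := EisensteinSeries.E_qExpansion_coeff (k := 6) (by norm_num) ⟨3, rfl⟩ n
  have hb : bernoulli 6 = 1 / 42 := by decide +kernel
  rw [qe, Nat.cast_one, E6, h, hb]
  simp only [map_add, PowerSeries.coeff_one, PowerSeries.coeff_smul, B, PowerSeries.coeff_mk,
    smul_eq_mul]
  by_cases hn : n = 0
  · simp [hn]
  · rw [if_neg hn, if_neg hn]
    norm_num

lemma Dl_eq : Dl = (1 / 1728 : ℂ) • (E4 ^ 3 + (-1 : ℂ) • E6 ^ 2) := by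
  funext z
  have := ModularForm.discriminant_eq_E₄_cube_sub_E₆_sq z
  rw [Dl, this]
  simp only [Pi.smul_apply, Pi.add_apply, Pi.pow_apply, smul_eq_mul, E4, E6]
  ring

lemma qe_Dl : qe 1 Dl = C + (100 : ℂ) • A ^ 2 + (8000 : ℂ) • A ^ 3 - (147 : ℂ) • B ^ 2 := by
  rw [Dl_eq, qe_smul ((isF_E4.pow 3).add (((isF_E6.pow 2).smul (-1)).cast (by norm_num))),
    qe_add (isF_E4.pow 3) ((isF_E6.pow 2).smul _), qe_smul (isF_E6.pow 2), qe_pow isF_E4,
    qe_pow isF_E6, qe_E4, qe_E6]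
  have h := C_eq
  simp only [PowerSeries.smul_eq_C_mul] at h ⊢
  have c1 : (PowerSeries.C (1 / 1728 : ℂ)) * PowerSeries.C (1728 : ℂ) = 1 := by
    rw [← map_mul]; norm_num
  have e240 : (PowerSeries.C (240 : ℂ)) = 240 := map_ofNat _ 240
  have e504 : (PowerSeries.C (-504 : ℂ)) = -504 := by rw [map_neg]; rfl
  have e1 : (PowerSeries.C (-1 : ℂ)) = -1 := by rw [map_neg, map_one]
  have e12 : (PowerSeries.C (12 : ℂ)) = 12 := map_ofNat _ 12
  have e5 : (PowerSeries.C (5 : ℂ)) = 5 := map_ofNat _ 5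
  have e7 : (PowerSeries.C (7 : ℂ)) = 7 := map_ofNat _ 7
  have e100 : (PowerSeries.C (100 : ℂ)) = 100 := map_ofNat _ 100
  have e8000 : (PowerSeries.C (8000 : ℂ)) = 8000 := map_ofNat _ 8000
  have e147 : (PowerSeries.C (147 : ℂ)) = 147 := map_ofNat _ 147
  have e1728 : (PowerSeries.C (1728 : ℂ)) = 1728 := map_ofNat _ 1728
  rw [e12, e5, e7] at h
  rw [e1728] at c1
  rw [e240, e504, e1, e100, e8000, e147]
  linear_combination (C + 100 * A ^ 2 + 8000 * A ^ 3 - 147 * B ^ 2) * c1 -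
    144 * (PowerSeries.C (1 / 1728 : ℂ)) * h

section ints

variable {S : Subring ℂ}

lemma coeffIn_A : CoeffIn S A := fun n => by
  rw [A, PowerSeries.coeff_mk]; exact natCast_mem S _

lemma coeffIn_B : CoeffIn S B := fun n => by
  rw [B, PowerSeries.coeff_mk]; exact natCast_mem S _

lemma coeffIn_C : CoeffIn S C := fun n => by
  rw [C, PowerSeries.coeff_mk]; exact natCast_mem S _

lemma coeffIn_pow {p : PowerSeries ℂ} (hp : CoeffIn S p) (n : ℕ) : CoeffIn S (p ^ n) := by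
  induction n with
  | zero => rw [pow_zero]; exact CoeffIn.one
  | succ n ih => rw [pow_succ]; exact ih.mul hp

theorem isR_E4 : IsR S 1 4 E4 := isR_one_iff.2 ⟨isF_E4, by
  rw [qe_E4]; exact CoeffIn.one.add (coeffIn_A.smul (ofNat_mem S 240))⟩

theorem isR_E6 : IsR S 1 6 E6 := isR_one_iff.2 ⟨isF_E6, by
  rw [qe_E6]; exact CoeffIn.one.add (coeffIn_B.smul (neg_mem (ofNat_mem S 504)))⟩

theorem isR_Dl : IsR S 1 12 Dl := isR_one_iff.2 ⟨isF_Dl, by
  rw [qe_Dl]
  exact ((coeffIn_C.add ((coeffIn_pow coeffIn_A 2).smul (ofNat_mem S 100))).add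
    ((coeffIn_pow coeffIn_A 3).smul (ofNat_mem S 8000))).sub
    ((coeffIn_pow coeffIn_B 2).smul (ofNat_mem S 147))⟩

end ints

lemma coeff_zero_Dl : PowerSeries.coeff 0 (qe 1 Dl) = 0 := by
  rw [qe_Dl]
  simp [A, B, C, PowerSeries.coeff_zero_eq_constantCoeff]

lemma coeff_one_Dl : PowerSeries.coeff 1 (qe 1 Dl) = 1 := by
  have := ModularForm.discriminant_qExpansion_coeff_one
  rw [qe, Nat.cast_one]
  exact this

lemma coeffIn_of_mul {S : Subring ℂ} {u f : PowerSeries ℂ} (hu : CoeffIn S u)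
    (h0 : PowerSeries.coeff 0 u ≠ 0) (h1 : (PowerSeries.coeff 0 u)⁻¹ ∈ S)
    (h : CoeffIn S (u * f)) : CoeffIn S f := by
  intro n
  induction n using Nat.strong_induction_on with
  | _ n ih =>
    have h2 := h n
    rw [PowerSeries.coeff_mul, Finset.Nat.sum_antidiagonal_eq_sum_range_succ_mk,
      Finset.sum_range_succ'] at h2
    simp only [Nat.sub_zero] at h2
    have h3 : ∑ k ∈ Finset.range n, PowerSeries.coeff (k + 1) u * PowerSeries.coeff (n - (k + 1)) f ∈ S := by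
      apply S.sum_mem
      intro k hk
      rw [Finset.mem_range] at hk
      exact S.mul_mem (hu _) (ih _ (by omega))
    have h4 : PowerSeries.coeff 0 u * PowerSeries.coeff n f ∈ S := by
      have := S.sub_mem h2 h3
      simpa using this
    have h5 : PowerSeries.coeff n f = (PowerSeries.coeff 0 u)⁻¹ * (PowerSeries.coeff 0 u * PowerSeries.coeff n f) := by
      field_simp
    rw [h5]
    exact S.mul_mem h1 h4

/-- division by `Δ` on integral expansions -/
lemma coeffIn_of_Dl_mul {S : Subring ℂ} {f : PowerSeries ℂ} (h : CoeffIn S (qe 1 Dl * f)) :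
    CoeffIn S f := by
  set u : PowerSeries ℂ := PowerSeries.mk fun n => PowerSeries.coeff (n + 1) (qe 1 Dl) with hu
  have hD : qe 1 Dl = PowerSeries.X * u := by
    ext n
    rcases n with _ | n
    · rw [coeff_zero_Dl]; simp
    · rw [PowerSeries.coeff_succ_X_mul, hu, PowerSeries.coeff_mk]
  have hu0 : PowerSeries.coeff 0 u = 1 := by
    rw [hu, PowerSeries.coeff_mk]; exact coeff_one_Dl
  have huS : CoeffIn S u := fun n => by
    rw [hu, PowerSeries.coeff_mk]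
    exact (isR_one_iff.1 isR_Dl).2 _
  apply coeffIn_of_mul huS (by rw [hu0]; exact one_ne_zero) (by rw [hu0]; simp)
  intro n
  have := h (n + 1)
  rw [hD, mul_assoc, PowerSeries.coeff_succ_X_mul] at this
  exact this


/-- monomials of weight `k` -/
def mons (k : ℤ) : Set (ℍ → ℂ) :=
  {f | ∃ a b c : ℕ, (4 * a + 6 * b + 12 * c : ℤ) = k ∧ f = E4 ^ a * E6 ^ b * Dl ^ c}

lemma coeff_zero_mon (a b : ℕ) : PowerSeries.coeff 0 (qe 1 (E4 ^ a * E6 ^ b)) = 1 := by
  rw [qe_mul (isF_E4.pow a) (isF_E6.pow b), qe_pow isF_E4, qe_pow isF_E6, qe_E4, qe_E6]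
  simp [A, B]

lemma Dl_mul_mem {S : Subring ℂ} {k : ℤ} {g : ℍ → ℂ} (hg : g ∈ Submodule.span S (mons (k - 12))) :
    Dl * g ∈ Submodule.span S (mons k) := by
  induction hg using Submodule.span_induction with
  | mem x hx =>
    obtain ⟨a, b, c, h, rfl⟩ := hx
    refine Submodule.subset_span ⟨a, b, c + 1, by push_cast; linarith, ?_⟩
    rw [pow_succ]; ring
  | zero => rw [mul_zero]; exact Submodule.zero_mem _
  | add x y _ _ hx hy => rw [mul_add]; exact Submodule.add_mem _ hx hy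
  | smul c x _ hx => rw [mul_smul_comm]; exact Submodule.smul_mem _ _ hx

theorem mem_span_aux {S : Subring ℂ} : ∀ (m : ℕ) (k : ℤ), k < m → ∀ F : ℍ → ℂ, IsF 1 k F →
    CoeffIn S (qe 1 F) → F ∈ Submodule.span S (mons k) := by
  intro m
  induction m using Nat.strong_induction_on with
  | _ m ih =>
    intro k hkm F hF hFS
    have hF' := isMF_of_isF hF
    rcases lt_or_ge k 0 with hneg | hnn
    · have := ModularFormClass.levelOne_neg_weight_eq_zero hneg hF'.toSL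
      rw [show F = 0 by simpa using this]
      exact Submodule.zero_mem _
    rcases Int.even_or_odd k with hev | hodd
    swap
    · have := ModularForm.levelOne_odd_weight_eq_zero hodd hF'.toSL
      have h2 : (hF'.toSL : ℍ → ℂ) = 0 := by rw [this]; rfl
      rw [show F = 0 by simpa using h2]
      exact Submodule.zero_mem _
    lift k to ℕ using hnn
    have hevk : Even k := by exact_mod_cast hev
    by_cases hk2 : k = 2
    · subst hk2
      have hF2 : RatAlg.IsMF 1 2 F := by simpa using hF'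
      have := rank_zero_iff_forall_zero.mp ModularForm.levelOne_weight_two_rank_zero hF2.toSL
      have h2 : (hF2.toSL : ℍ → ℂ) = 0 := by rw [this]; rfl
      rw [show F = 0 by simpa using h2]
      exact Submodule.zero_mem _
    -- k = 4a + 6b
    obtain ⟨a, b, hab⟩ : ∃ a b : ℕ, k = 4 * a + 6 * b := by
      obtain ⟨t, ht⟩ := hevk
      rcases Nat.even_or_odd' t with ⟨s, hs | hs⟩
      · exact ⟨s, 0, by omega⟩
      · exact ⟨s - 1, 1, by omega⟩
    set c0 : ℂ := PowerSeries.coeff 0 (qe 1 F) with hc0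
    have hG : IsF 1 k (E4 ^ a * E6 ^ b) :=
      ((isF_E4.pow a).mul (isF_E6.pow b)).cast (by rw [hab]; push_cast; ring)
    have hGS : CoeffIn S (qe 1 (E4 ^ a * E6 ^ b)) := by
      rw [qe_mul (isF_E4.pow a) (isF_E6.pow b), qe_pow isF_E4, qe_pow isF_E6]
      exact (coeffIn_pow (isR_one_iff.1 isR_E4).2 a).mul (coeffIn_pow (isR_one_iff.1 isR_E6).2 b)
    have hH : IsF 1 k (F - c0 • (E4 ^ a * E6 ^ b)) := hF.sub (hG.smul c0)
    have hHq : qe 1 (F - c0 • (E4 ^ a * E6 ^ b)) = qe 1 F - c0 • qe 1 (E4 ^ a * E6 ^ b) := by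
      have h1 : F - c0 • (E4 ^ a * E6 ^ b) = F + (-c0) • (E4 ^ a * E6 ^ b) := by
        rw [_root_.neg_smul, sub_eq_add_neg]
      rw [h1, qe_add hF (hG.smul _), qe_smul hG, _root_.neg_smul, ← sub_eq_add_neg]
    have hHS : CoeffIn S (qe 1 (F - c0 • (E4 ^ a * E6 ^ b))) := by
      rw [hHq]; exact hFS.sub (hGS.smul (hFS 0))
    have hH0 : PowerSeries.coeff 0 (qe 1 (F - c0 • (E4 ^ a * E6 ^ b))) = 0 := by
      rw [hHq, map_sub, PowerSeries.coeff_smul, coeff_zero_mon]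
      simp [hc0]
    have hH' := isMF_of_isF hH
    have hH0' : (qExpansion 1 (hH'.toSL : ℍ → ℂ)).coeff 0 = 0 := by
      rw [RatAlg.IsMF.coe_toSL]
      rw [qe, Nat.cast_one] at hH0
      exact hH0
    let g := CuspForm.discriminantEquiv (ModularForm.toCuspForm hH'.toSL hH0')
    have hg : IsF 1 ((k : ℤ) - 12) g := isF_of_isMF (RatAlg.isMF_of_SL g)
    have h5 : F - c0 • (E4 ^ a * E6 ^ b) = Dl * (g : ℍ → ℂ) := by
      have := ModularForm.discriminant_mul_discriminantEquiv (ModularForm.toCuspForm hH'.toSL hH0')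
      rw [Dl, this]
      funext z
      simp
    have hgS : CoeffIn S (qe 1 (g : ℍ → ℂ)) := by
      apply coeffIn_of_Dl_mul
      rw [← qe_mul isF_Dl hg, ← h5]
      exact hHS
    have hgm : (g : ℍ → ℂ) ∈ Submodule.span S (mons ((k : ℤ) - 12)) := by
      rcases lt_or_ge (k : ℤ) 12 with hlt | hge
      · exact ih 0 (by omega) _ (by push_cast; linarith) _ hg hgS
      · exact ih (k + 1 - 12) (by omega) _ (by omega) _ hg hgS
    have h6 : F = (⟨c0, hFS 0⟩ : S) • (E4 ^ a * E6 ^ b) + Dl * (g : ℍ → ℂ) := by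
      rw [← h5]
      show F = c0 • (E4 ^ a * E6 ^ b) + _
      ring
    rw [h6]
    refine Submodule.add_mem _ (Submodule.smul_mem _ _ (Submodule.subset_span
      ⟨a, b, 0, by rw [hab]; push_cast; ring, by rw [pow_zero, mul_one]⟩)) (Dl_mul_mem hgm)

/-- **Level one forms with coefficients in `S`** are `S`-combinations of `E₄^a E₆^b Δ^c`. -/
theorem mem_span {S : Subring ℂ} {k : ℤ} {F : ℍ → ℂ} (hF : IsR S 1 k F) :
    F ∈ Submodule.span S (mons k) := by
  have := isR_one_iff.1 hF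
  exact mem_span_aux (k.toNat + 1) k (by omega) F this.1 this.2

end

end Crest.Agent.R007.Lev1
end

-- ▼ part R007/ELev1

/-!
R007/ELev1: level one forms modulo 2 are polynomials in `A₁` and `Δ`.
-/

set_option autoImplicit false

namespace Crest.Agent.R007.Lev1

open UpperHalfPlane ModularForm CongruenceSubgroup
open Crest.Agent.R007.Rat Crest.Agent.R007.Tc
open scoped MatrixGroups Manifold

noncomputable section

variable {O : Subring ℂ}

/-- congruence modulo `2` between integral forms of level `Γ(M)` and weight `k` -/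
def Cg (O : Subring ℂ) (M : ℕ) (k : ℤ) (F F' : ℍ → ℂ) : Prop :=
  IsR O M k F' ∧ ∃ G, IsR O M k G ∧ F = F' + (2 : ℂ) • G

lemma two_mem (O : Subring ℂ) : (2 : ℂ) ∈ O := ofNat_mem O 2

lemma Cg.refl {M : ℕ} {k : ℤ} {F : ℍ → ℂ} (h : IsR O M k F) : Cg O M k F F :=
  ⟨h, 0, IsR.zero, by simp⟩


lemma Cg.mul {M : ℕ} [NeZero M] {k l : ℤ} {F F' H H' : ℍ → ℂ} (h : Cg O M k F F')
    (h' : Cg O M l H H') : Cg O M (k + l) (F * H) (F' * H') := by
  obtain ⟨h1, G, hG, rfl⟩ := h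
  obtain ⟨h2, K, hK, rfl⟩ := h'
  refine ⟨h1.mul h2, F' * K + G * H' + (2 : ℂ) • (G * K),
    ((h1.mul hK).add (hG.mul h2)).add ((hG.mul hK).smul (two_mem O)), ?_⟩
  funext τ
  simp only [Pi.mul_apply, Pi.add_apply, Pi.smul_apply, smul_eq_mul]
  ring

lemma Cg.cast {M : ℕ} {k k' : ℤ} {F F' : ℍ → ℂ} (e : k = k') (h : Cg O M k F F') : Cg O M k' F F' :=
  e ▸ h

lemma Cg.pow {M : ℕ} [NeZero M] {k : ℤ} {F F' : ℍ → ℂ} (h : Cg O M k F F') (n : ℕ) :
    Cg O M ((n : ℤ) * k) (F ^ n) (F' ^ n) := by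
  induction n with
  | zero => simpa using Cg.refl (IsR.one (S := O) (M := M))
  | succ n ih =>
    rw [pow_succ, pow_succ]
    exact (ih.mul h).cast (by push_cast; ring)

variable {v : Fin 2 → ℤ}

lemma cg_E4 (hO : OddRing O) (hv : NZ 3 v) : Cg O 3 4 E4 (A1 v ^ 4) := by
  refine ⟨((isR_A1 hO hv).pow 4).cast (by norm_num), (-12 : ℂ) • (A1 v * A3 v),
    (((isR_A1 hO hv).mul (isR_A3 hO hv)).smul (neg_mem (ofNat_mem O 12))).cast (by norm_num), ?_⟩
  funext τ
  have := E4_eq hv (τ := τ)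
  simp only [Pi.mul_apply, Pi.add_apply, Pi.smul_apply, smul_eq_mul, Pi.pow_apply, E4]
  rw [this]
  ring

lemma cg_E6 (hO : OddRing O) (hv : NZ 3 v) : Cg O 3 6 E6 (A1 v ^ 6) := by
  refine ⟨((isR_A1 hO hv).pow 6).cast (by norm_num),
    (-18 : ℂ) • (A1 v ^ 3 * A3 v) + (108 : ℂ) • (A3 v ^ 2),
    (((((isR_A1 hO hv).pow 3).mul (isR_A3 hO hv)).smul (neg_mem (ofNat_mem O 18))).cast
      (by norm_num)).add ((((isR_A3 hO hv).pow 2).smul (ofNat_mem O 108)).cast (by norm_num)), ?_⟩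
  funext τ
  have := E6_eq hv (τ := τ)
  simp only [Pi.mul_apply, Pi.add_apply, Pi.smul_apply, smul_eq_mul, Pi.pow_apply, E6]
  rw [this]
  ring

lemma isR_Dl3 : IsR O 3 12 Dl := IsR.mono_level (one_dvd 3) isR_Dl

/-- statement for one form -/
def Lv (O : Subring ℂ) (v : Fin 2 → ℤ) (k : ℕ) (F : ℍ → ℂ) : Prop :=
  ∃ (c : ℕ → ℂ) (G : ℍ → ℂ), (∀ i, c i ∈ O) ∧ IsR O 3 k G ∧
    F = ∑ i ∈ Finset.range (k / 12 + 1), c i • (Dl ^ i * A1 v ^ (k - 12 * i)) + (2 : ℂ) • G

lemma Lv.add {k : ℕ} {F F' : ℍ → ℂ} (h : Lv O v k F) (h' : Lv O v k F') : Lv O v k (F + F') := by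
  obtain ⟨c, G, hc, hG, e⟩ := h
  obtain ⟨c', G', hc', hG', e'⟩ := h'
  refine ⟨c + c', G + G', fun i => add_mem (hc i) (hc' i), hG.add hG', ?_⟩
  rw [e, e']
  simp only [Pi.add_apply, _root_.add_smul, Finset.sum_add_distrib, _root_.smul_add]
  ring

lemma Lv.smul {k : ℕ} {F : ℍ → ℂ} (h : Lv O v k F) {a : ℂ} (ha : a ∈ O) : Lv O v k (a • F) := by
  obtain ⟨c, G, hc, hG, e⟩ := h
  refine ⟨fun i => a * c i, a • G, fun i => mul_mem ha (hc i), hG.smul ha, ?_⟩
  rw [e, _root_.smul_add, Finset.smul_sum, smul_comm a (2 : ℂ) G]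
  congr 1
  refine Finset.sum_congr rfl fun i _ => ?_
  rw [smul_smul]

lemma Lv.zero {k : ℕ} : Lv O v k 0 := ⟨0, 0, fun _ => zero_mem _, IsR.zero, by simp⟩

theorem lev1_fun (hO : OddRing O) (hv : NZ 3 v) {k : ℕ} {F : ℍ → ℂ} (hF : IsR O 1 k F) :
    Lv O v k F := by
  have h := mem_span hF
  clear hF
  induction h using Submodule.span_induction with
  | zero => exact Lv.zero
  | add x y _ _ hx hy => exact hx.add hy
  | smul a x _ hx => exact hx.smul a.2
  | mem x hx =>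
    obtain ⟨a, b, c, habc, rfl⟩ := hx
    have habc' : 4 * a + 6 * b + 12 * c = k := by exact_mod_cast habc
    have h1 : Cg O 3 ((a : ℤ) * 4 + (b : ℤ) * 6) (E4 ^ a * E6 ^ b) ((A1 v ^ 4) ^ a * (A1 v ^ 6) ^ b) :=
      ((cg_E4 hO hv).pow a).mul ((cg_E6 hO hv).pow b)
    obtain ⟨h2, G, hG, e⟩ := h1
    have hcle : c ≤ k / 12 := by omega
    refine ⟨fun i => if i = c then 1 else 0, G * Dl ^ c, fun i => ?_, ?_, ?_⟩
    · show (if i = c then (1 : ℂ) else 0) ∈ O
      split_ifs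
      · exact one_mem _
      · exact zero_mem _
    · exact (hG.mul (isR_Dl3.pow c)).cast (by rw [← habc']; push_cast; ring)
    · rw [Finset.sum_eq_single c]
      · simp only [if_true]
        rw [e, one_smul, add_mul, smul_mul_assoc]
        congr 1
        have h3 : k - 12 * c = 4 * a + 6 * b := by omega
        rw [h3, pow_add, pow_mul, pow_mul]
        ring
      · intro i _ hi
        simp [hi]
      · intro hn
        exact absurd (Finset.mem_range.2 (by omega)) hn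

/-! ### on `X` -/

open Crest.Agent.R007.Lat in
/-- `lift` of `A₁` -/
def AX (v : Fin 2 → ℤ) : X → ℂ := lift 1 (A1 v)

open Crest.Agent.R007.Lat in
/-- `lift` of `A₃` -/
def BX (v : Fin 2 → ℤ) : X → ℂ := lift 3 (A3 v)

open Crest.Agent.R007.Lat in
/-- `lift` of `Δ` -/
def DX : X → ℂ := lift 12 Dl

open Crest.Agent.R007.Lat in
lemma lift_pow' (k n : ℕ) (f : ℍ → ℂ) : lift (k * n) (f ^ n) = lift k f ^ n := by
  induction n with
  | zero => simpa using lift_one
  | succ n ih => rw [pow_succ, pow_succ, ← ih, ← lift_mul]; rfl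

open Crest.Agent.R007.Lat in
lemma DX_eq (hv : NZ 3 v) : DX = BX v ^ 3 * (AX v ^ 3 - 27 * BX v) := by
  funext x
  have h := disc_eq hv (τ := x.t)
  simp only [DX, BX, AX, Dl, Pi.mul_apply, Pi.pow_apply, Pi.sub_apply, lift_apply]
  rw [h]
  simp only [Pi.ofNat_apply]
  ring

open Crest.Agent.R007.Lat in
lemma isR_res {k : ℕ} {F : X → ℂ} (hF : F ∈ Mix.Lk O k) (h1 : F ∈ MX 1 k) : IsR O 1 k (res F) := by
  rw [isR_one_iff]
  have h2 := h1
  rw [mem_MX] at h2
  obtain ⟨f, rfl⟩ := h2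
  rw [res_lift]
  refine ⟨IsF.of_modularForm f, fun n => ?_⟩
  have h3 := (hF.2 1 (one_mem _))
  rw [sl_one_right, res_lift] at h3
  have h4 := h3.2 ((n : ℚ) / (1 : ℕ))
  have h5 : (f : ℍ → ℂ) ∈ PB ((1 : ℕ) : ℝ) := by
    have := res_mem_PB h1
    rwa [res_lift] at this
  rw [qf_eq' 1 odd_one h5, emb_coeff] at h4
  exact h4

open Crest.Agent.R007.Lat in
/-- **lev1** (field of `EIn`) -/
theorem lev1_X (hO : OddRing O) (hv : NZ 3 v)
    (hL : ∀ (k : ℕ) (G : ℍ → ℂ), IsR O 3 k G → lift k G ∈ Mix.Lk O k) {k : ℕ} {F : X → ℂ}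
    (hF : F ∈ Mix.Lk O k) (h1 : F ∈ MX 1 k) :
    ∃ c : ℕ → ℂ, (∀ i, c i ∈ O) ∧ ∃ G ∈ Mix.Lk O k,
      F = ∑ i ∈ Finset.range (k / 12 + 1), c i • (DX ^ i * AX v ^ (k - 12 * i)) + (2 : ℂ) • G := by
  obtain ⟨c, G, hc, hG, e⟩ := lev1_fun hO hv (isR_res hF h1)
  refine ⟨c, hc, lift k G, hL k G hG, ?_⟩
  have hFw : F = lift k (res F) := (lift_res (MX_le_Wt h1)).symm
  rw [hFw, e, lift_add, lift_smul]
  congr 1
  funext x
  simp only [lift_apply, Finset.sum_apply, Pi.smul_apply, Pi.mul_apply, Pi.pow_apply, smul_eq_mul,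
    DX, AX, Finset.mul_sum]
  refine Finset.sum_congr rfl fun i hi => ?_
  rw [Finset.mem_range] at hi
  have h12 : 12 * i ≤ k := by omega
  have hk : k = 12 * i + (k - 12 * i) := by omega
  set r := k - 12 * i
  rw [hk]
  ring

end

end Crest.Agent.R007.Lev1
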