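import Crest.Agent.R007.FRig
import Crest.Agent.R007.FAct
import Mathlib
import Crest.Agent.R007.HDefs
import Crest.Agent.R007.FGrp

-- ▼ part R007/FCen
section

/-!
Row 7, section F (helper507): the multiplications `[c]` (`c` odd) as elements of `𝒢`, and the
smoothness statement: pairs whose reduction is close to some `[c]` act trivially modulo a high power
of `t`.
-/

set_option autoImplicit false

open PowerSeries Crest.LubinTate

namespace Crest.Agent.R007.F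

section

variable {A : Type*} [CommRing A]

theorem fgMap_id (Φ : FormalGroup A) : Φ.map (RingHom.id A) = Φ := by
  ext1
  change MvPowerSeries.map (RingHom.id A) Φ.toPowerSeries = Φ.toPowerSeries
  rw [MvPowerSeries.map_id]
  rfl

end

variable {κ : Type*} [Field κ] [CharP κ 2]

theorem hom_mul (D : FData κ) (c : ℕ) (s : PowerSeries κ →+* PowerSeries κ) (hs : s = RingHom.id _) :
    IsFGHom D.Φ (D.Φ.map s) (mulSeries D.Φ c) := by
  have := D.comm
  subst hs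
  rw [fgMap_id]
  exact R227.IsFGHom.mulSeries D.Φ c

theorem unit_mul (D : FData κ) {c : ℕ} (hc : Odd c) :
    IsUnit (coeff 1 (mulSeries D.Φ c)) := by
  rw [R227.coeff_one_mulSeries]
  obtain ⟨k, rfl⟩ := hc
  have h2 : (2 : PowerSeries κ) = 0 := CharTwo.two_eq_zero
  push_cast
  rw [h2, zero_mul, zero_add]
  exact isUnit_one

/-- the central element `[c]` of `𝒢`, `c` odd -/
noncomputable def cen (D : FData κ) {c : ℕ} (hc : Odd c) : Pr D where
  s := AlgEquiv.refl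
  H := mulSeries D.Φ c
  hom := hom_mul D c _ rfl
  unit := unit_mul D hc

theorem cen_red (D : FData κ) {c : ℕ} (hc : Odd c) : (cen D hc).red = mulSeries D.Φ0 c :=
  R227.mulSeries_map _ _ _

/-- pairs whose reduction agrees with `[c]` (`c` odd) below `2^m` act trivially modulo `t^{m+1}` -/
theorem dvd_of_cong (D : FData κ) (p : Pr D) {c : ℕ} (hc : Odd c) {m : ℕ} (hm : 1 ≤ m)
    (h : ∀ i < 2 ^ m, coeff i p.red = coeff i (mulSeries D.Φ0 c)) (a : PowerSeries κ) :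
    X ^ (m + 1) ∣ p.s a - a := by
  have := cont D (s := (p.s : PowerSeries κ →ₐ[κ] PowerSeries κ)) (s' := AlgHom.id κ _) p.hom p.unit
    (hom_mul D c _ rfl) (unit_mul D hc) hm (fun i hi => by
      have h1 := h i hi
      rw [← cen_red D hc] at h1
      simpa only [Pr.red, PowerSeries.coeff_map, cen] using h1) a
  exact this

end Crest.Agent.R007.F
end

-- ▼ part R007/Filt
section

/-! Row 7, part H, hypotheses (h1)-(h4): the filtration of a group mapping to the units of a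
ring `O` of rank `4` over the 2-adic integers, by congruence to odd integers modulo `2^n`. -/

set_option autoImplicit false

open scoped commutatorElement

namespace Crest.Agent.R007.Filt

section Basic

variable {O : Type*} [Ring O]

/-- `x` is congruent to an odd integer modulo `2^n`. -/
def OddMod (n : ℕ) (x : O) : Prop := ∃ c : ℤ, Odd c ∧ ∃ y : O, x = (c : O) + (2 : O) ^ n * y

theorem two_pow_mul (n : ℕ) (y : O) : (2 : O) ^ n * y = ((2 : ℤ) ^ n) • y := by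
  rw [zsmul_eq_mul]; push_cast; rfl

theorem intCast_eq (c : ℤ) : (c : O) = c • (1 : O) := by simp

theorem oddMod_iff {n : ℕ} {x : O} :
    OddMod n x ↔ ∃ c : ℤ, Odd c ∧ ∃ y : O, x = c • (1 : O) + ((2 : ℤ) ^ n) • y := by
  unfold OddMod
  simp only [two_pow_mul, intCast_eq]

theorem exists_odd_inv (n : ℕ) (c : ℤ) (hc : Odd c) :
    ∃ c' m : ℤ, Odd c' ∧ c * c' = 1 + 2 ^ n * m := by
  have h : IsCoprime c ((2 : ℤ) ^ (n + 1)) := by
    apply IsCoprime.pow_right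
    rw [Int.isCoprime_iff_gcd_eq_one]
    have := Int.odd_iff.mp hc
    rw [Int.gcd_comm]
    have h2 : Nat.Coprime 2 c.natAbs := by
      rw [Nat.coprime_two_left]
      exact Int.natAbs_odd.mpr hc
    simpa [Int.gcd] using h2
  obtain ⟨a, b, hab⟩ := h
  refine ⟨a, -(2 * b), ?_, ?_⟩
  · have : Odd (a * c) := by
      have : a * c = 1 + 2 * (-(b * 2 ^ n)) := by
        rw [pow_succ] at hab; linear_combination hab
      rw [this]; exact Odd.add_even odd_one (even_two_mul _)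
    exact (Int.odd_mul.mp this).1
  · rw [pow_succ] at hab; linear_combination hab

end Basic

section Group

variable {G O : Type*} [Group G] [Ring O] (ι : G →* O)

theorem oddMod_mul {n : ℕ} {x x' : O} (h : OddMod n x) (h' : OddMod n x') : OddMod n (x * x') := by
  rw [oddMod_iff] at *
  obtain ⟨c, hc, y, rfl⟩ := h
  obtain ⟨c', hc', y', rfl⟩ := h'
  refine ⟨c * c', hc.mul hc', c • y' + c' • y + ((2 : ℤ) ^ n) • (y * y'), ?_⟩
  simp only [add_mul, mul_add, smul_mul_assoc, mul_smul_comm, one_mul, mul_one]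
  module

theorem oddMod_inv {n : ℕ} {x x' : O} (h : OddMod n x) (hx : x' * x = 1) : OddMod n x' := by
  rw [oddMod_iff] at *
  obtain ⟨c, hc, y, rfl⟩ := h
  obtain ⟨c', m, hc', hm⟩ := exists_odd_inv n c hc
  refine ⟨c', hc', -(c' • (x' * y)) - m • x', ?_⟩
  have h1 : c • x' = 1 - ((2 : ℤ) ^ n) • (x' * y) := by
    rw [← hx]; simp only [mul_add, mul_smul_comm, mul_one]; abel
  have h2 : x' = (c * c') • x' - ((2 : ℤ) ^ n * m) • x' := by rw [hm]; module
  calc x' = (c * c') • x' - ((2 : ℤ) ^ n * m) • x' := h2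
    _ = c' • (c • x') - ((2 : ℤ) ^ n * m) • x' := by rw [smul_smul, mul_comm c' c]
    _ = _ := by rw [h1]; module

/-- The filtration. -/
def F (n : ℕ) : Subgroup G where
  carrier := {g | OddMod n (ι g)}
  mul_mem' {a b} ha hb := by
    have : OddMod n (ι a * ι b) := oddMod_mul ha hb
    simpa [← map_mul] using this
  one_mem' := by
    show OddMod n (ι 1)
    rw [map_one]
    exact ⟨1, odd_one, 0, by simp⟩
  inv_mem' {a} ha := by
    refine oddMod_inv (x' := ι a⁻¹) ha ?_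
    rw [← map_mul]; simp

theorem mem_F {n : ℕ} {g : G} : g ∈ F ι n ↔ OddMod n (ι g) := Iff.rfl

theorem mem_F' {n : ℕ} {g : G} :
    g ∈ F ι n ↔ ∃ c : ℤ, Odd c ∧ ∃ y : O, ι g = c • (1 : O) + ((2 : ℤ) ^ n) • y :=
  oddMod_iff

theorem F_antitone : Antitone (F ι) := by
  apply antitone_nat_of_succ_le
  intro n g hg
  rw [mem_F'] at *
  obtain ⟨c, hc, y, hy⟩ := hg
  exact ⟨c, hc, (2 : ℤ) • y, by rw [hy, smul_smul, pow_succ]⟩


theorem F_normal (n : ℕ) : (F ι n).Normal := by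
  refine ⟨fun g hg h => ?_⟩
  rw [mem_F'] at *
  obtain ⟨c, hc, y, hy⟩ := hg
  refine ⟨c, hc, ι h * y * ι h⁻¹, ?_⟩
  have h1 : ι h * ι h⁻¹ = 1 := by rw [← map_mul]; simp
  rw [map_mul, map_mul, hy]
  simp only [add_mul, mul_add, smul_mul_assoc, mul_smul_comm, mul_one, h1]

/-- The commutator formula. -/
theorem comm_eq (g h : G) :
    ι ⁅g, h⁆ = 1 + (ι g * ι h - ι h * ι g) * (ι g⁻¹ * ι h⁻¹) := by
  have h1 : ι h * ι g * (ι g⁻¹ * ι h⁻¹) = 1 := by
    rw [← map_mul, ← map_mul, ← map_mul]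
    have : h * g * (g⁻¹ * h⁻¹) = 1 := by group
    rw [this, map_one]
  rw [sub_mul, h1, commutatorElement_def, map_mul, map_mul, map_mul]
  noncomm_ring

/-- (h3) -/
theorem comm_le (i j : ℕ) : ⁅F ι i, F ι j⁆ ≤ F ι (i + j) := by
  rw [Subgroup.commutator_le]
  intro g hg h hh
  rw [mem_F'] at *
  obtain ⟨c, hc, y, hy⟩ := hg
  obtain ⟨c', hc', y', hy'⟩ := hh
  refine ⟨1, odd_one, (y * y' - y' * y) * (ι g⁻¹ * ι h⁻¹), ?_⟩
  rw [comm_eq]
  have : ι g * ι h - ι h * ι g = ((2 : ℤ) ^ (i + j)) • (y * y' - y' * y) := by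
    rw [hy, hy']
    simp only [add_mul, mul_add, smul_mul_assoc, mul_smul_comm, mul_one, one_mul, pow_add]
    module
  rw [this, smul_mul_assoc, one_smul]

/-- `y` is a leading term of `g` at level `n`. -/
def Lead (n : ℕ) (g : G) (y : O) : Prop :=
  ∃ c : ℤ, Odd c ∧ ∃ w : O, ι g = c • (1 : O) + ((2 : ℤ) ^ n) • y + ((2 : ℤ) ^ (n + 1)) • w

variable {ι}

theorem Lead.mem {n : ℕ} {g : G} {y : O} (h : Lead ι n g y) : g ∈ F ι n := by
  rw [mem_F']
  obtain ⟨c, hc, w, hw⟩ := h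
  exact ⟨c, hc, y + (2 : ℤ) • w, by rw [hw, pow_succ]; module⟩

theorem exists_lead {n : ℕ} {g : G} (h : g ∈ F ι n) : ∃ y, Lead ι n g y := by
  rw [mem_F'] at h
  obtain ⟨c, hc, y, hy⟩ := h
  exact ⟨y, c, hc, 0, by rw [hy]; simp⟩

theorem Lead.mul {n : ℕ} (hn : 1 ≤ n) {g h : G} {y z : O} (hg : Lead ι n g y) (hh : Lead ι n h z) :
    Lead ι n (g * h) (y + z) := by
  obtain ⟨c, hc, w, hw⟩ := hg
  obtain ⟨c', hc', w', hw'⟩ := hh
  obtain ⟨k, rfl⟩ := hc
  obtain ⟨k', rfl⟩ := hc'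
  obtain ⟨m, rfl⟩ : ∃ m, n = m + 1 := ⟨n - 1, by omega⟩
  refine ⟨(2 * k + 1) * (2 * k' + 1), Odd.mul ⟨k, rfl⟩ ⟨k', rfl⟩,
    k' • y + k • z + (2 * k + 1) • w' + (2 * k' + 1) • w +
      ((2 : ℤ) ^ m) • ((y + (2 : ℤ) • w) * (z + (2 : ℤ) • w')), ?_⟩
  rw [map_mul, hw, hw']
  simp only [add_mul, mul_add, smul_mul_assoc, mul_smul_comm, mul_one, one_mul, pow_succ]
  module

theorem Lead.inv {n : ℕ} (hn : 1 ≤ n) {g : G} {y : O} (hg : Lead ι n g y) :
    Lead ι n g⁻¹ y := by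
  -- choose a lead `z` of `g⁻¹`; `y + z` is a lead of `1`, hence `y ≡ z` up to integers
  obtain ⟨c, hc, w, hw⟩ := hg
  obtain ⟨c', m, hc', hm⟩ := exists_odd_inv (n + 1) c hc
  obtain ⟨k, rfl⟩ := hc'
  obtain ⟨l, rfl⟩ : ∃ l, n = l + 1 := ⟨n - 1, by omega⟩
  set x' := ι g⁻¹ with hx'
  have hx : x' * ι g = 1 := by rw [hx', ← map_mul]; simp
  -- x' = c' - 2^n c' x' y - ...
  have h1 : c • x' = 1 - ((2 : ℤ) ^ (l + 1)) • (x' * y) - ((2 : ℤ) ^ (l + 1 + 1)) • (x' * w) := by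
    rw [← hx, hw]; simp only [mul_add, mul_smul_comm, mul_one]; abel
  have h2 : x' = (c * (2 * k + 1)) • x' - ((2 : ℤ) ^ (l + 1 + 1) * m) • x' := by rw [hm]; module
  have h3 : x' = (2 * k + 1) • (1 : O) - ((2 : ℤ) ^ (l + 1) * (2 * k + 1)) • (x' * y)
      - ((2 : ℤ) ^ (l + 1 + 1) * (2 * k + 1)) • (x' * w) - ((2 : ℤ) ^ (l + 1 + 1) * m) • x' := by
    calc x' = (c * (2 * k + 1)) • x' - ((2 : ℤ) ^ (l + 1 + 1) * m) • x' := h2
      _ = (2 * k + 1) • (c • x') - ((2 : ℤ) ^ (l + 1 + 1) * m) • x' := by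
        rw [smul_smul, mul_comm c]
      _ = _ := by rw [h1]; module
  -- `x' = 1 + 2 z0`
  obtain ⟨z0, hz0⟩ : ∃ z0, x' = (1 : O) + (2 : ℤ) • z0 := by
    refine ⟨k • (1 : O) - ((2 : ℤ) ^ l * (2 * k + 1)) • (x' * y)
      - ((2 : ℤ) ^ (l + 1) * (2 * k + 1)) • (x' * w) - ((2 : ℤ) ^ (l + 1) * m) • x', ?_⟩
    conv_lhs => rw [h3]
    simp only [pow_succ]
    module
  refine ⟨2 * k + 1, ⟨k, rfl⟩, -(k + 1) • y - (2 * k + 1) • (z0 * y)
      - (2 * k + 1) • (x' * w) - m • x', ?_⟩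
  refine h3.trans ?_
  have h4 : x' * y = y + (2 : ℤ) • (z0 * y) := by
    conv_lhs => rw [hz0]
    rw [add_mul, one_mul, smul_mul_assoc]
  rw [h4]
  simp only [pow_succ]
  module

theorem Lead.sq {n : ℕ} (hn : 2 ≤ n) {g : G} {y : O} (hg : Lead ι n g y) :
    Lead ι (n + 1) (g ^ 2) y := by
  obtain ⟨c, hc, w, hw⟩ := hg
  obtain ⟨k, rfl⟩ := hc
  obtain ⟨m, rfl⟩ : ∃ m, n = m + 2 := ⟨n - 2, by omega⟩
  refine ⟨(2 * k + 1) * (2 * k + 1), Odd.mul ⟨k, rfl⟩ ⟨k, rfl⟩,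
    k • y + (2 * k + 1) • w +
      ((2 : ℤ) ^ m) • ((y + (2 : ℤ) • w) * (y + (2 : ℤ) • w)), ?_⟩
  rw [pow_two, map_mul, hw]
  simp only [add_mul, mul_add, smul_mul_assoc, mul_smul_comm, mul_one, one_mul, pow_succ]
  module

theorem Lead.pow_two_pow {n : ℕ} (hn : 2 ≤ n) {g : G} {y : O} (hg : Lead ι n g y) (k : ℕ) :
    Lead ι (n + k) (g ^ (2 ^ k)) y := by
  induction k with
  | zero => simpa using hg
  | succ k ih =>
    have := Lead.sq (by omega) ih
    rwa [← pow_mul, ← pow_succ] at this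

theorem lead_one_two (n : ℕ) (z : O) : Lead ι n (1 : G) ((2 : ℤ) • z) :=
  ⟨1, odd_one, -z, by rw [map_one, pow_succ]; module⟩


/-- leading term in `ℤ + 2 O` means one step deeper. -/
theorem Lead.mem_succ {n : ℕ} (hn : 1 ≤ n) {g : G} {y z : O} {m : ℤ} (hg : Lead ι n g y)
    (hy : y = m • (1 : O) + (2 : ℤ) • z) : g ∈ F ι (n + 1) := by
  rw [mem_F']
  obtain ⟨c, hc, w, hw⟩ := hg
  obtain ⟨l, rfl⟩ : ∃ l, n = l + 1 := ⟨n - 1, by omega⟩
  refine ⟨c + 2 ^ (l + 1) * m, ?_, z + w, ?_⟩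
  · refine Odd.add_even hc ?_
    rw [pow_succ]
    exact ⟨2 ^ l * m, by ring⟩
  · rw [hw, hy]
    simp only [pow_succ]
    module

end Group

end Crest.Agent.R007.Filt
end

-- ▼ part R007/Filt2
section

/-! Row 7, part H, hypotheses (h1)-(h4): stabilisation of the graded pieces and the main theorem. -/

set_option autoImplicit false

open scoped commutatorElement

namespace Crest.Agent.R007.Filt

section Quot

variable (O : Type*) [Ring O]

/-- `ℤ + 2 O`. -/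
def N0 : AddSubgroup O where
  carrier := {x | ∃ m : ℤ, ∃ z : O, x = m • (1 : O) + (2 : ℤ) • z}
  add_mem' := by
    rintro _ _ ⟨m, z, rfl⟩ ⟨m', z', rfl⟩
    exact ⟨m + m', z + z', by module⟩
  zero_mem' := ⟨0, 0, by simp⟩
  neg_mem' := by
    rintro _ ⟨m, z, rfl⟩
    exact ⟨-m, -z, by module⟩

/-- `2 O`. -/
def N2 : AddSubgroup O where
  carrier := {x | ∃ z : O, x = (2 : ℤ) • z}
  add_mem' := by
    rintro _ _ ⟨z, rfl⟩ ⟨z', rfl⟩
    exact ⟨z + z', by module⟩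
  zero_mem' := ⟨0, by simp⟩
  neg_mem' := by
    rintro _ ⟨z, rfl⟩
    exact ⟨-z, by module⟩

variable {O}



theorem two_nsmul_mem_N0 (x : O) : 2 • x ∈ N0 O := ⟨0, x, by
  rw [zero_smul, zero_add, two_zsmul, two_nsmul]⟩

theorem two_nsmul_mem_N2 (x : O) : 2 • x ∈ N2 O := ⟨x, by
  rw [two_zsmul, two_nsmul]⟩

variable (O)

instance instModV : Module (ZMod 2) (O ⧸ N0 O) := QuotientAddGroup.zmodModule two_nsmul_mem_N0

instance instModQ : Module (ZMod 2) (O ⧸ N2 O) := QuotientAddGroup.zmodModule two_nsmul_mem_N2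

theorem N2_le : N2 O ≤ N0 O := by
  rintro _ ⟨z, rfl⟩
  exact ⟨0, z, by simp⟩

/-- the projection `O/2O → O/(ℤ+2O)`. -/
def projQV : (O ⧸ N2 O) →+ (O ⧸ N0 O) :=
  QuotientAddGroup.map (N2 O) (N0 O) (AddMonoidHom.id O) (by intro x hx; exact N2_le O hx)

variable {O}

theorem finite_Q (hfin : ∃ s : Finset O, s.card ≤ 16 ∧ ∀ x : O, ∃ y ∈ s, ∃ z : O, x = y + 2 * z) :
    Finite (O ⧸ N2 O) ∧ Nat.card (O ⧸ N2 O) ≤ 16 := by
  obtain ⟨s, hs, h⟩ := hfin
  have hsurj : Function.Surjective (fun y : s => ((y : O) : O ⧸ N2 O)) := by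
    intro q
    induction q using QuotientAddGroup.induction_on with
    | H x =>
      obtain ⟨y, hy, z, hz⟩ := h x
      refine ⟨⟨y, hy⟩, ?_⟩
      rw [QuotientAddGroup.eq]
      refine ⟨z, ?_⟩
      rw [hz]
      have : (2 : O) * z = (2 : ℤ) • z := by rw [zsmul_eq_mul]; push_cast; rfl
      rw [this]; abel
  refine ⟨Finite.of_surjective _ hsurj, ?_⟩
  calc Nat.card (O ⧸ N2 O) ≤ Nat.card s := Nat.card_le_card_of_surjective _ hsurj
    _ = s.card := by simp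
    _ ≤ 16 := hs

theorem finite_V (hfin : ∃ s : Finset O, s.card ≤ 16 ∧ ∀ x : O, ∃ y ∈ s, ∃ z : O, x = y + 2 * z) :
    Finite (O ⧸ N0 O) := by
  haveI := (finite_Q hfin).1
  refine Finite.of_surjective (projQV O) ?_
  intro q
  induction q using QuotientAddGroup.induction_on with
  | H x => exact ⟨(x : O ⧸ N2 O), rfl⟩

theorem finrank_V (hone : ∀ x : O, (1 : O) ≠ 2 * x)
    (hfin : ∃ s : Finset O, s.card ≤ 16 ∧ ∀ x : O, ∃ y ∈ s, ∃ z : O, x = y + 2 * z) :
    Module.finrank (ZMod 2) (O ⧸ N0 O) ≤ 3 := by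
  obtain ⟨h1, h2⟩ := finite_Q hfin
  haveI := h1
  haveI := finite_V hfin
  haveI : Module.Finite (ZMod 2) (O ⧸ N2 O) := Module.Finite.of_finite
  have h4 : Module.finrank (ZMod 2) (O ⧸ N2 O) ≤ 4 := by
    have h := Module.natCard_eq_pow_finrank (K := ZMod 2) (V := O ⧸ N2 O)
    rw [h, Nat.card_zmod] at h2
    by_contra hcon
    have : 2 ^ 5 ≤ 2 ^ Module.finrank (ZMod 2) (O ⧸ N2 O) := Nat.pow_le_pow_right (by norm_num)
      (by omega)
    omega
  let f : (O ⧸ N2 O) →ₗ[ZMod 2] (O ⧸ N0 O) := (projQV O).toZModLinearMap 2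
  have hf : Function.Surjective f := by
    intro q
    induction q using QuotientAddGroup.induction_on with
    | H x => exact ⟨(x : O ⧸ N2 O), rfl⟩
  have h5 := LinearMap.finrank_range_add_finrank_ker f
  rw [LinearMap.range_eq_top.mpr hf, finrank_top] at h5
  have h6 : 0 < Module.finrank (ZMod 2) (LinearMap.ker f) := by
    have hne : ((1 : O) : O ⧸ N2 O) ≠ 0 := by
      intro h
      rw [QuotientAddGroup.eq_zero_iff] at h
      obtain ⟨z, hz⟩ := h
      apply hone z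
      have : (2 : O) * z = (2 : ℤ) • z := by rw [zsmul_eq_mul]; push_cast; rfl
      rw [this]; exact hz
    have hmem : ((1 : O) : O ⧸ N2 O) ∈ LinearMap.ker f := by
      rw [LinearMap.mem_ker]
      show ((1 : O) : O ⧸ N0 O) = 0
      rw [QuotientAddGroup.eq_zero_iff]
      exact ⟨1, 0, by simp⟩
    haveI : Nontrivial (LinearMap.ker f) :=
      ⟨⟨⟨_, hmem⟩, 0, fun h => hne (congrArg Subtype.val h)⟩⟩
    exact Module.finrank_pos
  omega

end Quot

section Stab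

variable {G O : Type*} [Group G] [Ring O] (ι : G →* O)

/-- classes of leading terms at level `n` of elements of `H`. -/
def Lsub (H : Subgroup G) (n : ℕ) (hn : 1 ≤ n) : AddSubgroup (O ⧸ N0 O) where
  carrier := {v | ∃ g ∈ H, ∃ y : O, Lead ι n g y ∧ ((y : O ⧸ N0 O)) = v}
  add_mem' := by
    rintro _ _ ⟨g, hg, y, hy, rfl⟩ ⟨g', hg', y', hy', rfl⟩
    exact ⟨g * g', H.mul_mem hg hg', y + y', hy.mul hn hy', by simp⟩
  zero_mem' := ⟨1, H.one_mem, (2 : ℤ) • (0 : O), lead_one_two n 0, by simp⟩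
  neg_mem' := by
    rintro _ ⟨g, hg, y, hy, rfl⟩
    refine ⟨g, hg, y, hy, ?_⟩
    rw [← QuotientAddGroup.mk_neg, QuotientAddGroup.eq]
    exact ⟨0, -y, by module⟩

variable {ι}


/-- equal classes: quotient one step deeper -/
theorem div_mem_succ {n : ℕ} (hn : 1 ≤ n) {g h : G} {y y' : O} (hg : Lead ι n g y)
    (hh : Lead ι n h y') (he : (y : O ⧸ N0 O) = y') : h⁻¹ * g ∈ F ι (n + 1) := by
  have h1 := (hh.inv hn).mul hn hg
  rw [QuotientAddGroup.eq] at he
  obtain ⟨m, z, hmz⟩ := he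
  refine Lead.mem_succ hn h1 (m := m) (z := y + z) ?_
  have : y' = y + (m • (1 : O) + (2 : ℤ) • z) := by rw [← hmz]; abel
  rw [this]; module

theorem Lsub_mono_succ (n : ℕ) (hn : 2 ≤ n) (H : Subgroup G) :
    Lsub ι H n (by omega) ≤ Lsub ι H (n + 1) (by omega) := by
  rintro _ ⟨g, hg, y, hy, rfl⟩
  exact ⟨g ^ 2, H.pow_mem hg 2, y, hy.sq hn, rfl⟩

theorem exists_stab (ι : G →* O)
    (hfin : ∃ s : Finset O, s.card ≤ 16 ∧ ∀ x : O, ∃ y ∈ s, ∃ z : O, x = y + 2 * z) :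
    ∃ k0, 2 ≤ k0 ∧ ∀ n (hn : k0 ≤ n) (h1 : 1 ≤ k0) (h2 : 1 ≤ n),
      Lsub ι ⊤ n h2 = Lsub ι ⊤ k0 h1 := by
  haveI := finite_V hfin
  haveI : Module.Finite (ZMod 2) (O ⧸ N0 O) := Module.Finite.of_finite
  let f : ℕ →o Submodule (ZMod 2) (O ⧸ N0 O) :=
    { toFun := fun n => (AddSubgroup.toZModSubmodule 2) (Lsub ι ⊤ (n + 2) (by omega))
      monotone' := by
        apply monotone_nat_of_le_succ
        intro n
        apply (AddSubgroup.toZModSubmodule 2).monotone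
        exact Lsub_mono_succ (n + 2) (by omega) ⊤ }
  obtain ⟨n, hn⟩ := monotone_stabilizes_iff_noetherian.mpr (inferInstance :
    IsNoetherian (ZMod 2) (O ⧸ N0 O)) f
  refine ⟨n + 2, by omega, ?_⟩
  intro m hm h1 h2
  obtain ⟨l, rfl⟩ : ∃ l, m = l + 2 := ⟨m - 2, by omega⟩
  have := hn l (by omega)
  exact ((AddSubgroup.toZModSubmodule 2).injective this).symm

end Stab

end Crest.Agent.R007.Filt
end

-- ▼ part R007/Filt3
section

/-! Row 7, part H, hypotheses (h1)-(h4) in ambient form. -/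

set_option autoImplicit false

open scoped commutatorElement

namespace Crest.Agent.R007.Filt

variable {G O : Type*} [Group G] [Ring O] {ι : G →* O}

/-- stabilisation of the classes from level `k0` on -/
def Stab (ι : G →* O) (k0 : ℕ) : Prop :=
  2 ≤ k0 ∧ ∀ n (_ : k0 ≤ n) (h1 : 1 ≤ k0) (h2 : 1 ≤ n), Lsub ι ⊤ n h2 = Lsub ι ⊤ k0 h1

theorem Stab.exists_lead {k0 : ℕ} (hs : Stab ι k0) {n m : ℕ} (hn : k0 ≤ n) (hm : k0 ≤ m) {g : G}
    {y : O} (hg : Lead ι n g y) :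
    ∃ h : G, ∃ y' : O, Lead ι m h y' ∧ (y : O ⧸ N0 O) = y' := by
  have h2 := hs.1
  have h1 : (y : O ⧸ N0 O) ∈ Lsub ι ⊤ n (by omega) := ⟨g, Subgroup.mem_top _, y, hg, rfl⟩
  rw [hs.2 n hn (by omega) (by omega), ← hs.2 m hm (by omega) (by omega)] at h1
  obtain ⟨h, -, y', hy', he⟩ := h1
  exact ⟨h, y', hy', he.symm⟩

theorem sq_mem {n : ℕ} (hn : 1 ≤ n) {g : G} (hg : g ∈ F ι n) : g ^ 2 ∈ F ι (n + 1) := by
  obtain ⟨y, hy⟩ := Filt.exists_lead hg
  have h := hy.mul hn hy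
  rw [← pow_two] at h
  refine Lead.mem_succ hn h (m := 0) (z := y) ?_
  module

/-- (h1) in ambient form -/
theorem sqrt_amb {k0 : ℕ} (hs : Stab ι k0) (k n : ℕ) {g : G} (hg : g ∈ F ι (k0 + (k + 1))) :
    ∃ h ∈ F ι (k0 + k), g⁻¹ * h ^ 2 ∈ F ι (k0 + n) := by
  have hk2 := hs.1
  induction n with
  | zero =>
    refine ⟨1, Subgroup.one_mem _, ?_⟩
    rw [one_pow, mul_one]
    exact Subgroup.inv_mem _ (F_antitone ι (by omega) hg)
  | succ n ih =>
    rcases Nat.lt_or_ge n (k + 1) with hlt | hge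
    · refine ⟨1, Subgroup.one_mem _, ?_⟩
      rw [one_pow, mul_one]
      exact Subgroup.inv_mem _ (F_antitone ι (by omega) hg)
    · obtain ⟨h, hh, hr⟩ := ih
      -- `r = h^{-2} g`
      set r : G := (h ^ 2)⁻¹ * g with hrdef
      have hr' : r ∈ F ι (k0 + n) := by
        have := Subgroup.inv_mem _ hr
        simpa [hrdef, mul_inv_rev] using this
      obtain ⟨y, hy⟩ := Filt.exists_lead hr'
      obtain ⟨h', y', hy', he⟩ := hs.exists_lead (m := k0 + n - 1) (by omega) (by omega) hy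
      have hsq := hy'.sq (by omega)
      rw [show k0 + n - 1 + 1 = k0 + n by omega] at hsq
      have h3 : (h' ^ 2)⁻¹ * r ∈ F ι (k0 + n + 1) := div_mem_succ (by omega) hy hsq he
      have hh' : h' ∈ F ι (k0 + n - 1) := hy'.mem
      have hκ : ⁅h⁻¹, h'⁆ ∈ F ι (k0 + n + 1) := by
        have := comm_le ι (k0 + k) (k0 + n - 1)
          (Subgroup.commutator_mem_commutator (Subgroup.inv_mem _ hh) hh')
        exact F_antitone ι (by omega) this
      refine ⟨h * h', Subgroup.mul_mem _ hh (F_antitone ι (by omega) hh'), ?_⟩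
      have hN := F_normal ι (k0 + n + 1)
      have key : g⁻¹ * (h * h') ^ 2 =
          (r⁻¹ * ⁅h⁻¹, h'⁆ * r) * ((h' ^ 2)⁻¹ * r)⁻¹ := by
        rw [hrdef, commutatorElement_def]
        simp only [pow_two]
        group
      have e1 : r⁻¹ * ⁅h⁻¹, h'⁆ * r ∈ F ι (k0 + n + 1) := by
        have := hN.conj_mem _ hκ r⁻¹
        simpa using this
      rw [key]
      exact Subgroup.mul_mem _ e1 (Subgroup.inv_mem _ h3)

/-- (h2) in ambient form -/
theorem gen_amb {k0 : ℕ} (hs : Stab ι k0) {d : ℕ} {u : Fin d → G} {y : Fin d → O}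
    (hu : ∀ i, Lead ι k0 (u i) (y i))
    (hspan : Submodule.span (ZMod 2) (Set.range fun i => ((y i : O) : O ⧸ N0 O)) =
      (AddSubgroup.toZModSubmodule 2) (Lsub ι ⊤ k0 (by have := hs.1; omega)))
    (n : ℕ) {g : G} (hg : g ∈ F ι k0) :
    ∃ w ∈ Subgroup.closure (Set.range u), g⁻¹ * w ∈ F ι (k0 + n) := by
  have hk2 := hs.1
  -- every class at level `m ≥ k0` is the class of an element of the closure
  have key : ∀ m, k0 ≤ m → ∀ r ∈ F ι m, ∃ w ∈ Subgroup.closure (Set.range u),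
      w⁻¹ * r ∈ F ι (m + 1) := by
    intro m hm r hr
    obtain ⟨z, hz⟩ := Filt.exists_lead hr
    have h1 : (z : O ⧸ N0 O) ∈ Lsub ι ⊤ m (by omega) := ⟨r, Subgroup.mem_top _, z, hz, rfl⟩
    rw [hs.2 m hm (by omega) (by omega)] at h1
    have h2 : (z : O ⧸ N0 O) ∈ (AddSubgroup.toZModSubmodule 2) (Lsub ι ⊤ k0 (by omega)) := h1
    rw [← hspan] at h2
    have h3 : Submodule.span (ZMod 2) (Set.range fun i => ((y i : O) : O ⧸ N0 O)) ≤
        (AddSubgroup.toZModSubmodule 2)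
          (Lsub ι (Subgroup.closure (Set.range u)) m (by omega)) := by
      rw [Submodule.span_le]
      rintro _ ⟨i, rfl⟩
      show ((y i : O) : O ⧸ N0 O) ∈ Lsub ι (Subgroup.closure (Set.range u)) m (by omega)
      obtain ⟨l, rfl⟩ := Nat.exists_eq_add_of_le hm
      exact ⟨u i ^ (2 ^ l), Subgroup.pow_mem _ (Subgroup.subset_closure (Set.mem_range_self i)) _,
        y i, (hu i).pow_two_pow hk2 l, rfl⟩
    obtain ⟨w, hw, z', hz', he⟩ := h3 h2
    exact ⟨w, hw, div_mem_succ (by omega) hz hz' he.symm⟩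
  induction n with
  | zero =>
    exact ⟨1, Subgroup.one_mem _, by rw [mul_one]; exact Subgroup.inv_mem _ hg⟩
  | succ n ih =>
    obtain ⟨w, hw, hr⟩ := ih
    have hr' : w⁻¹ * g ∈ F ι (k0 + n) := by
      have := Subgroup.inv_mem _ hr
      simpa using this
    obtain ⟨w', hw', h4⟩ := key (k0 + n) (by omega) _ hr'
    refine ⟨w * w', Subgroup.mul_mem _ hw hw', ?_⟩
    have := Subgroup.inv_mem _ h4
    rw [show g⁻¹ * (w * w') = (w'⁻¹ * (w⁻¹ * g))⁻¹ by group]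
    exact this

/-- approximation: with full graded pieces, every `1 + 2^a x` is approximated up to scalars. -/
theorem approx {k0 : ℕ} (hs : Stab ι k0)
    (hfull : ∀ v : O ⧸ N0 O, v ∈ Lsub ι ⊤ k0 (by have := hs.1; omega))
    (a : ℕ) (ha : k0 ≤ a) (x : O) (N : ℕ) :
    ∃ g : G, ∃ c : ℤ, Odd c ∧ ∃ w : O,
      ι g = c • (1 : O) + (c * 2 ^ a) • x + ((2 : ℤ) ^ (a + N)) • w := by
  have hk2 := hs.1
  induction N with
  | zero => exact ⟨1, 1, odd_one, -x, by rw [map_one]; simp⟩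
  | succ N ih =>
    obtain ⟨g, c, ⟨k, rfl⟩, w, hw⟩ := ih
    have h1 : (w : O ⧸ N0 O) ∈ Lsub ι ⊤ (a + N) (by omega) := by
      rw [hs.2 (a + N) (by omega) (by omega) (by omega)]; exact hfull _
    obtain ⟨h, -, v, hv, he⟩ := h1
    rw [eq_comm, QuotientAddGroup.eq] at he
    obtain ⟨m, z, hmz⟩ := he
    have hv' : v = w + m • (1 : O) + (2 : ℤ) • z := by rw [add_assoc, ← hmz]; abel
    obtain ⟨c', ⟨k', rfl⟩, w', hw'⟩ := hv
    obtain ⟨a', rfl⟩ : ∃ a', a = a' + 1 := ⟨a - 1, by omega⟩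
    refine ⟨g * h, (2 * k + 1) * (2 * k' + 1) + 2 ^ (a' + 1 + N) * (2 * k + 1) * m, ?_,
      (k + k' + 1) • w + (2 * k + 1) • z + (2 * k + 1) • w' + ((2 * k + 1) * 2 ^ a') • (x * v)
        + ((2 * k + 1) * 2 ^ (a' + 1)) • (x * w') + ((2 : ℤ) ^ (a' + N)) • (w * v)
        + ((2 : ℤ) ^ (a' + 1 + N)) • (w * w') - ((2 * k + 1) * m * 2 ^ a') • x, ?_⟩
    · refine Odd.add_even (Odd.mul ⟨k, rfl⟩ ⟨k', rfl⟩) ?_
      exact ⟨2 ^ (a' + N) * (2 * k + 1) * m, by ring⟩
    · rw [map_mul, hw, hw', hv']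
      simp only [add_mul, mul_add, smul_mul_assoc, mul_smul_comm, mul_one, one_mul, pow_succ,
        pow_add]
      module

end Crest.Agent.R007.Filt
end

-- ▼ part R007/Filt4
section

/-! Row 7, part H, hypotheses (h1)-(h4): (h4), finite index, and the final export
`Crest.Agent.R007.Filt.main` in the form of `HDefs.FiltGroup`, `HDefs.H4`. -/

set_option autoImplicit false

open scoped commutatorElement

namespace Crest.Agent.R007.Filt

variable {G O : Type*} [Group G] [Ring O] {ι : G →* O}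

/-- `1 + 2^M z` is approximated modulo `2^(M+e+1)` by elements of the commutator subgroup -/
def CApprox (ι : G →* O) (H : Subgroup G) (e M : ℕ) (z : O) : Prop :=
  ∃ h ∈ ⁅H, H⁆, ∃ w : O, ι h = 1 + ((2 : ℤ) ^ M) • z + ((2 : ℤ) ^ (M + e + 1)) • w

theorem CApprox.add {H : Subgroup G} {e M : ℕ} (hM : e + 1 ≤ M) {z z' : O}
    (h1 : CApprox ι H e M z) (h2 : CApprox ι H e M z') : CApprox ι H e M (z + z') := by
  obtain ⟨h, hh, w, hw⟩ := h1
  obtain ⟨h', hh', w', hw'⟩ := h2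
  obtain ⟨l, rfl⟩ := Nat.exists_eq_add_of_le hM
  refine ⟨h * h', Subgroup.mul_mem _ hh hh', w + w' + ((2 : ℤ) ^ l) •
    ((z + ((2 : ℤ) ^ (e + 1)) • w) * (z' + ((2 : ℤ) ^ (e + 1)) • w')), ?_⟩
  rw [map_mul, hw, hw']
  simp only [add_mul, mul_add, smul_mul_assoc, mul_smul_comm, mul_one, one_mul, pow_succ,
    pow_add]
  module

theorem CApprox.zero {H : Subgroup G} {e M : ℕ} : CApprox ι H e M 0 :=
  ⟨1, Subgroup.one_mem _, 0, by simp⟩

theorem capprox_comm {k0 : ℕ} (hs : Stab ι k0)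
    (hfull : ∀ v : O ⧸ N0 O, v ∈ Lsub ι ⊤ k0 (by have := hs.1; omega))
    {a0 a b e : ℕ} (ha0 : a0 ≤ a) (hb0 : a0 ≤ b) (hak : k0 ≤ a) (hbk : k0 ≤ b)
    (hae : e + 1 ≤ a) (hbe : e + 1 ≤ b) (x y : O) :
    CApprox ι (F ι a0) e (a + b) (x * y - y * x) := by
  obtain ⟨g, c, hc, w1, hg⟩ := approx hs hfull a hak x (e + 1)
  obtain ⟨h, c', hc', w2, hh⟩ := approx hs hfull b hbk y (e + 1)
  have hga : g ∈ F ι a := by
    rw [mem_F']
    exact ⟨c, hc, c • x + ((2 : ℤ) ^ (e + 1)) • w1, by rw [hg, pow_add]; module⟩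
  have hhb : h ∈ F ι b := by
    rw [mem_F']
    exact ⟨c', hc', c' • y + ((2 : ℤ) ^ (e + 1)) • w2, by rw [hh, pow_add]; module⟩
  obtain ⟨a', rfl⟩ := Nat.exists_eq_add_of_le hae
  obtain ⟨b', rfl⟩ := Nat.exists_eq_add_of_le hbe
  set t : O := ι g⁻¹ * ι h⁻¹ with ht
  have h1 : ι h * ι g * t = 1 := by
    rw [ht, ← map_mul, ← map_mul, ← map_mul]
    have : h * g * (g⁻¹ * h⁻¹) = 1 := by group
    rw [this, map_one]
  -- `cc' t = 1 - 2^(e+1) s t`
  obtain ⟨s, hsdef⟩ : ∃ s : O, ι h * ι g = (c * c') • (1 : O) + ((2 : ℤ) ^ (e + 1)) • s := by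
    refine ⟨(c' * c * 2 ^ a') • x + ((2 : ℤ) ^ (a' + (e + 1)) * c') • w1
      + (c * c' * 2 ^ b') • y + ((2 : ℤ) ^ (b' + (e + 1)) * c) • w2
      + ((2 : ℤ) ^ (a' + b' + (e + 1))) • ((c' • y + ((2 : ℤ) ^ (e + 1)) • w2) *
        (c • x + ((2 : ℤ) ^ (e + 1)) • w1)), ?_⟩
    rw [hg, hh]
    simp only [add_mul, mul_add, smul_mul_assoc, mul_smul_comm, mul_one, one_mul, pow_succ,
      pow_add]
    module
  have h2 : (c * c') • t = 1 - ((2 : ℤ) ^ (e + 1)) • (s * t) := by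
    rw [← h1, hsdef, add_mul, smul_mul_assoc, one_mul, smul_mul_assoc]; abel
  -- the commutator
  set X : O := c • x + ((2 : ℤ) ^ (e + 1)) • w1 with hX
  set Y : O := c' • y + ((2 : ℤ) ^ (e + 1)) • w2 with hY
  have h3 : ι g * ι h - ι h * ι g =
      ((2 : ℤ) ^ (e + 1 + a' + (e + 1 + b'))) • (X * Y - Y * X) := by
    have e1 : ι g = c • (1 : O) + ((2 : ℤ) ^ (e + 1 + a')) • X := by
      rw [hg, hX, pow_add _ (e + 1 + a')]; module
    have e2 : ι h = c' • (1 : O) + ((2 : ℤ) ^ (e + 1 + b')) • Y := by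
      rw [hh, hY, pow_add _ (e + 1 + b')]; module
    rw [e1, e2, pow_add _ (e + 1 + a')]
    simp only [add_mul, mul_add, smul_mul_assoc, mul_smul_comm, mul_one, one_mul]
    module
  set R : O := c • (x * w2 - w2 * x) + c' • (w1 * y - y * w1)
      + ((2 : ℤ) ^ (e + 1)) • (w1 * w2 - w2 * w1) with hR
  have h4 : X * Y - Y * X = (c * c') • (x * y - y * x) + ((2 : ℤ) ^ (e + 1)) • R := by
    rw [hX, hY, hR]
    simp only [add_mul, mul_add, smul_mul_assoc, mul_smul_comm, mul_one, one_mul]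
    module
  refine ⟨⁅g, h⁆, Subgroup.commutator_mem_commutator (F_antitone ι ha0 hga)
    (F_antitone ι hb0 hhb), R * t - (x * y - y * x) * (s * t), ?_⟩
  rw [comm_eq, h3, h4, smul_mul_assoc, add_mul, smul_mul_assoc, ← mul_smul_comm, h2]
  simp only [smul_mul_assoc, mul_smul_comm, mul_sub, mul_one, sub_mul, pow_add, pow_succ]
  module

/-- (h4) in ambient form, one step -/
theorem h4_step {k0 : ℕ} (hs : Stab ι k0)
    (hfull : ∀ v : O ⧸ N0 O, v ∈ Lsub ι ⊤ k0 (by have := hs.1; omega)) {e : ℕ}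
    (hQ : ∀ z : O, ∃ c : ℤ, ∃ l : List (O × O), ∃ w : O,
      2 ^ e * z = c + (l.map fun p => p.1 * p.2 - p.2 * p.1).sum + 2 ^ (e + 1) * w)
    {a0 A : ℕ} (h1 : a0 ≤ A) (h2 : k0 ≤ A) (h3 : e + 1 ≤ A) {n : ℕ} (hn : 2 * A + e ≤ n)
    {g : G} (hg : g ∈ F ι n) : ∃ w ∈ ⁅F ι a0, F ι a0⁆, w⁻¹ * g ∈ F ι (n + 1) := by
  obtain ⟨z, hz⟩ := Filt.exists_lead hg
  obtain ⟨c, l, w, hl⟩ := hQ z
  obtain ⟨b, rfl⟩ : ∃ b, n = A + b + e := ⟨n - A - e, by omega⟩
  have hb : A ≤ b := by omega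
  have hsum : CApprox ι (F ι a0) e (A + b) (l.map fun p => p.1 * p.2 - p.2 * p.1).sum := by
    clear hl
    induction l with
    | nil => simpa using CApprox.zero
    | cons p l ih =>
      rw [List.map_cons, List.sum_cons]
      exact CApprox.add (by omega) (capprox_comm hs hfull h1 (by omega) h2 (by omega) h3
        (by omega) p.1 p.2) ih
  obtain ⟨h, hh, w', hw'⟩ := hsum
  have hl' : (l.map fun p => p.1 * p.2 - p.2 * p.1).sum =
      ((2 : ℤ) ^ e) • z - c • (1 : O) - ((2 : ℤ) ^ (e + 1)) • w := by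
    rw [two_pow_mul, two_pow_mul, intCast_eq] at hl
    rw [hl]; abel
  have hlead : Lead ι (A + b + e) h z := by
    refine ⟨1 - 2 ^ (A + b) * c, ?_, w' - w, ?_⟩
    · refine Odd.sub_even odd_one ?_
      obtain ⟨A', rfl⟩ : ∃ A', A = A' + 1 := ⟨A - 1, by omega⟩
      exact ⟨2 ^ (A' + b) * c, by ring⟩
    · rw [hw', hl']
      simp only [pow_succ, pow_add]
      module
  exact ⟨h, hh, div_mem_succ (by omega) hz hlead rfl⟩

theorem h4_amb {k0 : ℕ} (hs : Stab ι k0)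
    (hfull : ∀ v : O ⧸ N0 O, v ∈ Lsub ι ⊤ k0 (by have := hs.1; omega)) {e : ℕ}
    (hQ : ∀ z : O, ∃ c : ℤ, ∃ l : List (O × O), ∃ w : O,
      2 ^ e * z = c + (l.map fun p => p.1 * p.2 - p.2 * p.1).sum + 2 ^ (e + 1) * w)
    (a0 : ℕ) : ∃ n, ∀ N, ∀ g ∈ F ι n, ∃ w ∈ ⁅F ι a0, F ι a0⁆, g⁻¹ * w ∈ F ι N := by
  set A := max a0 (max k0 (e + 1)) with hA
  refine ⟨2 * A + e, ?_⟩
  have h1 : a0 ≤ A := le_max_left _ _
  have h2 : k0 ≤ A := (le_max_left _ _).trans (le_max_right _ _)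
  have h3 : e + 1 ≤ A := (le_max_right _ _).trans (le_max_right _ _)
  have key : ∀ j, ∀ g ∈ F ι (2 * A + e), ∃ w ∈ ⁅F ι a0, F ι a0⁆,
      w⁻¹ * g ∈ F ι (2 * A + e + j) := by
    intro j
    induction j with
    | zero => intro g hg; exact ⟨1, Subgroup.one_mem _, by simpa using hg⟩
    | succ j ih =>
      intro g hg
      obtain ⟨w, hw, hr⟩ := ih g hg
      obtain ⟨w', hw', hr'⟩ := h4_step hs hfull hQ h1 h2 h3 (by omega) hr
      refine ⟨w * w', Subgroup.mul_mem _ hw hw', ?_⟩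
      rw [show (w * w')⁻¹ * g = w'⁻¹ * (w⁻¹ * g) by group]
      exact hr'
  intro N g hg
  obtain ⟨w, hw, hr⟩ := key N g hg
  refine ⟨w, hw, ?_⟩
  have := Subgroup.inv_mem _ hr
  rw [show g⁻¹ * w = (w⁻¹ * g)⁻¹ by group]
  exact F_antitone ι (by omega) this

/-- finite sets of representatives modulo `2^n` -/
theorem exists_reps (hfin : ∃ s : Finset O, s.card ≤ 16 ∧ ∀ x : O, ∃ y ∈ s, ∃ z : O, x = y + 2 * z)
    (n : ℕ) : ∃ s : Set O, s.Finite ∧ ∀ x : O, ∃ y ∈ s, ∃ z : O, x = y + 2 ^ n * z := by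
  obtain ⟨s, -, h⟩ := hfin
  induction n with
  | zero => exact ⟨{0}, Set.finite_singleton _, fun x => ⟨0, rfl, x, by simp⟩⟩
  | succ n ih =>
    obtain ⟨s', hs', h'⟩ := ih
    refine ⟨(fun p : O × O => p.1 + 2 ^ n * p.2) '' (s' ×ˢ (s : Set O)),
      (hs'.prod s.finite_toSet).image _, ?_⟩
    intro x
    obtain ⟨y, hy, z, hz⟩ := h' x
    obtain ⟨y', hy', z', hz'⟩ := h z
    refine ⟨y + 2 ^ n * y', ⟨(y, y'), ⟨hy, hy'⟩, rfl⟩, z', ?_⟩
    rw [hz, hz', pow_succ]; noncomm_ring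

theorem finiteIndex (ι : G →* O)
    (hfin : ∃ s : Finset O, s.card ≤ 16 ∧ ∀ x : O, ∃ y ∈ s, ∃ z : O, x = y + 2 * z)
    (n : ℕ) : (F ι n).FiniteIndex := by
  obtain ⟨s, hs, h⟩ := exists_reps hfin n
  choose r hr z hz using h
  haveI : Finite s := hs
  -- the map `G/F n → s`
  have hfinq : Finite (G ⧸ F ι n) := by
    have hsurj : ∀ q : G ⧸ F ι n, ∃ g : G, (g : G ⧸ F ι n) = q := fun q =>
      QuotientGroup.mk_surjective q
    choose f hf using hsurj
    refine Finite.of_injective (fun q : G ⧸ F ι n => (⟨r (ι (f q)), hr _⟩ : s)) ?_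
    intro q q' hqq
    have h0 : r (ι (f q)) = r (ι (f q')) := congrArg Subtype.val hqq
    rw [← hf q, ← hf q', QuotientGroup.eq, mem_F]
    have e1 : ι (f q') = ι (f q) + 2 ^ n * (z (ι (f q')) - z (ι (f q))) := by
      conv_lhs => rw [hz (ι (f q'))]
      conv_rhs => arg 1; rw [hz (ι (f q))]
      rw [h0]; noncomm_ring
    generalize z (ι (f q')) - z (ι (f q)) = Z at e1
    refine ⟨1, odd_one, ι (f q)⁻¹ * Z, ?_⟩
    rw [map_mul, e1, mul_add, ← map_mul, inv_mul_cancel, map_one, two_pow_mul, two_pow_mul,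
      mul_smul_comm]
    simp
  exact Subgroup.finiteIndex_of_finite_quotient

/-- **Main export**: (h1)-(h4) for every group with a monoid hom into a ring `O` with
`#O/2O ≤ 16`, `1 ∉ 2O`, and commutators of finite index modulo `ℤ`. -/
theorem main (ι : G →* O) (hone : ∀ x : O, (1 : O) ≠ 2 * x)
    (hfin : ∃ s : Finset O, s.card ≤ 16 ∧ ∀ x : O, ∃ y ∈ s, ∃ z : O, x = y + 2 * z)
    (hQ : ∃ e : ℕ, ∀ z : O, ∃ c : ℤ, ∃ l : List (O × O), ∃ w : O,
      2 ^ e * z = c + (l.map fun p => p.1 * p.2 - p.2 * p.1).sum + 2 ^ (e + 1) * w) :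
    ∃ k0 : ℕ, 2 ≤ k0 ∧ ∃ d : ℕ, d ≤ 3 ∧ ∃ u : Fin d → F ι k0,
      H.FiltGroup (fun j => (F ι (k0 + j)).subgroupOf (F ι k0)) d u ∧
      (d = 3 → H.H4 (fun j => (F ι (k0 + j)).subgroupOf (F ι k0))) ∧
      (F ι k0).FiniteIndex := by
  classical
  obtain ⟨k0, hs⟩ : ∃ k0, Stab ι k0 := exists_stab ι hfin
  have hk2 := hs.1
  haveI := finite_V hfin
  haveI : Module.Finite (ZMod 2) (O ⧸ N0 O) := Module.Finite.of_finite
  set L : Submodule (ZMod 2) (O ⧸ N0 O) :=
    (AddSubgroup.toZModSubmodule 2) (Lsub ι ⊤ k0 (by omega)) with hL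
  have hd : Module.finrank (ZMod 2) L ≤ Module.finrank (ZMod 2) (O ⧸ N0 O) := L.finrank_le
  have hV := finrank_V hone hfin
  let b := Module.finBasis (ZMod 2) L
  have hb : ∀ i, ∃ g : G, ∃ y : O, Lead ι k0 g y ∧ ((y : O ⧸ N0 O)) = (b i : O ⧸ N0 O) := by
    intro i
    have : ((b i : L) : O ⧸ N0 O) ∈ L := (b i).2
    obtain ⟨g, -, y, hy, he⟩ := this
    exact ⟨g, y, hy, he⟩
  choose u0 y hy he using hb
  have hspan : Submodule.span (ZMod 2) (Set.range fun i => ((y i : O) : O ⧸ N0 O)) = L := by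
    have h1 : (Set.range fun i => ((y i : O) : O ⧸ N0 O)) = L.subtype '' (Set.range b) := by
      ext v
      simp only [Set.mem_range, Set.mem_image, exists_exists_eq_and]
      constructor
      · rintro ⟨i, rfl⟩; exact ⟨i, (he i).symm⟩
      · rintro ⟨i, rfl⟩; exact ⟨i, he i⟩
    rw [h1, Submodule.span_image, b.span_eq, Submodule.map_top, Submodule.range_subtype]
  refine ⟨k0, hk2, Module.finrank (ZMod 2) L, by omega, fun i => ⟨u0 i, (hy i).mem⟩, ?_, ?_,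
    finiteIndex ι hfin k0⟩
  · refine
      { zero := ?_, anti := ?_, normal := ?_, finiteIndex := ?_, sq_mem := ?_, sqrt := ?_,
        gen := ?_, comm := ?_ }
    · simp
    · intro i j hij x hx
      rw [Subgroup.mem_subgroupOf] at *
      exact F_antitone ι (by omega) hx
    · intro k
      haveI := F_normal ι (k0 + k)
      infer_instance
    · intro k
      haveI := finiteIndex ι hfin (k0 + k)
      infer_instance
    · intro k g hg
      rw [Subgroup.mem_subgroupOf] at *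
      have h1 := sq_mem (ι := ι) (n := k0 + k) (by omega) hg
      exact h1
    · intro k n g hg
      rw [Subgroup.mem_subgroupOf] at hg
      obtain ⟨h, hh, hr⟩ := sqrt_amb hs k n hg
      refine ⟨⟨h, F_antitone ι (by omega) hh⟩, ?_, ?_⟩
      · rw [Subgroup.mem_subgroupOf]; exact hh
      · rw [Subgroup.mem_subgroupOf]; exact hr
    · intro n g
      obtain ⟨w, hw, hr⟩ := gen_amb hs hy hspan n g.2
      have hcl : Subgroup.closure (Set.range u0) =
          (Subgroup.closure (Set.range fun i => (⟨u0 i, (hy i).mem⟩ : F ι k0))).map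
            (F ι k0).subtype := by
        rw [MonoidHom.map_closure]
        congr 1
        ext x
        simp only [Set.mem_range, Set.mem_image, exists_exists_eq_and]
        rfl
      rw [hcl] at hw
      obtain ⟨w', hw', rfl⟩ := hw
      refine ⟨w', hw', ?_⟩
      rw [Subgroup.mem_subgroupOf]; exact hr
    · intro i j a ha b hb
      rw [Subgroup.mem_subgroupOf] at *
      have h1 := comm_le ι (k0 + i) (k0 + j) (Subgroup.commutator_mem_commutator ha hb)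
      rw [commutatorElement_def] at h1
      exact F_antitone ι (by omega) h1
  · intro hd3 k
    have htop : L = ⊤ := by
      apply Submodule.eq_top_of_finrank_eq
      omega
    have hfull : ∀ v : O ⧸ N0 O, v ∈ Lsub ι ⊤ k0 (by omega) := by
      intro v
      have : v ∈ L := by rw [htop]; trivial
      exact this
    obtain ⟨e, hQ⟩ := hQ
    obtain ⟨n, hn⟩ := h4_amb hs hfull hQ (k0 + k)
    refine ⟨n, fun N g hg => ?_⟩
    rw [Subgroup.mem_subgroupOf] at hg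
    obtain ⟨w, hw, hr⟩ := hn (k0 + N) g.1 (F_antitone ι (by omega) hg)
    have hcl : ⁅F ι (k0 + k), F ι (k0 + k)⁆ ≤
        (Subgroup.closure {c : F ι k0 | ∃ a ∈ (F ι (k0 + k)).subgroupOf (F ι k0),
          ∃ b ∈ (F ι (k0 + k)).subgroupOf (F ι k0), a * b * a⁻¹ * b⁻¹ = c}).map
            (F ι k0).subtype := by
      rw [Subgroup.commutator_le]
      intro a ha b hb
      refine ⟨⟨a, F_antitone ι (by omega) ha⟩ * ⟨b, F_antitone ι (by omega) hb⟩ *
        ⟨a, F_antitone ι (by omega) ha⟩⁻¹ * ⟨b, F_antitone ι (by omega) hb⟩⁻¹, ?_, ?_⟩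
      · apply Subgroup.subset_closure
        exact ⟨⟨a, F_antitone ι (by omega) ha⟩, ha, ⟨b, F_antitone ι (by omega) hb⟩, hb, rfl⟩
      · rw [commutatorElement_def]; rfl
    obtain ⟨w', hw', rfl⟩ := hcl hw
    refine ⟨w', hw', ?_⟩
    rw [Subgroup.mem_subgroupOf]; exact hr

end Crest.Agent.R007.Filt
end

-- ▼ part R007/FTop

/-!
Row 7, section F (helper507): assembly.  From the endomorphism ring of `Φ₀` (`EndData`, exported by
`FEnd`) we get the congruence filtration of `𝒢 = Pr D`, its smooth action on `K / R`, and the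
filtered group `U = Gam 0` for part H.
-/

set_option autoImplicit false

open PowerSeries Crest.LubinTate

namespace Crest.Agent.R007.F

variable {κ : Type*} [Field κ] [CharP κ 2]

/-- what is needed from the ring `O` of endomorphisms of `Φ₀` -/
structure EndData (D : FData κ) (O : Type*) [Ring O] where
  /-- reduction of the pairs -/
  io : Pr D →* O
  hone : ∀ x : O, (1 : O) ≠ 2 * x
  hfin : ∃ s : Finset O, s.card ≤ 16 ∧ ∀ x : O, ∃ y ∈ s, ∃ z : O, x = y + 2 * z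
  hQ : ∃ e : ℕ, ∀ z : O, ∃ c : ℤ, ∃ l : List (O × O), ∃ w : O,
      2 ^ e * z = c + (l.map fun p => p.1 * p.2 - p.2 * p.1).sum + 2 ^ (e + 1) * w
  near : ∀ (p : Pr D) (c : ℕ), Odd c → ∀ n, 1 ≤ n → ∀ y : O, io p = (c : O) + 2 ^ n * y →
    ∀ i < 4 ^ n, coeff i p.red = coeff i (mulSeries D.Φ0 c)

variable {D : FData κ} {O : Type*} [Ring O]

/-- an odd integer may be replaced by an odd natural number modulo `2^n`, `n ≥ 1` -/
theorem exists_nat_odd {n : ℕ} (hn : 1 ≤ n) {x : O} (h : Filt.OddMod n x) :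
    ∃ c : ℕ, Odd c ∧ ∃ y : O, x = (c : O) + 2 ^ n * y := by
  obtain ⟨c, hc, y, hy⟩ := h
  set N : ℤ := 2 ^ n * |c| with hN
  have h2 : (1 : ℤ) ≤ 2 ^ n := one_le_pow₀ (by norm_num)
  have hpos : 0 ≤ c + N := by
    have h1 : -c ≤ |c| := neg_le_abs c
    have h3 : |c| ≤ N := by
      rw [hN]
      exact le_mul_of_one_le_left (abs_nonneg c) h2
    linarith
  obtain ⟨m, hm⟩ := Int.eq_ofNat_of_zero_le hpos
  refine ⟨m, ?_, y - ((|c| : ℤ) : O), ?_⟩
  · have hodd : Odd (c + N) := by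
      refine Odd.add_even hc ?_
      obtain ⟨k, rfl⟩ : ∃ k, n = k + 1 := ⟨n - 1, by omega⟩
      exact ⟨2 ^ k * |c|, by rw [hN]; ring⟩
    rw [hm] at hodd
    exact_mod_cast hodd
  · have h3 : ((m : ℤ) : O) = (c : O) + 2 ^ n * ((|c| : ℤ) : O) := by
      have : (m : ℤ) = c + N := hm.symm
      rw [this, hN]
      push_cast
      ring_nf
    rw [Int.cast_natCast] at h3
    rw [h3, hy, mul_sub]
    abel

/-- smoothness of the filtration: elements of the `n`-th congruence subgroup act trivially modulo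
`t^{2n+1}` -/
theorem dvd_of_mem (E : EndData D O) {n : ℕ} (hn : 1 ≤ n) {g : Pr D} (hg : g ∈ Filt.F E.io n)
    (a : PowerSeries κ) : X ^ (2 * n + 1) ∣ g.s a - a := by
  obtain ⟨c, hc, y, hy⟩ := exists_nat_odd hn ((Filt.mem_F E.io).1 hg)
  refine dvd_of_cong D g hc (by omega) (fun i hi => ?_) a
  refine E.near g c hc n hn y hy i ?_
  rwa [pow_mul] at hi

/-- the action of `𝒢 = Pr D` on `V = K / R`, linear over a subfield `k` of `κ` -/
noncomputable def act (k : Type*) [Field k] [Algebra k κ] (D : FData κ) :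
    Pr D →* Module.End k (KR κ) :=
  ((endRestrict k (KR κ)).comp actKR).comp (Pr.sHom D)

@[simp] theorem act_apply (k : Type*) [Field k] [Algebra k κ] (g : Pr D) (v : KR κ) :
    act k D g v = actKR g.s v := rfl

/-- **Output of section F**: congruence subgroups `Gam n` of `𝒢 = Pr D` acting smoothly on
`V = K/R`, with `U = Gam 0` a filtered group of rank `d ≤ 3`. -/
theorem sectionF (k : Type*) [Field k] [Algebra k κ] (E : EndData D O) :
    ∃ (Gam : ℕ → Subgroup (Pr D)) (d : ℕ) (u : Fin d → Gam 0), d ≤ 3 ∧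
      (∀ n, (Gam n).Normal) ∧ (∀ n, (Gam n).FiniteIndex) ∧
      (∀ n, ∀ g ∈ Gam 0, ∃ m : ℕ, g ^ (2 ^ m) ∈ Gam n) ∧ Antitone Gam ∧
      (∀ v : KR κ, ∃ n, ∀ g ∈ Gam n, act k D g v = v) ∧
      H.FiltGroup (fun j => (Gam j).subgroupOf (Gam 0)) d u ∧
      (d = 3 → H.H4 (fun j => (Gam j).subgroupOf (Gam 0))) := by
  obtain ⟨k0, hk0, d, hd, u, h1, h2, -⟩ := Filt.main E.io E.hone E.hfin E.hQ
  refine ⟨fun n => Filt.F E.io (k0 + n), d, u, hd, fun n => Filt.F_normal _ _,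
    fun n => Filt.finiteIndex _ E.hfin _, ?_, ?_, ?_, h1, h2⟩
  · intro n g hg
    refine ⟨n, ?_⟩
    induction n with
    | zero => simpa using hg
    | succ n ih =>
      have := Filt.sq_mem (ι := E.io) (n := k0 + n) (by omega) ih
      rwa [← pow_mul, ← pow_succ] at this
  · intro i j hij
    exact Filt.F_antitone E.io (by omega)
  · intro v
    obtain ⟨M₀, hM⟩ := actKR_smooth v
    refine ⟨M₀, fun g hg => ?_⟩
    rw [act_apply]
    exact hM (2 * (k0 + M₀) + 1) (by omega) g.s (dvd_of_mem E (by omega) hg)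

end Crest.Agent.R007.F
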