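import Crest.Agent.R007.HWords
import Mathlib.GroupTheory.PGroup
import Crest.Agent.R007.HChainB
import Mathlib
import Crest.Agent.R007.HDefs
import Crest.Agent.R007.FTop
import Crest.Agent.R007.Mix1

-- ▼ part R007/HPoly
section

/-!
# Row 7, part H: the pairing with `(MvPolynomial (Fin d) F)^h`, DCC, dimension bound (helper775)
-/

set_option autoImplicit false
set_option linter.unusedSectionVars false
set_option linter.style.haveILetI false

open Module

namespace Crest.Agent.R007.H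

section Pair

variable {F P U : Type*} [Field F] [CharP F 2] [AddCommGroup P] [Module F P] [Group U]
variable {ρ : U →* Module.End F P} {Γ : ℕ → Subgroup U} {d : ℕ} {u : Fin d → U}

/-- separating functionals on the invariants -/
def Sep (ρ : U →* Module.End F P) {h : ℕ} (ℓ : Fin h → Module.Dual F P) : Prop :=
  ∀ v ∈ fil ρ 1, (∀ j, ℓ j v = 0) → v = 0

theorem exists_sep (hρ : Smooth Γ ρ) : ∃ (h : ℕ) (ℓ : Fin h → Module.Dual F P), Sep ρ ℓ := by
  haveI := hρ.adm
  let b := Module.finBasis F ↥(fil ρ 1)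
  have hex : ∀ j, ∃ g : Module.Dual F P, g ∘ₗ (fil ρ 1).subtype = b.coord j := fun j =>
    LinearMap.exists_extend (b.coord j)
  choose ℓ hℓ using hex
  refine ⟨_, ℓ, ?_⟩
  intro v hv h0
  have : (⟨v, hv⟩ : ↥(fil ρ 1)) = 0 := by
    apply b.ext_elem
    intro j
    have := congrArg (fun f => f ⟨v, hv⟩) (hℓ j)
    simp only [LinearMap.comp_apply, Submodule.subtype_apply, Basis.coord_apply] at this
    rw [← this, h0 j]
    simp
  exact congrArg Subtype.val this

/-- exponents of degree `n` -/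
noncomputable def mons (d n : ℕ) : Finset (Fin d →₀ ℕ) := Finset.finsuppAntidiag Finset.univ n

theorem mem_mons {n : ℕ} {α : Fin d →₀ ℕ} : α ∈ mons d n ↔ α.degree = n := by
  rw [mons, Finset.mem_finsuppAntidiag, Finsupp.degree_eq_sum]
  simp

/-- the free module over the polynomial ring -/
abbrev Fr (F : Type*) [Field F] (d h : ℕ) : Type _ := Fin h → MvPolynomial (Fin d) F

/-- the pairing of degree `n` -/
noncomputable def pr (ρ : U →* Module.End F P) (u : Fin d → U) {h : ℕ} (ℓ : Fin h → Module.Dual F P)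
    (n : ℕ) (v : P) : Fr F d h →ₗ[F] F where
  toFun f := ∑ j, ∑ α ∈ mons d n, (f j).coeff α * ℓ j (wd ρ u (mon α) v)
  map_add' f g := by
    simp only [Pi.add_apply, MvPolynomial.coeff_add, add_mul, Finset.sum_add_distrib]
  map_smul' c f := by
    simp only [Pi.smul_apply, MvPolynomial.coeff_smul, smul_eq_mul, RingHom.id_apply,
      Finset.mul_sum, mul_assoc]

theorem pr_apply {h : ℕ} (ℓ : Fin h → Module.Dual F P) (n : ℕ) (v : P) (f : Fr F d h) :
    pr ρ u ℓ n v f = ∑ j, ∑ α ∈ mons d n, (f j).coeff α * ℓ j (wd ρ u (mon α) v) := rfl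

theorem pr_add {h : ℕ} (ℓ : Fin h → Module.Dual F P) (n : ℕ) (v w : P) (f : Fr F d h) :
    pr ρ u ℓ n (v + w) f = pr ρ u ℓ n v f + pr ρ u ℓ n w f := by
  simp only [pr_apply, map_add, mul_add, Finset.sum_add_distrib]


theorem pr_of_fil {h : ℕ} (ℓ : Fin h → Module.Dual F P) {n : ℕ} {v : P} (hv : v ∈ fil ρ n)
    (f : Fr F d h) : pr ρ u ℓ n v f = 0 := by
  rw [pr_apply]
  refine Finset.sum_eq_zero fun j _ => Finset.sum_eq_zero fun α hα => ?_
  have h1 := wd_mem (ρ := ρ) (u := u) (mon α) hv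
  rw [mon_length, mem_mons.1 hα, Nat.sub_self, fil_zero, Submodule.mem_bot] at h1
  rw [h1, map_zero, mul_zero]

/-- homogeneous elements of `Fr` -/
def Hom {h : ℕ} (n : ℕ) (f : Fr F d h) : Prop := ∀ j, ∀ α, (f j).coeff α ≠ 0 → α.degree = n

theorem pr_of_hom {h : ℕ} (ℓ : Fin h → Module.Dual F P) {m n : ℕ} (hmn : m ≠ n) (v : P)
    {f : Fr F d h} (hf : Hom m f) : pr ρ u ℓ n v f = 0 := by
  rw [pr_apply]
  refine Finset.sum_eq_zero fun j _ => Finset.sum_eq_zero fun α hα => ?_
  have : (f j).coeff α = 0 := by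
    by_contra h0
    exact hmn ((hf j α h0).symm.trans (mem_mons.1 hα))
  rw [this, zero_mul]

theorem pr_zero_X {h : ℕ} (ℓ : Fin h → Module.Dual F P) (v : P) (i : Fin d) (f : Fr F d h) :
    pr ρ u ℓ 0 v ((MvPolynomial.X i : MvPolynomial (Fin d) F) • f) = 0 := by
  rw [pr_apply]
  refine Finset.sum_eq_zero fun j _ => Finset.sum_eq_zero fun α hα => ?_
  have hα0 : α = 0 := by
    have := mem_mons.1 hα
    exact (Finsupp.degree_eq_zero_iff α).1 this
  subst hα0
  rw [Pi.smul_apply, smul_eq_mul, MvPolynomial.coeff_X_mul']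
  simp

theorem pr_X (hΓ : FiltGroup Γ d u) (hρ : Smooth Γ ρ) {h : ℕ} (ℓ : Fin h → Module.Dual F P) {n : ℕ}
    {v : P} (hv : v ∈ fil ρ (n + 2)) (i : Fin d) (f : Fr F d h) :
    pr ρ u ℓ (n + 1) v ((MvPolynomial.X i : MvPolynomial (Fin d) F) • f)
      = pr ρ u ℓ n (Xo ρ u i v) f := by
  rw [pr_apply, pr_apply]
  refine Finset.sum_congr rfl fun j _ => ?_
  simp only [Pi.smul_apply, smul_eq_mul, MvPolynomial.coeff_X_mul']
  symm
  refine Finset.sum_of_injOn (fun β => β + Finsupp.single i 1) ?_ ?_ ?_ ?_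
  · intro a _ b _ hab
    exact add_right_cancel hab
  · intro β hβ
    rw [Finset.mem_coe, mem_mons] at hβ ⊢
    rw [map_add, hβ, Finsupp.degree_single]
  · intro α hα hα'
    have : i ∉ α.support := by
      intro hi
      apply hα'
      refine ⟨α - Finsupp.single i 1, ?_, ?_⟩
      · rw [Finset.mem_coe, mem_mons]
        have h1 : α - Finsupp.single i 1 + Finsupp.single i 1 = α := by
          apply tsub_add_cancel_of_le
          rw [Finsupp.single_le_iff]
          exact Nat.one_le_iff_ne_zero.2 (Finsupp.mem_support_iff.1 hi)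
        have h2 := congrArg Finsupp.degree h1
        rw [map_add, Finsupp.degree_single, mem_mons.1 hα] at h2
        omega
      · show α - Finsupp.single i 1 + Finsupp.single i 1 = α
        apply tsub_add_cancel_of_le
        rw [Finsupp.single_le_iff]
        exact Nat.one_le_iff_ne_zero.2 (Finsupp.mem_support_iff.1 hi)
    rw [if_neg this, zero_mul]
  · intro β hβ
    have hs : i ∈ (β + Finsupp.single i 1).support := by
      rw [Finsupp.mem_support_iff]; simp
    rw [if_pos hs, add_tsub_cancel_right]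
    congr 2
    rw [← wd_single (ρ := ρ) (u := u) i v, ← wd_append]
    symm
    apply wd_perm' hΓ hρ (mon_perm β i) hv
    rw [mon_length, map_add, Finsupp.degree_single, mem_mons.1 hβ]
    omega

/-- the submodule attached to a stable subspace -/
noncomputable def J (hΓ : FiltGroup Γ d u) (hρ : Smooth Γ ρ) {h : ℕ} (ℓ : Fin h → Module.Dual F P)
    (N : Submodule F P) (hN : St ρ N) : Submodule (MvPolynomial (Fin d) F) (Fr F d h) where
  carrier := {f | ∀ n, ∀ v ∈ N, v ∈ fil ρ (n + 1) → pr ρ u ℓ n v f = 0}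
  add_mem' := by
    intro a b ha hb n v hv hv'
    rw [map_add, ha n v hv hv', hb n v hv hv', add_zero]
  zero_mem' := by intro n v _ _; rw [map_zero]
  smul_mem' := by
    intro p f hf
    induction p using MvPolynomial.induction_on generalizing f with
    | C a =>
      intro n v hv hv'
      have : (MvPolynomial.C a : MvPolynomial (Fin d) F) • f = a • f := by
        funext j
        simp only [Pi.smul_apply, smul_eq_mul, MvPolynomial.C_mul']
      rw [this, map_smul, hf n v hv hv', smul_zero]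
    | add p q hp hq =>
      intro n v hv hv'
      rw [add_smul, map_add, hp hf n v hv hv', hq hf n v hv hv', add_zero]
    | mul_X p i hp =>
      rw [mul_smul]
      apply hp
      intro n v hv hv'
      cases n with
      | zero => exact pr_zero_X ℓ v i f
      | succ n =>
        rw [pr_X hΓ hρ ℓ hv']
        refine hf n _ ?_ (Xo_mem' hv' i)
        rw [Xo_apply]
        exact hN.sub hv _


/-- the symbol map of degree `n` -/
noncomputable def sg (ρ : U →* Module.End F P) (u : Fin d → U) {h : ℕ} (ℓ : Fin h → Module.Dual F P)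
    (n : ℕ) : P →ₗ[F] (Fin h × ↥(mons d n) → F) :=
  LinearMap.pi fun x => ℓ x.1 ∘ₗ (wd ρ u (mon x.2.1))

theorem sg_apply {h : ℕ} (ℓ : Fin h → Module.Dual F P) (n : ℕ) (v : P) (x : Fin h × ↥(mons d n)) :
    sg ρ u ℓ n v x = ℓ x.1 (wd ρ u (mon x.2.1) v) := rfl

theorem mem_fil_of_sg (hΓ : FiltGroup Γ d u) (hρ : Smooth Γ ρ) {h : ℕ} {ℓ : Fin h → Module.Dual F P}
    (hℓ : Sep ρ ℓ) {n : ℕ} {v : P} (hv : v ∈ fil ρ (n + 1)) (h0 : sg ρ u ℓ n v = 0) :
    v ∈ fil ρ n := by
  apply mem_fil_of_words hΓ hρ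
  intro l hl
  obtain ⟨α, hα, hp⟩ := exists_mon l
  rw [wd_perm' hΓ hρ hp hv (by omega)]
  apply hℓ
  · have := wd_mem (ρ := ρ) (u := u) (mon α) hv
    rw [mon_length, hα, hl] at this
    simpa using this
  · intro j
    have := congrFun h0 (j, ⟨α, mem_mons.2 (hα.trans hl)⟩)
    simpa [sg_apply] using this

/-- SEP -/
theorem sep (hΓ : FiltGroup Γ d u) (hρ : Smooth Γ ρ) {h : ℕ} {ℓ : Fin h → Module.Dual F P}
    (hℓ : Sep ρ ℓ) {n : ℕ} {S : Submodule F P} (hS : S ≤ fil ρ (n + 1)) {y : P}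
    (hy : y ∈ fil ρ (n + 1))
    (H : ∀ f : Fr F d h, Hom n f → (∀ s ∈ S, pr ρ u ℓ n s f = 0) → pr ρ u ℓ n y f = 0) :
    ∃ s ∈ S, y - s ∈ fil ρ n := by
  have key : sg ρ u ℓ n y ∈ S.map (sg ρ u ℓ n) := by
    by_contra hn
    obtain ⟨c, hc, hc'⟩ := Submodule.exists_le_ker_of_notMem hn
    -- coefficients
    let f : Fr F d h := fun j => ∑ α : ↥(mons d n),
      MvPolynomial.monomial α.1 (c (Pi.single (j, α) 1))
    have hcoef : ∀ j (α : ↥(mons d n)), (f j).coeff α.1 = c (Pi.single (j, α) 1) := by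
      intro j α
      simp only [f, MvPolynomial.coeff_sum, MvPolynomial.coeff_monomial]
      rw [Finset.sum_eq_single α]
      · simp
      · intro b _ hb
        rw [if_neg]
        intro h0
        exact hb (Subtype.ext h0)
      · intro h0; exact absurd (Finset.mem_univ _) h0
    have hpr : ∀ v, pr ρ u ℓ n v f = c (sg ρ u ℓ n v) := by
      intro v
      rw [pr_apply, LinearMap.pi_apply_eq_sum_univ c (sg ρ u ℓ n v), Fintype.sum_prod_type]
      refine Finset.sum_congr rfl fun j _ => ?_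
      rw [← Finset.sum_coe_sort (mons d n)]
      refine Finset.sum_congr rfl fun α _ => ?_
      rw [hcoef, sg_apply, smul_eq_mul, mul_comm]
      congr 2
      funext x
      by_cases hx : (j, α) = x
      · subst hx; simp
      · rw [if_neg hx, Pi.single_eq_of_ne (Ne.symm hx)]
    apply hc
    rw [← hpr]
    apply H
    · intro j α hα
      by_contra hne
      apply hα
      simp only [f, MvPolynomial.coeff_sum, MvPolynomial.coeff_monomial]
      refine Finset.sum_eq_zero fun β _ => ?_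
      rw [if_neg]
      intro h0
      apply hne
      rw [← h0]
      exact mem_mons.1 β.2
    · intro s hs
      rw [hpr]
      exact hc' (Submodule.mem_map_of_mem hs)
  obtain ⟨s, hs, e⟩ := key
  refine ⟨s, hs, ?_⟩
  apply mem_fil_of_sg hΓ hρ hℓ (Submodule.sub_mem _ hy (hS hs))
  rw [map_sub, e, sub_self]

theorem J_anti {hΓ : FiltGroup Γ d u} {hρ : Smooth Γ ρ} {h : ℕ} {ℓ : Fin h → Module.Dual F P}
    {N N' : Submodule F P} {hN : St ρ N} {hN' : St ρ N'} (hle : N' ≤ N) :
    J hΓ hρ ℓ N hN ≤ J hΓ hρ ℓ N' hN' := fun _ hf n v hv hv' => hf n v (hle hv) hv'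

theorem le_of_J {hΓ : FiltGroup Γ d u} {hρ : Smooth Γ ρ} {h : ℕ} {ℓ : Fin h → Module.Dual F P}
    (hℓ : Sep ρ ℓ) (hE : Exh ρ) {N N' : Submodule F P} {hN : St ρ N} {hN' : St ρ N'} (hle : N' ≤ N)
    (hJ : J hΓ hρ ℓ N' hN' ≤ J hΓ hρ ℓ N hN) : N ≤ N' := by
  have key : ∀ n, ∀ v ∈ N, v ∈ fil ρ n → v ∈ N' := by
    intro n
    induction n with
    | zero => intro v _ hv; rw [fil_zero, Submodule.mem_bot] at hv; subst hv; exact N'.zero_mem
    | succ n ih =>
      intro v hv hv'
      obtain ⟨s, hs, e⟩ := sep hΓ hρ hℓ (S := N' ⊓ fil ρ (n + 1)) inf_le_right hv' (by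
        intro f hf hfS
        have hfJ : f ∈ J hΓ hρ ℓ N' hN' := by
          intro m w hw hw'
          rcases eq_or_ne n m with rfl | hmn
          · exact hfS w ⟨hw, hw'⟩
          · exact pr_of_hom ℓ hmn w hf
        exact hJ hfJ n v hv hv')
      have := ih _ (N.sub_mem hv (hle hs.1)) e
      have h2 := N'.add_mem this hs.1
      simpa using h2
  intro v hv
  obtain ⟨n, hn⟩ := hE v
  exact key n v hv hn

/-- NODE 2a -/
theorem dcc (hΓ : FiltGroup Γ d u) (hρ : Smooth Γ ρ) (hE : Exh ρ) : Dcc ρ := by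
  intro S hS hSt
  obtain ⟨h, ℓ, hℓ⟩ := exists_sep hρ
  let JJ : ↥S → Submodule (MvPolynomial (Fin d) F) (Fr F d h) :=
    fun N => J hΓ hρ ℓ N.1 (hSt _ N.2)
  obtain ⟨M, ⟨N, rfl⟩, hM⟩ := (wellFounded_gt (α := Submodule (MvPolynomial (Fin d) F) (Fr F d h))).has_min
    (Set.range JJ) (by obtain ⟨N, hN⟩ := hS; exact ⟨_, ⟨N, hN⟩, rfl⟩)
  refine ⟨N.1, N.2, fun N' hN' hle => le_antisymm hle ?_⟩
  apply le_of_J (hΓ := hΓ) (hρ := hρ) (hN := hSt _ N.2) (hN' := hSt _ hN') hℓ hE hle
  have h1 : JJ N ≤ JJ ⟨N', hN'⟩ := J_anti hle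
  rcases h1.lt_or_eq with h2 | h2
  · exact absurd h2 (hM _ ⟨_, rfl⟩)
  · exact h2.ge

/-- exponents with all entries `< n` -/
noncomputable def box (d n : ℕ) : Finset (Fin d → ℕ) := Fintype.piFinset fun _ => Finset.range n

theorem box_card (d n : ℕ) : (box d n).card = n ^ d := by
  rw [box, Fintype.card_piFinset]; simp

/-- all symbols of degree `< n` at once -/
noncomputable def sgb (ρ : U →* Module.End F P) (u : Fin d → U) {h : ℕ} (ℓ : Fin h → Module.Dual F P)
    (n : ℕ) : P →ₗ[F] (Fin h × ↥(box d n) → F) :=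
  LinearMap.pi fun x => ℓ x.1 ∘ₗ (wd ρ u (mon (Finsupp.equivFunOnFinite.symm x.2.1)))

theorem sgb_inj (hΓ : FiltGroup Γ d u) (hρ : Smooth Γ ρ) {h : ℕ} {ℓ : Fin h → Module.Dual F P}
    (hℓ : Sep ρ ℓ) (n : ℕ) {v : P} (hv : v ∈ fil ρ n) (h0 : sgb ρ u ℓ n v = 0) : v = 0 := by
  have key : ∀ m ≤ n, v ∈ fil ρ m → v = 0 := by
    intro m
    induction m with
    | zero => intro _ hv; rw [fil_zero, Submodule.mem_bot] at hv; exact hv
    | succ m ih =>
      intro hm hv
      apply ih (by omega)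
      apply mem_fil_of_sg hΓ hρ hℓ hv
      funext ⟨j, α⟩
      rw [sg_apply, Pi.zero_apply]
      have hbox : (⇑α.1 : Fin d → ℕ) ∈ box d n := by
        rw [box, Fintype.mem_piFinset]
        intro i
        rw [Finset.mem_range]
        have h1 := mem_mons.1 α.2
        rw [Finsupp.degree_eq_sum] at h1
        have h2 : α.1 i ≤ ∑ i, α.1 i := Finset.single_le_sum (f := fun i => α.1 i) (fun _ _ => Nat.zero_le _)
          (Finset.mem_univ i)
        omega
      have := congrFun h0 (j, ⟨⇑α.1, hbox⟩)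
      simpa [sgb, LinearMap.pi_apply] using this
  exact key n le_rfl hv

theorem finDim_aux (hΓ : FiltGroup Γ d u) (hρ : Smooth Γ ρ) {h : ℕ} {ℓ : Fin h → Module.Dual F P}
    (hℓ : Sep ρ ℓ) (n : ℕ) :
    FiniteDimensional F ↥(fil ρ n) ∧ finrank F ↥(fil ρ n) ≤ h * n ^ d := by
  have hinj : Function.Injective ((sgb ρ u ℓ n) ∘ₗ (fil ρ n).subtype) := by
    rw [← LinearMap.ker_eq_bot, LinearMap.ker_eq_bot']
    rintro ⟨v, hv⟩ h0
    exact Subtype.ext (sgb_inj hΓ hρ hℓ n hv h0)
  constructor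
  · exact FiniteDimensional.of_injective _ hinj
  · have h1 := LinearMap.finrank_le_finrank_of_injective hinj
    rw [Module.finrank_fintype_fun_eq_card, Fintype.card_prod, Fintype.card_fin,
      Fintype.card_coe, box_card] at h1
    exact h1

/-- NODE 1b -/
theorem finDim (hΓ : FiltGroup Γ d u) (hρ : Smooth Γ ρ) : FinDim ρ := by
  intro n
  obtain ⟨h, ℓ, hℓ⟩ := exists_sep hρ
  exact (finDim_aux hΓ hρ hℓ n).1

/-- NODE 1d -/
theorem dimBd (hΓ : FiltGroup Γ d u) (hρ : Smooth Γ ρ) : DimBd ρ d := by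
  obtain ⟨h, ℓ, hℓ⟩ := exists_sep hρ
  refine ⟨h, fun n => ?_⟩
  haveI := (finDim_aux hΓ hρ hℓ n).1
  calc finrank F ↥(⊤ ⊓ fil ρ n) ≤ finrank F ↥(fil ρ n) :=
        Submodule.finrank_mono inf_le_right
    _ ≤ h * n ^ d := (finDim_aux hΓ hρ hℓ n).2
    _ ≤ h * (n + 1) ^ d := Nat.mul_le_mul_left _ (Nat.pow_le_pow_left (by omega) _)

end Pair

end Crest.Agent.R007.H
end

-- ▼ part R007/HAR
section

/-!
# Row 7, part H: dual Artin-Rees and the growth drop (helper775)
-/

set_option autoImplicit false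
set_option linter.unusedSectionVars false
set_option linter.style.haveILetI false

open Module

namespace Crest.Agent.R007.H

section AR

variable {F P U : Type*} [Field F] [CharP F 2] [AddCommGroup P] [Module F P] [Group U]
variable {ρ : U →* Module.End F P} {Γ : ℕ → Subgroup U} {d : ℕ} {u : Fin d → U}

/-- homogeneous elements of degree `≤ c` of `J` -/
noncomputable def Jc (hΓ : FiltGroup Γ d u) (hρ : Smooth Γ ρ) {h : ℕ} (ℓ : Fin h → Module.Dual F P)
    (N : Submodule F P) (hN : St ρ N) (c : ℕ) : Submodule (MvPolynomial (Fin d) F) (Fr F d h) :=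
  Submodule.span _ {f | f ∈ J hΓ hρ ℓ N hN ∧ ∃ m ≤ c, Hom m f}

theorem Hom.smul_monomial {h : ℕ} {m : ℕ} {f : Fr F d h} (hf : Hom m f) (β : Fin d →₀ ℕ) (b : F) :
    Hom (β.degree + m) ((MvPolynomial.monomial β b : MvPolynomial (Fin d) F) • f) := by
  intro j α hα
  rw [Pi.smul_apply, smul_eq_mul, MvPolynomial.coeff_monomial_mul'] at hα
  split_ifs at hα with hle
  · have h1 : (f j).coeff (α - β) ≠ 0 := fun h0 => hα (by rw [h0, mul_zero])
    have h2 := hf j _ h1
    have h3 : α - β + β = α := tsub_add_cancel_of_le hle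
    rw [← h3, map_add, h2]
    omega
  · exact absurd rfl hα

/-- STEP A -/
theorem stepA (hΓ : FiltGroup Γ d u) (hρ : Smooth Γ ρ) {h : ℕ} (ℓ : Fin h → Module.Dual F P)
    (K : Submodule F P) (hK : St ρ K) :
    ∃ c : ℕ, ∀ m, c ≤ m → ∀ y ∈ fil ρ (m + 2),
      (∀ i, ∀ g ∈ J hΓ hρ ℓ K hK, pr ρ u ℓ m (Xo ρ u i y) g = 0) →
      ∀ f ∈ J hΓ hρ ℓ K hK, Hom (m + 1) f → pr ρ u ℓ (m + 1) y f = 0 := by
  have hmono : Monotone (Jc hΓ hρ ℓ K hK) := by
    intro a b hab
    apply Submodule.span_mono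
    rintro f ⟨hf, m, hm, hm'⟩
    exact ⟨hf, m, hm.trans hab, hm'⟩
  obtain ⟨c, hc⟩ := monotone_stabilizes_iff_noetherian.2
    (inferInstance : IsNoetherian (MvPolynomial (Fin d) F) (Fr F d h)) ⟨_, hmono⟩
  refine ⟨c, fun m hm y hy hX f hf hfh => ?_⟩
  have hfc : f ∈ Jc hΓ hρ ℓ K hK c := by
    have h1 : f ∈ Jc hΓ hρ ℓ K hK (m + 1) := Submodule.subset_span ⟨hf, m + 1, le_rfl, hfh⟩
    have h2 : Jc hΓ hρ ℓ K hK c = Jc hΓ hρ ℓ K hK (m + 1) := hc (m + 1) (by omega)
    rw [h2]
    exact h1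
  have key : ∀ p : MvPolynomial (Fin d) F, pr ρ u ℓ (m + 1) y (p • f) = 0 := by
    clear hf hfh
    unfold Jc at hfc
    induction hfc using Submodule.span_induction with
    | mem g hg =>
      obtain ⟨hgJ, k, hk, hgk⟩ := hg
      intro p
      induction p using MvPolynomial.induction_on' with
      | monomial β b =>
        by_cases hdeg : β.degree + k = m + 1
        · have hβ : β ≠ 0 := by
            rintro rfl
            simp at hdeg
            omega
          obtain ⟨i, hi⟩ : ∃ i, β i ≠ 0 := by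
            by_contra h0
            push Not at h0
            exact hβ (Finsupp.ext h0)
          have h3 : Finsupp.single i 1 + (β - Finsupp.single i 1) = β := by
            apply add_tsub_cancel_of_le
            rw [Finsupp.single_le_iff]
            omega
          have h4 : (MvPolynomial.monomial β b : MvPolynomial (Fin d) F)
              = MvPolynomial.X i * MvPolynomial.monomial (β - Finsupp.single i 1) b := by
            rw [MvPolynomial.X, MvPolynomial.monomial_mul, one_mul, h3]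
          rw [h4, mul_smul, pr_X hΓ hρ ℓ hy]
          exact hX i _ (Submodule.smul_mem _ _ hgJ)
        · exact pr_of_hom ℓ hdeg y (hgk.smul_monomial β b)
      | add p q hp hq => rw [add_smul, map_add, hp, hq, add_zero]
    | zero => intro p; rw [smul_zero, map_zero]
    | add a b _ _ ha hb => intro p; rw [smul_add, map_add, ha, hb, add_zero]
    | smul q a _ ha => intro p; rw [← mul_smul]; exact ha _
  simpa using key 1

/-- dual Artin-Rees -/
theorem artinRees (hΓ : FiltGroup Γ d u) (hρ : Smooth Γ ρ) (hE : Exh ρ) {x : Module.End F P}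
    (hx : ∀ g, Commute x (ρ g)) {N : Submodule F P} (hN : St ρ N) (hNx : N.map x = N) :
    ∃ c : ℕ, ∀ k, N ⊓ fil ρ k ≤ (N ⊓ fil ρ (k + c)).map x := by
  obtain ⟨h, ℓ, hℓ⟩ := exists_sep hρ
  have hK : St ρ (N ⊓ LinearMap.ker x) := hN.inf (St.ker hx)
  obtain ⟨c, hc⟩ := stepA hΓ hρ ℓ (N ⊓ LinearMap.ker x) hK
  have hxX : ∀ (i : Fin d) (v : P), Xo ρ u i (x v) = x (Xo ρ u i v) := by
    intro i v
    have h1 : x (ρ (u i) v) = ρ (u i) (x v) := by
      have := congrArg (fun f => f v) (hx (u i)).eq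
      simpa [Module.End.mul_apply] using this
    rw [Xo_apply, Xo_apply, map_sub, h1]
  -- step B
  have stepB : ∀ m, c ≤ m → ∀ v ∈ (N ⊓ fil ρ (m + 2)).map x,
      (∀ i, Xo ρ u i v ∈ (N ⊓ fil ρ m).map x) → v ∈ (N ⊓ fil ρ (m + 1)).map x := by
    rintro m hm _ ⟨y, ⟨hyN, hy⟩, rfl⟩ hX
    obtain ⟨s, hs, e⟩ := sep hΓ hρ hℓ (n := m + 1)
      (S := (N ⊓ LinearMap.ker x) ⊓ fil ρ (m + 2)) inf_le_right hy (by
        intro f hf hfS
        refine hc m hm y hy ?_ f ?_ hf
        · intro i g hg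
          obtain ⟨z, ⟨hzN, hz⟩, ez⟩ := hX i
          rw [hxX] at ez
          have h1 : Xo ρ u i y = (Xo ρ u i y - z) + z := by abel
          have hXN : Xo ρ u i y ∈ N := by rw [Xo_apply]; exact hN.sub hyN _
          rw [h1, pr_add, pr_of_fil ℓ hz, add_zero]
          refine hg m _ ⟨N.sub_mem hXN hzN, ?_⟩ ?_
          · show Xo ρ u i y - z ∈ LinearMap.ker x
            rw [LinearMap.mem_ker, map_sub, ez, sub_self]
          · exact Submodule.sub_mem _ (Xo_mem' hy i) (fil_le_succ m hz)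
        · intro k w hw hw'
          rcases eq_or_ne (m + 1) k with rfl | hmk
          · exact hfS w ⟨hw, hw'⟩
          · exact pr_of_hom ℓ hmk w hf)
    refine ⟨y - s, ⟨N.sub_mem hyN hs.1.1, e⟩, ?_⟩
    rw [map_sub, LinearMap.mem_ker.1 hs.1.2, sub_zero]
  refine ⟨c, fun k => ?_⟩
  induction k with
  | zero =>
    rintro v ⟨_, hv⟩
    have hv0 : v = 0 := by
      have h0 : v ∈ fil ρ 0 := hv
      rw [fil_zero, Submodule.mem_bot] at h0
      exact h0
    subst hv0
    exact Submodule.zero_mem _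
  | succ k ih =>
    rintro v ⟨hvN, hv⟩
    have hX : ∀ i, Xo ρ u i v ∈ (N ⊓ fil ρ (k + c)).map x := by
      intro i
      apply ih
      refine ⟨?_, Xo_mem' hv i⟩
      rw [Xo_apply]
      exact hN.sub hvN _
    have hv2 : v ∈ N.map x := by rw [hNx]; exact hvN
    obtain ⟨y, hyN, rfl⟩ := hv2
    obtain ⟨M, hM⟩ := hE y
    have hdesc : ∀ M, y ∈ fil ρ M → ∀ j, x y ∈ (N ⊓ fil ρ (k + 1 + c + j)).map x →
        x y ∈ (N ⊓ fil ρ (k + 1 + c)).map x := by
      intro M _ j
      induction j with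
      | zero => intro h0; exact h0
      | succ j ihj =>
        intro h1
        apply ihj
        have e1 : k + 1 + c + (j + 1) = (k + c + j) + 2 := by ring
        have e2 : k + 1 + c + j = (k + c + j) + 1 := by ring
        rw [e1] at h1
        rw [e2]
        refine stepB (k + c + j) (by omega) _ h1 ?_
        intro i
        exact Submodule.map_mono (inf_le_inf_left _ (fil_mono (by omega))) (hX i)
    refine hdesc M hM M ?_
    exact ⟨y, ⟨hyN, fil_mono (by omega) hM⟩, rfl⟩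

/-- NODE 2b -/
theorem drop (hΓ : FiltGroup Γ d u) (hρ : Smooth Γ ρ) (hE : Exh ρ) : Drop ρ := by
  intro x hx N hN hNx
  have hFD : FinDim ρ := finDim hΓ hρ
  obtain ⟨c, hc⟩ := artinRees hΓ hρ hE hx hN hNx
  haveI hfd : ∀ n, FiniteDimensional F ↥(fil ρ n) := hFD
  haveI hfd1 : ∀ (N' : Submodule F P) n, FiniteDimensional F ↥(N' ⊓ fil ρ n) := fun N' n =>
    Submodule.finiteDimensional_of_le inf_le_right
  set K := N ⊓ LinearMap.ker x with hKdef
  -- one step
  have h1 : ∀ n, finrank F ↥(K ⊓ fil ρ n) + finrank F ↥(N ⊓ fil ρ n)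
      ≤ finrank F ↥(N ⊓ fil ρ (n + c)) := by
    intro n
    let xx : ↥(N ⊓ fil ρ (n + c)) →ₗ[F] P := x ∘ₗ (N ⊓ fil ρ (n + c)).subtype
    have hrn := LinearMap.finrank_range_add_finrank_ker xx
    have hr : finrank F ↥(N ⊓ fil ρ n) ≤ finrank F ↥(LinearMap.range xx) := by
      apply Submodule.finrank_mono
      intro v hv
      obtain ⟨y, hy, e⟩ := hc n hv
      exact ⟨⟨y, hy⟩, e⟩
    have hk : finrank F ↥(K ⊓ fil ρ n) ≤ finrank F ↥(LinearMap.ker xx) := by
      let f : ↥(K ⊓ fil ρ n) →ₗ[F] ↥(LinearMap.ker xx) :=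
        LinearMap.codRestrict _ (LinearMap.codRestrict (N ⊓ fil ρ (n + c)) (K ⊓ fil ρ n).subtype
          (fun v => ⟨v.2.1.1, fil_mono (by omega) v.2.2⟩)) (fun v => by
            rw [LinearMap.mem_ker]
            exact v.2.1.2)
      apply LinearMap.finrank_le_finrank_of_injective (f := f)
      intro a b hab
      have := congrArg (fun z => ((z : ↥(LinearMap.ker xx)).1 : ↥(N ⊓ fil ρ (n + c))).1) hab
      exact Subtype.ext this
    omega
  have hmonoK : ∀ a b, a ≤ b → finrank F ↥(K ⊓ fil ρ a) ≤ finrank F ↥(K ⊓ fil ρ b) := fun a b hab =>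
    Submodule.finrank_mono (inf_le_inf_left _ (fil_mono hab))
  have h2 : ∀ n m, m * finrank F ↥(K ⊓ fil ρ n) ≤ finrank F ↥(N ⊓ fil ρ (n + m * c)) := by
    intro n m
    induction m with
    | zero => simp
    | succ m ih =>
      have h3 := h1 (n + m * c)
      have h4 := hmonoK n (n + m * c) (by omega)
      have h5 : n + m * c + c = n + (m + 1) * c := by ring
      rw [h5] at h3
      calc (m + 1) * finrank F ↥(K ⊓ fil ρ n)
          = m * finrank F ↥(K ⊓ fil ρ n) + finrank F ↥(K ⊓ fil ρ n) := by ring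
        _ ≤ _ := by omega
  constructor
  · rintro ⟨C, hC⟩
    rw [eq_bot_iff]
    intro v hv
    obtain ⟨n, hn⟩ := hE v
    have h3 := h2 n (C + 1)
    have h4 := hC (n + (C + 1) * c)
    rw [pow_zero, mul_one] at h4
    have h5 : finrank F ↥(K ⊓ fil ρ n) = 0 := by
      by_contra h0
      have : 1 ≤ finrank F ↥(K ⊓ fil ρ n) := Nat.one_le_iff_ne_zero.2 h0
      have h6 : C + 1 ≤ (C + 1) * finrank F ↥(K ⊓ fil ρ n) := Nat.le_mul_of_pos_right _ this
      omega
    have h6 := Submodule.finrank_eq_zero.1 h5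
    have h7 : v ∈ K ⊓ fil ρ n := ⟨hv, hn⟩
    rw [h6] at h7
    exact h7
  · rintro e ⟨C, hC⟩
    refine ⟨C * (c + 1) ^ (e + 1), fun n => ?_⟩
    have h3 := (h2 n (n + 1)).trans (hC _)
    have h4 : n + (n + 1) * c + 1 = (n + 1) * (c + 1) := by ring
    rw [h4, mul_pow] at h3
    have h5 : C * ((n + 1) ^ (e + 1) * (c + 1) ^ (e + 1))
        = (n + 1) * (C * (c + 1) ^ (e + 1) * (n + 1) ^ e) := by ring
    rw [h5] at h3
    exact Nat.le_of_mul_le_mul_left h3 (by omega)

end AR

end Crest.Agent.R007.H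
end

-- ▼ part R007/HExh
section

/-!
# Row 7, part H: `fil` is exhaustive (helper775)
-/

set_option autoImplicit false
set_option linter.unusedSectionVars false
set_option linter.style.haveILetI false

open Module

namespace Crest.Agent.R007.H

section Exh

variable {F P U : Type*} [Field F] [Finite F] [CharP F 2] [AddCommGroup P] [Module F P] [Group U]
variable {ρ : U →* Module.End F P} {Γ : ℕ → Subgroup U} {d : ℕ} {u : Fin d → U}

theorem FiltGroup.two_pow_mem (hΓ : FiltGroup Γ d u) (g : U) (n : ℕ) : g ^ (2 ^ n) ∈ Γ n := by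
  induction n with
  | zero => rw [hΓ.zero]; trivial
  | succ n ih =>
    rw [pow_succ, pow_mul]
    exact hΓ.sq_mem n _ ih

/-- the induced action on `P / fil k` -/
noncomputable def qact (ρ : U →* Module.End F P) (k : ℕ) : U →* Module.End F (P ⧸ fil ρ k) where
  toFun g := (fil ρ k).mapQ (fil ρ k) (ρ g) (fun v hv => fil_stable k g v hv)
  map_one' := by
    ext v
    simp
  map_mul' a b := by
    ext v
    simp


theorem fp (hΓ : FiltGroup Γ d u) {n k : ℕ} {W : Submodule F P} (hW : St ρ W)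
    (hfin : Finite ↥W) (hfix : ∀ g ∈ Γ n, ∀ w ∈ W, ρ g w = w) (hle : ¬ W ≤ fil ρ k) :
    ∃ w ∈ W, w ∈ fil ρ (k + 1) ∧ w ∉ fil ρ k := by
  let X : Submodule F (P ⧸ fil ρ k) := W.map (fil ρ k).mkQ
  have hXst : ∀ g, ∀ x ∈ X, qact ρ k g x ∈ X := by
    rintro g _ ⟨w, hw, rfl⟩
    exact ⟨ρ g w, hW g w hw, rfl⟩
  have hXfix : ∀ g ∈ Γ n, ∀ x ∈ X, qact ρ k g x = x := by
    rintro g hg _ ⟨w, hw, rfl⟩
    show Submodule.Quotient.mk (ρ g w) = Submodule.Quotient.mk w
    rw [hfix g hg w hw]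
  haveI hXfin : Finite ↥X := by
    apply Set.Finite.to_subtype
    exact (Set.toFinite (W : Set P)).image _
  letI act : MulAction U ↥X :=
    { smul := fun g x => ⟨qact ρ k g x.1, hXst g x.1 x.2⟩
      one_smul := fun x => by
        apply Subtype.ext
        show qact ρ k 1 x.1 = x.1
        rw [map_one]; rfl
      mul_smul := fun a b x => by
        apply Subtype.ext
        show qact ρ k (a * b) x.1 = qact ρ k a (qact ρ k b x.1)
        rw [map_mul]; rfl }
  have hsmul : ∀ (g : U) (x : ↥X), ((g • x : ↥X) : P ⧸ fil ρ k) = qact ρ k g x.1 := fun _ _ => rfl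
  let G := (MulAction.toPermHom U ↥X).range
  have hG : IsPGroup 2 ↥G := by
    rintro ⟨σ, g, rfl⟩
    refine ⟨n, ?_⟩
    apply Subtype.ext
    show (MulAction.toPermHom U ↥X g) ^ (2 ^ n) = 1
    rw [← map_pow]
    ext x
    show ((g ^ (2 ^ n) • x : ↥X) : P ⧸ fil ρ k) = x
    rw [hsmul]
    exact hXfix _ (hΓ.two_pow_mem g n) x.1 x.2
  haveI : Fact (Nat.Prime 2) := ⟨Nat.prime_two⟩
  -- `X ≠ 0`
  have hXne : ∃ x : ↥X, x ≠ 0 := by
    obtain ⟨w, hw, hw'⟩ := SetLike.not_le_iff_exists.1 hle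
    refine ⟨⟨(fil ρ k).mkQ w, ⟨w, hw, rfl⟩⟩, ?_⟩
    intro h0
    apply hw'
    have := congrArg Subtype.val h0
    simpa using this
  have hdvd : 2 ∣ Nat.card ↥X := by
    obtain ⟨x, hx⟩ := hXne
    have h2 : x + x = 0 := by
      have : (2 : F) • x = 0 := by
        have : (2 : F) = 0 := CharTwo.two_eq_zero
        rw [this, zero_smul]
      rwa [two_smul] at this
    have h1 : addOrderOf x = 2 := by
      apply addOrderOf_eq_prime
      · rw [two_nsmul]; exact h2
      · exact hx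
    rw [← h1]
    exact addOrderOf_dvd_natCard x
  have h0 : (0 : ↥X) ∈ MulAction.fixedPoints ↥G ↥X := by
    rintro ⟨σ, g, rfl⟩
    show (g • (0 : ↥X)) = 0
    apply Subtype.ext
    rw [hsmul]
    simp
  obtain ⟨x, hx, hx0⟩ := hG.exists_fixed_point_of_prime_dvd_card_of_fixed_point (α := ↥X) hdvd h0
  obtain ⟨⟨_, w, hw, rfl⟩, rfl⟩ : ∃ y : ↥X, y = x := ⟨x, rfl⟩
  refine ⟨w, hw, ?_, ?_⟩
  · intro g
    have h1 : (g • (⟨(fil ρ k).mkQ w, ⟨w, hw, rfl⟩⟩ : ↥X)) = ⟨(fil ρ k).mkQ w, ⟨w, hw, rfl⟩⟩ :=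
      hx ⟨_, g, rfl⟩
    have h2 := congrArg Subtype.val h1
    rw [hsmul] at h2
    have h3 : Submodule.Quotient.mk (p := fil ρ k) (ρ g w) = Submodule.Quotient.mk w := h2
    exact (Submodule.Quotient.eq _).1 h3
  · intro hwk
    apply hx0
    symm
    apply Subtype.ext
    show (fil ρ k).mkQ w = 0
    simpa using hwk

theorem le_fil (hΓ : FiltGroup Γ d u) {n : ℕ} {W : Submodule F P} (hW : St ρ W)
    (hfd : FiniteDimensional F ↥W) (hfix : ∀ g ∈ Γ n, ∀ w ∈ W, ρ g w = w) {m : ℕ}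
    (hm : finrank F ↥W ≤ m) : W ≤ fil ρ m := by
  haveI : Finite ↥W := Module.finite_of_finite F
  have key : ∀ k, k ≤ finrank F ↥(W ⊓ fil ρ k) ∨ W ≤ fil ρ k := by
    intro k
    induction k with
    | zero => left; exact Nat.zero_le _
    | succ k ih =>
      by_cases hle : W ≤ fil ρ k
      · right; exact hle.trans (fil_le_succ k)
      · left
        rcases ih with h1 | h1
        · obtain ⟨w, hw, hw1, hw2⟩ := fp hΓ hW inferInstance hfix hle
          haveI : FiniteDimensional F ↥(W ⊓ fil ρ (k + 1)) :=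
            Submodule.finiteDimensional_of_le inf_le_left
          have hlt : W ⊓ fil ρ k < W ⊓ fil ρ (k + 1) := by
            refine lt_of_le_of_ne (inf_le_inf_left _ (fil_le_succ k)) ?_
            intro h0
            have : w ∈ W ⊓ fil ρ (k + 1) := ⟨hw, hw1⟩
            rw [← h0] at this
            exact hw2 this.2
          have := Submodule.finrank_lt_finrank_of_lt hlt
          omega
        · exact absurd h1 hle
  rcases key m with h1 | h1
  · have h2 : finrank F ↥W ≤ finrank F ↥(W ⊓ fil ρ m) := hm.trans h1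
    have h3 : W ⊓ fil ρ m = W := Submodule.eq_of_le_of_finrank_le inf_le_left h2
    exact inf_eq_left.1 h3
  · exact h1

/-- NODE 1c -/
theorem openInv (hΓ : FiltGroup Γ d u) : OpenInv Γ ρ := by
  intro n
  haveI := hΓ.finiteIndex n
  haveI : Fintype (U ⧸ Γ n) := Fintype.ofFinite _
  refine ⟨Fintype.card (U ⧸ Γ n), fun v hv => ?_⟩
  let b : (U ⧸ Γ n) → P := fun q => ρ q.out v
  let W := Submodule.span F (Set.range b)
  have hb : ∀ g, ρ g v = b (QuotientGroup.mk g) := by
    intro g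
    symm
    apply fix_of_mul hv
    rw [← QuotientGroup.eq]
    simp
  have hmem : ∀ g, ρ g v ∈ W := fun g => by rw [hb]; exact Submodule.subset_span ⟨_, rfl⟩
  have hWst : St ρ W := by
    intro g w hw
    have : W ≤ W.comap (ρ g) := by
      apply Submodule.span_le.2
      rintro _ ⟨q, rfl⟩
      show ρ g (ρ q.out v) ∈ W
      rw [← Module.End.mul_apply, ← map_mul]
      exact hmem _
    exact this hw
  have hfix : ∀ g ∈ Γ n, ∀ w ∈ W, ρ g w = w := by
    intro g hg w hw
    have : W ≤ LinearMap.eqLocus (ρ g) LinearMap.id := by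
      apply Submodule.span_le.2
      rintro _ ⟨q, rfl⟩
      show ρ g (ρ q.out v) = ρ q.out v
      rw [← Module.End.mul_apply, ← map_mul]
      apply fix_of_mul hv
      haveI := hΓ.normal n
      have := (hΓ.normal n).conj_mem g hg q.out⁻¹
      simpa [mul_assoc] using this
    exact this hw
  have hfd : FiniteDimensional F ↥W := FiniteDimensional.span_of_finite F (Set.finite_range b)
  have := le_fil hΓ hWst hfd hfix (finrank_range_le_card b)
  apply this
  have h1 := hmem 1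
  rwa [map_one] at h1

/-- NODE 1a -/
theorem exh (hΓ : FiltGroup Γ d u) (hρ : Smooth Γ ρ) : Exh ρ := by
  intro v
  obtain ⟨N, hN⟩ := hρ.smooth v
  obtain ⟨m, hm⟩ := openInv (ρ := ρ) hΓ N
  exact ⟨m, hm v hN⟩

end Exh

end Crest.Agent.R007.H
end

-- ▼ part R007/HTop
section

/-!
# Row 7, part H: assembly (helper775), modulo the finite image lemma for `d = 3` (425)
-/

set_option autoImplicit false

open Module

namespace Crest.Agent.R007.H

variable {F P U T ι : Type*} [Field F] [Finite F] [CharP F 2] [AddCommGroup P] [Module F P]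
  [Group U] [CommRing T] [Fintype ι]
variable {ρ : U →* Module.End F P} {Γ : ℕ → Subgroup U} {d : ℕ} {u : Fin d → U}
  {τ : T →+* Module.End F P} {φ : ι → (Module.Dual F P →+ T)}

/-- **PART H** modulo the finite image lemma. -/
theorem htop_of (hΓ : FiltGroup Γ d u) (hρ : Smooth Γ ρ) (hφ : GenData ρ τ φ) (hd : d ≤ 3)
    (h3 : d = 3 → FinImage Γ ρ) : IsNoetherianRing T ∧ ringKrullDim T ≤ 2 := by
  have hE : Exh ρ := exh hΓ hρ
  have hFD : FinDim ρ := finDim hΓ hρ
  have hD : Dcc ρ := dcc hΓ hρ hE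
  have hdrop : Drop ρ := drop hΓ hρ hE
  rcases Nat.lt_or_ge 2 d with h | h
  · have hd3 : d = 3 := by omega
    have h1 : DimBd ρ 3 := hd3 ▸ dimBd hΓ hρ
    exact HChainB.concl_three hE hFD (openInv (ρ := ρ) hΓ) hD hdrop hφ h1 (h3 hd3)
  · obtain ⟨hN, hK⟩ := HChainB.concl hFD hD hdrop hφ (dimBd hΓ hρ)
    refine ⟨hN, hK.trans ?_⟩
    exact_mod_cast h

end Crest.Agent.R007.H
end

-- ▼ part R007/HFinImageA
section

/-!
# Row 7, part H, node 5: the finite image lemma, algebraic core.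

`R = F⟦X⟧`, `char F = 2`, `E` an `R`-algebra without `X`-torsion and `X`-adically separated.
If `a, b ∈ E` satisfy `X ^ 2 ^ (k + l) ∣ [a ^ 2 ^ k, b ^ 2 ^ l]` for all `k, l` and the powers
`a ^ 2 ^ k` (`k ≤ D`), `b ^ 2 ^ k` (`k ≤ D`) are `R`-linearly dependent, then
`a ^ 2 ^ D` and `b ^ 2 ^ D` commute.
-/

set_option autoImplicit false

open Finset Polynomial

namespace Crest.Agent.R007.H.FI

variable {F : Type*} [Field F] [CharP F 2] {E : Type*} [Ring E] [Algebra (PowerSeries F) E]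

/-- divisibility by `X ^ m` in the algebra -/
def Dv (F : Type*) [Field F] {E : Type*} [Ring E] [Algebra (PowerSeries F) E] (m : ℕ) (y : E) :
    Prop := ∃ z : E, y = (PowerSeries.X : PowerSeries F) ^ m • z

theorem Dv.zero (m : ℕ) : Dv F m (0 : E) := ⟨0, by simp⟩

theorem Dv.add {m : ℕ} {y z : E} (hy : Dv F m y) (hz : Dv F m z) : Dv F m (y + z) := by
  obtain ⟨y', rfl⟩ := hy
  obtain ⟨z', rfl⟩ := hz
  exact ⟨y' + z', by rw [smul_add]⟩

theorem Dv.neg {m : ℕ} {y : E} (hy : Dv F m y) : Dv F m (-y) := by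
  obtain ⟨y', rfl⟩ := hy
  exact ⟨-y', by rw [smul_neg]⟩

theorem Dv.smul {m : ℕ} {y : E} (c : PowerSeries F) (hy : Dv F m y) : Dv F m (c • y) := by
  obtain ⟨y', rfl⟩ := hy
  exact ⟨c • y', by rw [smul_comm]⟩

theorem Dv.sum {ι : Type*} {m : ℕ} (s : Finset ι) (f : ι → E) (h : ∀ i ∈ s, Dv F m (f i)) :
    Dv F m (∑ i ∈ s, f i) := by
  classical
  induction s using Finset.induction_on with
  | empty => simpa using Dv.zero m
  | insert i s hi ih =>
    rw [Finset.sum_insert hi]
    exact (h i (Finset.mem_insert_self _ _)).add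
      (ih fun j hj => h j (Finset.mem_insert_of_mem hj))

theorem Dv.mono {m n : ℕ} (h : m ≤ n) {y : E} (hy : Dv F n y) : Dv F m y := by
  obtain ⟨y', rfl⟩ := hy
  refine ⟨(PowerSeries.X : PowerSeries F) ^ (n - m) • y', ?_⟩
  rw [smul_smul, ← pow_add, Nat.add_sub_cancel' h]

/-- no `X`-torsion -/
def TF (F : Type*) [Field F] (E : Type*) [Ring E] [Algebra (PowerSeries F) E] : Prop :=
  ∀ (n : ℕ) (y : E), (PowerSeries.X : PowerSeries F) ^ n • y = 0 → y = 0

/-- `X`-adically separated -/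
def Sep (F : Type*) [Field F] (E : Type*) [Ring E] [Algebra (PowerSeries F) E] : Prop :=
  ∀ (y : E), (∀ n, Dv F n y) → y = 0

theorem Dv.cancel (hTF : TF F E) {m n : ℕ} {y : E}
    (hy : Dv F (n + m) ((PowerSeries.X : PowerSeries F) ^ n • y)) : Dv F m y := by
  obtain ⟨z, hz⟩ := hy
  refine ⟨z, ?_⟩
  have : (PowerSeries.X : PowerSeries F) ^ n • (y - (PowerSeries.X : PowerSeries F) ^ m • z) = 0 := by
    rw [smul_sub, hz, smul_smul, ← pow_add, sub_self]
  exact sub_eq_zero.1 (hTF n _ this)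

instance : CharP (PowerSeries F) 2 :=
  charP_of_injective_ringHom (f := PowerSeries.C (R := F)) PowerSeries.C_injective 2

/-- Frobenius applied to a relation -/
theorem frob_rel {c : ℕ → PowerSeries F} {a : E} {D : ℕ}
    (h : ∑ k ∈ range (D + 1), c k • a ^ 2 ^ k = 0) (j : ℕ) :
    ∑ k ∈ range (D + 1), (c k) ^ 2 ^ j • a ^ 2 ^ (k + j) = 0 := by
  let P : (PowerSeries F)[X] := ∑ k ∈ range (D + 1), C (c k) * X ^ 2 ^ k
  have hP : aeval a P = 0 := by
    simp only [P, map_sum, map_mul, aeval_C, map_pow, aeval_X]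
    rw [← h]
    exact Finset.sum_congr rfl fun k _ => (Algebra.smul_def _ _).symm
  have hP2 : P ^ 2 ^ j = ∑ k ∈ range (D + 1), C ((c k) ^ 2 ^ j) * X ^ 2 ^ (k + j) := by
    haveI : ExpChar (PowerSeries F)[X] 2 := ExpChar.prime Nat.prime_two
    simp only [P]
    rw [sum_pow_char_pow]
    refine Finset.sum_congr rfl fun k _ => ?_
    rw [mul_pow, ← map_pow, ← pow_mul, ← pow_add]
  have h3 : aeval a (P ^ 2 ^ j) = 0 := by
    rw [map_pow, hP, zero_pow (by positivity)]
  rw [hP2] at h3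
  simp only [map_sum, map_mul, aeval_C, map_pow, aeval_X] at h3
  rw [← h3]
  refine Finset.sum_congr rfl fun k _ => ?_
  rw [Algebra.smul_def, map_pow]

/-- matrix commutator -/
def Cm (a b : E) (k l : ℕ) : E := a ^ 2 ^ k * b ^ 2 ^ l - b ^ 2 ^ l * a ^ 2 ^ k

theorem Cm_swap (a b : E) (k l : ℕ) : Cm a b k l = - Cm b a l k := by
  simp [Cm]

theorem rel_left {c : ℕ → PowerSeries F} {a : E} {D : ℕ}
    (h : ∑ k ∈ range (D + 1), c k • a ^ 2 ^ k = 0) (b : E) (j l : ℕ) :
    ∑ k ∈ range (D + 1), (c k) ^ 2 ^ j • Cm a b (k + j) l = 0 := by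
  have h1 := frob_rel h j
  have h2 : (∑ k ∈ range (D + 1), (c k) ^ 2 ^ j • a ^ 2 ^ (k + j)) * b ^ 2 ^ l
      - b ^ 2 ^ l * (∑ k ∈ range (D + 1), (c k) ^ 2 ^ j • a ^ 2 ^ (k + j)) = 0 := by
    rw [h1]; simp
  rw [Finset.sum_mul, Finset.mul_sum, ← Finset.sum_sub_distrib] at h2
  rw [← h2]
  refine Finset.sum_congr rfl fun k _ => ?_
  rw [Cm, smul_sub, smul_mul_assoc, mul_smul_comm]

/-- normalised relation -/
structure Rel (F : Type*) [Field F] {E : Type*} [Ring E] [Algebra (PowerSeries F) E] (a : E)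
    (D : ℕ) (c : ℕ → PowerSeries F) (k0 K : ℕ) : Prop where
  rel : ∑ k ∈ range (D + 1), c k • a ^ 2 ^ k = 0
  le : k0 ≤ D
  low : ∀ k < k0, c k = 0
  lead : c k0 = (PowerSeries.X : PowerSeries F) ^ K

theorem Rel.isolate {a : E} {D : ℕ} {c : ℕ → PowerSeries F} {k0 K : ℕ}
    (h : Rel F a D c k0 K) (b : E) (j l : ℕ) :
    (PowerSeries.X : PowerSeries F) ^ (K * 2 ^ j) • Cm a b (k0 + j) l =
      - ∑ k ∈ (range (D + 1)).filter (fun k => k0 < k), (c k) ^ 2 ^ j • Cm a b (k + j) l := by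
  have h1 := rel_left h.rel b j l
  have h2 : ∑ k ∈ range (D + 1), (c k) ^ 2 ^ j • Cm a b (k + j) l
      = ∑ k ∈ (range (D + 1)).filter (fun k => k0 < k), (c k) ^ 2 ^ j • Cm a b (k + j) l
        + (PowerSeries.X : PowerSeries F) ^ (K * 2 ^ j) • Cm a b (k0 + j) l := by
    rw [← Finset.sum_filter_add_sum_filter_not (range (D + 1)) (fun k => k0 < k)]
    congr 1
    rw [Finset.sum_eq_single_of_mem k0]
    · rw [h.lead, ← pow_mul]
    · simp only [Finset.mem_filter, Finset.mem_range]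
      exact ⟨Nat.lt_succ_of_le h.le, lt_irrefl _⟩
    · intro k hk hk0
      simp only [Finset.mem_filter, Finset.mem_range, not_lt] at hk
      rw [h.low k (lt_of_le_of_ne hk.2 hk0), zero_pow (by positivity), zero_smul]
  rw [h2] at h1
  exact eq_neg_of_add_eq_zero_right h1

theorem claim1_aux (hTF : TF F E) {a b : E} {D : ℕ} {c : ℕ → PowerSeries F} {k0 K : ℕ}
    (h : Rel F a D c k0 K) (hdiv : ∀ k l, Dv F (2 ^ (k + l)) (Cm a b k l)) {l : ℕ}
    (hl : K + 1 ≤ 2 ^ (k0 + l)) (t : ℕ) :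
    ∀ j, Dv F (2 ^ j * (K + 2 ^ t)) (Cm a b (k0 + j) l) := by
  induction t with
  | zero =>
    intro j
    refine Dv.mono ?_ (hdiv (k0 + j) l)
    have : 2 ^ (k0 + j + l) = 2 ^ j * 2 ^ (k0 + l) := by ring
    rw [this, pow_zero]
    exact Nat.mul_le_mul_left _ hl
  | succ t ih =>
    intro j
    apply Dv.cancel hTF (n := K * 2 ^ j)
    rw [h.isolate b j l]
    refine Dv.neg (Dv.sum _ _ fun k hk => Dv.smul _ ?_)
    simp only [Finset.mem_filter, Finset.mem_range] at hk
    have hk' : k + j = k0 + (j + (k - k0)) := by omega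
    rw [hk']
    refine Dv.mono ?_ (ih (j + (k - k0)))
    have h1 : 2 ^ (j + 1) ≤ 2 ^ (j + (k - k0)) := Nat.pow_le_pow_right (by norm_num) (by omega)
    calc K * 2 ^ j + 2 ^ j * (K + 2 ^ (t + 1)) = 2 ^ (j + 1) * (K + 2 ^ t) := by ring
      _ ≤ _ := Nat.mul_le_mul_right _ h1

theorem claim1 (hTF : TF F E) (hS : Sep F E) {a b : E} {D : ℕ} {c : ℕ → PowerSeries F} {k0 K : ℕ}
    (h : Rel F a D c k0 K) (hdiv : ∀ k l, Dv F (2 ^ (k + l)) (Cm a b k l)) {l : ℕ}
    (hl : K + 1 ≤ 2 ^ (k0 + l)) {k : ℕ} (hk : k0 ≤ k) : Cm a b k l = 0 := by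
  refine hS _ fun n => ?_
  have h1 := claim1_aux hTF h hdiv hl n (k - k0)
  rw [Nat.add_sub_cancel' hk] at h1
  refine Dv.mono ?_ h1
  calc n ≤ 2 ^ n := Nat.lt_two_pow_self.le
    _ ≤ K + 2 ^ n := Nat.le_add_left _ _
    _ ≤ 2 ^ (k - k0) * (K + 2 ^ n) := Nat.le_mul_of_pos_left _ (by positivity)

theorem claim2 (hTF : TF F E) {a b : E} {D : ℕ} {c : ℕ → PowerSeries F} {k0 K : ℕ}
    (h : Rel F a D c k0 K) (l : ℕ) (L : ℕ) (hL : ∀ k, L ≤ k → Cm a b k l = 0) :
    ∀ k, k0 ≤ k → Cm a b k l = 0 := by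
  induction L with
  | zero => exact fun k _ => hL k (Nat.zero_le _)
  | succ L ih =>
    by_cases hLk : k0 ≤ L
    · apply ih
      intro k hk
      rcases eq_or_lt_of_le hk with rfl | hk
      · obtain ⟨j, rfl⟩ := Nat.exists_eq_add_of_le hLk
        have h1 := h.isolate b j l
        rw [Finset.sum_eq_zero, neg_zero] at h1
        · exact hTF _ _ h1
        · intro k hk
          simp only [Finset.mem_filter, Finset.mem_range] at hk
          rw [hL (k + j) (by omega), smul_zero]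
      · exact hL k hk
    · intro k hk
      exact hL k (by omega)

/-- **algebraic core of the finite image lemma** -/
theorem core (hTF : TF F E) (hS : Sep F E) {a b : E} {D : ℕ} {c c' : ℕ → PowerSeries F}
    {k0 K k0' K' : ℕ} (h : Rel F a D c k0 K) (h' : Rel F b D c' k0' K')
    (hdiv : ∀ k l, Dv F (2 ^ (k + l)) (Cm a b k l)) : Commute (a ^ 2 ^ D) (b ^ 2 ^ D) := by
  have h1 : ∀ l, K ≤ l → Cm a b D l = 0 := by
    intro l hl
    refine claim1 hTF hS h hdiv ?_ h.le
    calc K + 1 ≤ l + 1 := by omega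
      _ ≤ 2 ^ l := Nat.lt_two_pow_self
      _ ≤ 2 ^ (k0 + l) := Nat.pow_le_pow_right (by norm_num) (by omega)
  have h2 : Cm b a D D = 0 := by
    refine claim2 hTF h' D K ?_ D h'.le
    intro k hk
    rw [Cm_swap, h1 k hk, neg_zero]
  have h3 := sub_eq_zero.1 h2
  exact h3.symm

end Crest.Agent.R007.H.FI
end

-- ▼ part R007/HFinImageB
section

set_option autoImplicit false

open Finset

namespace Crest.Agent.R007.H.FI

variable {F : Type*} [Field F]

theorem tf_matrix (h : ℕ) : TF F (Matrix (Fin h) (Fin h) (PowerSeries F)) := by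
  intro n y hy
  refine Matrix.ext fun i j => ?_
  have h1 := congrFun (congrFun hy i) j
  rw [Matrix.smul_apply, smul_eq_mul, Matrix.zero_apply] at h1
  rcases mul_eq_zero.1 h1 with h2 | h2
  · exact absurd h2 (pow_ne_zero _ PowerSeries.X_ne_zero)
  · exact h2

theorem sep_matrix (h : ℕ) : Sep F (Matrix (Fin h) (Fin h) (PowerSeries F)) := by
  intro y hy
  ext i j m
  obtain ⟨z, hz⟩ := hy (m + 1)
  have h1 : y i j = (PowerSeries.X : PowerSeries F) ^ (m + 1) * z i j := by
    rw [hz, Matrix.smul_apply, smul_eq_mul]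
  have h2 : (PowerSeries.X : PowerSeries F) ^ (m + 1) ∣ y i j := ⟨_, h1⟩
  rw [PowerSeries.X_pow_dvd_iff] at h2
  rw [h2 m (Nat.lt_succ_self m)]
  simp

theorem dv_matrix {h m : ℕ} {y : Matrix (Fin h) (Fin h) (PowerSeries F)}
    (hy : ∀ i j, ∀ n < m, PowerSeries.coeff n (y i j) = 0) : Dv F m y := by
  have h1 : ∀ i j, ∃ z, y i j = (PowerSeries.X : PowerSeries F) ^ m * z := by
    intro i j
    exact PowerSeries.X_pow_dvd_iff.2 (hy i j)
  choose z hz using h1
  refine ⟨Matrix.of z, Matrix.ext fun i j => ?_⟩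
  rw [Matrix.smul_apply, smul_eq_mul, Matrix.of_apply, hz i j]

theorem exists_rel {h : ℕ} (a : Matrix (Fin h) (Fin h) (PowerSeries F)) :
    ∃ c k0 K, Rel F a (h * h) c k0 K := by
  classical
  have hli : ¬ LinearIndependent (PowerSeries F)
      (fun k : Fin (h * h + 1) => a ^ 2 ^ (k : ℕ)) := by
    intro hli
    have h1 := hli.fintype_card_le_finrank
    rw [Fintype.card_fin, Module.finrank_matrix, Fintype.card_fin, Module.finrank_self] at h1
    omega
  rw [Fintype.not_linearIndependent_iff] at hli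
  obtain ⟨g, hg, i0, hi0⟩ := hli
  let c : ℕ → PowerSeries F := fun k => if hk : k < h * h + 1 then g ⟨k, hk⟩ else 0
  have hc : ∑ k ∈ range (h * h + 1), c k • a ^ 2 ^ k = 0 := by
    rw [Finset.sum_range, ← hg]
    refine Finset.sum_congr rfl fun k _ => ?_
    have hck : c k = g k := dif_pos k.2
    rw [hck]
  have hex : ∃ k, c k ≠ 0 := ⟨i0, by
    have hck : c i0 = g i0 := dif_pos i0.2
    rw [hck]; exact hi0⟩
  have hk0 := Nat.find_spec hex
  have hmin : ∀ k < Nat.find hex, c k = 0 := fun k hk => not_not.1 (Nat.find_min hex hk)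
  set k0 := Nat.find hex with hk0def
  have hle : k0 ≤ h * h := by
    by_contra hcon
    exact hk0 (by simp [c]; intro h1; omega)
  obtain ⟨K, u, hu⟩ := IsDiscreteValuationRing.eq_unit_mul_pow_irreducible hk0
    (PowerSeries.X_irreducible (R := F))
  refine ⟨fun k => (↑u⁻¹ : PowerSeries F) * c k, k0, K, ?_, hle, ?_, ?_⟩
  · have : ∑ k ∈ range (h * h + 1), ((↑u⁻¹ : PowerSeries F) * c k) • a ^ 2 ^ k
        = (↑u⁻¹ : PowerSeries F) • ∑ k ∈ range (h * h + 1), c k • a ^ 2 ^ k := by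
      rw [Finset.smul_sum]
      exact Finset.sum_congr rfl fun k _ => by rw [smul_smul]
    rw [this, hc, smul_zero]
  · intro k hk
    simp only [hmin k hk, mul_zero]
  · simp only [hu]
    rw [← mul_assoc, Units.inv_mul, one_mul]

theorem core_matrix [CharP F 2] {h : ℕ} {a b : Matrix (Fin h) (Fin h) (PowerSeries F)}
    (hdiv : ∀ k l, Dv F (2 ^ (k + l)) (Cm a b k l)) :
    Commute (a ^ 2 ^ (h * h)) (b ^ 2 ^ (h * h)) := by
  obtain ⟨c, k0, K, hr⟩ := exists_rel a
  obtain ⟨c', k0', K', hr'⟩ := exists_rel b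
  exact core (tf_matrix h) (sep_matrix h) hr hr' hdiv

/-! ### Endomorphisms of a divisible locally nilpotent `F[x]`-module as matrices -/

section Phi

open Module

variable {V : Type*} [AddCommGroup V] [Module F V]

/-- the data of a section -/
structure Sec (x σ : Module.End F V) : Prop where
  sec : ∀ v, x (σ v) = v
  nil : ∀ v, ∃ n : ℕ, (x ^ n) v = 0

/-- projection to `ker x` -/
def eps {x σ : Module.End F V} (hs : Sec x σ) : V →ₗ[F] LinearMap.ker x :=
  LinearMap.codRestrict (LinearMap.ker x) (LinearMap.id - σ * x) (by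
    intro v
    simp [hs.sec])

theorem eps_coe {x σ : Module.End F V} (hs : Sec x σ) (v : V) :
    ((eps hs v : LinearMap.ker x) : V) = v - σ (x v) := by
  simp [eps]

theorem expand {x σ : Module.End F V} (hs : Sec x σ) (m : ℕ) :
    ∀ v : V, (x ^ m) v = 0 → v = ∑ i ∈ range m, (σ ^ i) (eps hs ((x ^ i) v)) := by
  induction m with
  | zero => intro v hv; simpa using hv
  | succ m ih =>
    intro v hv
    have h1 : (x ^ m) (x v) = 0 := by
      rw [pow_succ] at hv
      exact hv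
    have h2 := ih (x v) h1
    rw [Finset.sum_range_succ']
    have h3 : ∑ i ∈ range m, (σ ^ (i + 1)) ((eps hs ((x ^ (i + 1)) v) : LinearMap.ker x) : V)
        = σ (x v) := by
      conv_rhs => rw [h2]
      rw [map_sum]
      refine Finset.sum_congr rfl fun i _ => ?_
      rw [pow_succ' σ, Module.End.mul_apply, pow_succ x, Module.End.mul_apply]
    rw [h3, eps_coe]
    simp

theorem x_pow_sig {x σ : Module.End F V} (hs : Sec x σ) (i : ℕ) : ∀ n v, i ≤ n →
    (x ^ i) ((σ ^ n) v) = (σ ^ (n - i)) v := by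
  induction i with
  | zero => intro n v _; simp
  | succ i ih =>
    intro n v hn
    obtain ⟨n, rfl⟩ : ∃ n', n = n' + 1 := ⟨n - 1, by omega⟩
    rw [pow_succ x, Module.End.mul_apply, pow_succ' σ, Module.End.mul_apply, hs.sec,
      ih n v (by omega)]
    congr 2
    omega

/-- the coefficients -/
def co {x σ : Module.End F V} (hs : Sec x σ) (A : Module.End F V) (n : ℕ) :
    LinearMap.ker x →ₗ[F] LinearMap.ker x :=
  eps hs ∘ₗ A ∘ₗ (σ ^ n) ∘ₗ (LinearMap.ker x).subtype

theorem co_apply {x σ : Module.End F V} (hs : Sec x σ) (A : Module.End F V) (n : ℕ)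
    (e : LinearMap.ker x) : co hs A n e = eps hs (A ((σ ^ n) e)) := rfl

theorem pow_succ_sig {x σ : Module.End F V} (hs : Sec x σ) (n : ℕ) (e : LinearMap.ker x) :
    (x ^ (n + 1)) ((σ ^ n) (e : V)) = 0 := by
  rw [pow_succ', Module.End.mul_apply, x_pow_sig hs n n _ le_rfl]
  simp

theorem comm_pow {x A : Module.End F V} (hA : Commute x A) (n : ℕ) (v : V) :
    (x ^ n) (A v) = A ((x ^ n) v) := by
  have h1 : x ^ n * A = A * x ^ n := (hA.pow_left n).eq
  exact LinearMap.congr_fun h1 v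

theorem A_sig {x σ : Module.End F V} (hs : Sec x σ) {A : Module.End F V} (hA : Commute x A)
    (n : ℕ) (e : LinearMap.ker x) :
    A ((σ ^ n) (e : V)) = ∑ i ∈ range (n + 1), (σ ^ i) ((co hs A (n - i) e : LinearMap.ker x) : V) := by
  have h0 : (x ^ (n + 1)) (A ((σ ^ n) (e : V))) = 0 := by
    rw [comm_pow hA, pow_succ_sig hs, map_zero]
  rw [expand hs (n + 1) _ h0]
  refine Finset.sum_congr rfl fun i hi => ?_
  rw [co_apply, comm_pow hA, x_pow_sig hs i n _ (by simpa [Nat.lt_succ_iff] using hi)]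

theorem co_mul {x σ : Module.End F V} (hs : Sec x σ) {A B : Module.End F V} (hB : Commute x B)
    (n : ℕ) : co hs (A * B) n = ∑ i ∈ range (n + 1), co hs A i ∘ₗ co hs B (n - i) := by
  ext e : 1
  rw [co_apply, Module.End.mul_apply, A_sig hs hB, map_sum, map_sum, LinearMap.sum_apply]
  rfl

theorem eq_zero_of_co {x σ : Module.End F V} (hs : Sec x σ) {A : Module.End F V}
    (hA : Commute x A) (h : ∀ n, co hs A n = 0) : A = 0 := by
  ext v
  obtain ⟨m, hm⟩ := hs.nil v
  rw [expand hs m v hm, map_sum]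
  refine Finset.sum_eq_zero fun i _ => ?_
  rw [A_sig hs hA]
  refine Finset.sum_eq_zero fun j _ => ?_
  rw [h]
  simp

theorem co_eq_zero_of_kills {x σ : Module.End F V} (hs : Sec x σ) {A : Module.End F V} {m : ℕ}
    (h : ∀ v, (x ^ m) v = 0 → A v = 0) {n : ℕ} (hn : n < m) : co hs A n = 0 := by
  ext e : 1
  rw [co_apply, h, map_zero, LinearMap.zero_apply]
  obtain ⟨k, rfl⟩ := Nat.exists_eq_add_of_lt hn
  have : n + k + 1 = k + (n + 1) := by ring
  rw [this, pow_add, Module.End.mul_apply, pow_succ_sig hs, map_zero]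

theorem co_sub {x σ : Module.End F V} (hs : Sec x σ) (A B : Module.End F V) (n : ℕ) :
    co hs (A - B) n = co hs A n - co hs B n := by
  ext e : 1
  simp [co_apply]

theorem co_one {x σ : Module.End F V} (hs : Sec x σ) (n : ℕ) :
    co hs 1 n = if n = 0 then LinearMap.id else 0 := by
  ext e : 2
  rw [co_apply, eps_coe]
  split_ifs with h
  · subst h; simp
  · obtain ⟨n, rfl⟩ := Nat.exists_eq_succ_of_ne_zero h
    rw [Module.End.one_apply, Nat.succ_eq_add_one, pow_succ' σ, Module.End.mul_apply, hs.sec]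
    simp

variable {h : ℕ}

/-- the matrix of `A` over `F⟦X⟧` -/
noncomputable def Phi {x σ : Module.End F V} (hs : Sec x σ)
    (b : Basis (Fin h) F (LinearMap.ker x)) (A : Module.End F V) :
    Matrix (Fin h) (Fin h) (PowerSeries F) :=
  Matrix.of fun i j => PowerSeries.mk fun n => LinearMap.toMatrix b b (co hs A n) i j

theorem coeff_Phi {x σ : Module.End F V} (hs : Sec x σ)
    (b : Basis (Fin h) F (LinearMap.ker x)) (A : Module.End F V) (i j : Fin h) (n : ℕ) :
    PowerSeries.coeff n (Phi hs b A i j) = LinearMap.toMatrix b b (co hs A n) i j := by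
  simp [Phi]

theorem Phi_mul {x σ : Module.End F V} (hs : Sec x σ)
    (b : Basis (Fin h) F (LinearMap.ker x)) {A B : Module.End F V} (hB : Commute x B) :
    Phi hs b (A * B) = Phi hs b A * Phi hs b B := by
  ext i j n
  have h1 : LinearMap.toMatrix b b (∑ i ∈ range (n + 1), co hs A i ∘ₗ co hs B (n - i)) i j
      = ∑ p ∈ range (n + 1), ∑ k, LinearMap.toMatrix b b (co hs A p) i k *
          LinearMap.toMatrix b b (co hs B (n - p)) k j := by
    rw [map_sum]
    refine (Matrix.sum_apply _ _ _ _).trans ?_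
    refine Finset.sum_congr rfl fun p _ => ?_
    rw [LinearMap.toMatrix_comp b b b, Matrix.mul_apply]
  rw [coeff_Phi, co_mul hs hB, h1, Matrix.mul_apply, map_sum, Finset.sum_comm]
  refine Finset.sum_congr rfl fun k _ => ?_
  rw [PowerSeries.coeff_mul, Finset.Nat.sum_antidiagonal_eq_sum_range_succ_mk]
  refine Finset.sum_congr rfl fun p _ => ?_
  rw [coeff_Phi, coeff_Phi]

theorem Phi_sub {x σ : Module.End F V} (hs : Sec x σ)
    (b : Basis (Fin h) F (LinearMap.ker x)) (A B : Module.End F V) :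
    Phi hs b (A - B) = Phi hs b A - Phi hs b B := by
  ext i j n
  rw [Matrix.sub_apply, map_sub, coeff_Phi, coeff_Phi, coeff_Phi, co_sub, map_sub, Matrix.sub_apply]

theorem Phi_one {x σ : Module.End F V} (hs : Sec x σ)
    (b : Basis (Fin h) F (LinearMap.ker x)) : Phi hs b 1 = 1 := by
  ext i j n
  rw [coeff_Phi, co_one]
  split_ifs with hn
  · subst hn
    rw [LinearMap.toMatrix_id]
    by_cases hij : i = j
    · subst hij; simp
    · simp [Matrix.one_apply_ne hij]
  · rw [map_zero, Matrix.zero_apply]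
    by_cases hij : i = j
    · subst hij; simp [PowerSeries.coeff_one, hn]
    · simp [Matrix.one_apply_ne hij]

theorem Phi_pow {x σ : Module.End F V} (hs : Sec x σ)
    (b : Basis (Fin h) F (LinearMap.ker x)) {A : Module.End F V} (hA : Commute x A) (n : ℕ) :
    Phi hs b (A ^ n) = Phi hs b A ^ n := by
  induction n with
  | zero => rw [pow_zero, pow_zero, Phi_one]
  | succ n ih => rw [pow_succ, pow_succ, Phi_mul hs b hA, ih]

theorem Phi_dv {x σ : Module.End F V} (hs : Sec x σ)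
    (b : Basis (Fin h) F (LinearMap.ker x)) {A : Module.End F V} {m : ℕ}
    (hA : ∀ v, (x ^ m) v = 0 → A v = 0) : Dv F m (Phi hs b A) := by
  refine dv_matrix fun i j n hn => ?_
  rw [coeff_Phi, co_eq_zero_of_kills hs hA hn, map_zero, Matrix.zero_apply]

theorem Phi_inj {x σ : Module.End F V} (hs : Sec x σ)
    (b : Basis (Fin h) F (LinearMap.ker x)) {A : Module.End F V} (hA : Commute x A)
    (h0 : Phi hs b A = 0) : A = 0 := by
  refine eq_zero_of_co hs hA fun n => ?_
  apply (LinearMap.toMatrix b b).injective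
  ext i j
  rw [← coeff_Phi hs b, h0, map_zero]
  simp

/-- core lemma for endomorphisms -/
theorem core_end [CharP F 2] {x : Module.End F V} (hsurj : Function.Surjective x)
    (hnil : ∀ v, ∃ n : ℕ, (x ^ n) v = 0) [FiniteDimensional F (LinearMap.ker x)]
    {A B : Module.End F V} (hA : Commute x A) (hB : Commute x B)
    (hdiv : ∀ k l v, (x ^ 2 ^ (k + l)) v = 0 →
      (A ^ 2 ^ k * B ^ 2 ^ l - B ^ 2 ^ l * A ^ 2 ^ k) v = 0) :
    Commute (A ^ 2 ^ (finrank F (LinearMap.ker x) * finrank F (LinearMap.ker x)))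
      (B ^ 2 ^ (finrank F (LinearMap.ker x) * finrank F (LinearMap.ker x))) := by
  obtain ⟨σ, hσ⟩ := LinearMap.exists_rightInverse_of_surjective x (LinearMap.range_eq_top.2 hsurj)
  have hs : Sec x σ := ⟨fun v => LinearMap.congr_fun hσ v, hnil⟩
  let b := Module.finBasis F (LinearMap.ker x)
  have h1 := core_matrix (a := Phi hs b A) (b := Phi hs b B) (by
    intro k l
    have h2 := Phi_dv hs b (A := A ^ 2 ^ k * B ^ 2 ^ l - B ^ 2 ^ l * A ^ 2 ^ k) (hdiv k l)
    rw [Phi_sub, Phi_mul hs b (hB.pow_right _), Phi_mul hs b (hA.pow_right _), Phi_pow hs b hA,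
      Phi_pow hs b hB] at h2
    exact h2)
  rw [← Phi_pow hs b hA, ← Phi_pow hs b hB] at h1
  have h3 : Phi hs b (A ^ 2 ^ (finrank F (LinearMap.ker x) * finrank F (LinearMap.ker x)) *
      B ^ 2 ^ (finrank F (LinearMap.ker x) * finrank F (LinearMap.ker x)) -
      B ^ 2 ^ (finrank F (LinearMap.ker x) * finrank F (LinearMap.ker x)) *
      A ^ 2 ^ (finrank F (LinearMap.ker x) * finrank F (LinearMap.ker x))) = 0 := by
    rw [Phi_sub, Phi_mul hs b (hB.pow_right _), Phi_mul hs b (hA.pow_right _)]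
    exact sub_eq_zero.2 h1.eq
  have hc : Commute x (A ^ 2 ^ (finrank F (LinearMap.ker x) * finrank F (LinearMap.ker x)) *
      B ^ 2 ^ (finrank F (LinearMap.ker x) * finrank F (LinearMap.ker x)) -
      B ^ 2 ^ (finrank F (LinearMap.ker x) * finrank F (LinearMap.ker x)) *
      A ^ 2 ^ (finrank F (LinearMap.ker x) * finrank F (LinearMap.ker x))) :=
    (((hA.pow_right _).mul_right (hB.pow_right _)).sub_right
      ((hB.pow_right _).mul_right (hA.pow_right _)))
  exact sub_eq_zero.1 (Phi_inj hs b hc h3)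

end Phi

end Crest.Agent.R007.H.FI
end

-- ▼ part R007/HFinImage
section

/-!
# Row 7, part H, node 5: the finite image lemma `finImage`.
-/

set_option autoImplicit false

open Module

namespace Crest.Agent.R007.H

section Group

variable {U : Type*} [Group U] {Γ : ℕ → Subgroup U} {d : ℕ} {u : Fin d → U}

/-- elements of `Γ (s + k)` are `2 ^ k`-th powers of elements of `Γ s` modulo every `Γ n` -/
theorem FiltGroup.root (hΓ : FiltGroup Γ d u) (k : ℕ) : ∀ s n, ∀ g ∈ Γ (s + k),
    ∃ h ∈ Γ s, g⁻¹ * h ^ 2 ^ k ∈ Γ n := by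
  induction k with
  | zero => exact fun s n g hg => ⟨g, hg, by simp [(Γ n).one_mem]⟩
  | succ k ih =>
    intro s n g hg
    obtain ⟨h1, hh1, hg1⟩ := hΓ.sqrt (s + k) n g hg
    obtain ⟨h, hh, hh2⟩ := ih s n h1 hh1
    refine ⟨h, hh, ?_⟩
    have hn := hΓ.normal n
    have e1 : g⁻¹ * h ^ 2 ^ (k + 1)
        = (g⁻¹ * h1 ^ 2) * (h1⁻¹ * (h1⁻¹ * h ^ 2 ^ k) * h1⁻¹⁻¹) * (h1⁻¹ * h ^ 2 ^ k) := by
      rw [pow_succ 2 k, pow_mul h, pow_two (h ^ 2 ^ k), pow_two h1]
      group
    rw [e1]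
    exact (Γ n).mul_mem ((Γ n).mul_mem hg1 (hn.conj_mem _ hh2 _)) hh2

theorem FiltGroup.pow_mem (hΓ : FiltGroup Γ d u) (k : ℕ) : ∀ s, ∀ g ∈ Γ s,
    g ^ 2 ^ k ∈ Γ (s + k) := by
  induction k with
  | zero => intro s g hg; simpa using hg
  | succ k ih =>
    intro s g hg
    rw [pow_succ, pow_mul]
    exact hΓ.sq_mem (s + k) _ (ih s g hg)

end Group

section Abs

variable {F V U : Type*} [Field F] [CharP F 2] [AddCommGroup V] [Module F V] [Group U]
  {Γ : ℕ → Subgroup U} {d : ℕ} {u : Fin d → U}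

omit [CharP F 2] in
theorem pow_kills {x A : Module.End F V} (hA : Commute x A) (hk : ∀ v, x v = 0 → A v = 0)
    (m : ℕ) : ∀ v, (x ^ m) v = 0 → (A ^ m) v = 0 := by
  induction m with
  | zero => intro v hv; simpa using hv
  | succ m ih =>
    intro v hv
    rw [pow_succ, Module.End.mul_apply]
    apply ih
    rw [FI.comm_pow hA]
    apply hk
    rw [← Module.End.mul_apply, ← pow_succ']
    exact hv

/-- the finite image lemma, for a representation on the whole space -/
theorem finImage_abs (hΓ : FiltGroup Γ d u) (h4 : H4 Γ) (ρ : U →* Module.End F V)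
    (hsm : ∀ v, ∃ N, ∀ g ∈ Γ N, ρ g v = v) (x : Module.End F V) (hx : ∀ g, Commute x (ρ g))
    (hsurj : Function.Surjective x) (hnil : ∀ v, ∃ n : ℕ, (x ^ n) v = 0)
    (hfd : FiniteDimensional F (LinearMap.ker x)) : ∃ n, ∀ g ∈ Γ n, ∀ v, ρ g v = v := by
  classical
  -- an open subgroup acting trivially on `ker x`
  obtain ⟨s, hs⟩ : ∃ s, ∀ g ∈ Γ s, ∀ v, x v = 0 → ρ g v = v := by
    let b := Module.finBasis F (LinearMap.ker x)
    choose N hN using fun i => hsm (b i : V)
    refine ⟨Finset.univ.sup N, fun g hg v hv => ?_⟩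
    have h1 : ∀ i, ρ g (b i : V) = (b i : V) := fun i =>
      hN i g (hΓ.anti (Finset.le_sup (Finset.mem_univ i)) hg)
    have h2 : (ρ g) ∘ₗ (LinearMap.ker x).subtype = (LinearMap.ker x).subtype :=
      b.ext fun i => h1 i
    exact LinearMap.congr_fun h2 ⟨v, hv⟩
  -- the operators `A = ρ g - 1`
  have hchar : CharP (Module.End F V) 2 ∨ Subsingleton (Module.End F V) := by
    rcases subsingleton_or_nontrivial (Module.End F V) with h | h
    · exact Or.inr h
    · exact Or.inl (charP_of_injective_algebraMap (algebraMap F (Module.End F V)).injective 2)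
  have hpow : ∀ (g : U) (k : ℕ), ρ g ^ 2 ^ k = 1 + (ρ g - 1) ^ 2 ^ k := by
    intro g k
    rcases hchar with h | h
    · haveI : Fact (Nat.Prime 2) := ⟨Nat.prime_two⟩
      have h1 := add_pow_char_pow_of_commute (p := 2) (n := k) (Commute.one_left (ρ g - 1))
      rw [one_pow, add_sub_cancel] at h1
      exact h1
    · exact Subsingleton.elim _ _
  have hcA : ∀ g, Commute x (ρ g - 1) := fun g => (hx g).sub_right (Commute.one_right x)
  -- (W)
  have hW : ∀ k, ∀ g ∈ Γ (s + k), ∀ v, (x ^ 2 ^ k) v = 0 → ρ g v = v := by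
    intro k g hg v hv
    obtain ⟨N, hN⟩ := hsm v
    obtain ⟨h, hh, hgh⟩ := hΓ.root k s N g hg
    have h1 : ρ g v = ρ (h ^ 2 ^ k) v := by
      have : h ^ 2 ^ k = g * (g⁻¹ * h ^ 2 ^ k) := by group
      rw [this, map_mul, Module.End.mul_apply, hN _ hgh]
    rw [h1, map_pow, hpow, LinearMap.add_apply, Module.End.one_apply,
      pow_kills (hcA h) (fun w hw => by
        rw [LinearMap.sub_apply, Module.End.one_apply, hs h hh w hw, sub_self]) _ v hv, add_zero]
  -- commutators
  have hC : ∀ g ∈ Γ s, ∀ h ∈ Γ s, ∀ k l v, (x ^ 2 ^ (k + l)) v = 0 →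
      ((ρ g - 1) ^ 2 ^ k * (ρ h - 1) ^ 2 ^ l - (ρ h - 1) ^ 2 ^ l * (ρ g - 1) ^ 2 ^ k :
        Module.End F V) v = 0 := by
    intro g hg h hh k l v hv
    have e1 : (ρ g - 1) ^ 2 ^ k * (ρ h - 1) ^ 2 ^ l - (ρ h - 1) ^ 2 ^ l * (ρ g - 1) ^ 2 ^ k
        = ρ (g ^ 2 ^ k * h ^ 2 ^ l) - ρ (h ^ 2 ^ l * g ^ 2 ^ k) := by
      rw [map_mul, map_mul, map_pow, map_pow, hpow g k, hpow h l]
      noncomm_ring
    rw [e1, LinearMap.sub_apply, sub_eq_zero]
    have hc : (g ^ 2 ^ k) * (h ^ 2 ^ l) * (g ^ 2 ^ k)⁻¹ * (h ^ 2 ^ l)⁻¹ ∈ Γ (s + (k + l)) :=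
      hΓ.anti (by omega) (hΓ.comm (s + k) (s + l) _ (hΓ.pow_mem k s g hg) _ (hΓ.pow_mem l s h hh))
    have e2 : g ^ 2 ^ k * h ^ 2 ^ l
        = ((g ^ 2 ^ k) * (h ^ 2 ^ l) * (g ^ 2 ^ k)⁻¹ * (h ^ 2 ^ l)⁻¹) * (h ^ 2 ^ l * g ^ 2 ^ k) := by
      group
    rw [e2, map_mul ρ ((g ^ 2 ^ k) * (h ^ 2 ^ l) * (g ^ 2 ^ k)⁻¹ * (h ^ 2 ^ l)⁻¹),
      Module.End.mul_apply]
    apply hW (k + l) _ hc
    rw [FI.comm_pow (hx _), hv, map_zero]
  -- the `2 ^ D`-th powers of elements of `Γ s` commute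
  set D := finrank F (LinearMap.ker x) * finrank F (LinearMap.ker x) with hD
  have hcomm : ∀ g ∈ Γ s, ∀ h ∈ Γ s, Commute (ρ (g ^ 2 ^ D)) (ρ (h ^ 2 ^ D)) := by
    intro g hg h hh
    have h1 := FI.core_end hsurj hnil (hcA g) (hcA h) (hC g hg h hh)
    rw [← hD] at h1
    rw [map_pow, map_pow, hpow, hpow]
    exact ((Commute.one_left _).add_left (((Commute.one_right _).add_right h1)))
  -- `Γ (s + D)` has commutative image
  have hab : ∀ g ∈ Γ (s + D), ∀ h ∈ Γ (s + D), ∀ v, ρ (g * h * g⁻¹ * h⁻¹) v = v := by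
    intro g hg h hh v
    have key : ∀ g ∈ Γ (s + D), ∀ h ∈ Γ (s + D), ∀ v, ρ (g * h) v = ρ (h * g) v := by
      intro g hg h hh v
      obtain ⟨N, hN⟩ := hsm v
      have hn := hΓ.normal N
      obtain ⟨g', hg', hgg⟩ := hΓ.root D s N g hg
      obtain ⟨h', hh', hhh⟩ := hΓ.root D s N h hh
      have aux : ∀ a b a' b' : U, a⁻¹ * a' ∈ Γ N → b⁻¹ * b' ∈ Γ N →
          ρ (a * b) v = ρ (a' * b') v := by
        intro a b a' b' ha hb
        have e1 : a' * b' = (a * b) * ((b⁻¹ * (a⁻¹ * a') * b⁻¹⁻¹) * (b⁻¹ * b')) := by group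
        rw [e1, map_mul ρ (a * b), Module.End.mul_apply,
          hN _ ((Γ N).mul_mem (hn.conj_mem _ ha _) hb)]
      rw [aux g h _ _ hgg hhh, aux h g _ _ hhh hgg, map_mul, map_mul, (hcomm g' hg' h' hh').eq]
    have e1 : g * h * g⁻¹ * h⁻¹ = (g * h) * (h * g)⁻¹ := by group
    have h2 := key g hg h hh (ρ ((h * g)⁻¹) v)
    rw [← Module.End.mul_apply, ← Module.End.mul_apply, ← map_mul, ← map_mul,
      mul_inv_cancel, map_one, Module.End.one_apply] at h2
    rw [e1]
    exact h2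
  -- conclusion
  obtain ⟨n, hn⟩ := h4 (s + D)
  refine ⟨n, fun g hg v => ?_⟩
  obtain ⟨N, hN⟩ := hsm v
  obtain ⟨w, hw, hgw⟩ := hn N g hg
  have h1 : ∀ v, ρ w v = v := by
    clear hgw
    induction hw using Subgroup.closure_induction with
    | mem c hc =>
      obtain ⟨a, ha, b, hb, rfl⟩ := hc
      exact hab a ha b hb
    | one => intro v; rw [map_one, Module.End.one_apply]
    | mul a b _ _ iha ihb => intro v; rw [map_mul, Module.End.mul_apply, ihb, iha]
    | inv a _ iha =>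
      intro v
      have h2 : ρ a⁻¹ (ρ a v) = v := by
        rw [← Module.End.mul_apply, ← map_mul, inv_mul_cancel, map_one, Module.End.one_apply]
      rw [iha] at h2
      exact h2
  have h2 : w = g * (g⁻¹ * w) := by group
  have h3 := h1 v
  rw [h2, map_mul, Module.End.mul_apply, hN _ hgw] at h3
  exact h3

end Abs

/-- **NODE 5**: the finite image lemma. -/
theorem finImage {F P U : Type*} [Field F] [CharP F 2] [AddCommGroup P] [Module F P] [Group U]
    {Γ : ℕ → Subgroup U} {d : ℕ} {u : Fin d → U} {ρ : U →* Module.End F P}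
    (hΓ : FiltGroup Γ d u) (h4 : H4 Γ) (hρ : Smooth Γ ρ) : FinImage Γ ρ := by
  intro x hx Z hZ hxZ hnil hfd
  have hxm : ∀ v ∈ Z, x v ∈ Z := fun v hv => hxZ ▸ Submodule.mem_map_of_mem hv
  let x' : Module.End F Z := x.restrict hxm
  let ρ' : U →* Module.End F Z :=
    { toFun := fun g => (ρ g).restrict (hZ g)
      map_one' := by ext v; simp
      map_mul' := by intro g h; ext v; simp }
  have hxp : ∀ (n : ℕ) (v : Z), (((x' ^ n) v : Z) : P) = (x ^ n) (v : P) := by
    intro n
    induction n with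
    | zero => intro v; simp
    | succ n ih =>
      intro v
      rw [pow_succ, pow_succ, Module.End.mul_apply, Module.End.mul_apply, ih]
      rfl
  obtain ⟨n, hn⟩ := finImage_abs (V := Z) hΓ h4 ρ' (by
      rintro ⟨v, hv⟩
      obtain ⟨N, hN⟩ := hρ.smooth v
      exact ⟨N, fun g hg => Subtype.ext (hN g hg)⟩) x' (by
      intro g
      ext v
      exact LinearMap.congr_fun (hx g).eq (v : P)) (by
      rintro ⟨v, hv⟩
      rw [← hxZ] at hv
      obtain ⟨w, hw, hwv⟩ := hv
      exact ⟨⟨w, hw⟩, Subtype.ext hwv⟩) (by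
      rintro ⟨v, hv⟩
      obtain ⟨n, hn⟩ := hnil v hv
      exact ⟨n, Subtype.ext ((hxp n _).trans hn)⟩) (by
      have hmem : ∀ v : LinearMap.ker x', ((v : Z) : P) ∈ Z ⊓ LinearMap.ker x := by
        rintro ⟨v, hv⟩
        refine ⟨v.2, ?_⟩
        have h1 : x' v = 0 := hv
        exact congrArg Subtype.val h1
      let f : LinearMap.ker x' →ₗ[F] ↥(Z ⊓ LinearMap.ker x) :=
        LinearMap.codRestrict _ (Z.subtype ∘ₗ (LinearMap.ker x').subtype) hmem
      refine FiniteDimensional.of_injective f ?_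
      intro v w hvw
      exact Subtype.ext (Subtype.ext (congrArg (fun z : ↥(Z ⊓ LinearMap.ker x) => (z : P)) hvw)))
  exact ⟨n, fun g hg v hv => congrArg Subtype.val (hn g hg ⟨v, hv⟩)⟩

end Crest.Agent.R007.H
end

-- ▼ part R007/GBim
section

/-!
# Row 7, section G: the bimodule (abstract form)

Input: `GData` (duality, Hecke formula on supersingular expansions, smooth group action).
Output: a `T0`-module `Pi` with commuting smooth `GG`-action, finite-dimensional invariants,
and finitely many `T0`-linear maps `W → Pi`, jointly injective.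
-/

set_option autoImplicit false
set_option linter.dupNamespace false

open scoped TensorProduct

namespace Crest.Agent.R007.G

/-- Input data for the bimodule construction. -/
structure GData (F T0 W V GG P I : Type*) [Field F] [CommRing T0] [Algebra F T0]
    [AddCommGroup W] [Module F W] [Module T0 W] [IsScalarTower F T0 W]
    [AddCommGroup V] [Module F V] [Group GG] where
  /-- the action on `V` (= `K / R`) -/
  act : GG →* Module.End F V
  /-- congruence subgroups -/
  Gam : ℕ → Subgroup GG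
  normal : ∀ n, (Gam n).Normal
  finidx : ∀ n, (Gam n).FiniteIndex
  /-- `Gam 0 / Gam n` is a 2-group -/
  pgrp : ∀ n, ∀ g ∈ Gam 0, ∃ k : ℕ, g ^ (2 ^ k) ∈ Gam n
  anti : Antitone Gam
  /-- the action on `V` is smooth -/
  smooth : ∀ v : V, ∃ n, ∀ g ∈ Gam n, act g v = v
  /-- first coefficient functional -/
  a : W →ₗ[F] F
  dual_inj : ∀ t : T0, (∀ w, a (t • w) = 0) → t = 0
  dual_surj : ∀ f : W →ₗ[F] F, ∃ t : T0, ∀ w, f w = a (t • w)
  /-- generators of the Hecke algebra -/
  gen : I → T0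
  approx : ∀ (s : Finset W) (t : T0), ∃ x ∈ Algebra.adjoin F (Set.range gen), ∀ w ∈ s, t • w = x • w
  /-- orbits are finite-dimensional -/
  locfin : ∀ w : W, Module.Finite F (Submodule.span T0 {w})
  /-- supersingular expansions -/
  E : P → W →ₗ[F] V
  E_inj : ∀ w, (∀ e, E e w = 0) → w = 0
  /-- Hecke formula -/
  hk : I → P → List (GG × P)
  hecke : ∀ i e w, E e (gen i • w) = ((hk i e).map fun d => act d.1 (E d.2 w)).sum

variable {F T0 W V GG P I : Type*} [Field F] [CommRing T0] [Algebra F T0]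
    [AddCommGroup W] [Module F W] [Module T0 W] [IsScalarTower F T0 W]
    [AddCommGroup V] [Module F V] [Group GG]
    (D : GData F T0 W V GG P I)

instance : SMulCommClass T0 F W := IsScalarTower.to_smulCommClass' (R := F) (A := T0) (M := W)

namespace GData

/-- matrix coefficients `(g, e) ↦ Ξ (g • E_e w)` -/
def phi : W →ₗ[F] Module.Dual F V →ₗ[F] (GG → P → F) :=
  LinearMap.mk₂ F (fun w Xi g e => Xi (D.act g (D.E e w)))
    (by intro w w' Xi; ext g e; simp)
    (by intro c w Xi; ext g e; simp)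
    (by intro w Xi Xi'; ext g e; simp)
    (by intro c w Xi; ext g e; simp)

@[simp] theorem phi_apply (w : W) (Xi : Module.Dual F V) (g : GG) (e : P) :
    D.phi w Xi g e = Xi (D.act g (D.E e w)) := rfl

/-- the same on the tensor product -/
def Phi : W ⊗[F] Module.Dual F V →ₗ[F] (GG → P → F) := TensorProduct.lift D.phi

@[simp] theorem Phi_tmul (w : W) (Xi : Module.Dual F V) (g : GG) (e : P) :
    D.Phi (w ⊗ₜ Xi) g e = Xi (D.act g (D.E e w)) := by
  simp [Phi]

/-- Hecke operators on functions -/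
def HO (i : I) : (GG → P → F) →ₗ[F] (GG → P → F) where
  toFun f := fun g e => ((D.hk i e).map fun d => f (g * d.1) d.2).sum
  map_add' f f' := by
    ext g e
    simp [List.sum_map_add]
  map_smul' c f := by
    ext g e
    simp [List.sum_map_mul_left]

theorem sum_map_lin {X Y : Type*} [AddCommMonoid X] [AddCommMonoid Y] {J : Type*} (f : X →+ Y)
    (l : List J) (h : J → X) : f ((l.map h).sum) = (l.map fun j => f (h j)).sum := by
  rw [map_list_sum, List.map_map]; rfl

theorem Phi_gen (i : I) (m : W ⊗[F] Module.Dual F V) :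
    D.Phi (D.gen i • m) = D.HO i (D.Phi m) := by
  induction m using TensorProduct.induction_on with
  | zero => simp
  | tmul w Xi =>
    ext g e
    rw [TensorProduct.smul_tmul']
    simp only [Phi_tmul, HO, LinearMap.coe_mk, AddHom.coe_mk]
    rw [D.hecke]
    have h1 := sum_map_lin (Xi.toAddMonoidHom.comp (D.act g).toAddMonoidHom)
      (D.hk i e) (fun d => D.act d.1 (D.E d.2 w))
    simp only [AddMonoidHom.comp_apply, LinearMap.toAddMonoidHom_coe] at h1
    rw [h1]
    simp only [map_mul, Module.End.mul_apply]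
  | add x y hx hy => rw [smul_add, map_add, map_add, hx, hy, map_add]

theorem Phi_adjoin (x : T0) (hx : x ∈ Algebra.adjoin F (Set.range D.gen)) :
    ∃ H : (GG → P → F) →ₗ[F] (GG → P → F), ∀ m, D.Phi (x • m) = H (D.Phi m) := by
  induction hx using Algebra.adjoin_induction with
  | mem x hx =>
    obtain ⟨i, rfl⟩ := hx
    exact ⟨D.HO i, D.Phi_gen i⟩
  | algebraMap r =>
    refine ⟨r • LinearMap.id, fun m => ?_⟩
    rw [algebraMap_smul]
    simp
  | add x y _ _ hx hy =>
    obtain ⟨H, hH⟩ := hx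
    obtain ⟨H', hH'⟩ := hy
    refine ⟨H + H', fun m => ?_⟩
    rw [add_smul, map_add, hH, hH']
    rfl
  | mul x y _ _ hx hy =>
    obtain ⟨H, hH⟩ := hx
    obtain ⟨H', hH'⟩ := hy
    refine ⟨H ∘ₗ H', fun m => ?_⟩
    rw [mul_smul, hH, hH']
    rfl

omit D in
theorem approx_tensor (m : W ⊗[F] Module.Dual F V) :
    ∃ s : Finset W, ∀ t x : T0, (∀ w ∈ s, t • w = x • w) → t • m = x • m := by
  classical
  induction m using TensorProduct.induction_on with
  | zero => exact ⟨∅, fun t x _ => by simp⟩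
  | tmul w Xi =>
    refine ⟨{w}, fun t x h => ?_⟩
    rw [TensorProduct.smul_tmul', TensorProduct.smul_tmul', h w (by simp)]
  | add a b ha hb =>
    obtain ⟨s, hs⟩ := ha
    obtain ⟨s', hs'⟩ := hb
    refine ⟨s ∪ s', fun t x h => ?_⟩
    rw [smul_add, smul_add, hs t x (fun w hw => h w (Finset.mem_union_left _ hw)),
      hs' t x (fun w hw => h w (Finset.mem_union_right _ hw))]

/-- the kernel of `Phi` as a `T0`-submodule -/
def K : Submodule T0 (W ⊗[F] Module.Dual F V) where
  carrier := {m | D.Phi m = 0}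
  add_mem' := by
    intro a b ha hb
    simp only [Set.mem_ofPred_eq] at *
    rw [map_add, ha, hb, add_zero]
  zero_mem' := by simp
  smul_mem' := by
    intro t m hm
    simp only [Set.mem_ofPred_eq] at *
    obtain ⟨s, hs⟩ := approx_tensor (T0 := T0) m
    obtain ⟨x, hx, hx'⟩ := D.approx s t
    obtain ⟨H, hH⟩ := D.Phi_adjoin x hx
    rw [hs t x hx', hH, hm, map_zero]

theorem mem_K {m : W ⊗[F] Module.Dual F V} : m ∈ D.K ↔ D.Phi m = 0 := Iff.rfl

/-- the bimodule -/
abbrev Pi : Type _ := (W ⊗[F] Module.Dual F V) ⧸ D.K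

/-- matrix coefficients, on the quotient: an embedding of `Pi` into functions -/
def PhiBar : D.Pi →ₗ[F] (GG → P → F) :=
  ((D.K.restrictScalars F).liftQ D.Phi (fun _ hm => hm)) ∘ₗ
    (Submodule.Quotient.restrictScalarsEquiv F D.K).symm.toLinearMap

@[simp] theorem PhiBar_mk (m : W ⊗[F] Module.Dual F V) :
    D.PhiBar (Submodule.Quotient.mk m) = D.Phi m := by
  simp only [PhiBar, LinearMap.comp_apply]
  exact Submodule.liftQ_apply _ _ _

theorem PhiBar_inj : Function.Injective D.PhiBar := by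
  rw [injective_iff_map_eq_zero]
  intro v hv
  obtain ⟨m, rfl⟩ := Submodule.Quotient.mk_surjective D.K v
  rw [PhiBar_mk] at hv
  exact (Submodule.Quotient.mk_eq_zero _).2 hv

/-- action on the tensor product -/
def rhoM (b : GG) : W ⊗[F] Module.Dual F V →ₗ[T0] W ⊗[F] Module.Dual F V :=
  TensorProduct.AlgebraTensorModule.map (LinearMap.id : W →ₗ[T0] W)
    ((D.act b⁻¹).dualMap)

@[simp] theorem rhoM_tmul (b : GG) (w : W) (Xi : Module.Dual F V) :
    D.rhoM b (w ⊗ₜ[F] Xi) = w ⊗ₜ (Xi ∘ₗ (D.act b⁻¹)) := by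
  simp [rhoM]
  rfl

theorem Phi_rhoM (b : GG) (m : W ⊗[F] Module.Dual F V) (g : GG) (e : P) :
    D.Phi (D.rhoM b m) g e = D.Phi m (b⁻¹ * g) e := by
  induction m using TensorProduct.induction_on with
  | zero => simp
  | tmul w Xi => simp
  | add x y hx hy =>
    rw [map_add, map_add, map_add]
    simp only [Pi.add_apply]
    rw [hx, hy]

/-- the action of `GG` on the bimodule -/
def rhoL (b : GG) : D.Pi →ₗ[T0] D.Pi :=
  D.K.mapQ D.K (D.rhoM b) (by
    intro m hm
    rw [Submodule.mem_comap, mem_K]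
    rw [mem_K] at hm
    ext g e
    rw [Phi_rhoM, hm]
    rfl)

theorem PhiBar_rhoL (b : GG) (v : D.Pi) (g : GG) (e : P) :
    D.PhiBar (D.rhoL b v) g e = D.PhiBar v (b⁻¹ * g) e := by
  obtain ⟨m, rfl⟩ := Submodule.Quotient.mk_surjective D.K v
  rw [rhoL, Submodule.mapQ_apply, PhiBar_mk, PhiBar_mk, Phi_rhoM]

/-- the action of `GG` on the bimodule, as a homomorphism -/
def rho : GG →* Module.End T0 D.Pi where
  toFun b := D.rhoL b
  map_one' := by
    apply LinearMap.ext
    intro v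
    apply D.PhiBar_inj
    ext g e
    rw [PhiBar_rhoL]
    simp
  map_mul' b c := by
    apply LinearMap.ext
    intro v
    apply D.PhiBar_inj
    ext g e
    rw [PhiBar_rhoL]
    change _ = D.PhiBar (D.rhoL b (D.rhoL c v)) g e
    rw [PhiBar_rhoL, PhiBar_rhoL]
    simp [mul_assoc]

theorem PhiBar_rho (b : GG) (v : D.Pi) (g : GG) (e : P) :
    D.PhiBar (D.rho b v) g e = D.PhiBar v (b⁻¹ * g) e := D.PhiBar_rhoL b v g e

theorem rho_smooth [Finite P] (v : D.Pi) : ∃ n, ∀ b ∈ D.Gam n, D.rho b v = v := by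
  obtain ⟨m, rfl⟩ := Submodule.Quotient.mk_surjective D.K v
  suffices h : ∃ n, ∀ b ∈ D.Gam n, ∀ g e, D.Phi m (b⁻¹ * g) e = D.Phi m g e by
    obtain ⟨n, hn⟩ := h
    refine ⟨n, fun b hb => ?_⟩
    apply D.PhiBar_inj
    ext g e
    rw [PhiBar_rho, PhiBar_mk]
    exact hn b hb g e
  induction m using TensorProduct.induction_on with
  | zero => exact ⟨0, fun b _ g e => by simp⟩
  | tmul w Xi =>
    choose n hn using fun e => D.smooth (D.E e w)
    have hfin : (Set.range n).Finite := Set.finite_range n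
    obtain ⟨N, hN⟩ := hfin.bddAbove
    refine ⟨N, fun b hb g e => ?_⟩
    rw [Phi_tmul, Phi_tmul]
    have h1 : g⁻¹ * b⁻¹ * g ∈ D.Gam N := by
      have := (D.normal N).conj_mem b⁻¹ ((D.Gam N).inv_mem hb) g⁻¹
      simpa using this
    have h2 : g⁻¹ * b⁻¹ * g ∈ D.Gam (n e) := D.anti (hN ⟨e, rfl⟩) h1
    have h3 : b⁻¹ * g = g * (g⁻¹ * b⁻¹ * g) := by group
    rw [h3, map_mul, Module.End.mul_apply, hn e _ h2]
  | add x y hx hy =>
    obtain ⟨n, hn⟩ := hx
    obtain ⟨n', hn'⟩ := hy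
    refine ⟨max n n', fun b hb g e => ?_⟩
    rw [map_add]
    simp only [Pi.add_apply]
    rw [hn b (D.anti (le_max_left _ _) hb), hn' b (D.anti (le_max_right _ _) hb)]

/-- invariants of `Gam 0` -/
def Inv : Submodule T0 D.Pi where
  carrier := {v | ∀ b ∈ D.Gam 0, D.rho b v = v}
  add_mem' := by
    intro x y hx hy b hb
    rw [map_add, hx b hb, hy b hb]
  zero_mem' := by intro b _; simp
  smul_mem' := by
    intro t x hx b hb
    rw [map_smul, hx b hb]

theorem mem_Inv {v : D.Pi} : v ∈ D.Inv ↔ ∀ b ∈ D.Gam 0, D.rho b v = v := Iff.rfl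

theorem Inv_shift {v : D.Pi} (hv : v ∈ D.Inv) {u : GG} (hu : u ∈ D.Gam 0) (g : GG) (e : P) :
    D.PhiBar v (g * u) e = D.PhiBar v g e := by
  have h1 : (g * u * g⁻¹)⁻¹ ∈ D.Gam 0 :=
    (D.Gam 0).inv_mem ((D.normal 0).conj_mem u hu g)
  have h2 := D.PhiBar_rho ((g * u * g⁻¹)⁻¹) v g e
  rw [D.mem_Inv.1 hv _ h1] at h2
  rw [h2]
  group

theorem Inv_finite [Finite P] : Module.Finite F D.Inv := by
  have hfi := D.finidx 0
  have : Finite (GG ⧸ D.Gam 0) := inferInstance
  let r : D.Inv →ₗ[F] ((GG ⧸ D.Gam 0) → P → F) :=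
    { toFun := fun v q e => D.PhiBar (v : D.Pi) q.out e
      map_add' := by
        intro x y
        ext q e
        simp
      map_smul' := by
        intro c x
        ext q e
        simp }
  refine Module.Finite.of_injective r ?_
  rw [injective_iff_map_eq_zero]
  intro v hv
  apply Subtype.ext
  apply D.PhiBar_inj
  ext g e
  have h1 : D.PhiBar (v : D.Pi) ((g : GG ⧸ D.Gam 0).out) e = 0 := congrFun (congrFun hv (g : GG ⧸ D.Gam 0)) e
  obtain ⟨u, hu⟩ := QuotientGroup.mk_out_eq_mul (D.Gam 0) g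
  rw [hu, D.Inv_shift v.2 u.2] at h1
  rw [h1]
  simp

end GData

end Crest.Agent.R007.G
end

-- ▼ part R007/GFix
section

/-!
# Row 7, section G: fixed points of smooth actions of 2-groups on 2-torsion groups
-/

set_option autoImplicit false
set_option linter.dupNamespace false

namespace Crest.Agent.R007.G

theorem exists_fixed {GG A : Type*} [Group GG] [AddCommGroup A] (h2 : ∀ x : A, 2 • x = 0)
    (act : GG →* AddMonoid.End A) (Q : AddSubgroup A) (hQ : ∀ g, ∀ x ∈ Q, act g x ∈ Q)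
    (U N : Subgroup GG) (hNn : N.Normal) (hNf : N.FiniteIndex)
    (hp : ∀ g ∈ U, ∃ k : ℕ, g ^ (2 ^ k) ∈ N) (v : A) (hv : v ∈ Q) (hv0 : v ≠ 0)
    (hN : ∀ g ∈ N, act g v = v) : ∃ x ∈ Q, x ≠ 0 ∧ ∀ g ∈ U, act g x = x := by
  letI : Module (ZMod 2) A := AddCommGroup.zmodModule h2
  let O : Set A := Set.range fun g => act g v
  have hOfin : O.Finite := by
    have : Finite (GG ⧸ N) := inferInstance
    refine (Set.finite_range fun q : GG ⧸ N => act q.out v).subset ?_
    rintro _ ⟨g, rfl⟩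
    obtain ⟨u, hu⟩ := QuotientGroup.mk_out_eq_mul N g
    refine ⟨(g : GG ⧸ N), ?_⟩
    simp only
    rw [hu, map_mul]
    change act g (act u v) = act g v
    rw [hN u u.2]
  let S : Submodule (ZMod 2) A := Submodule.span (ZMod 2) O
  haveI : Module.Finite (ZMod 2) S := FiniteDimensional.span_of_finite (ZMod 2) hOfin
  haveI : Finite S := Module.finite_of_finite (ZMod 2)
  have hvS : v ∈ S := Submodule.subset_span ⟨1, by simp⟩
  have hstab : ∀ g, ∀ x ∈ S, act g x ∈ S := by
    intro g x hx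
    induction hx using Submodule.span_induction with
    | mem x hx =>
      obtain ⟨g', rfl⟩ := hx
      refine Submodule.subset_span ⟨g * g', ?_⟩
      simp
    | zero => simp
    | add x y _ _ hx hy => rw [map_add]; exact S.add_mem hx hy
    | smul c x _ hx =>
      rw [ZMod.map_smul]
      exact S.smul_mem c hx
  have hSQ : ∀ x ∈ S, x ∈ Q := by
    intro x hx
    induction hx using Submodule.span_induction with
    | mem x hx =>
      obtain ⟨g', rfl⟩ := hx
      exact hQ g' v hv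
    | zero => exact Q.zero_mem
    | add x y _ _ hx hy => exact Q.add_mem hx hy
    | smul c x _ hx =>
      have h3 : c • x = (ZMod.cast c : ℤ) • x := by
        rw [← Int.cast_smul_eq_zsmul (ZMod 2)]
        simp
      rw [h3]
      exact Q.zsmul_mem hx _
  have hNS : ∀ g ∈ N, ∀ x ∈ S, act g x = x := by
    intro g hg x hx
    induction hx using Submodule.span_induction with
    | mem x hx =>
      obtain ⟨g', rfl⟩ := hx
      have h4 : g'⁻¹ * g * g' ∈ N := by
        have := hNn.conj_mem g hg g'⁻¹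
        simpa using this
      have h5 : g * g' = g' * (g'⁻¹ * g * g') := by group
      have h6 : act g (act g' v) = act (g * g') v := by rw [map_mul]; rfl
      have h7 : act (g' * (g'⁻¹ * g * g')) v = act g' (act (g'⁻¹ * g * g') v) := by
        rw [map_mul]; rfl
      rw [h6, h5, h7, hN _ h4]
    | zero => simp
    | add x y _ _ hx hy => rw [map_add, hx, hy]
    | smul c x _ hx => rw [ZMod.map_smul, hx]
  letI : MulAction U S :=
    { smul := fun u s => ⟨act (u : GG) (s : A), hstab u s s.2⟩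
      one_smul := fun s => by
        apply Subtype.ext
        change act ((1 : U) : GG) (s : A) = s
        simp
      mul_smul := fun u u' s => by
        apply Subtype.ext
        change act ((u * u' : U) : GG) (s : A) = act (u : GG) (act (u' : GG) (s : A))
        simp }
  have hsm : ∀ (u : U) (s : S), ((u • s : S) : A) = act (u : GG) (s : A) := fun _ _ => rfl
  let G := (MulAction.toPermHom U S).range
  have hG : IsPGroup 2 G := by
    rintro ⟨_, u, rfl⟩
    obtain ⟨k, hk⟩ := hp u u.2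
    refine ⟨k, ?_⟩
    apply Subtype.ext
    change (MulAction.toPermHom U S u) ^ (2 ^ k) = 1
    rw [← map_pow]
    ext s
    rw [MulAction.toPermHom_apply, MulAction.toPerm_apply, hsm]
    have : act ((u ^ 2 ^ k : U) : GG) (s : A) = s := hNS _ (by simpa using hk) s s.2
    rw [this]
    rfl
  have hcard : 2 ∣ Nat.card S := by
    rw [Module.natCard_eq_pow_finrank (K := ZMod 2)]
    haveI : Nontrivial S := ⟨⟨⟨v, hvS⟩, 0, fun h => hv0 (congrArg Subtype.val h)⟩⟩
    have hpos : 0 < Module.finrank (ZMod 2) S := Module.finrank_pos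
    rw [Nat.card_zmod]
    exact dvd_pow_self 2 hpos.ne'
  have h0 : (0 : S) ∈ MulAction.fixedPoints G S := by
    rintro ⟨_, u, rfl⟩
    apply Subtype.ext
    change act (u : GG) ((0 : S) : A) = 0
    simp
  obtain ⟨b, hb, hb0⟩ := hG.exists_fixed_point_of_prime_dvd_card_of_fixed_point S hcard h0
  refine ⟨b, hSQ b b.2, fun h => hb0 (Subtype.ext h.symm), fun g hg => ?_⟩
  have := hb ⟨MulAction.toPermHom U S ⟨g, hg⟩, ⟨⟨g, hg⟩, rfl⟩⟩
  exact congrArg Subtype.val this

end Crest.Agent.R007.G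
end

-- ▼ part R007/GTop
section

/-!
# Row 7, section G: final statement

`GData.exists_genData`: the bimodule `Pi` satisfies the input conditions of part H.
-/

set_option autoImplicit false
set_option linter.dupNamespace false

open scoped TensorProduct

namespace Crest.Agent.R007.G

namespace GData

variable {F T0 W V GG P I : Type*} [Field F] [CommRing T0] [Algebra F T0]
    [AddCommGroup W] [Module F W] [Module T0 W] [IsScalarTower F T0 W]
    [AddCommGroup V] [Module F V] [Group GG]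
    (D : GData F T0 W V GG P I)

/-- annihilator of the invariants -/
def J : Ideal T0 := Module.annihilator T0 D.Inv

theorem smul_Inv {t : T0} (ht : t ∈ D.J) {v : D.Pi} (hv : v ∈ D.Inv) : t • v = 0 := by
  have := Module.mem_annihilator.1 ht ⟨v, hv⟩
  exact congrArg Subtype.val this

theorem J_finite [Finite P] : Module.Finite F (T0 ⧸ D.J) := by
  have h1 := D.Inv_finite
  let L : (T0 ⧸ D.J) →ₐ[F] Module.End F D.Inv :=
    Ideal.Quotient.liftₐ D.J (Algebra.lsmul F F D.Inv) (by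
      intro t ht
      ext v
      have := Module.mem_annihilator.1 ht v
      exact congrArg Subtype.val this)
  refine Module.Finite.of_injective L.toLinearMap ?_
  rw [injective_iff_map_eq_zero]
  intro x hx
  obtain ⟨t, rfl⟩ := Ideal.Quotient.mk_surjective x
  rw [Ideal.Quotient.eq_zero_iff_mem]
  refine Module.mem_annihilator.2 fun v => ?_
  exact congrArg (fun f : Module.End F D.Inv => f v) hx

/-- the vectors killed by `J` -/
def WJ : Submodule F W where
  carrier := {w | ∀ t ∈ D.J, t • w = 0}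
  add_mem' := by
    intro x y hx hy t ht
    rw [smul_add, hx t ht, hy t ht, add_zero]
  zero_mem' := by intro t _; simp
  smul_mem' := by
    intro c x hx t ht
    rw [smul_comm, hx t ht, smul_zero]

theorem sep {w : W} (h : ∀ t : T0, D.a (t • w) = 0) : w = 0 := by
  rw [← Module.forall_dual_apply_eq_zero_iff F w]
  intro f
  obtain ⟨t, ht⟩ := D.dual_surj f
  rw [ht, h]

theorem WJ_finite [Finite P] : Module.Finite F D.WJ := by
  have h1 := D.J_finite
  obtain ⟨n, s, hs⟩ := Module.Finite.exists_fin (R := F) (M := T0 ⧸ D.J)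
  choose t ht using fun i => Ideal.Quotient.mk_surjective (s i)
  let r : D.WJ →ₗ[F] (Fin n → F) :=
    { toFun := fun w i => D.a (t i • (w : W))
      map_add' := by
        intro x y
        ext i
        simp
      map_smul' := by
        intro c x
        ext i
        simp only [SetLike.val_smul, RingHom.id_apply, Pi.smul_apply]
        rw [smul_comm, map_smul] }
  refine Module.Finite.of_injective r ?_
  rw [injective_iff_map_eq_zero]
  intro w hw
  apply Subtype.ext
  apply D.sep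
  intro x
  have hx : (Ideal.Quotient.mk D.J x) ∈ Submodule.span F (Set.range s) := by
    rw [hs]; trivial
  obtain ⟨c, hc⟩ := (Submodule.mem_span_range_iff_exists_fun F).1 hx
  have h2 : x - ∑ i, c i • t i ∈ D.J := by
    rw [← Ideal.Quotient.eq, ← hc, map_sum]
    refine Finset.sum_congr rfl fun i _ => ?_
    rw [← ht i]
    rfl
  have h3 : x • (w : W) = ∑ i, c i • (t i • (w : W)) := by
    have h4 := w.2 _ h2
    rw [sub_smul, sub_eq_zero] at h4
    rw [h4, Finset.sum_smul]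
    refine Finset.sum_congr rfl fun i _ => ?_
    rw [smul_assoc]
  rw [h3, map_sum]
  refine Finset.sum_eq_zero fun i _ => ?_
  rw [map_smul]
  have : D.a (t i • (w : W)) = 0 := congrFun hw i
  rw [this, smul_zero]

/-- `w ↦ φ_{Ξ,w}` -/
def jm (Xi : Module.Dual F V) : W →ₗ[T0] D.Pi where
  toFun w := Submodule.Quotient.mk (w ⊗ₜ[F] Xi)
  map_add' x y := by rw [TensorProduct.add_tmul]; rfl
  map_smul' t x := by rw [← TensorProduct.smul_tmul']; rfl

theorem PhiBar_jm (Xi : Module.Dual F V) (w : W) (g : GG) (e : P) :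
    D.PhiBar (D.jm Xi w) g e = Xi (D.act g (D.E e w)) := by
  change D.PhiBar (Submodule.Quotient.mk (w ⊗ₜ[F] Xi)) g e = _
  rw [PhiBar_mk, Phi_tmul]

theorem jm_sep {w : W} (h : ∀ Xi, D.jm Xi w = 0) : w = 0 := by
  apply D.E_inj
  intro e
  rw [← Module.forall_dual_apply_eq_zero_iff F (D.E e w)]
  intro Xi
  have h1 := D.PhiBar_jm Xi w 1 e
  rw [h Xi] at h1
  simpa using h1.symm

theorem exists_inv [CharP F 2] [Finite P] (w : W) (Xi : Module.Dual F V) (h : D.jm Xi w ≠ 0) :
    ∃ v ∈ D.Inv, v ≠ 0 ∧ ∀ t : T0, t • w = 0 → t • v = 0 := by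
  let Q : AddSubgroup D.Pi :=
    { carrier := {v | ∀ t : T0, t • w = 0 → t • v = 0}
      add_mem' := by
        intro x y hx hy t ht
        rw [smul_add, hx t ht, hy t ht, add_zero]
      zero_mem' := by intro t _; simp
      neg_mem' := by
        intro x hx t ht
        rw [smul_neg, hx t ht, neg_zero] }
  let ac : GG →* AddMonoid.End D.Pi :=
    { toFun := fun g => (D.rho g).toAddMonoidHom
      map_one' := by rw [map_one]; rfl
      map_mul' := by intro g h; rw [map_mul]; rfl }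
  obtain ⟨n, hn⟩ := D.rho_smooth (D.jm Xi w)
  obtain ⟨x, hxQ, hx0, hx⟩ := exists_fixed (GG := GG) (A := D.Pi) (by
      intro x
      have h2 : (2 : F) = 0 := CharP.cast_eq_zero F 2
      have : (2 : ℕ) • x = (2 : F) • x := by
        rw [← Nat.cast_smul_eq_nsmul F]; norm_num
      rw [this, h2, zero_smul]) ac Q (by
      intro g x hx t ht
      change t • D.rho g x = 0
      rw [← map_smul, hx t ht, map_zero]) (D.Gam 0) (D.Gam n) (D.normal n) (D.finidx n)
      (D.pgrp n) (D.jm Xi w) (by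
      intro t ht
      rw [← map_smul, ht, map_zero]) h hn
  exact ⟨x, hx, hx0, hxQ⟩

/-- every nonzero `T0`-submodule contains a nonzero vector killed by `J` -/
theorem exists_WJ [CharP F 2] [Finite P] (w0 : W) (hw0 : w0 ≠ 0) :
    ∃ w ∈ Submodule.span T0 {w0}, w ≠ 0 ∧ w ∈ D.WJ := by
  classical
  have hex : ∃ n : ℕ, ∃ w ∈ Submodule.span T0 {w0}, w ≠ 0 ∧
      Module.finrank F (Submodule.span T0 {w}) = n :=
    ⟨_, w0, Submodule.mem_span_singleton_self w0, hw0, rfl⟩
  obtain ⟨w, hw, hwne, hwn⟩ := Nat.find_spec hex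
  have hmin : ∀ w' ∈ Submodule.span T0 {w}, w' ≠ 0 → ∃ s : T0, s • w' = w := by
    intro w' hw' hw'0
    have h1 : Submodule.span T0 {w'} ≤ Submodule.span T0 {w} := by
      rw [Submodule.span_singleton_le_iff_mem]; exact hw'
    have h2 : Submodule.span T0 {w} ≤ Submodule.span T0 {w0} := by
      rw [Submodule.span_singleton_le_iff_mem]; exact hw
    have h3 : Nat.find hex ≤ Module.finrank F (Submodule.span T0 {w'}) :=
      Nat.find_min' hex ⟨w', h2 hw', hw'0, rfl⟩
    rw [← hwn] at h3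
    have hf : FiniteDimensional F ↥(Submodule.restrictScalars F (Submodule.span T0 {w})) :=
      D.locfin w
    have h4 : (Submodule.span T0 {w'}).restrictScalars F = (Submodule.span T0 {w}).restrictScalars F :=
      Submodule.eq_of_le_of_finrank_le (fun x hx => h1 hx) h3
    have h5 : w ∈ (Submodule.span T0 {w'}).restrictScalars F := by
      rw [h4]; exact Submodule.mem_span_singleton_self w
    exact Submodule.mem_span_singleton.1 h5
  refine ⟨w, hw, hwne, fun t ht => ?_⟩
  by_contra htw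
  obtain ⟨Xi, hXi⟩ : ∃ Xi, D.jm Xi w ≠ 0 := by
    by_contra hcon
    push Not at hcon
    exact hwne (D.jm_sep hcon)
  obtain ⟨v, hv, hv0, hvt⟩ := D.exists_inv w Xi hXi
  obtain ⟨s, hs⟩ := hmin (t • w) (Submodule.mem_span_singleton.2 ⟨t, rfl⟩) htw
  have h1 : (1 - s * t) • w = 0 := by
    rw [sub_smul, one_smul, mul_smul, hs, sub_self]
  have h2 := hvt _ h1
  rw [sub_smul, one_smul, mul_smul, D.smul_Inv ht hv, smul_zero, sub_zero] at h2
  exact hv0 h2

/-- vectors killed by `J` and by finitely many `φ_Ξ` -/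
def kerJ (s : Finset (Module.Dual F V)) : Submodule F W where
  carrier := {w | w ∈ D.WJ ∧ ∀ Xi ∈ s, D.jm Xi w = 0}
  add_mem' := by
    rintro x y ⟨hx, hx'⟩ ⟨hy, hy'⟩
    exact ⟨D.WJ.add_mem hx hy, fun Xi h => by rw [map_add, hx' Xi h, hy' Xi h, add_zero]⟩
  zero_mem' := ⟨D.WJ.zero_mem, fun Xi _ => map_zero _⟩
  smul_mem' := by
    rintro c x ⟨hx, hx'⟩
    refine ⟨D.WJ.smul_mem c hx, fun Xi h => ?_⟩
    rw [← algebraMap_smul T0 c x, map_smul, hx' Xi h, smul_zero]

theorem exists_finset [CharP F 2] [Finite P] :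
    ∃ s : Finset (Module.Dual F V), ∀ w, (∀ Xi ∈ s, D.jm Xi w = 0) → w = 0 := by
  classical
  have hfin := D.WJ_finite
  have hle : ∀ s, D.kerJ s ≤ D.WJ := fun s x hx => hx.1
  have hfs : ∀ s, FiniteDimensional F (D.kerJ s) := fun s =>
    Submodule.finiteDimensional_of_le (hle s)
  have hex : ∃ n : ℕ, ∃ s, Module.finrank F (D.kerJ s) = n := ⟨_, ∅, rfl⟩
  obtain ⟨s, hs⟩ := Nat.find_spec hex
  have hbot : ∀ w, w ∈ D.kerJ s → w = 0 := by
    intro w hw
    by_contra hw0
    obtain ⟨Xi, hXi⟩ : ∃ Xi, D.jm Xi w ≠ 0 := by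
      by_contra hcon
      push Not at hcon
      exact hw0 (D.jm_sep hcon)
    have hlt : D.kerJ (insert Xi s) < D.kerJ s := by
      refine lt_of_le_of_ne (fun x hx => ⟨hx.1, fun Y hY => hx.2 Y (Finset.mem_insert_of_mem hY)⟩) ?_
      intro heq
      rw [← heq] at hw
      exact hXi (hw.2 Xi (Finset.mem_insert_self _ _))
    have h1 := Submodule.finrank_lt_finrank_of_lt hlt
    rw [hs] at h1
    exact Nat.find_min hex h1 ⟨insert Xi s, rfl⟩
  refine ⟨s, fun w hw => ?_⟩
  by_contra hw0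
  obtain ⟨w', hw', hw'0, hw'J⟩ := D.exists_WJ w hw0
  obtain ⟨t, rfl⟩ := Submodule.mem_span_singleton.1 hw'
  exact hw'0 (hbot _ ⟨hw'J, fun Xi h => by rw [map_smul, hw Xi h, smul_zero]⟩)

/-- the element of `T0` representing a functional -/
noncomputable def tOf (f : W →ₗ[F] F) : T0 := (D.dual_surj f).choose

theorem tOf_spec (f : W →ₗ[F] F) (w : W) : D.a (D.tOf f • w) = f w :=
  ((D.dual_surj f).choose_spec w).symm

theorem tOf_unique (f : W →ₗ[F] F) (t : T0) (h : ∀ w, D.a (t • w) = f w) : D.tOf f = t := by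
  rw [← sub_eq_zero]
  apply D.dual_inj
  intro w
  rw [sub_smul, map_sub, D.tOf_spec, h, sub_self]

/-- `jm` as an `F`-linear map -/
def jmF (Xi : Module.Dual F V) : W →ₗ[F] D.Pi := (D.jm Xi).restrictScalars F

@[simp] theorem jmF_apply (Xi : Module.Dual F V) (w : W) : D.jmF Xi w = D.jm Xi w := rfl

/-- action of `T0` on `Pi` by `F`-linear endomorphisms -/
def tau : T0 →+* Module.End F D.Pi := (Algebra.lsmul F F D.Pi).toRingHom

@[simp] theorem tau_apply (t : T0) (v : D.Pi) : D.tau t v = t • v := rfl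

/-- action of `GG` on `Pi` by `F`-linear endomorphisms -/
def rhoF : GG →* Module.End F D.Pi where
  toFun g := (D.rho g).restrictScalars F
  map_one' := by rw [map_one]; rfl
  map_mul' g h := by rw [map_mul]; rfl

@[simp] theorem rhoF_apply (g : GG) (v : D.Pi) : D.rhoF g v = D.rho g v := rfl

/-- the maps `Hom(Pi, F) → T0` -/
noncomputable def ph (Xi : Module.Dual F V) : Module.Dual F D.Pi →+ T0 where
  toFun m := D.tOf (m ∘ₗ D.jmF Xi)
  map_zero' := by
    apply D.tOf_unique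
    intro w
    simp
  map_add' m m' := by
    apply D.tOf_unique
    intro w
    rw [add_smul, map_add, D.tOf_spec, D.tOf_spec]
    rfl

theorem ph_smul (Xi : Module.Dual F V) (t : T0) (m : Module.Dual F D.Pi) :
    D.ph Xi (m ∘ₗ D.tau t) = t * D.ph Xi m := by
  apply D.tOf_unique
  intro w
  change D.a ((t * D.tOf (m ∘ₗ D.jmF Xi)) • w) = _
  rw [mul_comm, mul_smul, D.tOf_spec]
  simp

theorem ph_one [CharP F 2] [Finite P] (s : Finset (Module.Dual F V))
    (hs : ∀ w, (∀ Xi ∈ s, D.jm Xi w = 0) → w = 0) :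
    ∃ m : s → Module.Dual F D.Pi, ∑ i, D.ph i.1 (m i) = 1 := by
  classical
  let f : W →ₗ[F] (s → D.Pi) := LinearMap.pi fun i => D.jmF i.1
  have hf : LinearMap.ker f = ⊥ := by
    rw [LinearMap.ker_eq_bot']
    intro w hw
    exact hs w fun Xi h => congrFun hw ⟨Xi, h⟩
  obtain ⟨g, hg⟩ := f.exists_leftInverse_of_injective hf
  refine ⟨fun i => D.a ∘ₗ g ∘ₗ LinearMap.single F (fun _ : s => D.Pi) i, ?_⟩
  rw [← sub_eq_zero]
  apply D.dual_inj
  intro w
  rw [sub_smul, one_smul, Finset.sum_smul, map_sub, map_sum, sub_eq_zero]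
  have h1 : ∀ i : s, D.a (D.ph i.1 (D.a ∘ₗ g ∘ₗ LinearMap.single F (fun _ : s => D.Pi) i) • w) =
      D.a (g (LinearMap.single F (fun _ : s => D.Pi) i (D.jm i.1 w))) := fun i =>
    D.tOf_spec _ _
  rw [Finset.sum_congr rfl fun i _ => h1 i, ← map_sum, ← map_sum]
  have h2 : ∑ i : s, LinearMap.single F (fun _ : s => D.Pi) i (D.jm i.1 w) = f w := by
    ext i
    simp [f]
  rw [h2]
  have h3 := congrArg (fun l : W →ₗ[F] W => l w) hg
  simp only [LinearMap.comp_apply, LinearMap.id_apply] at h3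
  rw [h3]

/-! ### output in the language of part H -/

/-- the group `Gam 0` acting -/
def rho0 : (D.Gam 0) →* Module.End F D.Pi := D.rhoF.comp (D.Gam 0).subtype

/-- the filtration of `Gam 0` -/
def Gam0 (n : ℕ) : Subgroup (D.Gam 0) := (D.Gam n).subgroupOf (D.Gam 0)

theorem smooth0 [Finite P] : H.Smooth D.Gam0 D.rho0 where
  smooth v := by
    obtain ⟨n, hn⟩ := D.rho_smooth v
    exact ⟨n, fun g hg => hn g hg⟩
  adm := by
    have h1 := D.Inv_finite
    have h2 : H.fil D.rho0 1 = D.Inv.restrictScalars F := by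
      ext v
      change (∀ g : D.Gam 0, D.rho0 g v - v ∈ (⊥ : Submodule F D.Pi)) ↔ v ∈ D.Inv
      constructor
      · intro h b hb
        have := h ⟨b, hb⟩
        rw [Submodule.mem_bot, sub_eq_zero] at this
        exact this
      · intro h b
        rw [Submodule.mem_bot, sub_eq_zero]
        exact h b b.2
    rw [h2]
    exact h1

theorem comm0 (t : T0) (g : D.Gam 0) : Commute (D.tau t) (D.rho0 g) := by
  have h : D.tau t * D.rho0 g = D.rho0 g * D.tau t :=
    LinearMap.ext fun v => ((D.rho g).map_smul t v).symm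
  exact h

/-- **Section G.** The bimodule satisfies the hypotheses of part H. -/
theorem exists_genData [CharP F 2] [Finite P] :
    ∃ s : Finset (Module.Dual F V),
      H.GenData (U := D.Gam 0) (T := T0) D.rho0 D.tau (ι := s) (fun i => D.ph i.1) := by
  obtain ⟨s, hs⟩ := D.exists_finset
  exact ⟨s, D.comm0, fun i t m => D.ph_smul i.1 t m, D.ph_one s hs⟩

end GData

end Crest.Agent.R007.G
end

-- ▼ part R007/TopZ
section

/-!
# Row 7, node TOP0 (helper775): `T0` is Noetherian of dimension `≤ 2`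

Input: `F.EndData D O` (section F, the group `𝒢 = Pr D` acting on `K/R`) and `TData` (sections B, C,
D, E: the duality `T0 = Hom(W, F)`, the supersingular expansions `E e : W → K/R`, the Hecke formula).
-/

set_option autoImplicit false

open Module

namespace Crest.Agent.R007

namespace H

variable {F P U T ι : Type*} [Field F] [Finite F] [CharP F 2] [AddCommGroup P] [Module F P]
  [Group U] [CommRing T] [Fintype ι]
variable {ρ : U →* Module.End F P} {Γ : ℕ → Subgroup U} {d : ℕ} {u : Fin d → U}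
  {τ : T →+* Module.End F P} {φ : ι → (Module.Dual F P →+ T)}

/-- **PART H**, final form. -/
theorem htop (hΓ : FiltGroup Γ d u) (h4 : d = 3 → H4 Γ) (hρ : Smooth Γ ρ) (hφ : GenData ρ τ φ)
    (hd : d ≤ 3) : IsNoetherianRing T ∧ ringKrullDim T ≤ 2 :=
  htop_of hΓ hρ hφ hd fun h3 => finImage hΓ (h4 h3) hρ

end H

namespace TopZ

/-- What sections B, C, D, E must deliver, for the action `act` of the group `GG` on `V = K/R`. -/
structure TData (F T0 W V GG P I : Type*) [Field F] [CommRing T0] [Algebra F T0]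
    [AddCommGroup W] [Module F W] [Module T0 W] [IsScalarTower F T0 W]
    [AddCommGroup V] [Module F V] [Group GG] (act : GG →* Module.End F V) where
  /-- first coefficient functional -/
  a : W →ₗ[F] F
  dual_inj : ∀ t : T0, (∀ w, a (t • w) = 0) → t = 0
  dual_surj : ∀ f : W →ₗ[F] F, ∃ t : T0, ∀ w, f w = a (t • w)
  /-- generators of the Hecke algebra -/
  gen : I → T0
  approx : ∀ (s : Finset W) (t : T0), ∃ x ∈ Algebra.adjoin F (Set.range gen), ∀ w ∈ s, t • w = x • w
  /-- orbits are finite-dimensional -/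
  locfin : ∀ w : W, Module.Finite F (Submodule.span T0 {w})
  /-- supersingular expansions -/
  E : P → W →ₗ[F] V
  E_inj : ∀ w, (∀ e, E e w = 0) → w = 0
  /-- Hecke formula -/
  hk : I → P → List (GG × P)
  hecke : ∀ i e w, E e (gen i • w) = ((hk i e).map fun d => act d.1 (E d.2 w)).sum

/-- the bimodule data of section G from `TData` and the filtration of section F -/
def TData.toGData {F T0 W V GG P I : Type*} [Field F] [CommRing T0] [Algebra F T0]
    [AddCommGroup W] [Module F W] [Module T0 W] [IsScalarTower F T0 W]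
    [AddCommGroup V] [Module F V] [Group GG] {act : GG →* Module.End F V}
    (D : TData F T0 W V GG P I act) (Gam : ℕ → Subgroup GG) (normal : ∀ n, (Gam n).Normal)
    (finidx : ∀ n, (Gam n).FiniteIndex) (pgrp : ∀ n, ∀ g ∈ Gam 0, ∃ k : ℕ, g ^ (2 ^ k) ∈ Gam n)
    (anti : Antitone Gam) (smooth : ∀ v : V, ∃ n, ∀ g ∈ Gam n, act g v = v) :
    G.GData F T0 W V GG P I where
  act := act
  Gam := Gam
  normal := normal
  finidx := finidx
  pgrp := pgrp
  anti := anti
  smooth := smooth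
  a := D.a
  dual_inj := D.dual_inj
  dual_surj := D.dual_surj
  gen := D.gen
  approx := D.approx
  locfin := D.locfin
  E := D.E
  E_inj := D.E_inj
  hk := D.hk
  hecke := D.hecke

/-- **TOP0.** `T0` is Noetherian of Krull dimension at most `2`. -/
theorem dimT0 {κ : Type*} [Field κ] [CharP κ 2] {k : Type*} [Field k] [Finite k] [CharP k 2]
    [Algebra k κ] {D : F.FData κ} {O : Type*} [Ring O] (E : F.EndData D O)
    {T0 W P I : Type*} [CommRing T0] [Algebra k T0] [AddCommGroup W] [Module k W] [Module T0 W]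
    [IsScalarTower k T0 W] [Finite P]
    (T : TData k T0 W (F.KR κ) (F.Pr D) P I (F.act k D)) :
    IsNoetherianRing T0 ∧ ringKrullDim T0 ≤ 2 := by
  obtain ⟨Gam, d, u, hd, hnorm, hfin, hp, hanti, hsm, hFG, h4⟩ := F.sectionF k E
  let G := T.toGData Gam hnorm hfin hp hanti hsm
  obtain ⟨s, hs⟩ := G.exists_genData
  exact H.htop hFG h4 G.smooth0 hs hd

end TopZ

end Crest.Agent.R007
end

-- ▼ part R007/Link

/-!
# Row 7 (S0007): LINK (helper720, architect).

FROZEN interface between the modular side (C, D, E, EMB, TLB) and the bimodule `GData` of section G.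

* `LL O k`   : 604's `Mix.Lk O k` (weight `k`, all odd levels, all expansions in `O`).
* `Cong O F c` : `q`-expansion of `F` at infinity is `∑ c r q^r` modulo `2 O`.
* `EOut`     : output of section E.
* `EmbOut`   : output of EMB + TLB.
* `gdata`    : the instance of `G.GData`.
-/

set_option autoImplicit false

open scoped MatrixGroups

namespace Crest.Agent.R007.Link

open Lat F


/-! ### Definitions -/

/-- `L_k` = 604's `Mix.Lk`: weight `k`, all odd levels, all `q`-expansions of all `G2`-transforms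
in `O`. -/
abbrev LL (O : Subring ℂ) (k : ℕ) : AddSubgroup (Lat.X → ℂ) := Mix.Lk O k

/-- the `q`-expansion of `F` at infinity is `∑ c r q^r` modulo `2 O`. -/
def Cong (O : Subring ℂ) (F : Lat.X → ℂ) (c : ℚ → ZMod 2) : Prop :=
  ∀ r : ℚ, ∃ a ∈ O, (qf (res F)).coeff r = ((c r).val : ℂ) + 2 * a

/-- the indicator of `0` (reduction of the constant series `1`). -/
def cone : ℚ → ZMod 2 := fun r => if r = 0 then 1 else 0

/-- **(QP)** the `q`-expansion principle modulo 2, pure weight (section D). -/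
def QP (O : Subring ℂ) : Prop :=
  ∀ (k : ℕ) (F : Lat.X → ℂ), F ∈ LL O k → (∀ r : ℚ, ∃ a ∈ O, (qf (res F)).coeff r = 2 * a) →
    ∃ G ∈ LL O k, F = (2 : ℂ) • G

/-- output of section E at level `M` (`A` = the weight one Hasse form). -/
structure EOut (O : Subring ℂ) (M : ℕ) (A : Lat.X → ℂ) {κ : Type*} [Field κ] [CharP κ 2]
    (D : FData κ) where
  P : Type
  fin : Finite P
  /-- `e ∈ Pt_M`, extended to all odd levels -/
  ev : P → (k : ℕ) → LL O k →+ PowerSeries κ
  ev_A : ∀ (p : P) (k : ℕ) (F : LL O k) (G : LL O (k + 1)),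
    (G : Lat.X → ℂ) = A * (F : Lat.X → ℂ) → ev p (k + 1) G = PowerSeries.X * ev p k F
  reg : ∀ (k : ℕ) (F : LL O k), (F : Lat.X → ℂ) ∈ MX M k → (∀ p, (PowerSeries.X : PowerSeries κ) ^ k ∣ ev p k F) →
    ∃ c ∈ O, ∃ G ∈ LL O k, (F : Lat.X → ℂ) = c • A ^ k + (2 : ℂ) • G
  hecke : ∀ (p : P) (δ : GL(2, ℝ)⁺), δ ∈ G2 → ∃ (g : Pr D) (p' : P),
    ∀ (k : ℕ) (F G : LL O k), (F : Lat.X → ℂ) ∈ MX M k → (G : Lat.X → ℂ) = sl (F : Lat.X → ℂ) δ →
      algebraMap (PowerSeries κ) (LaurentSeries κ) (ev p k G) /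
          algebraMap (PowerSeries κ) (LaurentSeries κ) PowerSeries.X ^ k =
        extK g.s (algebraMap (PowerSeries κ) (LaurentSeries κ) (ev p' k F) /
          algebraMap (PowerSeries κ) (LaurentSeries κ) PowerSeries.X ^ k)

/-- output of EMB + TLB. `Q w = ∑_{(n,2N)=1} w(T_n) q^n`. -/
structure EmbOut (O : Subring ℂ) (M : ℕ) {T0 W I : Type*} [CommRing T0] [Algebra (ZMod 2) T0]
    [AddCommGroup W] [Module (ZMod 2) W] [Module T0 W] (gen : I → T0)
    (a : W →ₗ[ZMod 2] ZMod 2) where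
  Q : W →+ (ℚ → ZMod 2)
  Q_zero : ∀ w, Q w 0 = 0
  Q_one : ∀ w, Q w 1 = a w
  surj : ∀ w, ∃ k, ∃ F ∈ LL O k, F ∈ MX M k ∧ Cong O F (Q w)
  hk : I → List GL(2, ℝ)⁺
  hk_mem : ∀ i, ∀ g ∈ hk i, g ∈ G2
  hecke : ∀ (i : I) (w : W) (k : ℕ) (F : Lat.X → ℂ), F ∈ LL O k → F ∈ MX M k → Cong O F (Q w) →
    Cong O ((hk i).map (sl F)).sum (Q (gen i • w))

/-! ### Basic lemmas -/

section Basic

variable {O : Subring ℂ}

theorem LL_MO {k : ℕ} {F : Lat.X → ℂ} (h : F ∈ LL O k) : F ∈ MO k := h.1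

theorem LL_PO {k : ℕ} {F : Lat.X → ℂ} (h : F ∈ LL O k) : res F ∈ PO := res_mem_PO h.1

theorem LL_sl {k : ℕ} {F : Lat.X → ℂ} (h : F ∈ LL O k) {g : GL(2, ℝ)⁺} (hg : g ∈ G2) :
    sl F g ∈ LL O k := Mix.Lk_sl h hg

theorem coeff_mul_mem {x y : HahnSeries ℚ ℂ} (hx : ∀ r, x.coeff r ∈ O) (hy : ∀ r, y.coeff r ∈ O)
    (r : ℚ) : (x * y).coeff r ∈ O := by
  rw [HahnSeries.coeff_mul]
  exact O.sum_mem fun ij _ => O.mul_mem (hx _) (hy _)

theorem LL_mul {k l : ℕ} {F G : Lat.X → ℂ} (hF : F ∈ LL O k) (hG : G ∈ LL O l) :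
    F * G ∈ LL O (k + l) := Mix.Lk_mul hF hG

theorem LL_one : (1 : Lat.X → ℂ) ∈ LL O 0 := Mix.Lk_one

theorem LL_pow {k : ℕ} {F : Lat.X → ℂ} (hF : F ∈ LL O k) (n : ℕ) : F ^ n ∈ LL O (n * k) := by
  induction n with
  | zero => simpa using (LL_one (O := O))
  | succ n ih =>
    rw [pow_succ, add_mul, one_mul]
    exact LL_mul ih hF

theorem LL_coeff {k : ℕ} {F : Lat.X → ℂ} (hF : F ∈ LL O k) (r : ℚ) : (qf (res F)).coeff r ∈ O :=
  (Mix.VV_res (Mix.Lk_le_VV hF)).2 r

theorem LL_smul {k : ℕ} {F : Lat.X → ℂ} (hF : F ∈ LL O k) {c : ℂ} (hc : c ∈ O) :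
    c • F ∈ LL O k := Mix.Lk_smul hF hc

theorem Cong.add {F G : Lat.X → ℂ} {c d : ℚ → ZMod 2} (hF : res F ∈ PO) (hG : res G ∈ PO)
    (h : Cong O F c) (h' : Cong O G d) : Cong O (F + G) (c + d) := by
  intro r
  obtain ⟨a, ha, ea⟩ := h r
  obtain ⟨b, hb, eb⟩ := h' r
  have key : ((c r).val : ℂ) + ((d r).val : ℂ) =
      (((c + d) r).val : ℂ) + 2 * ((((c r).val + (d r).val) / 2 : ℕ) : ℂ) := by
    have h1 : (c r).val + (d r).val = ((c + d) r).val + 2 * (((c r).val + (d r).val) / 2) := by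
      rw [Pi.add_apply, ZMod.val_add]
      omega
    exact_mod_cast h1
  refine ⟨(((c r).val + (d r).val) / 2 : ℕ) + a + b,
    O.add_mem (O.add_mem (natCast_mem O _) ha) hb, ?_⟩
  rw [res_add, qf_add hF hG, HahnSeries.coeff_add, ea, eb]
  linear_combination key

/-- multiplication by a form `≡ 1` -/
theorem Cong.mul_one {A F : Lat.X → ℂ} {c : ℚ → ZMod 2} (hA : res A ∈ PO) (hF : res F ∈ PO)
    (hA1 : Cong O A cone) (hFO : ∀ r, (qf (res F)).coeff r ∈ O) (h : Cong O F c) :
    Cong O (A * F) c := by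
  -- `qf A = 1 + 2 a`
  have h1 : ∃ a : HahnSeries ℚ ℂ, (∀ r, a.coeff r ∈ O) ∧ qf (res A) = 1 + (a + a) := by
    refine ⟨(2 : ℂ)⁻¹ • (qf (res A) - 1), fun r => ?_, ?_⟩
    · obtain ⟨b, hb, eb⟩ := hA1 r
      have h2 : ((cone r).val : ℂ) = (1 : HahnSeries ℚ ℂ).coeff r := by
        rw [cone, HahnSeries.coeff_one]
        split_ifs <;> simp [ZMod.val_one]
      rw [HahnSeries.coeff_smul, HahnSeries.coeff_sub, eb, h2, smul_eq_mul]
      have : (2 : ℂ)⁻¹ * ((1 : HahnSeries ℚ ℂ).coeff r + 2 * b - (1 : HahnSeries ℚ ℂ).coeff r) = b := by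
        ring
      rw [this]
      exact hb
    · apply HahnSeries.ext
      funext r
      rw [HahnSeries.coeff_add, HahnSeries.coeff_add, HahnSeries.coeff_smul, HahnSeries.coeff_sub,
        smul_eq_mul]
      ring
  obtain ⟨a, ha, ea⟩ := h1
  intro r
  obtain ⟨b, hb, eb⟩ := h r
  refine ⟨b + (a * qf (res F)).coeff r, O.add_mem hb (coeff_mul_mem ha hFO r), ?_⟩
  rw [res_mul, qf_mul hA hF, ea, add_mul, _root_.one_mul, HahnSeries.coeff_add, eb, add_mul,
    HahnSeries.coeff_add]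
  ring

theorem Cong.sub_two {F G : Lat.X → ℂ} {c : ℚ → ZMod 2} (hF : res F ∈ PO) (hG : res G ∈ PO)
    (h : Cong O F c) (h' : Cong O G c) : ∀ r : ℚ, ∃ a ∈ O, (qf (res (F - G))).coeff r = 2 * a := by
  intro r
  obtain ⟨a, ha, ea⟩ := h r
  obtain ⟨b, hb, eb⟩ := h' r
  refine ⟨a - b, O.sub_mem ha hb, ?_⟩
  rw [res_sub, qf_sub hF hG, HahnSeries.coeff_sub, ea, eb]
  ring

theorem Cong.zero_of_two {F : Lat.X → ℂ} {c : ℚ → ZMod 2} (h1 : ∀ a ∈ O, (1 : ℂ) ≠ 2 * a)
    (h : Cong O F c) (h' : ∀ r : ℚ, ∃ a ∈ O, (qf (res F)).coeff r = 2 * a) : c = 0 := by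
  funext r
  obtain ⟨a, ha, ea⟩ := h r
  obtain ⟨b, hb, eb⟩ := h' r
  rw [ea] at eb
  have h2 : ∀ x : ZMod 2, x = 0 ∨ x = 1 := by decide
  rcases h2 (c r) with h0 | h0
  · exact h0
  · exfalso
    rw [h0, ZMod.val_one] at eb
    refine h1 (b - a) (O.sub_mem hb ha) ?_
    push_cast at eb
    linear_combination eb

end Basic

/-! ### The link -/

section Main

variable {O : Subring ℂ} {M : ℕ} {A : Lat.X → ℂ} {κ : Type*} [Field κ] [CharP κ 2] {D : FData κ}

/-- `ev F / t^k` -/
noncomputable def EOut.q (E : EOut O M A D) (p : E.P) (k : ℕ) (F : LL O k) : LaurentSeries κ :=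
  algebraMap (PowerSeries κ) (LaurentSeries κ) (E.ev p k F) /
    algebraMap (PowerSeries κ) (LaurentSeries κ) PowerSeries.X ^ k

theorem tne : algebraMap (PowerSeries κ) (LaurentSeries κ) PowerSeries.X ≠ 0 := by
  rw [Ne, FaithfulSMul.algebraMap_eq_zero_iff]
  exact PowerSeries.X_ne_zero

theorem EOut.q_A (E : EOut O M A D) (p : E.P) (k : ℕ) (F : LL O k) (G : LL O (k + 1))
    (h : (G : Lat.X → ℂ) = A * (F : Lat.X → ℂ)) : E.q p (k + 1) G = E.q p k F := by
  rw [EOut.q, EOut.q, E.ev_A p k F G h, map_mul, pow_succ']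
  rw [mul_div_mul_left _ _ tne]

theorem EOut.q_pow (E : EOut O M A D) (hA : A ∈ LL O 1) (p : E.P) (j : ℕ) :
    ∀ (k : ℕ) (F : LL O k) (G : LL O (j + k)),
      (G : Lat.X → ℂ) = A ^ j * (F : Lat.X → ℂ) → E.q p (j + k) G = E.q p k F := by
  induction j with
  | zero =>
    intro k F G h
    have h2 : ∀ (l : ℕ) (hl : l = k) (G : LL O l), (G : Lat.X → ℂ) = (F : Lat.X → ℂ) →
        E.q p l G = E.q p k F := by
      rintro l rfl G h
      have : G = F := Subtype.ext h
      rw [this]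
    exact h2 _ (by omega) G (by rw [h]; simp)
  | succ j ih =>
    intro k F G h
    have hm : A ^ j * (F : Lat.X → ℂ) ∈ LL O (j + k) := by
      have h1 := LL_pow hA j
      rw [mul_one] at h1
      exact LL_mul h1 F.2
    have h3 := ih k F ⟨_, hm⟩ rfl
    rw [← h3]
    have h4 : ∀ (l : ℕ) (hl : l = j + k + 1) (G : LL O l),
        (G : Lat.X → ℂ) = A * (A ^ j * (F : Lat.X → ℂ)) →
        E.q p l G = E.q p (j + k) ⟨_, hm⟩ := by
      rintro l rfl G h
      exact E.q_A p _ ⟨_, hm⟩ G h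
    exact h4 _ (by omega) G (by rw [h]; ring)

theorem EOut.q_add (E : EOut O M A D) (p : E.P) (k : ℕ) (F G : LL O k) :
    E.q p k (F + G) = E.q p k F + E.q p k G := by
  rw [EOut.q, EOut.q, EOut.q, map_add, map_add, add_div]

/-- independence of the representative -/
theorem EOut.q_congr (E : EOut O M A D) (hQP : QP O) (hA : A ∈ LL O 1) (hA1 : Cong O A cone)
    {c : ℚ → ZMod 2} {k k' : ℕ} (F : LL O k) (F' : LL O k') (h : Cong O F c) (h' : Cong O F' c)
    (p : E.P) : E.q p k F = E.q p k' F' := by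
  have hpow : ∀ (j l : ℕ) (G : Lat.X → ℂ), G ∈ LL O l → Cong O G c →
      A ^ j * G ∈ LL O (j + l) ∧ Cong O (A ^ j * G) c := by
    intro j
    induction j with
    | zero => intro l G hG hc; simpa using ⟨hG, hc⟩
    | succ j ih =>
      intro l G hG hc
      obtain ⟨h1, h2⟩ := ih l G hG hc
      have e : A ^ (j + 1) * G = A * (A ^ j * G) := by ring
      rw [e]
      refine ⟨?_, Cong.mul_one (LL_PO hA) (LL_PO h1) hA1 (LL_coeff h1) h2⟩
      have := LL_mul hA h1
      rwa [show 1 + (j + l) = j + 1 + l by ring] at this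
  obtain ⟨h1, h2⟩ := hpow k' k F F.2 h
  obtain ⟨h3, h4⟩ := hpow k k' F' F'.2 h'
  have h1' : A ^ k' * (F : Lat.X → ℂ) ∈ LL O (k + k') := by rwa [add_comm] at h1
  obtain ⟨G, hG, eG⟩ := hQP (k + k') (A ^ k' * (F : Lat.X → ℂ) - A ^ k * (F' : Lat.X → ℂ))
    (sub_mem h1' h3) (Cong.sub_two (LL_PO h1) (LL_PO h3) h2 h4)
  rw [← E.q_pow hA p k' k F ⟨_, h1⟩ rfl, ← E.q_pow hA p k k' F' ⟨_, h3⟩ rfl]
  have e1 : ∀ (l : ℕ) (hl : l = k + k') (hm : A ^ k' * (F : Lat.X → ℂ) ∈ LL O l),
      E.q p l ⟨_, hm⟩ = E.q p (k + k') ⟨_, h3⟩ := by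
    rintro l rfl hm
    have e2 : (⟨_, hm⟩ : LL O (k + k')) = ⟨_, h3⟩ + (⟨G, hG⟩ + ⟨G, hG⟩) := by
      apply Subtype.ext
      have : A ^ k' * (F : Lat.X → ℂ) = A ^ k * (F' : Lat.X → ℂ) + (2 : ℂ) • G := by
        rw [← eG]; ring
      change A ^ k' * (F : Lat.X → ℂ) = A ^ k * (F' : Lat.X → ℂ) + (G + G)
      rw [this, two_smul]
    rw [e2, E.q_add, E.q_add]
    have : E.q p (k + k') ⟨G, hG⟩ + E.q p (k + k') ⟨G, hG⟩ = 0 := by
      have h2 : CharP (LaurentSeries κ) 2 :=
        charP_of_injective_algebraMap (algebraMap κ (LaurentSeries κ)).injective 2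
      exact CharTwo.add_self_eq_zero _
    rw [this, add_zero]
  exact e1 _ (by omega) h1

end Main

end Crest.Agent.R007.Link
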