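import Crest.Agent.R007.Fg1
import Crest.Agent.R227.FG2

-- ▼ part R007/Fg2
section

/-!
# Row 7, E-FG, file 2: the series `W`, the addition formula for the solution of the ODE
-/

set_option autoImplicit false

noncomputable section

namespace Crest.Agent.R007.Fg

open PowerSeries

/-! ## the series `W = z³ + a z W + b W²` over any commutative ring -/

section W

variable {A : Type*} [CommRing A]

/-- coefficients of `W` -/
def wf (a b : A) : ℕ → A
  | 0 => 0
  | n + 1 => (if n = 2 then 1 else 0) + a * wf a b n +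
      b * ∑ i : Fin n, wf a b (i.1 + 1) * wf a b (n - i.1)
  termination_by n => n
  decreasing_by
    all_goals (try (have := i.2)); omega

theorem wf_zero (a b : A) : wf a b 0 = 0 := by rw [wf]

theorem wf_succ (a b : A) (n : ℕ) : wf a b (n + 1) = (if n = 2 then 1 else 0) + a * wf a b n +
    b * ∑ i : Fin n, wf a b (i.1 + 1) * wf a b (n - i.1) := by
  rw [wf]

/-- `W(z)` -/
def Ws (a b : A) : PowerSeries A := PowerSeries.mk (wf a b)

@[simp] theorem constantCoeff_Ws (a b : A) : constantCoeff (Ws a b) = 0 := by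
  rw [← coeff_zero_eq_constantCoeff_apply, Ws, coeff_mk, wf]

theorem Ws_eq (a b : A) : Ws a b = X ^ 3 + C a * X * Ws a b + C b * Ws a b ^ 2 := by
  ext n
  cases n with
  | zero => simp
  | succ n =>
    simp only [map_add, mul_assoc, coeff_C_mul, coeff_succ_X_mul]
    rw [pow_two, coeff_mul, Finset.Nat.sum_antidiagonal_eq_sum_range_succ
      (fun i j => coeff i (Ws a b) * coeff j (Ws a b)), Finset.sum_range_succ,
      Finset.sum_range_succ', coeff_X_pow]
    simp only [Ws, coeff_mk]
    simp only [Nat.sub_self, wf_zero, mul_zero, add_zero, zero_mul]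
    rw [Finset.sum_range, wf_succ]
    have h1 : (if n = 2 then (1 : A) else 0) = if n + 1 = 3 then 1 else 0 := by
      by_cases h : n = 2
      · simp [h]
      · rw [if_neg h, if_neg (by omega)]
    rw [h1]
    congr 2
    refine Finset.sum_congr rfl fun i _ => ?_
    congr 2
    omega

theorem Ws_unique {a b : A} {W : PowerSeries A} (h0 : constantCoeff W = 0)
    (h : W = X ^ 3 + C a * X * W + C b * W ^ 2) : W = Ws a b := by
  have h2 := Ws_eq a b
  have h3 : (W - Ws a b) * (1 - C a * X - C b * (W + Ws a b)) = 0 := by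
    linear_combination h - h2
  have hu : IsUnit (1 - C a * X - C b * (W + Ws a b)) := by
    rw [PowerSeries.isUnit_iff_constantCoeff]
    simp [h0]
  have := (hu.mul_left_eq_zero).1 h3
  exact sub_eq_zero.1 this

theorem map_Ws {B : Type*} [CommRing B] (f : A →+* B) (a b : A) :
    (Ws a b).map f = Ws (f a) (f b) := by
  apply Ws_unique
  · rw [← coeff_zero_eq_constantCoeff_apply, PowerSeries.coeff_map,
      coeff_zero_eq_constantCoeff_apply, constantCoeff_Ws, map_zero]
  · conv_lhs => rw [Ws_eq a b]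
    simp only [map_add, map_mul, map_pow, map_C, map_X]

end W

/-! ## one variable identities over a `ℚ`-algebra -/

section one

variable {K : Type*} [CommRing K] [Algebra ℚ K]

theorem eq_zero_of_deriv {g : PowerSeries K} (h0 : constantCoeff g = 0) (hd : d⁄dX K g = 0) :
    g = 0 := by
  ext n
  cases n with
  | zero => simpa using h0
  | succ n =>
    have := congrArg (coeff n) hd
    rw [PowerSeries.coeff_derivative, map_zero] at this
    rw [natInv n this, mul_zero, map_zero]

/-- the first integral -/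
theorem cubic (a b : K) : ss a b = zs a b ^ 3 + C a * zs a b * ss a b + C b * ss a b ^ 2 := by
  rw [← sub_eq_zero]
  apply eq_zero_of_deriv
  · simp
  · have h1 := dzs a b
    have h2 := dss a b
    simp only [map_sub, map_add, Derivation.leibniz, Derivation.leibniz_pow, smul_eq_mul,
      PowerSeries.derivative_C, mul_zero, add_zero, h1, h2, nsmul_eq_mul]
    push_cast
    ring

/-- the inverse factor -/
def uu (a b : K) : PowerSeries K := 1 - C a * zs a b - C b * ss a b

theorem isUnit_uu (a b : K) : IsUnit (uu a b) := by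
  rw [PowerSeries.isUnit_iff_constantCoeff]
  simp [uu]

theorem ss_mul_uu (a b : K) : ss a b * uu a b = zs a b ^ 3 := by
  have := cubic a b
  rw [uu]
  linear_combination this

/-- `w ↦ -w` -/
def neg (g : PowerSeries K) : PowerSeries K := rescale (-1) g

omit [Algebra ℚ K] in
theorem deriv_neg (g : PowerSeries K) : d⁄dX K (neg g) = - neg (d⁄dX K g) := by
  rw [neg, deriv_rescale]
  simp [neg]

omit [Algebra ℚ K] in
theorem neg_neg' (g : PowerSeries K) : neg (neg g) = g := by
  ext n
  simp [neg, coeff_rescale, ← mul_assoc, ← mul_pow]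

omit [Algebra ℚ K] in
theorem constantCoeff_neg (g : PowerSeries K) : constantCoeff (neg g) = constantCoeff g := by
  rw [← coeff_zero_eq_constantCoeff_apply, neg, coeff_rescale]
  simp

omit [Algebra ℚ K] in
theorem neg_C (x : K) : neg (C x) = C x := by
  ext n
  rw [neg, coeff_rescale, coeff_C]
  split_ifs with h
  · simp [h]
  · simp

theorem neg_zs_aux (a b : K) : ∃ Z S : PowerSeries K, Z * uu a b = - zs a b ∧
    S * uu a b = - ss a b ∧ neg (zs a b) = Z ∧ neg (ss a b) = S := by
  obtain ⟨v, hv⟩ := (isUnit_uu a b).exists_right_inv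
  -- `uu * v = 1`
  set z := zs a b with hz
  set s := ss a b with hs
  have h1 : d⁄dX K z = 1 - C a * z - 2 * C b * s := dzs a b
  have h2 : d⁄dX K s = 3 * z ^ 2 + C a * s := dss a b
  have hu : uu a b = 1 - C a * z - C b * s := rfl
  have hsu : s * uu a b = z ^ 3 := ss_mul_uu a b
  have hdu : d⁄dX K (uu a b) = - C a * (1 - C a * z - 2 * C b * s) - C b * (3 * z ^ 2 + C a * s) := by
    rw [hu]
    simp only [map_sub, Derivation.leibniz, smul_eq_mul, PowerSeries.derivative_C, mul_zero,
      add_zero, h1, h2, PowerSeries.derivative_one]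
    ring
  have hdv : d⁄dX K v * uu a b ^ 2 = - d⁄dX K (uu a b) := by
    have := congrArg (d⁄dX K) hv
    rw [Derivation.leibniz, PowerSeries.derivative_one] at this
    simp only [smul_eq_mul] at this
    calc d⁄dX K v * uu a b ^ 2 = uu a b * (uu a b * d⁄dX K v + v * d⁄dX K (uu a b))
          - (uu a b * v) * d⁄dX K (uu a b) := by ring
      _ = _ := by rw [this, hv]; ring
  have hu2 : IsUnit (uu a b ^ 2) := (isUnit_uu a b).pow 2
  refine ⟨- z * v, - s * v, by linear_combination (-z) * hv, by linear_combination (-s) * hv, ?_⟩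
  have key : IsSol a b (neg (- z * v)) (neg (- s * v)) := by
    refine ⟨?_, ?_, ?_, ?_⟩
    · rw [constantCoeff_neg]; simp [hz]
    · rw [constantCoeff_neg]; simp [hs]
    · rw [deriv_neg]
      have h3 : d⁄dX K (- z * v) = - (1 - C a * (- z * v) - 2 * C b * (- s * v)) := by
        rw [← hu2.mul_left_inj]
        rw [Derivation.leibniz]
        simp only [smul_eq_mul, map_neg, h1]
        have e1 : (-z * d⁄dX K v + v * -(1 - C a * z - 2 * C b * s)) * uu a b ^ 2 =
          -z * (d⁄dX K v * uu a b ^ 2) - (uu a b * v) * (1 - C a * z - 2 * C b * s) * uu a b := by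
          ring
        rw [e1, hdv, hdu, hv]
        have e2 : -(1 - C a * (-z * v) - 2 * C b * (-s * v)) * uu a b ^ 2 =
          - (uu a b ^ 2 + C a * z * (uu a b * v) * uu a b + 2 * C b * s * (uu a b * v) * uu a b) := by
          ring
        rw [e2, hv]
        rw [hu] at hsu ⊢
        linear_combination (3 * C b) * hsu
      rw [h3]
      simp only [neg, map_neg, map_sub, map_mul, map_one, map_ofNat]
      have := neg_C a
      have := neg_C b
      simp only [neg] at *
      simp only [*]
      ring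
    · rw [deriv_neg]
      have h3 : d⁄dX K (- s * v) = - (3 * (- z * v) ^ 2 + C a * (- s * v)) := by
        rw [← hu2.mul_left_inj]
        rw [Derivation.leibniz]
        simp only [smul_eq_mul, map_neg, h2]
        have e1 : (-s * d⁄dX K v + v * -(3 * z ^ 2 + C a * s)) * uu a b ^ 2 =
          -s * (d⁄dX K v * uu a b ^ 2) - (uu a b * v) * (3 * z ^ 2 + C a * s) * uu a b := by
          ring
        rw [e1, hdv, hdu, hv]
        have e2 : -(3 * (-z * v) ^ 2 + C a * (-s * v)) * uu a b ^ 2 =
          - (3 * z ^ 2 * (uu a b * v) ^ 2 - C a * s * (uu a b * v) * uu a b) := by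
          ring
        rw [e2, hv]
        rw [hu] at hsu ⊢
        linear_combination (-3 * C a) * hsu
      rw [h3]
      simp only [neg, map_neg, map_add, map_mul, map_pow, map_ofNat]
      have := neg_C a
      simp only [neg] at *
      simp only [*]
      ring
  have := key.eq
  exact ⟨by rw [hz, ← this.1, neg_neg', this.1], by rw [hs, ← this.2, neg_neg', this.2]⟩

theorem neg_zs (a b : K) : neg (zs a b) * uu a b = - zs a b := by
  obtain ⟨Z, S, h1, h2, h3, h4⟩ := neg_zs_aux a b
  rw [h3, h1]

theorem neg_ss (a b : K) : neg (ss a b) * uu a b = - ss a b := by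
  obtain ⟨Z, S, h1, h2, h3, h4⟩ := neg_zs_aux a b
  rw [h4, h2]

/-- `W(z(w)) = s(w)` -/
theorem Ws_subst (a b : K) : (Ws a b).subst (zs a b) = ss a b := by
  have hz : HasSubst (zs a b) := HasSubst.of_constantCoeff_zero' (constantCoeff_zs a b)
  have h1 := congrArg (PowerSeries.subst (zs a b)) (Ws_eq a b)
  rw [subst_add hz, subst_add hz, subst_mul hz, subst_mul hz, subst_mul hz, subst_pow hz,
    subst_pow hz, subst_X hz] at h1
  have hC : ∀ x : K, PowerSeries.subst (zs a b) (C x) = (C x : PowerSeries K) := fun x =>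
    PowerSeries.subst_C x
  rw [hC, hC] at h1
  have h2 := cubic a b
  set W := (Ws a b).subst (zs a b) with hW
  have hW0 : constantCoeff W = 0 :=
    PowerSeries.constantCoeff_subst_eq_zero (constantCoeff_zs a b) _ (constantCoeff_Ws a b)
  have h3 : (W - ss a b) * (1 - C a * zs a b - C b * (W + ss a b)) = 0 := by
    linear_combination h1 - h2
  have hu : IsUnit (1 - C a * zs a b - C b * (W + ss a b)) := by
    rw [PowerSeries.isUnit_iff_constantCoeff]
    simp [hW0]
  exact sub_eq_zero.1 ((hu.mul_left_eq_zero).1 h3)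

end one

end Crest.Agent.R007.Fg
end
private theorem rz_6269e95637 : type_of% @_root_.Crest.Agent.R007.Fg.wf.eq_1 := @_root_.Crest.Agent.R007.Fg.wf.eq_1 -- L23
end

-- ▼ part R007/Fg3
section

/-!
# Row 7, E-FG, file 3: the formal group law of `y² + a x y + b y = x³` over any commutative ring
-/

set_option autoImplicit false

noncomputable section

namespace Crest.Agent.R007.Fg

open MvPowerSeries Crest.LubinTate

/-! ## abstract differential identities -/

section abs

variable {k P : Type*} [CommRing k] [CommRing P] [IsDomain P] [Algebra k P]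

theorem rel_m {a b z1 z2 s1 s2 m : P} (h1 : s1 = z1 ^ 3 + a * z1 * s1 + b * s1 ^ 2)
    (h2 : s2 = z2 ^ 3 + a * z2 * s2 + b * s2 ^ 2) (hm : (z2 - z1) * m = s2 - s1)
    (hne : z2 - z1 ≠ 0) :
    m = z1 ^ 2 + z1 * z2 + z2 ^ 2 + a * (z2 * m + s1) + b * m * (s1 + s2) := by
  apply mul_left_cancel₀ hne
  linear_combination h2 - h1 + (1 - a * z2 - b * (s1 + s2)) * hm

theorem deriv_m (D : Derivation k P P) {a b z1 z2 s1 s2 m : P}
    (h1 : s1 = z1 ^ 3 + a * z1 * s1 + b * s1 ^ 2)
    (h2 : s2 = z2 ^ 3 + a * z2 * s2 + b * s2 ^ 2) (hm : (z2 - z1) * m = s2 - s1)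
    (hne : z2 - z1 ≠ 0)
    (dz1 : D z1 = 1 - a * z1 - 2 * b * s1) (ds1 : D s1 = 3 * z1 ^ 2 + a * s1)
    (dz2 : D z2 = - (1 - a * z2 - 2 * b * s2)) (ds2 : D s2 = - (3 * z2 ^ 2 + a * s2)) :
    D m = - (z2 - z1) := by
  have h := congrArg D hm
  rw [Derivation.leibniz, map_sub, map_sub, dz1, dz2, ds1, ds2] at h
  simp only [smul_eq_mul] at h
  have hr := rel_m h1 h2 hm hne
  apply mul_left_cancel₀ hne
  linear_combination h + 2 * hr + a * hm 

theorem deriv_Z3 (D : Derivation k P P) {a b z1 z2 s1 s2 m : P}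
    (Da : D a = 0) (Db : D b = 0)
    (h1 : s1 = z1 ^ 3 + a * z1 * s1 + b * s1 ^ 2)
    (h2 : s2 = z2 ^ 3 + a * z2 * s2 + b * s2 ^ 2) (hm : (z2 - z1) * m = s2 - s1)
    (hne : z2 - z1 ≠ 0)
    (dz1 : D z1 = 1 - a * z1 - 2 * b * s1) (ds1 : D s1 = 3 * z1 ^ 2 + a * s1)
    (dz2 : D z2 = - (1 - a * z2 - 2 * b * s2)) (ds2 : D s2 = - (3 * z2 ^ 2 + a * s2)) :
    D (- (z1 + z2) - (a * m + b * m ^ 2)) = 0 := by
  have h := deriv_m D h1 h2 hm hne dz1 ds1 dz2 ds2
  simp only [map_sub, map_neg, map_add, Derivation.leibniz, Derivation.leibniz_pow, smul_eq_mul,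
    Da, Db, h, dz1, dz2, mul_zero, add_zero, nsmul_eq_mul]
  push_cast
  linear_combination (2 * b) * hm

theorem deriv_S3 (D : Derivation k P P) {a b z1 z2 s1 s2 m : P}
    (Da : D a = 0) (Db : D b = 0)
    (h1 : s1 = z1 ^ 3 + a * z1 * s1 + b * s1 ^ 2)
    (h2 : s2 = z2 ^ 3 + a * z2 * s2 + b * s2 ^ 2) (hm : (z2 - z1) * m = s2 - s1)
    (hne : z2 - z1 ≠ 0)
    (dz1 : D z1 = 1 - a * z1 - 2 * b * s1) (ds1 : D s1 = 3 * z1 ^ 2 + a * s1)
    (dz2 : D z2 = - (1 - a * z2 - 2 * b * s2)) (ds2 : D s2 = - (3 * z2 ^ 2 + a * s2)) :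
    D (m * (- (z1 + z2) - (a * m + b * m ^ 2)) + (s1 - m * z1)) = 0 := by
  have h := deriv_m D h1 h2 hm hne dz1 ds1 dz2 ds2
  have h3 := deriv_Z3 D Da Db h1 h2 hm hne dz1 ds1 dz2 ds2
  have hr := rel_m h1 h2 hm hne
  rw [map_add, Derivation.leibniz, h3, map_sub, Derivation.leibniz, h, dz1, ds1]
  simp only [smul_eq_mul, mul_zero, zero_add]
  linear_combination (-1) * hr + (b * m) * hm

end abs

/-! ## divided differences -/

section dd

variable {A : Type*} [CommRing A]

/-- `(f(Y) - f(X)) / (Y - X)` -/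
def dd (f : PowerSeries A) : MvPowerSeries (Fin 2) A := fun d => PowerSeries.coeff (d 0 + d 1 + 1) f

theorem coeff_dd (f : PowerSeries A) (d : Fin 2 →₀ ℕ) :
    coeff d (dd f) = PowerSeries.coeff (d 0 + d 1 + 1) f := rfl

theorem dd_mul (f : PowerSeries A) : (X 1 - X 0) * dd f =
    PowerSeries.subst (X 1 : MvPowerSeries (Fin 2) A) f -
      PowerSeries.subst (X 0 : MvPowerSeries (Fin 2) A) f := by
  classical
  ext d
  rw [map_sub, PowerSeries.coeff_subst_single, PowerSeries.coeff_subst_single, sub_mul, map_sub,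
    X_def, X_def, coeff_monomial_mul, coeff_monomial_mul]
  simp only [one_mul, Finsupp.single_le_iff, coeff_dd]
  have h1 : d = Finsupp.single 1 (d 1) ↔ d 0 = 0 := by
    constructor
    · intro h; rw [h]; simp
    · intro h; ext i; fin_cases i <;> simp [h]
  have h0 : d = Finsupp.single 0 (d 0) ↔ d 1 = 0 := by
    constructor
    · intro h; rw [h]; simp
    · intro h; ext i; fin_cases i <;> simp [h]
  rw [if_congr h1 rfl rfl, if_congr h0 rfl rfl]
  rcases Nat.eq_zero_or_pos (d 0) with e0 | e0 <;> rcases Nat.eq_zero_or_pos (d 1) with e1 | e1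
  · simp [e0, e1]
  · rw [if_pos (by omega), if_neg (by omega), if_pos e0, if_neg (by omega), sub_zero, sub_zero]
    have : d 0 + d 1 = (d - Finsupp.single 1 1 : Fin 2 →₀ ℕ) 0 +
        (d - Finsupp.single 1 1 : Fin 2 →₀ ℕ) 1 + 1 := by
      simp [e0]; omega
    rw [← this, e0, zero_add]
  · rw [if_neg (by omega), if_pos (by omega), if_neg (by omega), if_pos e1, zero_sub, zero_sub]
    have : d 0 + d 1 = (d - Finsupp.single 0 1 : Fin 2 →₀ ℕ) 0 +
        (d - Finsupp.single 0 1 : Fin 2 →₀ ℕ) 1 + 1 := by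
      simp [e1]; omega
    rw [← this, e1, add_zero]
  · rw [if_pos (by omega), if_pos (by omega), if_neg (by omega), if_neg (by omega), sub_zero]
    rw [sub_eq_zero]
    have h2 : d 0 + d 1 = (d - Finsupp.single 1 1 : Fin 2 →₀ ℕ) 0 +
        (d - Finsupp.single 1 1 : Fin 2 →₀ ℕ) 1 + 1 := by
      simp; omega
    have h3 : d 0 + d 1 = (d - Finsupp.single 0 1 : Fin 2 →₀ ℕ) 0 +
        (d - Finsupp.single 0 1 : Fin 2 →₀ ℕ) 1 + 1 := by
      simp; omega
    rw [← h2, ← h3]

theorem map_dd {B : Type*} [CommRing B] (f : A →+* B) (g : PowerSeries A) :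
    (dd g).map f = dd (g.map f) := by
  ext d
  rw [coeff_map, coeff_dd, coeff_dd, PowerSeries.coeff_map]

theorem constantCoeff_dd (g : PowerSeries A) : constantCoeff (dd g) = PowerSeries.coeff 1 g := by
  rw [← coeff_zero_eq_constantCoeff_apply, coeff_dd]
  simp

/-- the slope -/
def mm (a b : A) : MvPowerSeries (Fin 2) A := dd (Ws a b)

/-- `z`-coordinate of the third point -/
def Z3 (a b : A) : MvPowerSeries (Fin 2) A := - (X 0 + X 1) - (C a * mm a b + C b * mm a b ^ 2)

/-- `s`-coordinate of the third point -/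
def S3 (a b : A) : MvPowerSeries (Fin 2) A :=
  mm a b * Z3 a b + (PowerSeries.subst (X 0 : MvPowerSeries (Fin 2) A) (Ws a b) - mm a b * X 0)

/-- denominator -/
def U3 (a b : A) : MvPowerSeries (Fin 2) A := 1 - C a * Z3 a b - C b * S3 a b

theorem constantCoeff_mm (a b : A) : constantCoeff (mm a b) = 0 := by
  rw [mm, constantCoeff_dd, Ws, PowerSeries.coeff_mk, wf_succ, wf_zero]
  simp

theorem constantCoeff_Z3 (a b : A) : constantCoeff (Z3 a b) = 0 := by
  simp [Z3, constantCoeff_mm]

theorem constantCoeff_S3 (a b : A) : constantCoeff (S3 a b) = 0 := by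
  have : constantCoeff (PowerSeries.subst (X 0 : MvPowerSeries (Fin 2) A) (Ws a b)) = 0 :=
    PowerSeries.constantCoeff_subst_eq_zero (constantCoeff_X 0) _ (constantCoeff_Ws a b)
  simp [S3, constantCoeff_mm, this]

theorem constantCoeff_U3 (a b : A) : constantCoeff (U3 a b) = 1 := by
  simp [U3, constantCoeff_Z3, constantCoeff_S3]

theorem isUnit_U3 (a b : A) : IsUnit (U3 a b) := by
  rw [MvPowerSeries.isUnit_iff_constantCoeff, constantCoeff_U3]
  exact isUnit_one

/-- the formal group law, as a power series -/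
def FF (a b : A) : MvPowerSeries (Fin 2) A := - Z3 a b * ((isUnit_U3 a b).unit⁻¹ : (MvPowerSeries (Fin 2) A)ˣ)

theorem FF_mul (a b : A) : FF a b * U3 a b = - Z3 a b := by
  rw [FF, mul_assoc, IsUnit.val_inv_mul, mul_one]

theorem map_mm {B : Type*} [CommRing B] (f : A →+* B) (a b : A) :
    (mm a b).map f = mm (f a) (f b) := by
  rw [mm, map_dd, map_Ws, mm]

theorem map_Z3 {B : Type*} [CommRing B] (f : A →+* B) (a b : A) :
    (Z3 a b).map f = Z3 (f a) (f b) := by
  simp only [Z3, map_sub, map_neg, map_add, map_mul, map_pow, map_C, map_X, map_mm]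

theorem map_S3 {B : Type*} [CommRing B] (f : A →+* B) (a b : A) :
    (S3 a b).map f = S3 (f a) (f b) := by
  simp only [S3, map_sub, map_add, map_mul, map_X, map_mm, map_Z3]
  rw [PowerSeries.map_subst (PowerSeries.HasSubst.X 0), map_Ws, map_X]

theorem map_U3 {B : Type*} [CommRing B] (f : A →+* B) (a b : A) :
    (U3 a b).map f = U3 (f a) (f b) := by
  simp only [U3, map_sub, map_one, map_mul, map_C, map_Z3, map_S3]

theorem map_FF {B : Type*} [CommRing B] (f : A →+* B) (a b : A) :
    (FF a b).map f = FF (f a) (f b) := by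
  rw [← (isUnit_U3 (f a) (f b)).mul_left_inj, FF_mul, ← map_U3, ← map_mul, FF_mul, map_neg, map_Z3]

end dd

/-! ## the addition formula over a `ℚ`-algebra -/

section add

variable {K : Type*} [CommRing K] [Algebra ℚ K]

/-- kernel of `∂₀ - ∂₁` -/
theorem ker_ext {f : MvPowerSeries (Fin 2) K} (hD : pderiv K 0 f = pderiv K 1 f)
    (h0 : ∀ n : ℕ, coeff (Finsupp.single 0 n) f = 0) : f = 0 := by
  have key : ∀ j : ℕ, ∀ i : ℕ, coeff (Finsupp.single 0 i + Finsupp.single 1 j) f = 0 := by
    intro j
    induction j with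
    | zero => intro i; simpa using h0 i
    | succ j ih =>
      intro i
      have h := congrArg (coeff (Finsupp.single 0 i + Finsupp.single 1 j)) hD
      rw [coeff_pderiv, coeff_pderiv] at h
      have e1 : (Finsupp.single (0 : Fin 2) i + Finsupp.single 1 j + Finsupp.single 0 1) =
          Finsupp.single 0 (i + 1) + Finsupp.single 1 j := by
        rw [Finsupp.single_add]; abel
      have e2 : (Finsupp.single (0 : Fin 2) i + Finsupp.single 1 j + Finsupp.single 1 1) =
          Finsupp.single 0 i + Finsupp.single 1 (j + 1) := by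
        rw [Finsupp.single_add]; abel
      rw [e1, e2, ih (i + 1), zero_mul] at h
      have h' : coeff (Finsupp.single 0 i + Finsupp.single 1 (j + 1)) f * ((j : K) + 1) = 0 := by
        rw [h]; simp
      rw [natInv j h', mul_zero]
  ext d
  have hd : d = Finsupp.single 0 (d 0) + Finsupp.single 1 (d 1) := by
    ext i; fin_cases i <;> simp
  rw [hd, key, map_zero]

omit [Algebra ℚ K] in
theorem pderiv_subst_X (i j : Fin 2) (g : PowerSeries K) :
    pderiv K i (PowerSeries.subst (X j : MvPowerSeries (Fin 2) K) g) =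
      if i = j then PowerSeries.subst (X j : MvPowerSeries (Fin 2) K) (PowerSeries.derivative K g)
        else 0 := by
  rw [R227.pderiv_subst_one (PowerSeries.HasSubst.X j)]
  split_ifs with h
  · subst h
    rw [pderiv_X_self, mul_one]
  · rw [pderiv_X_of_ne (Ne.symm h), mul_zero]

/-- the derivation `∂₀ - ∂₁` -/
def DD : Derivation K (MvPowerSeries (Fin 2) K) (MvPowerSeries (Fin 2) K) :=
  pderiv K 0 - pderiv K 1

omit [Algebra ℚ K] in
theorem DD_X0 (g : PowerSeries K) :
    DD (PowerSeries.subst (X 0 : MvPowerSeries (Fin 2) K) g) =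
      PowerSeries.subst (X 0 : MvPowerSeries (Fin 2) K) (PowerSeries.derivative K g) := by
  rw [DD, Derivation.sub_apply, pderiv_subst_X, pderiv_subst_X]
  simp

omit [Algebra ℚ K] in
theorem DD_X1 (g : PowerSeries K) :
    DD (PowerSeries.subst (X 1 : MvPowerSeries (Fin 2) K) g) =
      - PowerSeries.subst (X 1 : MvPowerSeries (Fin 2) K) (PowerSeries.derivative K g) := by
  rw [DD, Derivation.sub_apply, pderiv_subst_X, pderiv_subst_X]
  simp

omit [Algebra ℚ K] in
theorem DD_add (g : PowerSeries K) :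
    DD (PowerSeries.subst (X 0 + X 1 : MvPowerSeries (Fin 2) K) g) = 0 := by
  have h : PowerSeries.HasSubst (X 0 + X 1 : MvPowerSeries (Fin 2) K) :=
    PowerSeries.HasSubst.of_constantCoeff_zero (by simp)
  rw [DD, Derivation.sub_apply, R227.pderiv_subst_one h, R227.pderiv_subst_one h]
  simp

omit [Algebra ℚ K] in
theorem subst_X0_zero_psubst (g : PowerSeries K) (p : MvPowerSeries (Fin 2) K)
    (hp : constantCoeff p = 0) :
    MvPowerSeries.subst ![(PowerSeries.X : PowerSeries K), 0] (PowerSeries.subst p g) =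
      PowerSeries.subst (MvPowerSeries.subst ![(PowerSeries.X : PowerSeries K), 0] p) g :=
  R227.subst_psubst hp HasSubst.X_zero g

omit [Algebra ℚ K] in
/-- coefficients of `P(X, 0)` -/
theorem coeff_subst_X_zero (P : MvPowerSeries (Fin 2) K) (j : ℕ) :
    PowerSeries.coeff j (P.subst ![(PowerSeries.X : PowerSeries K), 0]) =
      coeff (Finsupp.single 0 j) P := by
  have hXZ : HasSubst ![(PowerSeries.X : PowerSeries K), 0] := HasSubst.X_zero
  rw [PowerSeries.coeff, coeff_subst hXZ, finsum_eq_single _ (Finsupp.single 0 j)]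
  · simp [← PowerSeries.coeff_def]
  · intro d hd
    by_cases hd₁ : d 1 = 0
    · have hd0 : d 0 ≠ j := by
        intro h
        apply hd
        ext i
        fin_cases i
        · simpa using h
        · simpa using hd₁
      have : PowerSeries.coeff j ((PowerSeries.X : PowerSeries K) ^ (d 0)) = 0 := by
        rw [PowerSeries.coeff_X_pow, if_neg (Ne.symm hd0)]
      rw [Finsupp.prod_fintype _ _ (by simp)]
      simp only [Fin.prod_univ_two, Matrix.cons_val_zero, Matrix.cons_val_one, hd₁, pow_zero,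
        mul_one]
      rw [PowerSeries.coeff] at this
      rw [this, smul_zero]
    · rw [Finsupp.prod_fintype _ _ (by simp)]
      simp [Fin.prod_univ_two, zero_pow hd₁]

theorem ker_eq {f g : MvPowerSeries (Fin 2) K} (hf : DD f = 0) (hg : DD g = 0)
    (h : MvPowerSeries.subst ![(PowerSeries.X : PowerSeries K), 0] f =
      (MvPowerSeries.subst ![(PowerSeries.X : PowerSeries K), 0] g : PowerSeries K)) : f = g := by
  rw [← sub_eq_zero]
  apply ker_ext
  · have : DD (f - g) = 0 := by rw [map_sub, hf, hg, sub_zero]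
    rw [DD, Derivation.sub_apply, sub_eq_zero] at this
    exact this
  · intro n
    rw [map_sub, ← coeff_subst_X_zero, ← coeff_subst_X_zero, h, sub_self]

variable [IsDomain K]

theorem third (a b : K) :
    let σ := ![PowerSeries.subst (X 0 : MvPowerSeries (Fin 2) K) (zs a b),
      PowerSeries.subst (X 1 : MvPowerSeries (Fin 2) K) (zs a b)]
    (Z3 a b).subst σ = PowerSeries.subst (X 0 + X 1 : MvPowerSeries (Fin 2) K) (neg (zs a b)) ∧
    (S3 a b).subst σ = PowerSeries.subst (X 0 + X 1 : MvPowerSeries (Fin 2) K) (neg (ss a b)) := by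
  intro σ
  have : IsDomain (MvPowerSeries (Fin 2) K) := NoZeroDivisors.to_isDomain _
  set z1 : MvPowerSeries (Fin 2) K := PowerSeries.subst (X 0 : MvPowerSeries (Fin 2) K) (zs a b)
    with hz1
  set z2 : MvPowerSeries (Fin 2) K := PowerSeries.subst (X 1 : MvPowerSeries (Fin 2) K) (zs a b)
    with hz2
  set s1 : MvPowerSeries (Fin 2) K := PowerSeries.subst (X 0 : MvPowerSeries (Fin 2) K) (ss a b)
    with hs1
  set s2 : MvPowerSeries (Fin 2) K := PowerSeries.subst (X 1 : MvPowerSeries (Fin 2) K) (ss a b)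
    with hs2
  have cz1 : constantCoeff z1 = 0 := R227.constantCoeff_psubst (constantCoeff_X 0)
    (constantCoeff_zs a b)
  have cz2 : constantCoeff z2 = 0 := R227.constantCoeff_psubst (constantCoeff_X 1)
    (constantCoeff_zs a b)
  have cs1 : constantCoeff s1 = 0 := R227.constantCoeff_psubst (constantCoeff_X 0)
    (constantCoeff_ss a b)
  have hσ : HasSubst σ := R227.hasSubst_pair cz1 cz2
  have hX := fun i : Fin 2 => PowerSeries.HasSubst.X (S := K) i
  have hCs : ∀ (i : Fin 2) (x : K), PowerSeries.subst (X i : MvPowerSeries (Fin 2) K)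
      (PowerSeries.C x) = (C x : MvPowerSeries (Fin 2) K) := fun i x => PowerSeries.subst_C x
  set m : MvPowerSeries (Fin 2) K := (mm a b).subst σ with hm
  have hW : ∀ i : Fin 2, (PowerSeries.subst (X i : MvPowerSeries (Fin 2) K) (Ws a b)).subst σ =
      PowerSeries.subst (X i : MvPowerSeries (Fin 2) K) (ss a b) := by
    intro i
    rw [R227.subst_psubst (constantCoeff_X i) hσ, subst_X hσ]
    have : σ i = PowerSeries.subst (X i : MvPowerSeries (Fin 2) K) (zs a b) := by
      fin_cases i <;> rfl
    rw [this, R227.psubst_psubst' (constantCoeff_X i) (constantCoeff_zs a b), Ws_subst]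
  have hmul : (z2 - z1) * m = s2 - s1 := by
    have := congrArg (MvPowerSeries.subst σ) (dd_mul (Ws a b))
    rw [subst_mul hσ, subst_sub hσ, subst_sub hσ, subst_X hσ, subst_X hσ, hW, hW] at this
    exact this
  -- cubic relations
  have hc : ∀ i : Fin 2, PowerSeries.subst (X i : MvPowerSeries (Fin 2) K) (ss a b) =
      (PowerSeries.subst (X i : MvPowerSeries (Fin 2) K) (zs a b)) ^ 3 +
        C a * (PowerSeries.subst (X i : MvPowerSeries (Fin 2) K) (zs a b)) *
          PowerSeries.subst (X i : MvPowerSeries (Fin 2) K) (ss a b) +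
        C b * (PowerSeries.subst (X i : MvPowerSeries (Fin 2) K) (ss a b)) ^ 2 := by
    intro i
    have := congrArg (PowerSeries.subst (X i : MvPowerSeries (Fin 2) K)) (cubic a b)
    rw [PowerSeries.subst_add (hX i), PowerSeries.subst_add (hX i), PowerSeries.subst_mul (hX i),
      PowerSeries.subst_mul (hX i), PowerSeries.subst_mul (hX i), PowerSeries.subst_pow (hX i),
      PowerSeries.subst_pow (hX i), hCs, hCs] at this
    exact this
  have hdz : ∀ i : Fin 2, PowerSeries.subst (X i : MvPowerSeries (Fin 2) K)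
      (PowerSeries.derivative K (zs a b)) = 1 -
        C a * (PowerSeries.subst (X i : MvPowerSeries (Fin 2) K) (zs a b)) -
        2 * C b * PowerSeries.subst (X i : MvPowerSeries (Fin 2) K) (ss a b) := by
    intro i
    have h2 : (2 : PowerSeries K) * PowerSeries.C b = PowerSeries.C (2 * b) := by
      rw [map_mul, map_ofNat]
    have h3 : (2 : MvPowerSeries (Fin 2) K) * C b = C (2 * b) := by
      rw [map_mul, map_ofNat]
    have h1 : (1 : PowerSeries K) = PowerSeries.C 1 := by rw [map_one]
    rw [dzs, h2, h3, PowerSeries.subst_sub (hX i), PowerSeries.subst_sub (hX i),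
      PowerSeries.subst_mul (hX i), PowerSeries.subst_mul (hX i), h1, hCs, hCs, hCs, map_one]
  have hds : ∀ i : Fin 2, PowerSeries.subst (X i : MvPowerSeries (Fin 2) K)
      (PowerSeries.derivative K (ss a b)) = 
        3 * (PowerSeries.subst (X i : MvPowerSeries (Fin 2) K) (zs a b)) ^ 2 +
        C a * PowerSeries.subst (X i : MvPowerSeries (Fin 2) K) (ss a b) := by
    intro i
    have h2 : (3 : PowerSeries K) = PowerSeries.C 3 := by
      rw [map_ofNat]
    have h3 : (3 : MvPowerSeries (Fin 2) K) = C 3 := by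
      rw [map_ofNat]
    rw [dss, h2, h3, PowerSeries.subst_add (hX i),
      PowerSeries.subst_mul (hX i), PowerSeries.subst_mul (hX i), PowerSeries.subst_pow (hX i),
      hCs, hCs]
  have hne : z2 - z1 ≠ 0 := by
    intro h
    have := congrArg (coeff (Finsupp.single 1 1)) h
    classical
    rw [map_sub, hz1, hz2, PowerSeries.coeff_subst_single, PowerSeries.coeff_subst_single] at this
    simp at this
  have Da : (DD : Derivation K _ _) (C a : MvPowerSeries (Fin 2) K) = 0 := by
    simp [DD, Derivation.sub_apply]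
  have Db : (DD : Derivation K _ _) (C b : MvPowerSeries (Fin 2) K) = 0 := by
    simp [DD, Derivation.sub_apply]
  have dz1 := (DD_X0 (zs a b)).trans (hdz 0)
  have ds1 := (DD_X0 (ss a b)).trans (hds 0)
  have dz2 := (DD_X1 (zs a b)).trans (congrArg Neg.neg (hdz 1))
  have ds2 := (DD_X1 (ss a b)).trans (congrArg Neg.neg (hds 1))
  have hD1 := deriv_Z3 DD Da Db (hc 0) (hc 1) hmul hne dz1 ds1 dz2 ds2
  have hD2 := deriv_S3 DD Da Db (hc 0) (hc 1) hmul hne dz1 ds1 dz2 ds2
  have hZ3 : (Z3 a b).subst σ = - (z1 + z2) - (C a * m + C b * m ^ 2) := by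
    rw [Z3, subst_sub hσ, subst_add hσ, subst_mul hσ, subst_mul hσ, subst_pow hσ]
    have hn : MvPowerSeries.subst σ (-(X 0 + X 1) : MvPowerSeries (Fin 2) K) = - (z1 + z2) := by
      rw [← coe_substAlgHom hσ, map_neg, map_add, coe_substAlgHom hσ, subst_X hσ, subst_X hσ]
      rfl
    rw [hn, subst_C, subst_C]
  have hS3 : (S3 a b).subst σ = m * (- (z1 + z2) - (C a * m + C b * m ^ 2)) + (s1 - m * z1) := by
    rw [S3, subst_add hσ, subst_sub hσ, subst_mul hσ, subst_mul hσ, hZ3, hW 0, subst_X hσ]
    rfl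
  -- put the second variable equal to zero
  have hX0 : HasSubst ![(PowerSeries.X : PowerSeries K), 0] := HasSubst.X_zero
  have eX0 : MvPowerSeries.subst ![(PowerSeries.X : PowerSeries K), 0]
      (X 0 : MvPowerSeries (Fin 2) K) = (PowerSeries.X : PowerSeries K) := by
    rw [subst_X hX0]; rfl
  have eX1 : MvPowerSeries.subst ![(PowerSeries.X : PowerSeries K), 0]
      (X 1 : MvPowerSeries (Fin 2) K) = (0 : PowerSeries K) := by
    rw [subst_X hX0]; rfl
  set ε : MvPowerSeries (Fin 2) K → PowerSeries K :=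
    MvPowerSeries.subst ![(PowerSeries.X : PowerSeries K), 0] with hε
  have εadd : ∀ x y, ε (x + y) = ε x + ε y := fun x y => subst_add hX0 x y
  have εmul : ∀ x y, ε (x * y) = ε x * ε y := fun x y => subst_mul hX0 x y
  have εsub : ∀ x y, ε (x - y) = ε x - ε y := fun x y => subst_sub hX0 x y
  have εneg : ∀ x, ε (-x) = - ε x := by
    intro x
    have := εsub 0 x
    rw [zero_sub] at this
    rw [this]
    have h0 : ε 0 = 0 := by rw [hε, ← coe_substAlgHom hX0, map_zero]
    rw [h0, zero_sub]
  have εpow : ∀ x n, ε (x ^ n) = ε x ^ n := fun x n => subst_pow hX0 x n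
  have εC : ∀ x : K, ε (C x) = PowerSeries.C x := fun x => subst_C x
  have εp : ∀ (g : PowerSeries K) (p : MvPowerSeries (Fin 2) K), constantCoeff p = 0 →
      ε (PowerSeries.subst p g) = PowerSeries.subst (ε p) g := fun g p hp =>
    subst_X0_zero_psubst g p hp
  have ez1 : ε z1 = zs a b := by
    rw [hz1, εp _ _ (constantCoeff_X 0), eX0, PowerSeries.X_subst]
  have es1 : ε s1 = ss a b := by
    rw [hs1, εp _ _ (constantCoeff_X 0), eX0, PowerSeries.X_subst]
  have ez2 : ε z2 = 0 := by
    rw [hz2, εp _ _ (constantCoeff_X 1), eX1]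
    exact PowerSeries.subst_zero_of_constantCoeff_zero (constantCoeff_zs a b)
  have es2 : ε s2 = 0 := by
    rw [hs2, εp _ _ (constantCoeff_X 1), eX1]
    exact PowerSeries.subst_zero_of_constantCoeff_zero (constantCoeff_ss a b)
  have em : zs a b * ε m = ss a b := by
    have := congrArg ε hmul
    rw [εmul, εsub, εsub, ez1, ez2, es1, es2] at this
    linear_combination -this
  have hzne : zs a b ≠ 0 := by
    intro h
    have := coeff_one_zs a b
    rw [h, map_zero] at this
    exact zero_ne_one this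
  have e01 : ε (X 0 + X 1) = PowerSeries.X := by
    rw [εadd, eX0, eX1, add_zero]
  have hcc : constantCoeff (X 0 + X 1 : MvPowerSeries (Fin 2) K) = 0 := by simp
  have hu := isUnit_uu a b
  have hsu := ss_mul_uu a b
  have hcu := cubic a b
  have huu : uu a b = 1 - PowerSeries.C a * zs a b - PowerSeries.C b * ss a b := rfl
  have hns := neg_ss a b
  have hnz := neg_zs a b
  have eZ : ε (- (z1 + z2) - (C a * m + C b * m ^ 2)) = neg (zs a b) := by
    rw [εsub, εneg, εadd, εadd, εmul, εmul, εpow, εC, εC, ez1, ez2, add_zero]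
    rw [← hu.mul_left_inj, ← mul_right_inj' (pow_ne_zero 2 hzne)]
    have e1 : zs a b ^ 2 * ((-zs a b - (PowerSeries.C a * ε m + PowerSeries.C b * ε m ^ 2)) * uu a b)
      = (- zs a b ^ 3 - PowerSeries.C a * zs a b * (zs a b * ε m) -
          PowerSeries.C b * (zs a b * ε m) ^ 2) * uu a b := by ring
    rw [e1, em, hnz]
    linear_combination (-uu a b) * (-hcu) - hsu
  have eS : ε (m * (- (z1 + z2) - (C a * m + C b * m ^ 2)) + (s1 - m * z1)) = neg (ss a b) := by
    rw [εadd, εmul, eZ, εsub, εmul, ez1, es1]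
    rw [← hu.mul_left_inj, ← mul_right_inj' hzne]
    have e1 : zs a b * ((ε m * neg (zs a b) + (ss a b - ε m * zs a b)) * uu a b)
      = (zs a b * ε m) * (neg (zs a b) * uu a b) + (ss a b - (zs a b * ε m)) * zs a b * uu a b := by
        ring
    rw [e1, em, hnz, hns]
    ring
  constructor
  · refine ker_eq ?_ (DD_add _) ?_
    · rw [hZ3]; exact hD1
    · change ε _ = ε _
      rw [hZ3, eZ, εp _ _ hcc, e01, PowerSeries.X_subst]
  · refine ker_eq ?_ (DD_add _) ?_
    · rw [hS3]; exact hD2
    · change ε _ = ε _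
      rw [hS3, eS, εp _ _ hcc, e01, PowerSeries.X_subst]

/-- **the addition formula** -/
theorem FF_subst (a b : K) :
    (FF a b).subst ![PowerSeries.subst (X 0 : MvPowerSeries (Fin 2) K) (zs a b),
      PowerSeries.subst (X 1 : MvPowerSeries (Fin 2) K) (zs a b)] =
    PowerSeries.subst (X 0 + X 1 : MvPowerSeries (Fin 2) K) (zs a b) := by
  have hσ : HasSubst ![PowerSeries.subst (X 0 : MvPowerSeries (Fin 2) K) (zs a b),
      PowerSeries.subst (X 1 : MvPowerSeries (Fin 2) K) (zs a b)] :=
    R227.hasSubst_pair (R227.constantCoeff_psubst (constantCoeff_X 0) (constantCoeff_zs a b))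
      (R227.constantCoeff_psubst (constantCoeff_X 1) (constantCoeff_zs a b))
  obtain ⟨hZ, hS⟩ := third a b
  have h01 : PowerSeries.HasSubst (X 0 + X 1 : MvPowerSeries (Fin 2) K) :=
    PowerSeries.HasSubst.of_constantCoeff_zero (by simp)
  have hCs : ∀ (x : K), PowerSeries.subst (X 0 + X 1 : MvPowerSeries (Fin 2) K)
      (PowerSeries.C x) = (C x : MvPowerSeries (Fin 2) K) := fun x => PowerSeries.subst_C x
  have h1 := congrArg (MvPowerSeries.subst (![PowerSeries.subst (X 0 : MvPowerSeries (Fin 2) K)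
    (zs a b), PowerSeries.subst (X 1 : MvPowerSeries (Fin 2) K) (zs a b)] :
      Fin 2 → MvPowerSeries (Fin 2) K)) (FF_mul a b)
  have hone : MvPowerSeries.subst (![PowerSeries.subst (X 0 : MvPowerSeries (Fin 2) K)
    (zs a b), PowerSeries.subst (X 1 : MvPowerSeries (Fin 2) K) (zs a b)] :
      Fin 2 → MvPowerSeries (Fin 2) K) (1 : MvPowerSeries (Fin 2) K) = 1 := by
    rw [← coe_substAlgHom hσ, map_one]
  have hneg : ∀ p, MvPowerSeries.subst (![PowerSeries.subst (X 0 : MvPowerSeries (Fin 2) K)
    (zs a b), PowerSeries.subst (X 1 : MvPowerSeries (Fin 2) K) (zs a b)] :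
      Fin 2 → MvPowerSeries (Fin 2) K) (-p : MvPowerSeries (Fin 2) K) = - MvPowerSeries.subst
      (![PowerSeries.subst (X 0 : MvPowerSeries (Fin 2) K)
    (zs a b), PowerSeries.subst (X 1 : MvPowerSeries (Fin 2) K) (zs a b)] :
      Fin 2 → MvPowerSeries (Fin 2) K) p := by
    intro p
    rw [← coe_substAlgHom hσ, map_neg]
  rw [subst_mul hσ, U3, subst_sub hσ, subst_sub hσ, subst_mul hσ, subst_mul hσ, hone, hneg,
    hZ, hS, subst_C, subst_C] at h1
  -- the negated relation
  have h2 : zs a b * neg (uu a b) = - neg (zs a b) := by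
    have := congrArg (PowerSeries.rescale (-1 : K)) (neg_zs a b)
    rw [map_mul, map_neg] at this
    have e := neg_neg' (zs a b)
    rw [neg] at e
    rw [e] at this
    exact this
  have h3 := congrArg (PowerSeries.subst (X 0 + X 1 : MvPowerSeries (Fin 2) K)) h2
  have hnu : neg (uu a b) = 1 - PowerSeries.C a * neg (zs a b) - PowerSeries.C b * neg (ss a b) := by
    have e1 := neg_C a
    have e2 := neg_C b
    rw [uu]
    simp only [neg, map_sub, map_one, map_mul] at *
    rw [e1, e2]
  have hone' : (1 : PowerSeries K) = PowerSeries.C 1 := by rw [map_one]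
  have hneg' : ∀ p : PowerSeries K, PowerSeries.subst (X 0 + X 1 : MvPowerSeries (Fin 2) K) (-p) =
      - PowerSeries.subst (X 0 + X 1 : MvPowerSeries (Fin 2) K) p := by
    intro p
    rw [← PowerSeries.coe_substAlgHom h01, map_neg]
  rw [PowerSeries.subst_mul h01, hnu, PowerSeries.subst_sub h01, PowerSeries.subst_sub h01,
    PowerSeries.subst_mul h01, PowerSeries.subst_mul h01, hneg', hone', hCs, hCs, hCs, map_one]
    at h3
  have hu : IsUnit (1 - C a * PowerSeries.subst (X 0 + X 1 : MvPowerSeries (Fin 2) K)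
      (neg (zs a b)) - C b * PowerSeries.subst (X 0 + X 1 : MvPowerSeries (Fin 2) K)
      (neg (ss a b))) := by
    rw [MvPowerSeries.isUnit_iff_constantCoeff]
    have c1 : constantCoeff (PowerSeries.subst (X 0 + X 1 : MvPowerSeries (Fin 2) K)
      (neg (zs a b))) = 0 := R227.constantCoeff_psubst (by simp)
        (by rw [constantCoeff_neg, constantCoeff_zs])
    have c2 : constantCoeff (PowerSeries.subst (X 0 + X 1 : MvPowerSeries (Fin 2) K)
      (neg (ss a b))) = 0 := R227.constantCoeff_psubst (by simp)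
        (by rw [constantCoeff_neg, constantCoeff_ss])
    simp [c1, c2]
  exact hu.mul_left_injective (h1.trans h3.symm)

end add

end Crest.Agent.R007.Fg
end
end

-- ▼ part R007/Fg4

/-!
# Row 7, E-FG, file 4: the formal group `Phi a b` over any commutative ring, and the homomorphisms
-/

set_option autoImplicit false

noncomputable section

namespace Crest.Agent.R007.Fg

open MvPowerSeries Crest.LubinTate

section inj

variable {A B : Type*} [CommRing A] [CommRing B]

theorem map_injective {σ : Type*} {f : A →+* B} (hf : Function.Injective f) :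
    Function.Injective (MvPowerSeries.map (σ := σ) f) := by
  intro p q h
  ext d
  apply hf
  have := congrArg (coeff d) h
  rwa [coeff_map, coeff_map] at this

theorem pmap_injective {f : A →+* B} (hf : Function.Injective f) :
    Function.Injective (PowerSeries.map f) := by
  intro p q h
  ext d
  apply hf
  have := congrArg (PowerSeries.coeff d) h
  rwa [PowerSeries.coeff_map, PowerSeries.coeff_map] at this

theorem map_psubst_X (f : A →+* B) (i : Fin 2) (φ : PowerSeries A) :
    MvPowerSeries.map f (PowerSeries.subst (X i : MvPowerSeries (Fin 2) A) φ) =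
      PowerSeries.subst (X i : MvPowerSeries (Fin 2) B) (PowerSeries.map f φ) := by
  rw [PowerSeries.map_subst (PowerSeries.HasSubst.X i), map_X]

/-- descent of homomorphisms along an injective ring homomorphism -/
theorem isFGHom_of_map {F G : FormalGroup A} {φ : PowerSeries A} {f : A →+* B}
    (hf : Function.Injective f) (h : IsFGHom (F.map f) (G.map f) (φ.map f)) : IsFGHom F G φ := by
  have h0 : PowerSeries.constantCoeff φ = 0 := by
    apply hf
    have := h.1
    rw [← PowerSeries.coeff_zero_eq_constantCoeff_apply, PowerSeries.coeff_map,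
      PowerSeries.coeff_zero_eq_constantCoeff_apply] at this
    rw [this, map_zero]
  refine ⟨h0, map_injective hf ?_⟩
  have hF : PowerSeries.HasSubst F.toPowerSeries :=
    PowerSeries.HasSubst.of_constantCoeff_zero F.zero_constantCoeff
  have hc := fun i => R227.constantCoeff_psubst (R227.ccX (R := A) i) h0
  rw [PowerSeries.map_subst hF, MvPowerSeries.map_subst (R227.hasSubst_pair (hc 0) (hc 1))]
  have e : (fun i => (![PowerSeries.subst (X 0 : MvPowerSeries (Fin 2) A) φ,
      PowerSeries.subst (X 1 : MvPowerSeries (Fin 2) A) φ] i).map f) =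
      ![PowerSeries.subst (X 0 : MvPowerSeries (Fin 2) B) (φ.map f),
      PowerSeries.subst (X 1 : MvPowerSeries (Fin 2) B) (φ.map f)] := by
    funext i
    fin_cases i
    · exact map_psubst_X f 0 φ
    · exact map_psubst_X f 1 φ
  rw [e]
  exact h.2

end inj

/-! ## general `ℚ`-algebras -/

/-- `ℚ[a,b]` -/
abbrev K0 := MvPolynomial (Fin 2) ℚ

/-- `ℤ[a,b]` -/
abbrev A0 := MvPolynomial (Fin 2) ℤ

section Kalg

variable {K : Type*} [CommRing K] [Algebra ℚ K]

/-- evaluation -/
def evK (a b : K) : K0 →+* K := (MvPolynomial.aeval ![a, b] : K0 →ₐ[ℚ] K).toRingHom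

theorem evK_X0 (a b : K) : evK a b (MvPolynomial.X 0) = a := by simp [evK]
theorem evK_X1 (a b : K) : evK a b (MvPolynomial.X 1) = b := by simp [evK]

theorem FF_subst' (a b : K) :
    (FF a b).subst ![PowerSeries.subst (X 0 : MvPowerSeries (Fin 2) K) (zs a b),
      PowerSeries.subst (X 1 : MvPowerSeries (Fin 2) K) (zs a b)] =
    PowerSeries.subst (X 0 + X 1 : MvPowerSeries (Fin 2) K) (zs a b) := by
  have h := congrArg (MvPowerSeries.map (evK a b))
    (FF_subst (K := K0) (MvPolynomial.X 0) (MvPolynomial.X 1))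
  have hc := fun i => R227.constantCoeff_psubst (R227.ccX (R := K0) i)
    (constantCoeff_zs (K := K0) (MvPolynomial.X 0) (MvPolynomial.X 1))
  have h01 : PowerSeries.HasSubst (X 0 + X 1 : MvPowerSeries (Fin 2) K0) :=
    PowerSeries.HasSubst.of_constantCoeff_zero (by simp)
  rw [MvPowerSeries.map_subst (R227.hasSubst_pair (hc 0) (hc 1)), PowerSeries.map_subst h01,
    map_FF, map_zs, evK_X0, evK_X1, map_add, map_X, map_X] at h
  have e : (fun i => MvPowerSeries.map (evK a b) (![PowerSeries.subst (X 0 : MvPowerSeries (Fin 2) K0)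
      (zs (MvPolynomial.X 0 : K0) (MvPolynomial.X 1)),
      PowerSeries.subst (X 1 : MvPowerSeries (Fin 2) K0)
      (zs (MvPolynomial.X 0 : K0) (MvPolynomial.X 1))] i)) =
      ![PowerSeries.subst (X 0 : MvPowerSeries (Fin 2) K) (zs a b),
      PowerSeries.subst (X 1 : MvPowerSeries (Fin 2) K) (zs a b)] := by
    funext i
    fin_cases i
    · refine (map_psubst_X (evK a b) 0 _).trans ?_
      rw [map_zs, evK_X0, evK_X1]
      rfl
    · refine (map_psubst_X (evK a b) 1 _).trans ?_
      rw [map_zs, evK_X0, evK_X1]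
      rfl
  rw [e] at h
  exact h

theorem exists_FG (a b : K) : ∃ G : FormalGroup K, G.IsComm ∧ G.toPowerSeries = FF a b ∧
    IsFGHom FormalGroup.𝔾ₐ G (zs a b) := by
  have hu : IsUnit (PowerSeries.coeff 1 (zs a b)) := by rw [coeff_one_zs]; exact isUnit_one
  obtain ⟨G, hG⟩ := R227.exists_conj FormalGroup.𝔾ₐ (zs a b) (constantCoeff_zs a b) hu
  refine ⟨G, R227.IsFGHom.isComm hG hu, ?_, hG⟩
  obtain ⟨ψ, hψ0, hψu, h1, h2⟩ := R227.exists_sinv (constantCoeff_zs a b) hu
  have hc := fun i => R227.constantCoeff_psubst (R227.ccX (R := K) i) (constantCoeff_zs a b)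
  have hd := fun i => R227.constantCoeff_psubst (R227.ccX (R := K) i) hψ0
  have hσ := R227.hasSubst_pair (hc 0) (hc 1)
  have hτ := R227.hasSubst_pair (hd 0) (hd 1)
  have key : ∀ P : MvPowerSeries (Fin 2) K, (P.subst
      ![PowerSeries.subst (X 0 : MvPowerSeries (Fin 2) K) (zs a b),
      PowerSeries.subst (X 1 : MvPowerSeries (Fin 2) K) (zs a b)]).subst
      ![PowerSeries.subst (X 0 : MvPowerSeries (Fin 2) K) ψ,
      PowerSeries.subst (X 1 : MvPowerSeries (Fin 2) K) ψ] = P := by
    intro P
    rw [subst_comp_subst_apply hσ hτ]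
    have e : (fun s => MvPowerSeries.subst ![PowerSeries.subst (X 0 : MvPowerSeries (Fin 2) K) ψ,
      PowerSeries.subst (X 1 : MvPowerSeries (Fin 2) K) ψ]
      (![PowerSeries.subst (X 0 : MvPowerSeries (Fin 2) K) (zs a b),
      PowerSeries.subst (X 1 : MvPowerSeries (Fin 2) K) (zs a b)] s)) = X := by
      funext i
      fin_cases i
      · simp only [Fin.zero_eta, Matrix.cons_val_zero]
        rw [R227.subst_psubst (R227.ccX 0) hτ, subst_X hτ]
        simp only [Matrix.cons_val_zero]
        rw [R227.psubst_psubst' (R227.ccX 0) hψ0, h2, R227.psubst_X (R227.ccX 0)]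
      · simp only [Fin.mk_one, Matrix.cons_val_one, Matrix.cons_val_fin_one]
        rw [R227.subst_psubst (R227.ccX 1) hτ, subst_X hτ]
        simp only [Matrix.cons_val_one, Matrix.cons_val_fin_one]
        rw [R227.psubst_psubst' (R227.ccX 1) hψ0, h2, R227.psubst_X (R227.ccX 1)]
    rw [e, subst_self, id]
  rw [← key G.toPowerSeries, ← hG.2, ← key (FF a b), FF_subst']
  simp

end Kalg

/-! ## the universal law over `ℤ[a,b]` -/

/-- `ℤ[a,b] → ℚ[a,b]` -/
def iotaAK : A0 →+* K0 := MvPolynomial.map (Int.castRingHom ℚ)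

theorem iotaAK_injective : Function.Injective iotaAK :=
  MvPolynomial.map_injective _ Int.cast_injective

theorem iotaAK_X (i : Fin 2) : iotaAK (MvPolynomial.X i) = MvPolynomial.X i := by simp [iotaAK]

theorem constantCoeff_FF {A : Type*} [CommRing A] (a b : A) : constantCoeff (FF a b) = 0 := by
  rw [FF, map_mul, map_neg, constantCoeff_Z3]; simp

/-- the universal formal group law -/
def univ : FormalGroup A0 where
  toPowerSeries := FF (MvPolynomial.X 0) (MvPolynomial.X 1)
  zero_constantCoeff := constantCoeff_FF _ _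
  lin_coeff_X := by
    obtain ⟨G, -, hG, -⟩ := exists_FG (K := K0) (MvPolynomial.X 0) (MvPolynomial.X 1)
    apply iotaAK_injective
    rw [← coeff_map, map_FF, iotaAK_X, iotaAK_X, ← hG, G.lin_coeff_X, map_one]
  lin_coeff_Y := by
    obtain ⟨G, -, hG, -⟩ := exists_FG (K := K0) (MvPolynomial.X 0) (MvPolynomial.X 1)
    apply iotaAK_injective
    rw [← coeff_map, map_FF, iotaAK_X, iotaAK_X, ← hG, G.lin_coeff_Y, map_one]
  assoc := by
    obtain ⟨G, -, hG, -⟩ := exists_FG (K := K0) (MvPolynomial.X 0) (MvPolynomial.X 1)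
    apply map_injective iotaAK_injective
    have hz := constantCoeff_FF (A := A0) (MvPolynomial.X 0) (MvPolynomial.X 1)
    have c3 : ∀ i : Fin 3, constantCoeff (X i : MvPowerSeries (Fin 3) A0) = 0 := by simp
    have a01 : constantCoeff ((FF (A := A0) (MvPolynomial.X 0) (MvPolynomial.X 1)).subst
      ![(X 0 : MvPowerSeries (Fin 3) A0), X 1]) = 0 :=
      constantCoeff_subst_eq_zero (R227.hasSubst_pair (c3 0) (c3 1))
        (by intro i; fin_cases i <;> simp) hz
    have a12 : constantCoeff ((FF (A := A0) (MvPolynomial.X 0) (MvPolynomial.X 1)).subst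
      ![(X 1 : MvPowerSeries (Fin 3) A0), X 2]) = 0 :=
      constantCoeff_subst_eq_zero (R227.hasSubst_pair (c3 1) (c3 2))
        (by intro i; fin_cases i <;> simp) hz
    have hG' := G.assoc
    rw [MvPowerSeries.map_subst (R227.hasSubst_pair a01 (c3 2)),
      MvPowerSeries.map_subst (R227.hasSubst_pair (c3 0) a12), map_FF, iotaAK_X, iotaAK_X, ← hG]
    have e1 : (fun i => (![(FF (A := A0) (MvPolynomial.X 0) (MvPolynomial.X 1)).subst
      ![(X 0 : MvPowerSeries (Fin 3) A0), X 1], X 2] i).map iotaAK) =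
      ![G.toPowerSeries.subst ![(X 0 : MvPowerSeries (Fin 3) K0), X 1], X 2] := by
      funext i
      fin_cases i
      · simp only [Fin.zero_eta, Matrix.cons_val_zero]
        rw [MvPowerSeries.map_subst (R227.hasSubst_pair (c3 0) (c3 1)), map_FF, iotaAK_X,
          iotaAK_X, ← hG]
        congr 1
        funext j
        fin_cases j <;> simp
      · simp
    have e2 : (fun i => (![(X 0 : MvPowerSeries (Fin 3) A0),
      (FF (A := A0) (MvPolynomial.X 0) (MvPolynomial.X 1)).subst
      ![(X 1 : MvPowerSeries (Fin 3) A0), X 2]] i).map iotaAK) =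
      ![X 0, G.toPowerSeries.subst ![(X 1 : MvPowerSeries (Fin 3) K0), X 2]] := by
      funext i
      fin_cases i
      · simp
      · simp only [Fin.mk_one, Matrix.cons_val_one, Matrix.cons_val_fin_one]
        rw [MvPowerSeries.map_subst (R227.hasSubst_pair (c3 1) (c3 2)), map_FF, iotaAK_X,
          iotaAK_X, ← hG]
        congr 1
        funext j
        fin_cases j <;> simp
    rw [e1, e2]
    exact hG'

section Phi

variable {A : Type*} [CommRing A]

/-- evaluation -/
def evA (a b : A) : A0 →+* A := MvPolynomial.eval₂Hom (Int.castRingHom A) ![a, b]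

theorem evA_X0 (a b : A) : evA a b (MvPolynomial.X 0) = a := by simp [evA]
theorem evA_X1 (a b : A) : evA a b (MvPolynomial.X 1) = b := by simp [evA]

/-- the formal group law of `y² + a x y + b y = x³` -/
def Phi (a b : A) : FormalGroup A := univ.map (evA a b)

theorem Phi_toPowerSeries (a b : A) : (Phi a b).toPowerSeries = FF a b := by
  change (FF (MvPolynomial.X 0) (MvPolynomial.X 1)).map (evA a b) = _
  rw [map_FF, evA_X0, evA_X1]

theorem Phi_map {B : Type*} [CommRing B] (f : A →+* B) (a b : A) :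
    (Phi a b).map f = Phi (f a) (f b) := by
  apply FormalGroup.ext
  rw [Phi_toPowerSeries]
  change (Phi a b).toPowerSeries.map f = _
  rw [Phi_toPowerSeries, map_FF]

theorem isComm_map {B : Type*} [CommRing B] (f : A →+* B) {F : FormalGroup A} (h : F.IsComm) :
    (F.map f).IsComm := by
  constructor
  have := congrArg (MvPowerSeries.map f) h.comm
  rw [MvPowerSeries.map_subst HasSubst.X_X] at this
  have e : (fun i => (![(X 1 : MvPowerSeries (Fin 2) A), X 0] i).map f) =
    ![(X 1 : MvPowerSeries (Fin 2) B), X 0] := by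
    funext i
    fin_cases i <;> simp
  rw [e] at this
  exact this

theorem isComm_of_map {B : Type*} [CommRing B] {f : A →+* B} (hf : Function.Injective f)
    {F : FormalGroup A} (h : (F.map f).IsComm) : F.IsComm := by
  constructor
  apply map_injective hf
  have := h.comm
  rw [MvPowerSeries.map_subst HasSubst.X_X]
  have e : (fun i => (![(X 1 : MvPowerSeries (Fin 2) A), X 0] i).map f) =
    ![(X 1 : MvPowerSeries (Fin 2) B), X 0] := by
    funext i
    fin_cases i <;> simp
  rw [e]
  exact this

instance univ_isComm : univ.IsComm := by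
  apply isComm_of_map iotaAK_injective
  obtain ⟨G, hc, hG, -⟩ := exists_FG (K := K0) (MvPolynomial.X 0) (MvPolynomial.X 1)
  have : univ.map iotaAK = G := by
    apply FormalGroup.ext
    rw [hG]
    change (FF (MvPolynomial.X 0) (MvPolynomial.X 1)).map iotaAK = _
    rw [map_FF, iotaAK_X, iotaAK_X]
  rw [this]
  exact hc

instance Phi_isComm (a b : A) : (Phi a b).IsComm := isComm_map _ univ_isComm

end Phi

section hom

variable {K : Type*} [CommRing K] [Algebra ℚ K]

/-- `z(w)` is a homomorphism from the additive group -/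
theorem isFGHom_zs (a b : K) : IsFGHom FormalGroup.𝔾ₐ (Phi a b) (zs a b) := by
  obtain ⟨G, hc, hG, h⟩ := exists_FG a b
  have : Phi a b = G := by
    apply FormalGroup.ext
    rw [Phi_toPowerSeries, hG]
  rw [this]
  exact h

theorem isUnit_zs1 (a b : K) : IsUnit (PowerSeries.coeff 1 (zs a b)) := by
  rw [coeff_one_zs]; exact isUnit_one

/-- the logarithm -/
def lg (a b : K) : PowerSeries K := (zs a b).substInvOfIsUnit (isUnit_zs1 a b)

theorem constantCoeff_lg (a b : K) : PowerSeries.constantCoeff (lg a b) = 0 := by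
  simp [lg]

theorem coeff_one_lg (a b : K) : PowerSeries.coeff 1 (lg a b) = 1 := by
  rw [lg, PowerSeries.coeff_one_substInvOfIsUnit]
  have : (isUnit_zs1 a b).unit = 1 := Units.ext (coeff_one_zs a b)
  rw [this]; simp

theorem lg_zs (a b : K) : (lg a b).subst (zs a b) = (PowerSeries.X : PowerSeries K) :=
  (zs a b).subst_substInvOfIsUnit_left (constantCoeff_zs a b) (isUnit_zs1 a b)

theorem zs_lg (a b : K) : (zs a b).subst (lg a b) = (PowerSeries.X : PowerSeries K) :=
  (zs a b).subst_substInvOfIsUnit_right (constantCoeff_zs a b) (isUnit_zs1 a b)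

theorem isFGHom_lg (a b : K) : IsFGHom (Phi a b) FormalGroup.𝔾ₐ (lg a b) := by
  obtain ⟨ψ, hψ, h1, h2, -⟩ := R227.IsFGHom.exists_inv (isFGHom_zs a b) (isUnit_zs1 a b)
  have : ψ = lg a b := by
    have h3 := congrArg (PowerSeries.subst (lg a b)) h1
    rw [R227.psubst_psubst (constantCoeff_zs a b) (constantCoeff_lg a b), zs_lg,
      PowerSeries.X_subst, R227.psubst_X (constantCoeff_lg a b)] at h3
    exact h3
  rw [← this]
  exact hψ

/-- the comparison `H = z_{a,b} ∘ z_{a',b'}⁻¹` -/
def HH (a' b' a b : K) : PowerSeries K := (zs a b).subst (lg a' b')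

theorem isFGHom_HH (a' b' a b : K) : IsFGHom (Phi a' b') (Phi a b) (HH a' b' a b) :=
  R227.IsFGHom.comp (isFGHom_lg a' b') (isFGHom_zs a b)

end hom

end Crest.Agent.R007.Fg
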