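import Crest.Agent.R227.FG2
import Crest.Agent.R007.FRig
import Crest.Agent.R007.FEnd
import Crest.Agent.R007.Fg4
import Crest.Agent.R007.FDefs

-- ▼ part R007/Fz1
section

/-!
Row 7, section E-FG (helper360): the curve `y² + a x y + b y = x³` at infinity:
`s = z³ + a z s + b s²`, the invariant differential `dz / (1 - a z - 2 b s)`, logarithm, exponential.
-/

set_option autoImplicit false

noncomputable section

open PowerSeries Crest.LubinTate

namespace Crest.Agent.R007.Fz

section fix

variable {A : Type*} [CommRing A]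

/-- fixed point of an `X`-adic contraction -/
theorem exists_fix (G : PowerSeries A → PowerSeries A)
    (hG : ∀ (f g : PowerSeries A) (n : ℕ), (X : PowerSeries A) ^ n ∣ f - g → X ^ (n + 1) ∣ G f - G g) :
    ∃ f, f = G f := by
  have h1 : ∀ n : ℕ, (X : PowerSeries A) ^ n ∣ G^[n + 1] 0 - G^[n] 0 := by
    intro n
    induction n with
    | zero => simp
    | succ n ih =>
      rw [Function.iterate_succ_apply' G (n + 1), Function.iterate_succ_apply' G n]
      exact hG _ _ _ (by rwa [← Function.iterate_succ_apply' G n])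
  have h2 : ∀ n m : ℕ, (X : PowerSeries A) ^ n ∣ G^[n + m] 0 - G^[n] 0 := by
    intro n m
    induction m with
    | zero => simp
    | succ m ih =>
      have := (pow_dvd_pow (X : PowerSeries A) (Nat.le_add_right n m)).trans (h1 (n + m))
      have h3 := dvd_add this ih
      rwa [sub_add_sub_cancel] at h3
  let f : PowerSeries A := PowerSeries.mk fun n => coeff n (G^[n + 1] 0)
  have h3 : ∀ n : ℕ, (X : PowerSeries A) ^ n ∣ f - G^[n] 0 := by
    intro n
    rw [PowerSeries.X_pow_dvd_iff]
    intro i hi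
    rw [map_sub, PowerSeries.coeff_mk, sub_eq_zero]
    have h4 := h2 (i + 1) (n - (i + 1))
    rw [Nat.add_sub_cancel' (by omega), PowerSeries.X_pow_dvd_iff] at h4
    have h5 := h4 i (by omega)
    rw [map_sub, sub_eq_zero] at h5
    exact h5.symm
  refine ⟨f, ?_⟩
  rw [← sub_eq_zero]
  ext n
  rw [map_zero]
  have h4 := h3 (n + 1)
  have h5 := hG _ _ _ (h3 n)
  rw [← Function.iterate_succ_apply' G n] at h5
  have h6 := dvd_sub h4 h5
  rw [sub_sub_sub_cancel_right] at h6
  exact (PowerSeries.X_pow_dvd_iff.1 h6) n (by omega)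

theorem exists_u (a b : A) : ∃ u : PowerSeries A, u = 1 + C a * X * u + C b * X ^ 3 * u ^ 2 := by
  refine exists_fix _ fun f g n h => ?_
  obtain ⟨c, hc⟩ := h
  refine ⟨C a * c + C b * X ^ 2 * c * (f + g), ?_⟩
  linear_combination (C a * X + C b * X ^ 3 * (f + g)) * hc

/-- `u = s / z³` -/
def uS (a b : A) : PowerSeries A := (exists_u a b).choose

theorem uS_eq (a b : A) : uS a b = 1 + C a * X * uS a b + C b * X ^ 3 * uS a b ^ 2 :=
  (exists_u a b).choose_spec

/-- `s = -1/y` as a series in `z = -x/y` -/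
def sS (a b : A) : PowerSeries A := X ^ 3 * uS a b

theorem sS_eq (a b : A) : sS a b = X ^ 3 + C a * X * sS a b + C b * sS a b ^ 2 := by
  unfold sS
  linear_combination X ^ 3 * uS_eq a b

theorem cc_sS (a b : A) : constantCoeff (sS a b) = 0 := by
  rw [sS, map_mul, map_pow, PowerSeries.constantCoeff_X]; ring

/-- uniqueness, abstract form -/
theorem uniq {M : Type*} [CommRing M] {a b z s t : M} (hs : s = z ^ 3 + a * z * s + b * s ^ 2)
    (ht : t = z ^ 3 + a * z * t + b * t ^ 2) (hu : IsUnit (1 - a * z - b * (s + t))) : s = t := by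
  rw [← sub_eq_zero]
  refine (hu.mul_left_eq_zero).1 ?_
  linear_combination hs - ht

theorem isUnit_mv {τ : Type*} {f : MvPowerSeries τ A} (h : MvPowerSeries.constantCoeff f = 1) :
    IsUnit f := by
  rw [MvPowerSeries.isUnit_iff_constantCoeff, h]; exact isUnit_one

/-- uniqueness of `s(z)` in power series rings -/
theorem uniq_mv {τ : Type*} (a b : A) {z s t : MvPowerSeries τ A}
    (hz : MvPowerSeries.constantCoeff z = 0)
    (hs0 : MvPowerSeries.constantCoeff s = 0) (ht0 : MvPowerSeries.constantCoeff t = 0)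
    (hs : s = z ^ 3 + MvPowerSeries.C a * z * s + MvPowerSeries.C b * s ^ 2)
    (ht : t = z ^ 3 + MvPowerSeries.C a * z * t + MvPowerSeries.C b * t ^ 2) : s = t := by
  refine uniq hs ht (isUnit_mv ?_)
  simp [hz, hs0, ht0]

theorem subst_sS {τ : Type*} (a b : A) {z : MvPowerSeries τ A}
    (hz : MvPowerSeries.constantCoeff z = 0) :
    (subst z (sS a b) : MvPowerSeries τ A) = z ^ 3 + MvPowerSeries.C a * z * subst z (sS a b) +
      MvPowerSeries.C b * (subst z (sS a b)) ^ 2 := by
  have h := congrArg (subst z : PowerSeries A → MvPowerSeries τ A) (sS_eq a b)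
  have hz' := HasSubst.of_constantCoeff_zero hz
  have hC : ∀ c : A, (subst z (C c : PowerSeries A) : MvPowerSeries τ A) = MvPowerSeries.C c :=
    fun c => PowerSeries.subst_C _
  rw [PowerSeries.subst_add hz', PowerSeries.subst_add hz', PowerSeries.subst_mul hz',
    PowerSeries.subst_mul hz', PowerSeries.subst_mul hz', PowerSeries.subst_pow hz',
    PowerSeries.subst_pow hz', PowerSeries.subst_X hz', hC, hC] at h
  exact h

theorem cc_subst_sS {τ : Type*} (a b : A) {z : MvPowerSeries τ A}
    (hz : MvPowerSeries.constantCoeff z = 0) :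
    MvPowerSeries.constantCoeff (subst z (sS a b) : MvPowerSeries τ A) = 0 :=
  PowerSeries.constantCoeff_subst_eq_zero hz _ (cc_sS a b)

/-- uniqueness: a solution is `s(z)` -/
theorem eq_subst_sS {τ : Type*} (a b : A) {z s : MvPowerSeries τ A}
    (hz : MvPowerSeries.constantCoeff z = 0) (hs0 : MvPowerSeries.constantCoeff s = 0)
    (hs : s = z ^ 3 + MvPowerSeries.C a * z * s + MvPowerSeries.C b * s ^ 2) :
    s = subst z (sS a b) :=
  uniq_mv a b hz hs0 (cc_subst_sS a b hz) hs (subst_sS a b hz)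

theorem map_sS {B : Type*} [CommRing B] (f : A →+* B) (a b : A) :
    (sS a b).map f = sS (f a) (f b) := by
  have h := congrArg (PowerSeries.map f) (sS_eq a b)
  simp only [map_add, map_mul, map_pow, PowerSeries.map_X, PowerSeries.map_C] at h
  have h2 := eq_subst_sS (τ := Unit) (f a) (f b) (z := (X : PowerSeries B)) (s := (sS a b).map f)
    PowerSeries.constantCoeff_X (by
      change constantCoeff _ = 0
      rw [← PowerSeries.coeff_zero_eq_constantCoeff_apply, PowerSeries.coeff_map,
        PowerSeries.coeff_zero_eq_constantCoeff_apply, cc_sS, map_zero]) h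
  rw [h2]
  exact PowerSeries.X_subst _

/-- `p = dz/ω = 1 - a z - 2 b s` -/
def pS (a b : A) : PowerSeries A := 1 - C a * X - 2 * C b * sS a b

theorem cc_pS (a b : A) : constantCoeff (pS a b) = 1 := by
  simp [pS, cc_sS]

theorem map_pS {B : Type*} [CommRing B] (f : A →+* B) (a b : A) :
    (pS a b).map f = pS (f a) (f b) := by
  simp only [pS, map_sub, map_one, map_mul, PowerSeries.map_C, PowerSeries.map_X, map_sS,
    map_ofNat]


/-- the coefficient series of the invariant differential, `1/p` -/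
def wS (a b : A) : PowerSeries A := PowerSeries.invOfUnit (pS a b) 1

theorem pS_mul_wS (a b : A) : pS a b * wS a b = 1 :=
  PowerSeries.mul_invOfUnit _ _ (by rw [cc_pS]; rfl)

theorem map_wS {B : Type*} [CommRing B] (f : A →+* B) (a b : A) :
    (wS a b).map f = wS (f a) (f b) := by
  have h1 := congrArg (PowerSeries.map f) (pS_mul_wS a b)
  rw [map_mul, map_one, map_pS] at h1
  have h2 := pS_mul_wS (f a) (f b)
  calc (wS a b).map f = (pS (f a) (f b) * wS (f a) (f b)) * (wS a b).map f := by rw [h2, one_mul]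
    _ = wS (f a) (f b) * (pS (f a) (f b) * (wS a b).map f) := by ring
    _ = wS (f a) (f b) := by rw [h1, mul_one]

theorem cc_wS (a b : A) : constantCoeff (wS a b) = 1 := by
  have := congrArg constantCoeff (pS_mul_wS a b)
  rwa [map_mul, cc_pS, one_mul, map_one] at this

/-- `s' p = 3 z² + a s` -/
theorem deriv_sS (a b : A) : derivative A (sS a b) * pS a b = 3 * X ^ 2 + C a * sS a b := by
  have h := congrArg (derivative A) (sS_eq a b)
  simp only [map_add, Derivation.leibniz, Derivation.leibniz_pow, PowerSeries.derivative_X,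
    PowerSeries.derivative_C, smul_eq_mul, nsmul_eq_mul, mul_zero, add_zero, mul_one] at h
  unfold pS
  push_cast at h
  linear_combination h

end fix

end Crest.Agent.R007.Fz
end
end

-- ▼ part R007/Fz2
section

/-!
Row 7, section E-FG (helper360): the chord construction, abstract algebra.
-/

set_option autoImplicit false

noncomputable section

open PowerSeries Crest.LubinTate

namespace Crest.Agent.R007.Fz

section chord

variable {M : Type*} [CommRing M] [IsDomain M] {a b z1 z2 s1 s2 lam nu z3 w3 N P S : M}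

/-- the cubic `C(T) = T³ + aT(λT+ν) + b(λT+ν)² - (λT+ν)` is `(T-z₁)(T-z₂)(T-z₃)` -/
theorem chord (hz : z1 ≠ z2)
    (h1 : s1 = z1 ^ 3 + a * z1 * s1 + b * s1 ^ 2) (h2 : s2 = z2 ^ 3 + a * z2 * s2 + b * s2 ^ 2)
    (hs1 : s1 = lam * z1 + nu) (hs2 : s2 = lam * z2 + nu)
    (hz3 : z3 = -z1 - z2 - a * lam - b * lam ^ 2) :
    a * nu + 2 * b * lam * nu - lam = z1 * z2 + z1 * z3 + z2 * z3 ∧
      nu - b * nu ^ 2 = z1 * z2 * z3 := by
  rw [hs1] at h1
  rw [hs2] at h2
  have e1 : (a * nu + 2 * b * lam * nu - lam - (z1 * z2 + z1 * z3 + z2 * z3)) * z1 +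
      (b * nu ^ 2 - nu + z1 * z2 * z3) = 0 := by
    rw [hz3]; linear_combination -h1
  have e2 : (a * nu + 2 * b * lam * nu - lam - (z1 * z2 + z1 * z3 + z2 * z3)) * z2 +
      (b * nu ^ 2 - nu + z1 * z2 * z3) = 0 := by
    rw [hz3]; linear_combination -h2
  have e3 : (a * nu + 2 * b * lam * nu - lam - (z1 * z2 + z1 * z3 + z2 * z3)) * (z1 - z2) = 0 := by
    linear_combination e1 - e2
  have e4 : a * nu + 2 * b * lam * nu - lam - (z1 * z2 + z1 * z3 + z2 * z3) = 0 :=
    (mul_eq_zero.1 e3).resolve_right (sub_ne_zero.2 hz)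
  rw [e4] at e1
  refine ⟨by linear_combination e4, by linear_combination -e1⟩

theorem chord_third (hz : z1 ≠ z2)
    (h1 : s1 = z1 ^ 3 + a * z1 * s1 + b * s1 ^ 2) (h2 : s2 = z2 ^ 3 + a * z2 * s2 + b * s2 ^ 2)
    (hs1 : s1 = lam * z1 + nu) (hs2 : s2 = lam * z2 + nu)
    (hz3 : z3 = -z1 - z2 - a * lam - b * lam ^ 2) (hw3 : w3 = lam * z3 + nu) :
    w3 = z3 ^ 3 + a * z3 * w3 + b * w3 ^ 2 := by
  obtain ⟨e1, e2⟩ := chord hz h1 h2 hs1 hs2 hz3
  rw [hw3]
  linear_combination -z3 * e1 + e2 - z3 ^ 2 * hz3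

/-- the inverse of the third point is on the curve -/
theorem chord_curve (h3 : w3 = z3 ^ 3 + a * z3 * w3 + b * w3 ^ 2)
    (hN : N = 1 - a * z3 - b * w3) (hN0 : N ≠ 0) (hP : P * N = -z3) (hS : S * N = -w3) :
    S = P ^ 3 + a * P * S + b * S ^ 2 := by
  have h4 : w3 * N = z3 ^ 3 := by rw [hN]; linear_combination h3
  have e : N ^ 3 * S = N ^ 3 * (P ^ 3 + a * P * S + b * S ^ 2) := by
    have e1 : N ^ 3 * S = -(w3 * N) * N := by linear_combination N ^ 2 * hS
    have e2 : N ^ 3 * (P ^ 3 + a * P * S + b * S ^ 2) =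
        -z3 ^ 3 + a * z3 * w3 * N + b * w3 ^ 2 * N := by
      have : N ^ 3 * (P ^ 3 + a * P * S + b * S ^ 2) =
        (P * N) ^ 3 + a * (P * N) * (S * N) * N + b * (S * N) ^ 2 * N := by ring
      rw [this, hP, hS]; ring
    rw [e1, e2, ← h4]
    rw [hN]; ring
  exact mul_left_cancel₀ (pow_ne_zero 3 hN0) e

theorem chord_deriv {R : Type*} [CommRing R] [Algebra R M] (D : Derivation R M M) (hz : z1 ≠ z2)
    (h1 : s1 = z1 ^ 3 + a * z1 * s1 + b * s1 ^ 2) (h2 : s2 = z2 ^ 3 + a * z2 * s2 + b * s2 ^ 2)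
    (hs1 : s1 = lam * z1 + nu) (hs2 : s2 = lam * z2 + nu)
    (hz3 : z3 = -z1 - z2 - a * lam - b * lam ^ 2) (hw3 : w3 = lam * z3 + nu)
    (hN : N = 1 - a * z3 - b * w3) (hN0 : N ≠ 0) (hP : P * N = -z3) (hS : S * N = -w3)
    (Da : D a = 0) (Db : D b = 0) (Dz1 : D z1 = 1 - a * z1 - 2 * b * s1) (Dz2 : D z2 = 0)
    (Ds1 : D s1 = 3 * z1 ^ 2 + a * s1) (Ds2 : D s2 = 0) :
    D P = 1 - a * P - 2 * b * S := by
  obtain ⟨e1, e2⟩ := chord hz h1 h2 hs1 hs2 hz3
  have h3 := chord_third hz h1 h2 hs1 hs2 hz3 hw3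
  have h4 : w3 * N = z3 ^ 3 := by rw [hN]; linear_combination h3
  -- `D λ = z₁ - z₃`
  have hl : (z1 - z2) * lam = s1 - s2 := by rw [hs1, hs2]; ring
  have hDl := congrArg D hl
  simp only [Derivation.leibniz, map_sub, smul_eq_mul, Dz1, Dz2, Ds1, Ds2, sub_zero] at hDl
  have hC : 3 * z1 ^ 2 + a * s1 - lam * (1 - a * z1 - 2 * b * s1) = (z1 - z2) * (z1 - z3) := by
    rw [hs1]; linear_combination e1 + 2 * z1 * hz3
  have hD : D lam = z1 - z3 := by
    apply mul_left_cancel₀ (sub_ne_zero.2 hz)
    linear_combination hDl + hC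
  have hnu : nu = s1 - lam * z1 := by rw [hs1]; ring
  have hDn : D nu = -z2 * (z1 - z3) := by
    rw [hnu]
    simp only [Derivation.leibniz, map_sub, smul_eq_mul, Dz1, Ds1, hD]
    linear_combination hC
  have hDz3 : D z3 = -(1 - a * z3 - 2 * b * w3) := by
    have h := congrArg D hz3
    simp only [Derivation.leibniz, Derivation.leibniz_pow, map_sub, map_neg, smul_eq_mul,
      nsmul_eq_mul, Dz1, Dz2, Da, Db, hD] at h
    rw [h, hw3, hs1]; push_cast; ring
  have hDw3 : D w3 = -(3 * z3 ^ 2 + a * w3) := by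
    have h := congrArg D hw3
    simp only [Derivation.leibniz, map_add, smul_eq_mul, hD, hDz3, hDn] at h
    rw [h, hw3]
    linear_combination e1 + 2 * z3 * hz3
  have hDN : D N = a * (1 - a * z3 - 2 * b * w3) + b * (3 * z3 ^ 2 + a * w3) := by
    have h := congrArg D hN
    simp only [Derivation.leibniz, map_sub, smul_eq_mul, Derivation.map_one_eq_zero, Da, Db,
      hDz3, hDw3] at h
    rw [h]; ring
  have hDP := congrArg D hP
  simp only [Derivation.leibniz, map_neg, smul_eq_mul, hDN, hDz3] at hDP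
  have e : N ^ 2 * D P = N ^ 2 * (1 - a * P - 2 * b * S) := by
    have f1 : N ^ 2 * D P = N * (1 - a * z3 - 2 * b * w3) +
        z3 * (a * (1 - a * z3 - 2 * b * w3) + b * (3 * z3 ^ 2 + a * w3)) := by
      linear_combination N * hDP - (a * (1 - a * z3 - 2 * b * w3) + b * (3 * z3 ^ 2 + a * w3)) * hP
    have f2 : N ^ 2 * (1 - a * P - 2 * b * S) = N ^ 2 + a * z3 * N + 2 * b * w3 * N := by
      linear_combination (-a * N) * hP - 2 * b * N * hS
    rw [f1, f2]
    have f3 : z3 * (3 * z3 ^ 2) = 3 * (w3 * N) := by rw [h4]; ring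
    have f4 : 1 - a * z3 - 2 * b * w3 = N - b * w3 := by rw [hN]; ring
    have f5 : N = 1 - a * z3 - b * w3 := hN
    rw [f4]
    linear_combination b * f3
  exact mul_left_cancel₀ (pow_ne_zero 2 hN0) e

end chord

end Crest.Agent.R007.Fz
end
end

-- ▼ part R007/Fz3
section

/-!
Row 7, section E-FG (helper360): the formal group law as a two-variable power series.
-/

set_option autoImplicit false

noncomputable section

open PowerSeries Crest.LubinTate

namespace Crest.Agent.R007.Fz

section two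

variable {A : Type*} [CommRing A]

/-- divided difference `(f(X₀) - f(X₁)) / (X₀ - X₁)` -/
def dd (f : PowerSeries A) : MvPowerSeries (Fin 2) A := fun d => coeff (d 0 + d 1 + 1) f

theorem coeff_dd (f : PowerSeries A) (d : Fin 2 →₀ ℕ) :
    MvPowerSeries.coeff d (dd f) = coeff (d 0 + d 1 + 1) f := rfl

theorem map_dd {B : Type*} [CommRing B] (g : A →+* B) (f : PowerSeries A) :
    (dd f).map g = dd (f.map g) := by
  ext d; simp [coeff_dd]

theorem coeff_subst_Xi (f : PowerSeries A) (i : Fin 2) (d : Fin 2 →₀ ℕ) :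
    MvPowerSeries.coeff d (subst (MvPowerSeries.X i : MvPowerSeries (Fin 2) A) f :
      MvPowerSeries (Fin 2) A) = if d = Finsupp.single i (d i) then coeff (d i) f else 0 := by
  classical
  rw [PowerSeries.coeff_subst (HasSubst.X i)]
  simp_rw [MvPowerSeries.X_pow_eq, MvPowerSeries.coeff_monomial]
  rw [finsum_eq_single _ (d i)]
  · split_ifs with h <;> simp
  · intro n hn
    rw [if_neg, smul_zero]
    intro h
    apply hn
    rw [h]; simp

theorem dd_mul (f : PowerSeries A) :
    (MvPowerSeries.X 0 - MvPowerSeries.X 1) * dd f =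
      (subst (MvPowerSeries.X 0 : MvPowerSeries (Fin 2) A) f : MvPowerSeries (Fin 2) A) -
        subst (MvPowerSeries.X 1 : MvPowerSeries (Fin 2) A) f := by
  classical
  ext d
  rw [map_sub, coeff_subst_Xi, coeff_subst_Xi, sub_mul, map_sub, MvPowerSeries.X_def,
    MvPowerSeries.X_def, MvPowerSeries.coeff_monomial_mul, MvPowerSeries.coeff_monomial_mul]
  simp only [one_mul]
  have hle : ∀ j : Fin 2, (Finsupp.single j 1 ≤ d) ↔ 1 ≤ d j := by
    intro j
    simp [Finsupp.single_le_iff]
  simp only [hle]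
  have h1 : d = Finsupp.single 0 (d 0) ↔ d 1 = 0 := by
    constructor
    · intro h; rw [h]; simp
    · intro h; ext i; fin_cases i <;> simp [h]
  have h2 : d = Finsupp.single 1 (d 1) ↔ d 0 = 0 := by
    constructor
    · intro h; rw [h]; simp
    · intro h; ext i; fin_cases i <;> simp [h]
  simp only [h1, h2, coeff_dd]
  have e1 : ∀ _ : 1 ≤ d 0, (d - Finsupp.single 0 1 : Fin 2 →₀ ℕ) 0 +
      (d - Finsupp.single 0 1 : Fin 2 →₀ ℕ) 1 + 1 = d 0 + d 1 := by
    intro h; simp [Finsupp.single_apply]; omega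
  have e2 : ∀ _ : 1 ≤ d 1, (d - Finsupp.single 1 1 : Fin 2 →₀ ℕ) 0 +
      (d - Finsupp.single 1 1 : Fin 2 →₀ ℕ) 1 + 1 = d 0 + d 1 := by
    intro h; simp [Finsupp.single_apply]; omega
  by_cases hd1 : 1 ≤ d 0 <;> by_cases hd2 : 1 ≤ d 1
  · rw [if_pos hd1, if_pos hd2, e1 hd1, e2 hd2, if_neg (by omega), if_neg (by omega)]
    simp
  · rw [if_pos hd1, if_neg hd2, e1 hd1, if_pos (by omega), if_neg (by omega)]
    simp [show d 1 = 0 by omega]
  · rw [if_neg hd1, if_pos hd2, e2 hd2, if_neg (by omega), if_pos (by omega)]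
    simp [show d 0 = 0 by omega]
  · rw [if_neg hd1, if_neg hd2, if_pos (by omega), if_pos (by omega)]
    simp [show d 0 = 0 by omega, show d 1 = 0 by omega]

variable (a b : A)

/-- `s(z₁)` -/
def s1S : MvPowerSeries (Fin 2) A := subst (MvPowerSeries.X 0 : MvPowerSeries (Fin 2) A) (sS a b)
/-- `s(z₂)` -/
def s2S : MvPowerSeries (Fin 2) A := subst (MvPowerSeries.X 1 : MvPowerSeries (Fin 2) A) (sS a b)
/-- slope -/
def lamS : MvPowerSeries (Fin 2) A := dd (sS a b)
/-- intercept -/
def nuS : MvPowerSeries (Fin 2) A := s1S a b - lamS a b * MvPowerSeries.X 0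
/-- third point -/
def z3S : MvPowerSeries (Fin 2) A := -MvPowerSeries.X 0 - MvPowerSeries.X 1 -
  MvPowerSeries.C a * lamS a b - MvPowerSeries.C b * lamS a b ^ 2
/-- third point -/
def w3S : MvPowerSeries (Fin 2) A := lamS a b * z3S a b + nuS a b
/-- denominator -/
def NS : MvPowerSeries (Fin 2) A :=
  1 - MvPowerSeries.C a * z3S a b - MvPowerSeries.C b * w3S a b
/-- inverse of the denominator -/
def NiS : MvPowerSeries (Fin 2) A := MvPowerSeries.invOfUnit (NS a b) 1
/-- the formal group law -/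
def PS : MvPowerSeries (Fin 2) A := -z3S a b * NiS a b
/-- `s` of the sum -/
def SS : MvPowerSeries (Fin 2) A := -w3S a b * NiS a b

theorem cc_s1S : MvPowerSeries.constantCoeff (s1S a b) = 0 :=
  cc_subst_sS a b (MvPowerSeries.constantCoeff_X 0)

theorem coeff_sS_one : coeff 1 (sS a b) = 0 := by
  rw [sS, PowerSeries.coeff_X_pow_mul', if_neg (by norm_num)]

theorem cc_lamS : MvPowerSeries.constantCoeff (lamS a b) = 0 := by
  rw [← MvPowerSeries.coeff_zero_eq_constantCoeff_apply, lamS, coeff_dd]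
  simpa using coeff_sS_one a b

theorem cc_z3S : MvPowerSeries.constantCoeff (z3S a b) = 0 := by
  simp [z3S, cc_lamS]

theorem cc_w3S : MvPowerSeries.constantCoeff (w3S a b) = 0 := by
  simp [w3S, nuS, cc_lamS, cc_z3S, cc_s1S]

theorem cc_NS : MvPowerSeries.constantCoeff (NS a b) = 1 := by
  simp [NS, cc_z3S, cc_w3S]

theorem NS_mul_NiS : NS a b * NiS a b = 1 :=
  MvPowerSeries.mul_invOfUnit _ _ (by rw [cc_NS]; rfl)

theorem cc_PS : MvPowerSeries.constantCoeff (PS a b) = 0 := by
  simp [PS, cc_z3S]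

theorem cc_SS : MvPowerSeries.constantCoeff (SS a b) = 0 := by
  simp [SS, cc_w3S]

theorem PS_mul_NS : PS a b * NS a b = -z3S a b := by
  rw [PS, mul_assoc, mul_comm (NiS a b), NS_mul_NiS, mul_one]

theorem SS_mul_NS : SS a b * NS a b = -w3S a b := by
  rw [SS, mul_assoc, mul_comm (NiS a b), NS_mul_NiS, mul_one]

theorem hs1 : s1S a b = lamS a b * MvPowerSeries.X 0 + nuS a b := by
  rw [nuS]; ring

theorem hs2 : s2S a b = lamS a b * MvPowerSeries.X 1 + nuS a b := by
  have h := dd_mul (sS a b)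
  rw [nuS]
  change (MvPowerSeries.X 0 - MvPowerSeries.X 1) * lamS a b = s1S a b - s2S a b at h
  linear_combination h

theorem h1 : s1S a b = MvPowerSeries.X 0 ^ 3 + MvPowerSeries.C a * MvPowerSeries.X 0 * s1S a b +
    MvPowerSeries.C b * s1S a b ^ 2 := subst_sS a b (MvPowerSeries.constantCoeff_X 0)

theorem h2 : s2S a b = MvPowerSeries.X 1 ^ 3 + MvPowerSeries.C a * MvPowerSeries.X 1 * s2S a b +
    MvPowerSeries.C b * s2S a b ^ 2 := subst_sS a b (MvPowerSeries.constantCoeff_X 1)

end two

section dom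

variable {A : Type*} [CommRing A] [IsDomain A] (a b : A)

instance : IsDomain (MvPowerSeries (Fin 2) A) := NoZeroDivisors.to_isDomain _

theorem X_ne : (MvPowerSeries.X 0 : MvPowerSeries (Fin 2) A) ≠ MvPowerSeries.X 1 := by
  intro h
  have := congrArg (MvPowerSeries.coeff (Finsupp.single 0 1)) h
  rw [MvPowerSeries.coeff_X, MvPowerSeries.coeff_X, if_pos rfl, if_neg] at this
  · exact one_ne_zero this
  · intro h
    have := Finsupp.single_left_injective one_ne_zero h
    exact absurd this (by decide)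

theorem NS_ne : NS a b ≠ 0 := by
  intro h
  have := cc_NS a b
  rw [h, map_zero] at this
  exact zero_ne_one this

theorem SS_eq : SS a b = subst (PS a b) (sS a b) := by
  refine eq_subst_sS a b (cc_PS a b) (cc_SS a b) ?_
  exact chord_curve (chord_third X_ne (h1 a b) (h2 a b) (hs1 a b) (hs2 a b) rfl rfl) rfl
    (NS_ne a b) (PS_mul_NS a b) (SS_mul_NS a b)

theorem subst_pS {A : Type*} [CommRing A] (a b : A) {τ : Type*} {z : MvPowerSeries τ A}
    (hz : MvPowerSeries.constantCoeff z = 0) :
    (subst z (pS a b) : MvPowerSeries τ A) =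
      1 - MvPowerSeries.C a * z - 2 * MvPowerSeries.C b * subst z (sS a b) := by
  have hz' := HasSubst.of_constantCoeff_zero hz
  have hC : ∀ c : A, (subst z (C c : PowerSeries A) : MvPowerSeries τ A) = MvPowerSeries.C c :=
    fun c => PowerSeries.subst_C _
  have h1 : (subst z (1 : PowerSeries A) : MvPowerSeries τ A) = 1 := by
    rw [← map_one (PowerSeries.C (R := A)), hC, map_one]
  have h2 : (2 : PowerSeries A) = C 2 := by rw [map_ofNat]
  have h3 : (2 : MvPowerSeries τ A) = MvPowerSeries.C 2 := by rw [map_ofNat]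
  rw [pS, PowerSeries.subst_sub hz', PowerSeries.subst_sub hz', PowerSeries.subst_mul hz',
    PowerSeries.subst_mul hz', PowerSeries.subst_mul hz', PowerSeries.subst_X hz', h1, hC, hC,
    h2, hC, h3]

theorem deriv0 : subst (MvPowerSeries.X 0 : MvPowerSeries (Fin 2) A) (pS a b) *
    MvPowerSeries.pderiv A 0 (PS a b) = (subst (PS a b) (pS a b) : MvPowerSeries (Fin 2) A) := by
  have hX0 := MvPowerSeries.constantCoeff_X (σ := Fin 2) (R := A) 0
  have hX1 := MvPowerSeries.constantCoeff_X (σ := Fin 2) (R := A) 1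
  let D : Derivation A (MvPowerSeries (Fin 2) A) (MvPowerSeries (Fin 2) A) :=
    (subst (MvPowerSeries.X 0 : MvPowerSeries (Fin 2) A) (pS a b) : MvPowerSeries (Fin 2) A) •
      MvPowerSeries.pderiv A 0
  have hD : ∀ f, D f = subst (MvPowerSeries.X 0 : MvPowerSeries (Fin 2) A) (pS a b) *
    MvPowerSeries.pderiv A 0 f := fun f => rfl
  rw [← hD, subst_pS a b (cc_PS a b), ← SS_eq]
  have hds : ∀ (i j : Fin 2) (f : PowerSeries A), MvPowerSeries.pderiv A i
      (subst (MvPowerSeries.X j : MvPowerSeries (Fin 2) A) f : MvPowerSeries (Fin 2) A) =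
      subst (MvPowerSeries.X j : MvPowerSeries (Fin 2) A) (derivative A f) *
        MvPowerSeries.pderiv A i (MvPowerSeries.X j) := fun i j f =>
    R227.pderiv_subst_one (HasSubst.X j) i f
  refine chord_deriv D X_ne (h1 a b) (h2 a b) (hs1 a b) (hs2 a b) rfl rfl rfl
    (NS_ne a b) (PS_mul_NS a b) (SS_mul_NS a b) ?_ ?_ ?_ ?_ ?_ ?_
  · rw [hD, MvPowerSeries.pderiv_C, mul_zero]
  · rw [hD, MvPowerSeries.pderiv_C, mul_zero]
  · rw [hD, MvPowerSeries.pderiv_X_self, mul_one, subst_pS a b hX0]; rfl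
  · rw [hD, MvPowerSeries.pderiv_X_of_ne (by decide), mul_zero]
  · rw [hD, s1S, hds, MvPowerSeries.pderiv_X_self, mul_one, ← PowerSeries.subst_mul (HasSubst.X 0),
      mul_comm (pS a b), deriv_sS]
    have hC : ∀ c : A, (subst (MvPowerSeries.X 0 : MvPowerSeries (Fin 2) A) (C c : PowerSeries A) :
      MvPowerSeries (Fin 2) A) = MvPowerSeries.C c := fun c => PowerSeries.subst_C _
    have h3 : (3 : PowerSeries A) = C 3 := by rw [map_ofNat]
    have h3' : (3 : MvPowerSeries (Fin 2) A) = MvPowerSeries.C 3 := by rw [map_ofNat]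
    rw [PowerSeries.subst_add (HasSubst.X 0), PowerSeries.subst_mul (HasSubst.X 0),
      PowerSeries.subst_mul (HasSubst.X 0), PowerSeries.subst_pow (HasSubst.X 0),
      PowerSeries.subst_X (HasSubst.X 0), h3, hC, hC, h3']
  · rw [hD, s2S, hds, MvPowerSeries.pderiv_X_of_ne (by decide), mul_zero, mul_zero]

theorem deriv1 : subst (MvPowerSeries.X 1 : MvPowerSeries (Fin 2) A) (pS a b) *
    MvPowerSeries.pderiv A 1 (PS a b) = (subst (PS a b) (pS a b) : MvPowerSeries (Fin 2) A) := by
  have hX0 := MvPowerSeries.constantCoeff_X (σ := Fin 2) (R := A) 0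
  have hX1 := MvPowerSeries.constantCoeff_X (σ := Fin 2) (R := A) 1
  let D : Derivation A (MvPowerSeries (Fin 2) A) (MvPowerSeries (Fin 2) A) :=
    (subst (MvPowerSeries.X 1 : MvPowerSeries (Fin 2) A) (pS a b) : MvPowerSeries (Fin 2) A) •
      MvPowerSeries.pderiv A 1
  have hD : ∀ f, D f = subst (MvPowerSeries.X 1 : MvPowerSeries (Fin 2) A) (pS a b) *
    MvPowerSeries.pderiv A 1 f := fun f => rfl
  rw [← hD, subst_pS a b (cc_PS a b), ← SS_eq]
  have hds : ∀ (i j : Fin 2) (f : PowerSeries A), MvPowerSeries.pderiv A i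
      (subst (MvPowerSeries.X j : MvPowerSeries (Fin 2) A) f : MvPowerSeries (Fin 2) A) =
      subst (MvPowerSeries.X j : MvPowerSeries (Fin 2) A) (derivative A f) *
        MvPowerSeries.pderiv A i (MvPowerSeries.X j) := fun i j f =>
    R227.pderiv_subst_one (HasSubst.X j) i f
  have hz3 : z3S a b = -MvPowerSeries.X 1 - MvPowerSeries.X 0 -
    MvPowerSeries.C a * lamS a b - MvPowerSeries.C b * lamS a b ^ 2 := by rw [z3S]; ring
  refine chord_deriv D X_ne.symm (h2 a b) (h1 a b) (hs2 a b) (hs1 a b) hz3 rfl rfl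
    (NS_ne a b) (PS_mul_NS a b) (SS_mul_NS a b) ?_ ?_ ?_ ?_ ?_ ?_
  · rw [hD, MvPowerSeries.pderiv_C, mul_zero]
  · rw [hD, MvPowerSeries.pderiv_C, mul_zero]
  · rw [hD, MvPowerSeries.pderiv_X_self, mul_one, subst_pS a b hX1]; rfl
  · rw [hD, MvPowerSeries.pderiv_X_of_ne (by decide), mul_zero]
  · rw [hD, s2S, hds, MvPowerSeries.pderiv_X_self, mul_one, ← PowerSeries.subst_mul (HasSubst.X 1),
      mul_comm (pS a b), deriv_sS]
    have hC : ∀ c : A, (subst (MvPowerSeries.X 1 : MvPowerSeries (Fin 2) A) (C c : PowerSeries A) :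
      MvPowerSeries (Fin 2) A) = MvPowerSeries.C c := fun c => PowerSeries.subst_C _
    have h3 : (3 : PowerSeries A) = C 3 := by rw [map_ofNat]
    have h3' : (3 : MvPowerSeries (Fin 2) A) = MvPowerSeries.C 3 := by rw [map_ofNat]
    rw [PowerSeries.subst_add (HasSubst.X 1), PowerSeries.subst_mul (HasSubst.X 1),
      PowerSeries.subst_mul (HasSubst.X 1), PowerSeries.subst_pow (HasSubst.X 1),
      PowerSeries.subst_X (HasSubst.X 1), h3, hC, hC, h3']
  · rw [hD, s1S, hds, MvPowerSeries.pderiv_X_of_ne (by decide), mul_zero, mul_zero]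

theorem subst_one' {A : Type*} [CommRing A] {τ : Type*} (z : MvPowerSeries τ A) :
    (subst z (1 : PowerSeries A) : MvPowerSeries τ A) = 1 := by
  rw [← map_one (PowerSeries.C (R := A))]
  exact (PowerSeries.subst_C _).trans (map_one _)

end dom

section log

variable {K : Type*} [CommRing K] [Algebra ℚ K] (a b : K)

/-- the logarithm `∫ ω` -/
def lgS : PowerSeries K := PowerSeries.mk fun n => algebraMap ℚ K (1 / n) * coeff (n - 1) (wS a b)

theorem cc_lgS : constantCoeff (lgS a b) = 0 := by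
  rw [← PowerSeries.coeff_zero_eq_constantCoeff_apply, lgS, PowerSeries.coeff_mk]
  simp

theorem coeff_one_lgS : coeff 1 (lgS a b) = 1 := by
  rw [lgS, PowerSeries.coeff_mk]
  simp [cc_wS]

theorem deriv_lgS : derivative K (lgS a b) = wS a b := by
  ext n
  rw [PowerSeries.coeff_derivative, lgS, PowerSeries.coeff_mk, Nat.add_sub_cancel]
  have h : (algebraMap ℚ K) (1 / ((n + 1 : ℕ) : ℚ)) * ((n : K) + 1) = 1 := by
    have h1 : ((n : K) + 1) = algebraMap ℚ K ((n + 1 : ℕ) : ℚ) := by simp
    rw [h1, ← map_mul, one_div_mul_cancel (by positivity), map_one]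
  linear_combination coeff n (wS a b) * h

theorem map_lgS {L : Type*} [CommRing L] [Algebra ℚ L] (f : K →+* L) :
    (lgS a b).map f = lgS (f a) (f b) := by
  ext n
  rw [PowerSeries.coeff_map, lgS, lgS, PowerSeries.coeff_mk, PowerSeries.coeff_mk, map_mul,
    ← PowerSeries.coeff_map, map_wS]
  congr 1
  have : f.comp (algebraMap ℚ K) = algebraMap ℚ L := Subsingleton.elim _ _
  exact DFunLike.congr_fun this _

end log

section logdom

variable {K : Type*} [CommRing K] [IsDomain K] [Algebra ℚ K] (a b : K)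

/-- `log (z₁ + z₂) = log z₁ + log z₂` -/
theorem log_PS : (subst (PS a b) (lgS a b) : MvPowerSeries (Fin 2) K) =
    subst (MvPowerSeries.X 0 : MvPowerSeries (Fin 2) K) (lgS a b) +
      subst (MvPowerSeries.X 1 : MvPowerSeries (Fin 2) K) (lgS a b) := by
  have : CharZero K := algebraRat.charZero K
  have hP := HasSubst.of_constantCoeff_zero (cc_PS a b)
  have hw : ∀ {z : MvPowerSeries (Fin 2) K}, MvPowerSeries.constantCoeff z = 0 →
      (subst z (pS a b) : MvPowerSeries (Fin 2) K) * subst z (wS a b) = 1 := by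
    intro z hz
    rw [← PowerSeries.subst_mul (HasSubst.of_constantCoeff_zero hz), pS_mul_wS, subst_one']
  have hX := fun i => MvPowerSeries.constantCoeff_X (σ := Fin 2) (R := K) i
  apply MvPowerSeries.pderiv.ext
  · intro i
    rw [map_add, R227.pderiv_subst_one hP, R227.pderiv_subst_one (HasSubst.X 0),
      R227.pderiv_subst_one (HasSubst.X 1), deriv_lgS]
    have e1 : (subst (MvPowerSeries.X i : MvPowerSeries (Fin 2) K) (pS a b) :
        MvPowerSeries (Fin 2) K) * (subst (PS a b) (wS a b) * MvPowerSeries.pderiv K i (PS a b)) =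
        1 := by
      have e2 : subst (MvPowerSeries.X i : MvPowerSeries (Fin 2) K) (pS a b) *
          MvPowerSeries.pderiv K i (PS a b) = (subst (PS a b) (pS a b) : MvPowerSeries (Fin 2) K) := by
        fin_cases i
        · exact deriv0 a b
        · exact deriv1 a b
      rw [← hw (cc_PS a b), ← e2]; ring
    have e3 : (subst (PS a b) (wS a b) : MvPowerSeries (Fin 2) K) * MvPowerSeries.pderiv K i (PS a b) =
        subst (MvPowerSeries.X i : MvPowerSeries (Fin 2) K) (wS a b) := by
      have e4 := hw (hX i)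
      calc _ = (subst (MvPowerSeries.X i : MvPowerSeries (Fin 2) K) (pS a b) *
            subst (MvPowerSeries.X i : MvPowerSeries (Fin 2) K) (wS a b)) *
            (subst (PS a b) (wS a b) * MvPowerSeries.pderiv K i (PS a b)) := by rw [e4, one_mul]
        _ = subst (MvPowerSeries.X i : MvPowerSeries (Fin 2) K) (wS a b) *
            (subst (MvPowerSeries.X i : MvPowerSeries (Fin 2) K) (pS a b) *
              (subst (PS a b) (wS a b) * MvPowerSeries.pderiv K i (PS a b))) := by ring
        _ = _ := by rw [e1, mul_one]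
    rw [e3]
    fin_cases i
    · simp [MvPowerSeries.pderiv_X_of_ne]
    · simp [MvPowerSeries.pderiv_X_of_ne]
  · rw [map_add, PowerSeries.constantCoeff_subst_eq_zero (cc_PS a b) _ (cc_lgS a b),
      PowerSeries.constantCoeff_subst_eq_zero (hX 0) _ (cc_lgS a b),
      PowerSeries.constantCoeff_subst_eq_zero (hX 1) _ (cc_lgS a b), add_zero]

end logdom

end Crest.Agent.R007.Fz
end
end

-- ▼ part R007/Fz4
section

/-!
Row 7, section E-FG (helper360): `Phi a b : FormalGroup A`, the formal group law of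
`y² + a x y + b y = x³` over every commutative ring.
-/

set_option autoImplicit false

noncomputable section

open PowerSeries Crest.LubinTate

namespace Crest.Agent.R007.Fz

section mapping

variable {A B : Type*} [CommRing A] [CommRing B] (f : A →+* B) (a b : A)

theorem mv_map_C {τ : Type*} (c : A) : (MvPowerSeries.C c : MvPowerSeries τ A).map f =
    MvPowerSeries.C (f c) := MvPowerSeries.map_C f c

theorem map_s1S : (s1S a b).map f = s1S (f a) (f b) := by
  rw [s1S, s1S, ← map_sS f]
  have h := PowerSeries.map_subst (h := f) (HasSubst.X (S := A) (0 : Fin 2)) (sS a b)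
  rw [MvPowerSeries.map_X] at h
  exact h

theorem map_lamS : (lamS a b).map f = lamS (f a) (f b) := by
  rw [lamS, lamS, map_dd, map_sS]

theorem map_nuS : (nuS a b).map f = nuS (f a) (f b) := by
  rw [nuS, nuS, map_sub, map_mul, map_s1S, map_lamS, MvPowerSeries.map_X]

theorem map_z3S : (z3S a b).map f = z3S (f a) (f b) := by
  rw [z3S, z3S, map_sub, map_sub, map_sub, map_neg, map_mul, map_mul, map_pow, map_lamS,
    MvPowerSeries.map_X, MvPowerSeries.map_X, mv_map_C, mv_map_C]

theorem map_w3S : (w3S a b).map f = w3S (f a) (f b) := by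
  rw [w3S, w3S, map_add, map_mul, map_lamS, map_z3S, map_nuS]

theorem map_NS : (NS a b).map f = NS (f a) (f b) := by
  rw [NS, NS, map_sub, map_sub, map_mul, map_mul, map_z3S, map_w3S, mv_map_C, mv_map_C, map_one]

theorem map_NiS : (NiS a b).map f = NiS (f a) (f b) := by
  have h1 := congrArg (MvPowerSeries.map f) (NS_mul_NiS a b)
  rw [map_mul, map_one, map_NS] at h1
  have h2 := NS_mul_NiS (f a) (f b)
  calc (NiS a b).map f = (NS (f a) (f b) * NiS (f a) (f b)) * (NiS a b).map f := by rw [h2, one_mul]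
    _ = NiS (f a) (f b) * (NS (f a) (f b) * (NiS a b).map f) := by ring
    _ = NiS (f a) (f b) := by rw [h1, mul_one]

theorem map_PS : (PS a b).map f = PS (f a) (f b) := by
  rw [PS, PS, map_mul, map_neg, map_z3S, map_NiS]

end mapping

section descent

variable {R S : Type*} [CommRing R] [CommRing S] {ι : R →+* S}

theorem mv_map_injective {τ : Type*} (hι : Function.Injective ι) :
    Function.Injective (MvPowerSeries.map (σ := τ) ι) := by
  intro f g h
  ext d
  have := congrArg (MvPowerSeries.coeff d) h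
  rw [MvPowerSeries.coeff_map, MvPowerSeries.coeff_map] at this
  exact hι this

theorem map_subst_pair {τ : Type*} (ι : R →+* S) {P : MvPowerSeries (Fin 2) R}
    {x y : MvPowerSeries τ R} (hx : MvPowerSeries.constantCoeff x = 0)
    (hy : MvPowerSeries.constantCoeff y = 0) :
    (P.subst ![x, y]).map ι = (P.map ι).subst ![x.map ι, y.map ι] := by
  rw [MvPowerSeries.map_subst (R227.hasSubst_pair hx hy)]
  congr 1
  ext i : 1
  fin_cases i <;> rfl

/-- descent of a formal group law along an injective homomorphism -/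
def ofInj (hι : Function.Injective ι) (P : MvPowerSeries (Fin 2) R) (G : FormalGroup S)
    (hP : P.map ι = G.toPowerSeries) : FormalGroup R where
  toPowerSeries := P
  zero_constantCoeff := by
    apply hι
    rw [map_zero, ← MvPowerSeries.constantCoeff_map, hP, G.zero_constantCoeff]
  lin_coeff_X := by
    apply hι
    rw [map_one, ← MvPowerSeries.coeff_map, hP, G.lin_coeff_X]
  lin_coeff_Y := by
    apply hι
    rw [map_one, ← MvPowerSeries.coeff_map, hP, G.lin_coeff_Y]
  assoc := by
    have h0 : MvPowerSeries.constantCoeff P = 0 := by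
      apply hι
      rw [map_zero, ← MvPowerSeries.constantCoeff_map, hP, G.zero_constantCoeff]
    have hX : ∀ i : Fin 3, MvPowerSeries.constantCoeff (MvPowerSeries.X i : MvPowerSeries (Fin 3) R)
      = 0 := fun i => MvPowerSeries.constantCoeff_X i
    have hc : ∀ i j : Fin 3, MvPowerSeries.constantCoeff (P.subst ![(MvPowerSeries.X i :
        MvPowerSeries (Fin 3) R), MvPowerSeries.X j]) = 0 := fun i j =>
      MvPowerSeries.constantCoeff_subst_eq_zero (R227.hasSubst_pair (hX i) (hX j))
        (by intro s; fin_cases s <;> simp) h0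
    apply mv_map_injective hι
    rw [map_subst_pair ι (hc 0 1) (hX 2), map_subst_pair ι (hX 0) (hc 1 2),
      map_subst_pair ι (hX 0) (hX 1), map_subst_pair ι (hX 1) (hX 2), hP]
    simp only [MvPowerSeries.map_X]
    exact G.assoc

theorem ofInj_map (hι : Function.Injective ι) (P : MvPowerSeries (Fin 2) R) (G : FormalGroup S)
    (hP : P.map ι = G.toPowerSeries) : (ofInj hι P G hP).map ι = G := by
  ext : 1
  exact hP

theorem isComm_map (F : FormalGroup R) [hF : F.IsComm] (f : R →+* S) : (F.map f).IsComm := by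
  constructor
  have h := congrArg (MvPowerSeries.map f) hF.comm
  rw [map_subst_pair f (MvPowerSeries.constantCoeff_X 1) (MvPowerSeries.constantCoeff_X 0),
    MvPowerSeries.map_X, MvPowerSeries.map_X] at h
  exact h

theorem isComm_of_map {F : FormalGroup R} (hι : Function.Injective ι) [hF : (F.map ι).IsComm] :
    F.IsComm := by
  constructor
  apply mv_map_injective hι
  rw [map_subst_pair ι (MvPowerSeries.constantCoeff_X 1) (MvPowerSeries.constantCoeff_X 0),
    MvPowerSeries.map_X, MvPowerSeries.map_X]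
  exact hF.comm

theorem isFGHom_of_map {F G : FormalGroup R} (hι : Function.Injective ι) {φ : PowerSeries R}
    (h : IsFGHom (F.map ι) (G.map ι) (φ.map ι)) : IsFGHom F G φ := by
  have h0 : constantCoeff φ = 0 := by
    apply hι
    have := h.1
    rw [← PowerSeries.coeff_zero_eq_constantCoeff_apply, PowerSeries.coeff_map,
      PowerSeries.coeff_zero_eq_constantCoeff_apply] at this
    rw [this, map_zero]
  refine ⟨h0, ?_⟩
  apply mv_map_injective hι
  have e1 : MvPowerSeries.map ι (subst F.toPowerSeries φ : MvPowerSeries (Fin 2) R) =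
      subst (F.toPowerSeries.map ι) (φ.map ι) :=
    PowerSeries.map_subst (HasSubst.of_constantCoeff_zero F.zero_constantCoeff) φ
  have e2 : ∀ i : Fin 2, MvPowerSeries.map ι (subst (MvPowerSeries.X i : MvPowerSeries (Fin 2) R) φ :
      MvPowerSeries (Fin 2) R) = subst (MvPowerSeries.X i : MvPowerSeries (Fin 2) S) (φ.map ι) := by
    intro i
    have := PowerSeries.map_subst (h := ι) (HasSubst.X (S := R) i) φ
    rwa [MvPowerSeries.map_X] at this
  have hc := fun i => R227.constantCoeff_psubst (MvPowerSeries.constantCoeff_X (σ := Fin 2) (R := R) i) h0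
  rw [e1, map_subst_pair ι (hc 0) (hc 1), e2, e2]
  exact h.2

end descent

section additive

variable {R : Type*} [CommRing R]

/-- the additive group -/
abbrev Ga (R : Type*) [CommRing R] : FormalGroup R := FormalGroup.𝔾ₐ

theorem fadd_Ga {τ : Type*} {x y : MvPowerSeries τ R} (hx : MvPowerSeries.constantCoeff x = 0)
    (hy : MvPowerSeries.constantCoeff y = 0) : R227.fadd (Ga R) x y = x + y := by
  have h := R227.hasSubst_pair hx hy
  unfold R227.fadd
  rw [FormalGroup.𝔾ₐ_toPowerSeries, MvPowerSeries.subst_add h, MvPowerSeries.subst_X h,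
    MvPowerSeries.subst_X h]
  rfl

theorem Ga_map {S : Type*} [CommRing S] (f : R →+* S) : (Ga R).map f = Ga S := by
  ext : 1
  simp

end additive

section logs

variable {K : Type*} [CommRing K] [Algebra ℚ K] (a b : K)

theorem isUnit_lgS : IsUnit (coeff 1 (lgS a b)) := by rw [coeff_one_lgS]; exact isUnit_one

/-- the exponential, inverse of the logarithm -/
def exS : PowerSeries K := (R227.exists_sinv (cc_lgS a b) (isUnit_lgS a b)).choose

theorem cc_exS : constantCoeff (exS a b) = 0 :=
  (R227.exists_sinv (cc_lgS a b) (isUnit_lgS a b)).choose_spec.1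

theorem exS_lgS : (subst (lgS a b) (exS a b) : PowerSeries K) = X :=
  (R227.exists_sinv (cc_lgS a b) (isUnit_lgS a b)).choose_spec.2.2.1

theorem lgS_exS : (subst (exS a b) (lgS a b) : PowerSeries K) = X :=
  (R227.exists_sinv (cc_lgS a b) (isUnit_lgS a b)).choose_spec.2.2.2

theorem isUnit_exS : IsUnit (coeff 1 (exS a b)) :=
  (R227.exists_sinv (cc_lgS a b) (isUnit_lgS a b)).choose_spec.2.1

/-- a two-sided inverse is unique -/
theorem sinv_unique {φ ψ ψ' : PowerSeries K} (h0 : constantCoeff φ = 0)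
    (hψ : constantCoeff ψ = 0) (h1 : (subst φ ψ' : PowerSeries K) = X)
    (h2 : (subst ψ φ : PowerSeries K) = X) : ψ = ψ' := by
  have e := R227.psubst_psubst (τ := Unit) h0 hψ ψ'
  rw [h1, h2, R227.psubst_X hψ] at e
  rw [e]
  exact PowerSeries.X_subst ψ'

theorem map_exS {L : Type*} [CommRing L] [Algebra ℚ L] (f : K →+* L) :
    (exS a b).map f = exS (f a) (f b) := by
  have hcc : constantCoeff ((exS a b).map f) = 0 := by
    rw [← PowerSeries.coeff_zero_eq_constantCoeff_apply, PowerSeries.coeff_map,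
      PowerSeries.coeff_zero_eq_constantCoeff_apply, cc_exS, map_zero]
  refine sinv_unique (φ := lgS (f a) (f b)) (cc_lgS _ _) hcc (exS_lgS _ _) ?_
  have h := PowerSeries.map_subst (h := f) (HasSubst.of_constantCoeff_zero' (cc_exS a b)) (lgS a b)
  rw [← map_lgS]
  refine Eq.trans h.symm ?_
  have h2 := congrArg (PowerSeries.map f) (lgS_exS a b)
  rw [PowerSeries.map_X] at h2
  exact h2

end logs

section FGQ

variable {K : Type*} [CommRing K] [IsDomain K] [Algebra ℚ K] (a b : K)

theorem exists_FGQ : ∃ G : FormalGroup K, G.toPowerSeries = PS a b ∧ IsFGHom (Ga K) G (exS a b) := by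
  obtain ⟨G, hG⟩ := R227.exists_conj (Ga K) (exS a b) (cc_exS a b) (isUnit_exS a b)
  refine ⟨G, ?_, hG⟩
  have hc := fun i => R227.constantCoeff_psubst (MvPowerSeries.constantCoeff_X (σ := Fin 2) (R := K) i)
    (cc_lgS a b)
  have h := R227.IsFGHom.subst_fadd hG _ _ (hc 0) (hc 1)
  have e : ∀ i : Fin 2, (subst (subst (MvPowerSeries.X i : MvPowerSeries (Fin 2) K) (lgS a b) :
      MvPowerSeries (Fin 2) K) (exS a b) : MvPowerSeries (Fin 2) K) = MvPowerSeries.X i := by
    intro i
    rw [← R227.psubst_psubst (cc_lgS a b) (MvPowerSeries.constantCoeff_X i), exS_lgS,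
      R227.psubst_X (MvPowerSeries.constantCoeff_X i)]
  rw [fadd_Ga (hc 0) (hc 1), e, e, R227.fadd_X_X, ← log_PS,
    ← R227.psubst_psubst (cc_lgS a b) (cc_PS a b), exS_lgS, R227.psubst_X (cc_PS a b)] at h
  exact h.symm

end FGQ

section univ

/-- `ℤ[a,b] → ℚ[a,b]` -/
def iU (n : ℕ) : MvPolynomial (Fin n) ℤ →+* MvPolynomial (Fin n) ℚ :=
  MvPolynomial.map (Int.castRingHom ℚ)

theorem iU_inj (n : ℕ) : Function.Injective (iU n) :=
  MvPolynomial.map_injective _ Int.cast_injective

/-- the universal law -/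
def PhiU : FormalGroup (MvPolynomial (Fin 2) ℤ) :=
  ofInj (iU_inj 2) (PS (MvPolynomial.X 0) (MvPolynomial.X 1))
    (exists_FGQ (MvPolynomial.X 0 : MvPolynomial (Fin 2) ℚ) (MvPolynomial.X 1)).choose (by
      rw [map_PS, (exists_FGQ _ _).choose_spec.1]
      simp [iU])

instance : PhiU.IsComm := by
  have h := (exists_FGQ (MvPolynomial.X 0 : MvPolynomial (Fin 2) ℚ) (MvPolynomial.X 1)).choose_spec
  have : (exists_FGQ (MvPolynomial.X 0 : MvPolynomial (Fin 2) ℚ) (MvPolynomial.X 1)).choose.IsComm :=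
    R227.IsFGHom.isComm h.2 (isUnit_exS _ _)
  have h2 : (PhiU.map (iU 2)).IsComm := by
    rw [PhiU, ofInj_map]; exact this
  exact isComm_of_map (iU_inj 2)

end univ

section Phi

variable {A B : Type*} [CommRing A] [CommRing B] (a b : A)

/-- the formal group law of `y² + a x y + b y = x³` -/
def Phi : FormalGroup A := PhiU.map (MvPolynomial.eval₂Hom (Int.castRingHom A) ![a, b])

theorem Phi_val : (Phi a b).toPowerSeries = PS a b := by
  change (PS (MvPolynomial.X 0) (MvPolynomial.X 1)).map _ = _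
  rw [map_PS]
  simp

theorem Phi_map (f : A →+* B) : (Phi a b).map f = Phi (f a) (f b) := by
  ext : 1
  change (Phi a b).toPowerSeries.map f = _
  rw [Phi_val, Phi_val, map_PS]

instance Phi_comm : (Phi a b).IsComm := isComm_map PhiU _

end Phi

end Crest.Agent.R007.Fz
end
end

-- ▼ part R007/Fz5
section

/-!
Row 7, section E-FG (helper360): logarithm, exponential (ODE), scaling.
-/

set_option autoImplicit false

noncomputable section

open PowerSeries Crest.LubinTate

namespace Crest.Agent.R007.Fz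

section logs

variable {K : Type*} [CommRing K] [Algebra ℚ K] (a b : K)

/-- exponential is a homomorphism from the additive group -/
theorem hom_exS : IsFGHom (Ga K) (Phi a b) (exS a b) := by
  obtain ⟨G, hG, h⟩ := exists_FGQ (MvPolynomial.X 0 : MvPolynomial (Fin 2) ℚ) (MvPolynomial.X 1)
  have hGP : G = Phi (MvPolynomial.X 0) (MvPolynomial.X 1) := by
    ext : 1
    rw [hG, Phi_val]
  rw [hGP] at h
  have h2 := R227.IsFGHom.map (MvPolynomial.eval₂Hom (algebraMap ℚ K) ![a, b]) h
  rw [Ga_map, Phi_map, map_exS] at h2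
  simpa using h2

/-- logarithm is a homomorphism to the additive group -/
theorem hom_lgS : IsFGHom (Phi a b) (Ga K) (lgS a b) := by
  obtain ⟨ψ, h, h1, h2, -⟩ := R227.IsFGHom.exists_inv (hom_exS a b) (isUnit_exS a b)
  have : lgS a b = ψ := sinv_unique (φ := exS a b) (cc_exS a b) (cc_lgS a b) h1 (exS_lgS a b)
  rw [this]
  exact h

theorem lgS_fadd {τ : Type*} {x y : MvPowerSeries τ K} (hx : MvPowerSeries.constantCoeff x = 0)
    (hy : MvPowerSeries.constantCoeff y = 0) :
    (subst (R227.fadd (Phi a b) x y) (lgS a b) : MvPowerSeries τ K) =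
      subst x (lgS a b) + subst y (lgS a b) := by
  rw [R227.IsFGHom.subst_fadd (hom_lgS a b) _ _ hx hy,
    fadd_Ga (R227.constantCoeff_psubst hx (cc_lgS a b)) (R227.constantCoeff_psubst hy (cc_lgS a b))]

/-- the logarithm is injective -/
theorem lgS_inj {τ : Type*} {x y : MvPowerSeries τ K} (hx : MvPowerSeries.constantCoeff x = 0)
    (hy : MvPowerSeries.constantCoeff y = 0)
    (h : (subst x (lgS a b) : MvPowerSeries τ K) = subst y (lgS a b)) : x = y := by
  have e : (subst (subst x (lgS a b) : MvPowerSeries τ K) (exS a b) : MvPowerSeries τ K) =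
    subst (subst y (lgS a b) : MvPowerSeries τ K) (exS a b) := by rw [h]
  rw [← R227.psubst_psubst (cc_lgS a b) hx, ← R227.psubst_psubst (cc_lgS a b) hy, exS_lgS,
    R227.psubst_X hx, R227.psubst_X hy] at e
  exact e

theorem eq_of_deriv {f g : PowerSeries K} (h : derivative K f = derivative K g)
    (h0 : constantCoeff f = constantCoeff g) : f = g := by
  have : IsAddTorsionFree K := IsAddTorsionFree.of_module_rat K
  exact PowerSeries.derivative.ext h h0

theorem deriv_subst {f : PowerSeries K} (hf : constantCoeff f = 0) (g : PowerSeries K) :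
    derivative K (subst f g : PowerSeries K) = subst f (derivative K g) * derivative K f :=
  R227.pderiv_subst_one (τ := Unit) (HasSubst.of_constantCoeff_zero' hf) () g

/-- UNIQUENESS of the solution of `z' = 1 - a z - 2 b s`, `s' = 3 z² + a s`. -/
theorem ode_unique {z s : PowerSeries K} (hz0 : constantCoeff z = 0) (hs0 : constantCoeff s = 0)
    (hz : derivative K z = 1 - C a * z - 2 * C b * s)
    (hs : derivative K s = 3 * z ^ 2 + C a * s) : z = exS a b ∧ s = subst z (sS a b) := by
  have e1 : s = z ^ 3 + C a * z * s + C b * s ^ 2 := by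
    rw [← sub_eq_zero]
    apply eq_of_deriv
    · simp only [map_sub, map_add, Derivation.leibniz, Derivation.leibniz_pow,
        PowerSeries.derivative_C, smul_eq_mul, nsmul_eq_mul, mul_zero, add_zero, map_zero, hz, hs]
      push_cast
      ring
    · simp [hz0, hs0]
  have e2 : s = subst z (sS a b) := eq_subst_sS (τ := Unit) a b hz0 hs0 e1
  refine ⟨?_, e2⟩
  have e3 : (subst z (lgS a b) : PowerSeries K) = X := by
    apply eq_of_deriv
    · rw [deriv_subst hz0, deriv_lgS, PowerSeries.derivative_X, hz, e2]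
      have h1 := subst_pS (τ := Unit) a b (z := z) hz0
      have h2 : (subst z (pS a b) : PowerSeries K) * subst z (wS a b) = 1 := by
        rw [← PowerSeries.subst_mul (HasSubst.of_constantCoeff_zero' hz0), pS_mul_wS]
        exact subst_one' (τ := Unit) z
      have h1' : 1 - C a * z - 2 * C b * (subst z (sS a b) : PowerSeries K) = subst z (pS a b) :=
        h1.symm
      rw [h1', mul_comm]
      exact h2
    · rw [PowerSeries.constantCoeff_X]
      exact R227.constantCoeff_psubst (τ := Unit) hz0 (cc_lgS a b)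
  have e4 := R227.psubst_psubst (τ := Unit) (cc_lgS a b) hz0 (exS a b)
  rw [exS_lgS, R227.psubst_X hz0] at e4
  have e5 : (subst (subst z (lgS a b) : PowerSeries K) (exS a b) : PowerSeries K) = exS a b := by
    rw [e3]; exact PowerSeries.X_subst _
  exact e4.trans e5



end logs

section scale

theorem cc_CX {A : Type*} [CommRing A] (u : A) : constantCoeff (C u * X : PowerSeries A) = 0 := by
  simp

theorem subst_CX {A : Type*} [CommRing A] {τ : Type*} (u : A) {z : MvPowerSeries τ A}
    (hz : MvPowerSeries.constantCoeff z = 0) :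
    (subst z (C u * X : PowerSeries A) : MvPowerSeries τ A) = MvPowerSeries.C u * z := by
  have hz' := HasSubst.of_constantCoeff_zero hz
  have hC : ∀ c : A, (subst z (C c : PowerSeries A) : MvPowerSeries τ A) = MvPowerSeries.C c :=
    fun c => PowerSeries.subst_C _
  rw [PowerSeries.subst_mul hz', PowerSeries.subst_X hz', hC]

variable {A : Type*} [CommRing A] (u a b : A)

theorem sS_scale : (subst (C u * X : PowerSeries A) (sS a b) : PowerSeries A) =
    C (u ^ 3) * sS (u * a) (u ^ 3 * b) := by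
  symm
  refine eq_subst_sS (τ := Unit) a b (z := (C u * X : PowerSeries A)) (cc_CX u) ?_ ?_
  · change constantCoeff _ = 0
    rw [map_mul, cc_sS, mul_zero]
  · change C (u ^ 3) * sS (u * a) (u ^ 3 * b) = (C u * X) ^ 3 + C a * (C u * X) *
      (C (u ^ 3) * sS (u * a) (u ^ 3 * b)) + C b * (C (u ^ 3) * sS (u * a) (u ^ 3 * b)) ^ 2
    have h := sS_eq (u * a) (u ^ 3 * b)
    simp only [map_mul, map_pow] at h ⊢
    linear_combination (C u) ^ 3 * h

theorem pS_scale : (subst (C u * X : PowerSeries A) (pS a b) : PowerSeries A) =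
    pS (u * a) (u ^ 3 * b) := by
  have h := subst_pS (τ := Unit) a b (z := (C u * X : PowerSeries A)) (cc_CX u)
  refine h.trans ?_
  change 1 - C a * (C u * X) - 2 * C b * subst (C u * X : PowerSeries A) (sS a b) = _
  rw [sS_scale, pS]
  simp only [map_mul, map_pow]
  ring

theorem wS_scale : (subst (C u * X : PowerSeries A) (wS a b) : PowerSeries A) =
    wS (u * a) (u ^ 3 * b) := by
  have h1 : (subst (C u * X : PowerSeries A) (pS a b) : PowerSeries A) *
      subst (C u * X : PowerSeries A) (wS a b) = 1 := by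
    rw [← PowerSeries.subst_mul (HasSubst.of_constantCoeff_zero' (cc_CX u)), pS_mul_wS]
    exact subst_one' (τ := Unit) _
  rw [pS_scale] at h1
  have h2 := pS_mul_wS (u * a) (u ^ 3 * b)
  calc _ = (pS (u * a) (u ^ 3 * b) * wS (u * a) (u ^ 3 * b)) *
        subst (C u * X : PowerSeries A) (wS a b) := by rw [h2, one_mul]
    _ = wS (u * a) (u ^ 3 * b) * (pS (u * a) (u ^ 3 * b) *
        subst (C u * X : PowerSeries A) (wS a b)) := by ring
    _ = _ := by rw [h1, mul_one]

theorem lgS_scale {K : Type*} [CommRing K] [Algebra ℚ K] (u a b : K) :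
    (subst (C u * X : PowerSeries K) (lgS a b) : PowerSeries K) =
      C u * lgS (u * a) (u ^ 3 * b) := by
  apply eq_of_deriv
  · rw [deriv_subst (cc_CX u), deriv_lgS, wS_scale, Derivation.leibniz (derivative K) (C u)
      (lgS (u * a) (u ^ 3 * b)), deriv_lgS]
    simp only [Derivation.leibniz, PowerSeries.derivative_X, PowerSeries.derivative_C, smul_eq_mul,
      mul_one, mul_zero, add_zero]
    ring
  · rw [map_mul, cc_lgS, mul_zero]
    exact R227.constantCoeff_psubst (τ := Unit) (cc_CX u) (cc_lgS a b)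

theorem scaleQ {K : Type*} [CommRing K] [Algebra ℚ K] (u a b : K) :
    IsFGHom (Phi (u * a) (u ^ 3 * b)) (Phi a b) (C u * X) := by
  rw [R227.isFGHom_iff]
  refine ⟨cc_CX u, ?_⟩
  have hX := fun i => MvPowerSeries.constantCoeff_X (σ := Fin 2) (R := K) i
  have hc := fun i => R227.constantCoeff_psubst (hX i) (cc_CX u)
  have hF := R227.constantCoeff_fadd (Phi (u * a) (u ^ 3 * b)) _ _ (hX 0) (hX 1)
  apply lgS_inj a b (R227.constantCoeff_psubst hF (cc_CX u))
    (R227.constantCoeff_fadd _ _ _ (hc 0) (hc 1))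
  have key : ∀ z : MvPowerSeries (Fin 2) K, MvPowerSeries.constantCoeff z = 0 →
      (subst (subst z (C u * X : PowerSeries K) : MvPowerSeries (Fin 2) K) (lgS a b) :
        MvPowerSeries (Fin 2) K) = MvPowerSeries.C u * subst z (lgS (u * a) (u ^ 3 * b)) := by
    intro z hz
    rw [← R227.psubst_psubst (cc_CX u) hz, lgS_scale,
      PowerSeries.subst_mul (HasSubst.of_constantCoeff_zero hz)]
    congr 1
    exact PowerSeries.subst_C _
  rw [lgS_fadd a b (hc 0) (hc 1), key _ hF, key _ (hX 0), key _ (hX 1),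
    lgS_fadd _ _ (hX 0) (hX 1), mul_add]

/-- SCALING: `z ↦ u z` is a homomorphism `Φ_{u a, u³ b} → Φ_{a, b}`, over every ring. -/
theorem scale : IsFGHom (Phi (u * a) (u ^ 3 * b)) (Phi a b) (C u * X) := by
  let u' : MvPolynomial (Fin 3) ℤ := MvPolynomial.X 0
  let a' : MvPolynomial (Fin 3) ℤ := MvPolynomial.X 1
  let b' : MvPolynomial (Fin 3) ℤ := MvPolynomial.X 2
  have h1 : IsFGHom (Phi (u' * a') (u' ^ 3 * b')) (Phi a' b') (C u' * X) := by
    apply isFGHom_of_map (iU_inj 3)
    rw [Phi_map, Phi_map, map_mul, map_mul, map_mul, map_pow, PowerSeries.map_X, PowerSeries.map_C]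
    exact scaleQ _ _ _
  have h2 := R227.IsFGHom.map (MvPolynomial.eval₂Hom (Int.castRingHom A) ![u, a, b]) h1
  rw [Phi_map, Phi_map, map_mul, map_mul, map_mul, map_pow, PowerSeries.map_X, PowerSeries.map_C] at h2
  simpa [u', a', b'] using h2

end scale

end Crest.Agent.R007.Fz
end
end

-- ▼ part R007/Fz6
section

/-!
Row 7, section E-FG (helper360): the `[2]`-series in characteristic 2, the instance `FData`.
-/

set_option autoImplicit false

noncomputable section

open PowerSeries Crest.LubinTate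

namespace Crest.Agent.R007.Fz

section dupl

variable {A : Type*} [CommRing A]

theorem hasSubst_XX : MvPowerSeries.HasSubst ![(X : PowerSeries A), X] :=
  R227.hasSubst_pair R227.ccPX R227.ccPX

/-- substitution `z₁ = z₂ = z` -/
abbrev dg (f : MvPowerSeries (Fin 2) A) : PowerSeries A :=
  MvPowerSeries.subst ![(X : PowerSeries A), X] f

theorem dg_X (i : Fin 2) : dg (MvPowerSeries.X i : MvPowerSeries (Fin 2) A) = X := by
  unfold dg
  rw [MvPowerSeries.subst_X hasSubst_XX]
  fin_cases i <;> rfl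

theorem dg_C (c : A) : dg (MvPowerSeries.C c : MvPowerSeries (Fin 2) A) = C c :=
  MvPowerSeries.subst_C _

theorem dg_psubst (i : Fin 2) (f : PowerSeries A) :
    dg (subst (MvPowerSeries.X i : MvPowerSeries (Fin 2) A) f : MvPowerSeries (Fin 2) A) = f := by
  unfold dg
  rw [R227.subst_psubst (MvPowerSeries.constantCoeff_X i) hasSubst_XX,
    MvPowerSeries.subst_X hasSubst_XX]
  fin_cases i <;> exact PowerSeries.X_subst f

theorem dg_dd (f : PowerSeries A) : dg (dd f) = derivative A f := by
  have h := congrArg (MvPowerSeries.pderiv A (0 : Fin 2)) (dd_mul f)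
  rw [map_sub, R227.pderiv_subst_one (HasSubst.X 0), R227.pderiv_subst_one (HasSubst.X 1),
    MvPowerSeries.pderiv_X_self, MvPowerSeries.pderiv_X_of_ne (by decide), mul_one, mul_zero,
    sub_zero, Derivation.leibniz, map_sub, MvPowerSeries.pderiv_X_self,
    MvPowerSeries.pderiv_X_of_ne (by decide), sub_zero, smul_eq_mul, smul_eq_mul, mul_one] at h
  have h2 := congrArg dg h
  unfold dg at h2
  rw [MvPowerSeries.subst_add hasSubst_XX, MvPowerSeries.subst_mul hasSubst_XX,
    MvPowerSeries.subst_sub hasSubst_XX] at h2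
  change (dg (MvPowerSeries.X 0) - dg (MvPowerSeries.X 1)) * _ + dg (dd f) =
    dg (subst (MvPowerSeries.X 0 : MvPowerSeries (Fin 2) A) (derivative A f)) at h2
  rw [dg_X, dg_X, sub_self, zero_mul, zero_add, dg_psubst] at h2
  exact h2

variable (a b : A)

theorem dg_z3S : dg (z3S a b) = -X - X - C a * derivative A (sS a b) -
    C b * derivative A (sS a b) ^ 2 := by
  have h : dg (z3S a b) = -dg (MvPowerSeries.X 0) - dg (MvPowerSeries.X 1) -
      dg (MvPowerSeries.C a) * dg (lamS a b) - dg (MvPowerSeries.C b) * dg (lamS a b) ^ 2 := by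
    unfold dg z3S
    simp only [← MvPowerSeries.coe_substAlgHom hasSubst_XX, map_sub, map_mul, map_pow, map_neg]
  rw [h, dg_X, dg_X, dg_C, dg_C, lamS, dg_dd]

theorem dg_w3S : dg (w3S a b) = derivative A (sS a b) * dg (z3S a b) +
    (sS a b - derivative A (sS a b) * X) := by
  have h : dg (w3S a b) = dg (lamS a b) * dg (z3S a b) + (dg (s1S a b) -
      dg (lamS a b) * dg (MvPowerSeries.X 0)) := by
    unfold dg w3S nuS
    simp only [← MvPowerSeries.coe_substAlgHom hasSubst_XX, map_sub, map_mul, map_add]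
  rw [h, dg_X, s1S, dg_psubst, lamS, dg_dd]

theorem dg_NS : dg (NS a b) = 1 - C a * dg (z3S a b) - C b * dg (w3S a b) := by
  have h : dg (NS a b) = 1 - dg (MvPowerSeries.C a) * dg (z3S a b) -
      dg (MvPowerSeries.C b) * dg (w3S a b) := by
    unfold dg NS
    simp only [← MvPowerSeries.coe_substAlgHom hasSubst_XX, map_sub, map_mul, map_one]
  rw [h, dg_C, dg_C]

theorem dupl : R227.fadd (Phi a b) (X : PowerSeries A) X * dg (NS a b) = -dg (z3S a b) := by
  have h := congrArg dg (PS_mul_NS a b)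
  unfold dg at h
  rw [MvPowerSeries.subst_mul hasSubst_XX] at h
  have h2 : MvPowerSeries.subst ![(X : PowerSeries A), X] (-z3S a b) =
      -MvPowerSeries.subst ![(X : PowerSeries A), X] (z3S a b) := by
    simp only [← MvPowerSeries.coe_substAlgHom hasSubst_XX, map_neg]
  rw [h2] at h
  unfold R227.fadd
  rw [Phi_val]
  exact h

theorem coeff_u : coeff 0 (uS a b) = 1 ∧ coeff 1 (uS a b) = a ∧ coeff 2 (uS a b) = a ^ 2 := by
  have hX : ∀ n : ℕ, ∀ f : PowerSeries A, coeff (n + 1) (C a * X * f) = a * coeff n f := by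
    intro n f
    rw [mul_assoc, PowerSeries.coeff_C_mul, PowerSeries.coeff_succ_X_mul]
  have hX3 : ∀ n < 3, ∀ f : PowerSeries A, coeff n (C b * X ^ 3 * f) = 0 := by
    intro n hn f
    rw [mul_assoc, PowerSeries.coeff_C_mul, PowerSeries.coeff_X_pow_mul', if_neg (by omega), mul_zero]
  have h0 : coeff 0 (uS a b) = 1 := by
    have h := congrArg (coeff 0) (uS_eq a b)
    rw [map_add, map_add, hX3 0 (by norm_num)] at h
    simpa using h
  have h1 : coeff 1 (uS a b) = a := by
    have h := congrArg (coeff 1) (uS_eq a b)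
    rw [map_add, map_add, hX3 1 (by norm_num), hX 0, h0] at h
    simpa [PowerSeries.coeff_one] using h
  refine ⟨h0, h1, ?_⟩
  have h := congrArg (coeff 2) (uS_eq a b)
  rw [map_add, map_add, hX3 2 (by norm_num), hX 1, h1] at h
  rw [h]
  simp [PowerSeries.coeff_one]; ring

theorem coeff_s (n : ℕ) : coeff n (sS a b) = if 3 ≤ n then coeff (n - 3) (uS a b) else 0 := by
  rw [sS, PowerSeries.coeff_X_pow_mul']

end dupl

section char2

variable {A : Type*} [CommRing A] [CharP A 2] (a b : A)

theorem two_exists : ∃ g : PowerSeries A,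
    R227.fadd (Phi a b) (X : PowerSeries A) X = PowerSeries.expand 2 two_ne_zero g ∧
      constantCoeff g = 0 ∧ coeff 1 g = a ∧ coeff 2 g = b := by
  have : Fact (Nat.Prime 2) := ⟨Nat.prime_two⟩
  have h2A : (2 : A) = 0 := by exact_mod_cast CharP.cast_eq_zero A 2
  have hm : mulSeries (Phi a b) 2 = R227.fadd (Phi a b) (X : PowerSeries A) X := by
    rw [R227.mulSeries_succ, R227.mulSeries_succ]
    have : mulSeries (Phi a b) 0 = 0 := rfl
    rw [this, R227.zero_fadd _ _ R227.ccPX]
  have hhom := R227.IsFGHom.mulSeries (Phi a b) 2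
  have hc1 : coeff 1 (mulSeries (Phi a b) 2) = 0 := by
    rw [R227.coeff_one_mulSeries]
    exact_mod_cast CharP.cast_eq_zero A 2
  obtain ⟨g, hg, hgX⟩ := R227.IsFGHom.exists_frob (p := 2) hhom hc1
  have hT : R227.fadd (Phi a b) (X : PowerSeries A) X = PowerSeries.expand 2 two_ne_zero g := by
    rw [← hm, hgX, PowerSeries.expand_apply]
  have hg0 : coeff 0 g = 0 := by
    rw [PowerSeries.coeff_zero_eq_constantCoeff_apply]; exact hg.1
  obtain ⟨u0, u1, u2⟩ := coeff_u a b
  set d := derivative A (sS a b) with hd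
  have d0 : coeff 0 d = 0 := by
    rw [hd, PowerSeries.coeff_derivative, coeff_s]; simp
  have d1 : coeff 1 d = 0 := by
    rw [hd, PowerSeries.coeff_derivative, coeff_s]; simp
  have d2 : coeff 2 d = 1 := by
    rw [hd, PowerSeries.coeff_derivative, coeff_s, if_pos (by norm_num)]
    push_cast
    rw [show ((2 : A) + 1) = 1 by rw [h2A, zero_add], mul_one]
    exact u0
  have d3 : coeff 3 d = 0 := by
    rw [hd, PowerSeries.coeff_derivative]
    push_cast
    rw [show ((3 : A) + 1) = 2 * 2 by norm_num, h2A]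
    ring
  have d4 : coeff 4 d = a ^ 2 := by
    rw [hd, PowerSeries.coeff_derivative, coeff_s, if_pos (by norm_num)]
    push_cast
    rw [show ((4 : A) + 1) = 2 * 2 + 1 by norm_num, h2A, mul_zero, zero_add, mul_one]
    exact u2
  have dd2 : coeff 2 (d ^ 2) = 0 := by
    rw [pow_two, PowerSeries.coeff_mul, Finset.Nat.sum_antidiagonal_eq_sum_range_succ_mk]
    simp [Finset.sum_range_succ, d0, d1]
  have dd4 : coeff 4 (d ^ 2) = 1 := by
    rw [pow_two, PowerSeries.coeff_mul, Finset.Nat.sum_antidiagonal_eq_sum_range_succ_mk]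
    simp [Finset.sum_range_succ, d0, d1, d2, d3]
  have z0 : coeff 0 (dg (z3S a b)) = 0 := by
    rw [dg_z3S, ← hd]
    simp only [map_sub, map_neg, PowerSeries.coeff_C_mul, d0, PowerSeries.coeff_zero_X]
    rw [pow_two, PowerSeries.coeff_mul]
    simp [d0]
  have z2 : coeff 2 (dg (z3S a b)) = -a := by
    rw [dg_z3S, ← hd]
    simp only [map_sub, map_neg, PowerSeries.coeff_C_mul, d2, dd2, PowerSeries.coeff_X]
    norm_num
  have z4 : coeff 4 (dg (z3S a b)) = -(a ^ 3 + b) := by
    rw [dg_z3S, ← hd]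
    simp only [map_sub, map_neg, PowerSeries.coeff_C_mul, d4, dd4, PowerSeries.coeff_X]
    norm_num
    ring
  have w0 : coeff 0 (dg (w3S a b)) = 0 := by
    rw [dg_w3S, ← hd, map_add, map_sub, coeff_s, PowerSeries.coeff_mul, PowerSeries.coeff_mul]
    simp [d0]
  have w2 : coeff 2 (dg (w3S a b)) = 0 := by
    rw [dg_w3S, ← hd, map_add, map_sub, coeff_s, PowerSeries.coeff_mul,
      Finset.Nat.sum_antidiagonal_eq_sum_range_succ_mk,
      show (2 : ℕ) = 1 + 1 from rfl, PowerSeries.coeff_succ_mul_X]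
    simp [Finset.sum_range_succ, d0, d1, z0]
  have n0 : coeff 0 (dg (NS a b)) = 1 := by
    rw [dg_NS]
    simp only [map_sub, PowerSeries.coeff_C_mul, z0, w0]
    simp
  have n2 : coeff 2 (dg (NS a b)) = a ^ 2 := by
    rw [dg_NS]
    simp only [map_sub, PowerSeries.coeff_C_mul, z2, w2, PowerSeries.coeff_one]
    norm_num
    ring
  have hprod := dupl a b
  rw [hT] at hprod
  have t : ∀ n, coeff n (PowerSeries.expand 2 two_ne_zero g) = if 2 ∣ n then coeff (n / 2) g else 0 :=
    fun n => PowerSeries.coeff_expand _ _ _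
  have e2 := congrArg (coeff 2) hprod
  rw [PowerSeries.coeff_mul, Finset.Nat.sum_antidiagonal_eq_sum_range_succ_mk, map_neg, z2] at e2
  simp only [Finset.sum_range_succ, Finset.sum_range_zero, t] at e2
  norm_num [hg0, n0] at e2
  have e4 := congrArg (coeff 4) hprod
  rw [PowerSeries.coeff_mul, Finset.Nat.sum_antidiagonal_eq_sum_range_succ_mk, map_neg, z4] at e4
  simp only [Finset.sum_range_succ, Finset.sum_range_zero, t] at e4
  norm_num [hg0, n0, n2] at e4
  refine ⟨g, hT, hg.1, e2, ?_⟩
  rw [e2] at e4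
  linear_combination e4

end char2

section inst

variable (κ : Type*) [Field κ] [CharP κ 2]

/-- THE INSTANCE: `y² + t x y + y = x³` over `κ⟦t⟧` -/
def fdata : F.FData κ where
  Φ := Phi (X : PowerSeries κ) 1
  comm := Phi_comm _ _
  g := (two_exists (X : PowerSeries κ) 1).choose
  two := (two_exists (X : PowerSeries κ) 1).choose_spec.1
  g_zero := (two_exists (X : PowerSeries κ) 1).choose_spec.2.1
  g_one := (two_exists (X : PowerSeries κ) 1).choose_spec.2.2.1
  g_two := by
    rw [(two_exists (X : PowerSeries κ) 1).choose_spec.2.2.2]; exact isUnit_one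
  frob := by
    rw [Phi_map, Phi_map]
    simp

theorem fdata_Φ : (fdata κ).Φ = Phi (X : PowerSeries κ) 1 := rfl

theorem fdata_Φ0 : (fdata κ).Φ0 = Phi (0 : κ) 1 := by
  rw [F.FData.Φ0, fdata_Φ, Phi_map, PowerSeries.constantCoeff_X, map_one]

theorem hasW {κ : Type*} [Field κ] [CharP κ 2] {w : κ} (hw : w ^ 2 + w + 1 = 0) :
    F.HasW (fdata κ).Φ0 w := by
  refine ⟨hw, ?_⟩
  have h := scale w (0 : κ) 1
  have h3 : w ^ 3 * 1 = 1 := by linear_combination (w - 1) * hw
  rw [mul_zero, h3] at h
  rw [fdata_Φ0]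
  exact h

end inst

end Crest.Agent.R007.Fz
end
end

-- ▼ part R007/Fg5
section

/-!
# Row 7, E-FG, file 5: the duplication series and the instance `FData`
-/

set_option autoImplicit false

noncomputable section

namespace Crest.Agent.R007.Fg

open PowerSeries Crest.LubinTate

section Kalg

variable {K : Type*} [CommRing K] [Algebra ℚ K]

/-- duplication series -/
def D2 {A : Type*} [CommRing A] (a b : A) : PowerSeries A := mulSeries (Phi a b) 2

theorem D2_eq {A : Type*} [CommRing A] (a b : A) :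
    D2 a b = R227.fadd (Phi a b) (X : PowerSeries A) X := by
  have h1 : mulSeries (Phi a b) 1 = X := by
    rw [R227.mulSeries_succ]
    exact R227.zero_fadd _ _ R227.mvConstantCoeff_X
  rw [D2, R227.mulSeries_succ, h1]

theorem map_D2 {A B : Type*} [CommRing A] [CommRing B] (f : A →+* B) (a b : A) :
    (D2 a b).map f = D2 (f a) (f b) := by
  rw [D2, R227.mulSeries_map, Phi_map, D2]

theorem constantCoeff_D2 {A : Type*} [CommRing A] (a b : A) : constantCoeff (D2 a b) = 0 :=
  R227.constantCoeff_mulSeries _ _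

omit [Algebra ℚ K] in
theorem mulSeries_Ga : mulSeries (FormalGroup.𝔾ₐ : FormalGroup K) 2 = C 2 * X := by
  rw [R227.mulSeries_succ, R227.mulSeries_succ]
  have hX : MvPowerSeries.constantCoeff (X : PowerSeries K) = 0 := R227.mvConstantCoeff_X
  have key : ∀ p q : PowerSeries K, MvPowerSeries.constantCoeff p = 0 →
      MvPowerSeries.constantCoeff q = 0 →
      R227.fadd (FormalGroup.𝔾ₐ : FormalGroup K) p q = p + q := by
    intro p q hp hq
    change MvPowerSeries.subst ![p, q] (MvPowerSeries.X 0 + MvPowerSeries.X 1) = _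
    have h := R227.hasSubst_pair hp hq
    rw [MvPowerSeries.subst_add h, MvPowerSeries.subst_X h, MvPowerSeries.subst_X h]
    rfl
  have h0 : mulSeries (FormalGroup.𝔾ₐ : FormalGroup K) 0 = 0 := rfl
  rw [h0]
  have e1 := key 0 X (map_zero _) hX
  rw [e1]
  have e2 := key (0 + X) X (by rw [zero_add]; exact hX) hX
  rw [e2]
  have : (C (2 : K) : PowerSeries K) = 2 := by rw [map_ofNat]
  rw [this]
  ring

theorem D2_zs (a b : K) : (D2 a b).subst (zs a b) = rescale 2 (zs a b) := by
  have h := R227.IsFGHom.comm_mulSeries (isFGHom_zs a b) 2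
  rw [mulSeries_Ga] at h
  rw [rescale_eq_subst, PowerSeries.smul_eq_C_mul]
  exact h.symm

theorem subst_zs_injective (a b : K) {f g : PowerSeries K}
    (h : f.subst (zs a b) = (g.subst (zs a b) : PowerSeries K)) : f = g := by
  have h1 := congrArg (PowerSeries.subst (lg a b)) h
  rw [R227.psubst_psubst (constantCoeff_zs a b) (constantCoeff_lg a b), zs_lg,
    R227.psubst_psubst (constantCoeff_zs a b) (constantCoeff_lg a b), zs_lg,
    PowerSeries.X_subst, PowerSeries.X_subst] at h1
  exact h1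

theorem D2_deriv_K (a b : K) :
    d⁄dX K (D2 a b) * (1 - C a * X - 2 * C b * Ws a b) =
      2 * (1 - C a * D2 a b - 2 * C b * (Ws a b).subst (D2 a b)) := by
  apply subst_zs_injective a b
  have hz : HasSubst (zs a b) := HasSubst.of_constantCoeff_zero' (constantCoeff_zs a b)
  have hD : HasSubst (D2 a b) := HasSubst.of_constantCoeff_zero' (constantCoeff_D2 a b)
  have h1 := congrArg (d⁄dX K) (D2_zs a b)
  rw [PowerSeries.derivative_subst hz, deriv_rescale, dzs] at h1
  have e2 : (2 : PowerSeries K) = C 2 := by rw [map_ofNat]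
  have e1 : (1 : PowerSeries K) = C 1 := by rw [map_one]
  have hC : ∀ x : K, PowerSeries.subst (zs a b) (C x) = (C x : PowerSeries K) := fun x =>
    PowerSeries.subst_C x
  have hCr : ∀ x : K, rescale (2 : K) (C x) = C x := by
    intro x
    ext n
    rw [coeff_rescale, coeff_C]
    split_ifs with hn
    · simp [hn]
    · simp
  have hsub : ∀ f : PowerSeries K, PowerSeries.subst (zs a b) (1 - C a * X - 2 * C b * f) =
      (1 - C a * zs a b - 2 * C b * PowerSeries.subst (zs a b) f : PowerSeries K) := by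
    intro f
    rw [subst_sub hz, subst_sub hz, subst_mul hz, subst_mul hz, subst_mul hz, subst_X hz, e2, e1,
      hC, hC, hC, hC]
  have hW2 : (Ws a b).subst (rescale (2 : K) (zs a b)) = rescale (2 : K) (ss a b) := by
    rw [← Ws_subst, rescale_eq_subst, rescale_eq_subst]
    have h2X : HasSubst ((2 : K) • (X : PowerSeries K)) := HasSubst.smul_X' 2
    rw [subst_comp_subst_apply hz h2X]
  rw [subst_mul hz, hsub, Ws_subst, h1, subst_mul hz, subst_sub hz, subst_sub hz, subst_mul hz,
    subst_mul hz, subst_mul hz, subst_comp_subst_apply hD hz, D2_zs, hW2, e2, hC, hC, hC]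
  have e1' : PowerSeries.subst (zs a b) (1 : PowerSeries K) = (1 : PowerSeries K) := by
    rw [e1, hC]
  rw [e1']
  simp only [map_sub, map_mul, map_one, hCr]

end Kalg

section univ

/-- the equation for the duplication series over `ℤ[a,b]` -/
theorem D2_deriv_A : let a : A0 := MvPolynomial.X 0; let b : A0 := MvPolynomial.X 1
    d⁄dX A0 (D2 a b) * (1 - C a * X - 2 * C b * Ws a b) =
      2 * (1 - C a * D2 a b - 2 * C b * (Ws a b).subst (D2 a b)) := by
  intro a b
  apply pmap_injective iotaAK_injective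
  have h := D2_deriv_K (K := K0) (MvPolynomial.X 0) (MvPolynomial.X 1)
  have hD : HasSubst (D2 a b) := HasSubst.of_constantCoeff_zero' (constantCoeff_D2 a b)
  have e : PowerSeries.map iotaAK ((Ws a b).subst (D2 a b)) =
      (Ws (iotaAK a) (iotaAK b)).subst (D2 (iotaAK a) (iotaAK b)) := by
    have := PowerSeries.map_subst (τ := Unit) (h := iotaAK) hD (Ws a b)
    rw [map_Ws] at this
    refine Eq.trans this ?_
    congr 1
    exact map_D2 iotaAK a b
  simp only [map_mul, map_sub, map_one, map_ofNat, map_C, map_X, map_Ws, map_D2, map_deriv, e]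
  rw [iotaAK_X, iotaAK_X]
  exact h

theorem coeff_Ws_lt {A : Type*} [CommRing A] (a b : A) :
    coeff 0 (Ws a b) = 0 ∧ coeff 1 (Ws a b) = 0 ∧ coeff 2 (Ws a b) = 0 ∧ coeff 3 (Ws a b) = 1 := by
  have h0 := wf_zero a b
  have h1 : wf a b 1 = 0 := by rw [wf_succ]; simp [h0]
  have h2 : wf a b 2 = 0 := by rw [wf_succ]; simp [h1, Fin.sum_univ_succ]
  have h3 : wf a b 3 = 1 := by rw [wf_succ]; simp [h1, h2, Fin.sum_univ_succ]
  simp [Ws, h0, h1, h2, h3]

theorem coeff_Ws_D2 {A : Type*} [CommRing A] (a b : A) (D : PowerSeries A)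
    (hD : constantCoeff D = 0) :
    coeff 0 ((Ws a b).subst D) = 0 ∧ coeff 1 ((Ws a b).subst D) = 0 ∧
      coeff 2 ((Ws a b).subst D) = 0 ∧ coeff 3 ((Ws a b).subst D) = coeff 1 D ^ 3 := by
  have hs : HasSubst D := HasSubst.of_constantCoeff_zero' hD
  obtain ⟨V, hV⟩ : (X : PowerSeries A) ^ 3 ∣ Ws a b := by
    rw [X_pow_dvd_iff]
    intro m hm
    have := coeff_Ws_lt a b
    interval_cases m
    · exact this.1
    · exact this.2.1
    · exact this.2.2.1
  have hV0 : constantCoeff V = 1 := by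
    have h3 := (coeff_Ws_lt a b).2.2.2
    rw [hV] at h3
    have : coeff (0 + 3) ((X : PowerSeries A) ^ 3 * V) = coeff 0 V := coeff_X_pow_mul V 3 0
    rw [zero_add] at this
    rw [this] at h3
    simpa using h3
  obtain ⟨E, hE⟩ : (X : PowerSeries A) ∣ D := by
    rw [X_dvd_iff]; exact hD
  have hE1 : coeff 1 D = constantCoeff E := by
    rw [hE]
    have := coeff_succ_X_mul 0 E
    rw [zero_add] at this
    rw [this]
    simp
  have hsub : (Ws a b).subst D = X ^ 3 * (E ^ 3 * V.subst D) := by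
    rw [hV, subst_mul hs, subst_pow hs, subst_X hs]
    rw [hE]
    ring
  have hc : constantCoeff (V.subst D : PowerSeries A) = 1 := by
    have h2 : V = C 1 + (V - C 1) := by ring
    have h3 : constantCoeff ((V - C 1).subst D : PowerSeries A) = 0 :=
      PowerSeries.constantCoeff_subst_eq_zero hD _ (by simp [hV0])
    have h4 : (V.subst D : PowerSeries A) = C 1 + (V - C 1).subst D := by
      conv_lhs => rw [h2]
      rw [subst_add hs]
      congr 1
      exact PowerSeries.subst_C (1 : A)
    rw [h4, map_add, h3]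
    simp
  rw [hsub]
  refine ⟨?_, ?_, ?_, ?_⟩
  · rw [coeff_X_pow_mul']; simp
  · rw [coeff_X_pow_mul']; simp
  · rw [coeff_X_pow_mul']; simp
  · rw [coeff_X_pow_mul', hE1]; simp [hc]

theorem coeff_mul_three {A : Type*} [CommRing A] (f g : PowerSeries A) :
    coeff 1 (f * g) = coeff 0 f * coeff 1 g + coeff 1 f * coeff 0 g ∧
    coeff 2 (f * g) = coeff 0 f * coeff 2 g + coeff 1 f * coeff 1 g + coeff 2 f * coeff 0 g ∧
    coeff 3 (f * g) = coeff 0 f * coeff 3 g + coeff 1 f * coeff 2 g + coeff 2 f * coeff 1 g +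
      coeff 3 f * coeff 0 g := by
  refine ⟨?_, ?_, ?_⟩
  · rw [coeff_mul, Finset.Nat.sum_antidiagonal_eq_sum_range_succ
      (fun i j => coeff i f * coeff j g)]
    simp [Finset.sum_range_succ]
  · rw [coeff_mul, Finset.Nat.sum_antidiagonal_eq_sum_range_succ
      (fun i j => coeff i f * coeff j g)]
    simp [Finset.sum_range_succ]
  · rw [coeff_mul, Finset.Nat.sum_antidiagonal_eq_sum_range_succ
      (fun i j => coeff i f * coeff j g)]
    simp [Finset.sum_range_succ]

/-- coefficients of the duplication series over `ℤ[a,b]` -/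
theorem coeff_D2_A : let a : A0 := MvPolynomial.X 0; let b : A0 := MvPolynomial.X 1
    coeff 1 (D2 a b) = 2 ∧ coeff 2 (D2 a b) = -a ∧ coeff 3 (D2 a b) = 0 ∧
      coeff 4 (D2 a b) = -7 * b := by
  intro a b
  have h := D2_deriv_A
  simp only at h
  have h1 : coeff 1 (D2 a b) = 2 := by
    rw [D2, R227.coeff_one_mulSeries]; norm_num
  obtain ⟨w0, w1, w2, w3⟩ := coeff_Ws_lt a b
  obtain ⟨v0, v1, v2, v3⟩ := coeff_Ws_D2 a b (D2 a b) (constantCoeff_D2 a b)
  have d0 : coeff 0 (D2 a b) = 0 := by
    rw [coeff_zero_eq_constantCoeff_apply]; exact constantCoeff_D2 a b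
  have e2 : ∀ f : PowerSeries A0, 2 * C b * f = C (2 * b) * f := by
    intro f; rw [map_mul, map_ofNat]
  have e2' : ∀ f : PowerSeries A0, 2 * f = C 2 * f := by
    intro f; rw [map_ofNat]
  rw [e2, e2, e2'] at h
  set P : PowerSeries A0 := 1 - C a * X - C (2 * b) * Ws a b with hP
  set Q : PowerSeries A0 := 1 - C a * D2 a b - C (2 * b) * (Ws a b).subst (D2 a b) with hQ
  have P0 : coeff 0 P = 1 := by
    rw [hP]; simp only [map_sub, coeff_C_mul, w0, coeff_one, coeff_zero_X]; simp
  have P1 : coeff 1 P = -a := by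
    rw [hP]; simp only [map_sub, coeff_C_mul, w1, coeff_one, coeff_one_X]; simp
  have P2 : coeff 2 P = 0 := by
    rw [hP]; simp only [map_sub, coeff_C_mul, w2, coeff_one, coeff_X]; simp
  have P3 : coeff 3 P = - (2 * b) := by
    rw [hP]; simp only [map_sub, coeff_C_mul, w3, coeff_one, coeff_X]; simp
  have Q1 : coeff 1 Q = - (a * 2) := by
    rw [hQ]; simp only [map_sub, coeff_C_mul, v1, coeff_one, h1]; simp
  have Q2 : coeff 2 Q = - (a * coeff 2 (D2 a b)) := by
    rw [hQ]; simp only [map_sub, coeff_C_mul, v2, coeff_one]; simp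
  have Q3 : coeff 3 Q = - (a * coeff 3 (D2 a b)) - 2 * b * 2 ^ 3 := by
    rw [hQ]; simp only [map_sub, coeff_C_mul, v3, coeff_one, h1]; simp
  obtain ⟨m1, m2, m3⟩ := coeff_mul_three (d⁄dX A0 (D2 a b)) P
  have g0 : coeff 0 (d⁄dX A0 (D2 a b)) = 2 := by
    rw [coeff_derivative]; simp [h1]
  have g1 : coeff 1 (d⁄dX A0 (D2 a b)) = coeff 2 (D2 a b) * 2 := by
    rw [coeff_derivative]; norm_num
  have g2 : coeff 2 (d⁄dX A0 (D2 a b)) = coeff 3 (D2 a b) * 3 := by
    rw [coeff_derivative]; norm_num
  have g3 : coeff 3 (d⁄dX A0 (D2 a b)) = coeff 4 (D2 a b) * 4 := by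
    rw [coeff_derivative]; norm_num
  rw [h, coeff_C_mul, g0, g1, P0, P1, Q1] at m1
  rw [h, coeff_C_mul, g0, g1, g2, P0, P1, P2, Q2] at m2
  rw [h, coeff_C_mul, g0, g1, g2, g3, P0, P1, P2, P3, Q3] at m3
  have r2 : coeff 2 (D2 a b) = -a := by
    apply mul_left_cancel₀ (two_ne_zero : (2 : A0) ≠ 0)
    linear_combination -m1
  have r3 : coeff 3 (D2 a b) = 0 := by
    have h3 : (3 : A0) ≠ 0 := by
      have : ((3 : ℕ) : A0) ≠ 0 := Nat.cast_ne_zero.2 (by norm_num)
      exact_mod_cast this
    apply mul_left_cancel₀ h3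
    rw [r2] at m2
    linear_combination -m2
  have r4 : coeff 4 (D2 a b) = -7 * b := by
    have h4 : (4 : A0) ≠ 0 := by
      have : ((4 : ℕ) : A0) ≠ 0 := Nat.cast_ne_zero.2 (by norm_num)
      exact_mod_cast this
    apply mul_left_cancel₀ h4
    rw [r2, r3] at m3
    linear_combination -m3
  exact ⟨h1, r2, r3, r4⟩

theorem coeff_D2 {A : Type*} [CommRing A] (a b : A) :
    coeff 1 (D2 a b) = 2 ∧ coeff 2 (D2 a b) = -a ∧ coeff 3 (D2 a b) = 0 ∧
      coeff 4 (D2 a b) = -7 * b := by
  obtain ⟨h1, h2, h3, h4⟩ := coeff_D2_A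
  have e := map_D2 (evA a b) (MvPolynomial.X 0) (MvPolynomial.X 1)
  rw [evA_X0, evA_X1] at e
  rw [← e]
  simp only [PowerSeries.coeff_map, h1, h2, h3, h4]
  refine ⟨map_ofNat _ 2, by rw [map_neg, evA_X0], map_zero _, ?_⟩
  rw [map_mul, evA_X1, map_neg, map_ofNat]

end univ

section two

variable {A : Type*} [CommRing A] [CharP A 2]

/-- in characteristic two the duplication series is `g(z²)` with `g = a w + b w² + …` -/
theorem exists_g (a b : A) : ∃ g : PowerSeries A,
    R227.fadd (Phi a b) (X : PowerSeries A) X = PowerSeries.expand 2 two_ne_zero g ∧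
    constantCoeff g = 0 ∧ coeff 1 g = a ∧ coeff 2 g = b := by
  have : Fact (Nat.Prime 2) := ⟨Nat.prime_two⟩
  obtain ⟨h1, h2, -, h4⟩ := coeff_D2 a b
  have h1' : coeff 1 (D2 a b) = 0 := by rw [h1]; exact CharTwo.two_eq_zero
  obtain ⟨g, hg, he⟩ := R227.IsFGHom.exists_frob (p := 2)
    (R227.IsFGHom.mulSeries (Phi a b) 2) h1'
  have he' : D2 a b = PowerSeries.expand 2 two_ne_zero g := by
    rw [expand_apply]; exact he
  refine ⟨g, ?_, hg.1, ?_, ?_⟩
  · rw [← D2_eq, he']
  · have := coeff_expand_mul 2 two_ne_zero g 1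
    rw [← he', mul_one, h2] at this
    rw [← this, CharTwo.neg_eq]
  · have := coeff_expand_mul 2 two_ne_zero g 2
    rw [← he', show 2 * 2 = 4 by norm_num, h4] at this
    rw [← this]
    have h7 : (-7 : A) = 1 := by
      have h2 : (2 : A) = 0 := CharTwo.two_eq_zero
      linear_combination (-4) * h2
    rw [h7, one_mul]

end two

/-! ## the instance -/

section inst

variable (κ : Type*) [Field κ] [CharP κ 2]

instance charP_ps : CharP (PowerSeries κ) 2 :=
  charP_of_injective_ringHom (f := (C : κ →+* PowerSeries κ)) C_injective 2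

/-- the formal group of `y² + t x y + y = x³` over `κ⟦t⟧` -/
def fdata : F.FData κ where
  Φ := Phi (X : PowerSeries κ) 1
  comm := Phi_isComm _ _
  g := (exists_g (X : PowerSeries κ) 1).choose
  two := (exists_g (X : PowerSeries κ) 1).choose_spec.1
  g_zero := (exists_g (X : PowerSeries κ) 1).choose_spec.2.1
  g_one := (exists_g (X : PowerSeries κ) 1).choose_spec.2.2.1
  g_two := by
    rw [(exists_g (X : PowerSeries κ) 1).choose_spec.2.2.2]
    exact isUnit_one
  frob := by
    rw [Phi_map, Phi_map]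
    simp

@[simp] theorem fdata_Φ : (fdata κ).Φ = Phi (X : PowerSeries κ) 1 := rfl

end inst

end Crest.Agent.R007.Fg
end
end

-- ▼ part R007/FgW

/-!
Row 7, section E-FG (helper360): scaling and `HasW` for helper801's `Fg.Phi`; comparison
`Fg.Phi = Fz.Phi`.
-/

set_option autoImplicit false

noncomputable section

open PowerSeries Crest.LubinTate

namespace Crest.Agent.R007.Fg

section cmp

variable {K : Type*} [CommRing K] [Algebra ℚ K] (a b : K)

theorem zs_eq : zs a b = Fz.exS a b :=
  (Fz.ode_unique a b (isSol_zs a b).z0 (isSol_zs a b).s0 (isSol_zs a b).dz (isSol_zs a b).ds).1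

theorem Phi_eqQ : Phi a b = Fz.Phi a b := by
  have h1 := isFGHom_zs a b
  rw [zs_eq] at h1
  exact R227.IsFGHom.target_unique h1 (Fz.hom_exS a b) (Fz.isUnit_exS a b)

end cmp

variable {A : Type*} [CommRing A]

/-- the two constructions agree -/
theorem Phi_eq (a b : A) : Phi a b = Fz.Phi a b := by
  have h1 : Phi (MvPolynomial.X 0 : MvPolynomial (Fin 2) ℤ) (MvPolynomial.X 1) =
      Fz.Phi (MvPolynomial.X 0) (MvPolynomial.X 1) := by
    apply FormalGroup.ext
    apply Fz.mv_map_injective (Fz.iU_inj 2)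
    change ((Phi _ _).map (Fz.iU 2)).toPowerSeries = ((Fz.Phi _ _).map (Fz.iU 2)).toPowerSeries
    rw [Phi_map, Fz.Phi_map, Phi_eqQ]
  have h2 := congrArg (fun F => FormalGroup.map F
    (MvPolynomial.eval₂Hom (Int.castRingHom A) ![a, b])) h1
  simp only [Phi_map, Fz.Phi_map] at h2
  simpa using h2

/-- SCALING, over every ring: `z ↦ c z : Φ_{c a, c³ b} → Φ_{a, b}` -/
theorem scale (c a b : A) : IsFGHom (Phi (c * a) (c ^ 3 * b)) (Phi a b) (C c * X) := by
  rw [Phi_eq, Phi_eq]
  exact Fz.scale c a b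

section inst

variable {κ : Type*} [Field κ] [CharP κ 2]

theorem fdata_Φ0 : (fdata κ).Φ0 = Phi (0 : κ) 1 := by
  rw [F.FData.Φ0, fdata_Φ, Phi_map, PowerSeries.constantCoeff_X, map_one]

theorem hasW {w : κ} (hw : w ^ 2 + w + 1 = 0) : F.HasW (fdata κ).Φ0 w := by
  refine ⟨hw, ?_⟩
  have h := scale w (0 : κ) 1
  have h3 : w ^ 3 * 1 = 1 := by linear_combination (w - 1) * hw
  rw [mul_zero, h3] at h
  rw [fdata_Φ0]
  exact h

end inst

end Crest.Agent.R007.Fg
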