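import Mathlib
import Crest.Agent.R007.Mix1
import Crest.Agent.R007.G2Gen
import Crest.Agent.R007.CoefO

-- ▼ part R007/QPrin
section

set_option autoImplicit false

namespace Crest.Agent.R007.QPrin

open scoped Pointwise

variable {V : Type*} [CommRing V] {G : Type*} [Group G]

/-- Hypotheses of the abstract q-expansion principle. -/
structure Hyp (sl : G → V →+* V) (Z : Subgroup G) (I P : Ideal V) (B : Set V) : Prop where
  sl_one : ∀ x, sl 1 x = x
  sl_mul : ∀ g h x, sl (g * h) x = sl h (sl g x)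
  comm : ∀ z ∈ Z, ∀ g : G, z * g = g * z
  slI : ∀ g x, x ∈ I → sl g x ∈ I
  prime : P.IsPrime
  le : I ≤ P
  slB : ∀ g, ∀ b ∈ B, sl g b ∈ B
  fin : ∀ x : V, ∃ U : Subgroup G, U ≤ Z ∧ (U.subgroupOf Z).FiniteIndex ∧
    ∀ u ∈ U, sl u x - x ∈ I
  K : ∀ x : V, (∀ z ∈ Z, sl z x - x ∈ I) → ∃ b ∈ B, x - b ∈ I
  D : ∀ b ∈ B, b ∈ P → b ∈ I

variable {sl : G → V →+* V} {Z : Subgroup G} {I P : Ideal V} {B : Set V}

/-- the subring of elements fixed by `U` mod `I`. -/
def WU (H : Hyp sl Z I P B) (U : Subgroup G) : Subring V where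
  carrier := {x | ∀ u ∈ U, sl u x - x ∈ I}
  mul_mem' {x y} hx hy := fun u hu => by
    have h1 := hx u hu
    have h2 := hy u hu
    have : sl u (x * y) - x * y = (sl u x - x) * sl u y + x * (sl u y - y) := by
      rw [map_mul]; ring
    rw [this]
    exact I.add_mem (I.mul_mem_right _ h1) (I.mul_mem_left _ h2)
  one_mem' := fun u _ => by simp
  add_mem' {x y} hx hy := fun u hu => by
    have : sl u (x + y) - (x + y) = (sl u x - x) + (sl u y - y) := by
      rw [map_add]; ring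
    rw [this]
    exact I.add_mem (hx u hu) (hy u hu)
  zero_mem' := fun u _ => by simp
  neg_mem' {x} hx := fun u hu => by
    have : sl u (-x) - (-x) = -(sl u x - x) := by rw [map_neg]; ring
    rw [this]
    exact I.neg_mem (hx u hu)

lemma mul_comm_of (H : Hyp sl Z I P B) {z : G} (hz : z ∈ Z) (g : G) : g * z = z * g :=
  (H.comm z hz g).symm


section
variable (H : Hyp sl Z I P B) {U : Subgroup G} (hU : U ≤ Z)
include H

lemma sl_comm {z : G} (hz : z ∈ Z) (g : G) (x : V) : sl z (sl g x) = sl g (sl z x) := by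
  rw [← H.sl_mul, ← H.sl_mul, H.comm z hz]

include hU

lemma WU_sl {x : V} (hx : x ∈ WU H U) (g : G) : sl g x ∈ WU H U := by
  intro u hu
  rw [sl_comm H (hU hu), ← map_sub]
  exact H.slI g _ (hx u hu)

omit hU in
/-- the ideal `J(g) = {x ∈ W_U | sl g x ∈ P}`. -/
def J (H : Hyp sl Z I P B) (U : Subgroup G) (g : G) : Ideal (WU H U) :=
  P.comap ((sl g).comp (WU H U).subtype)

omit hU in
omit H in
lemma mem_J (H : Hyp sl Z I P B) (g : G) (x : WU H U) : x ∈ J H U g ↔ sl g (x : V) ∈ P := Iff.rfl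

omit hU in
lemma J_prime (g : G) : (J H U g).IsPrime := by
  haveI := H.prime
  exact Ideal.comap_isPrime _ _

/-- `J(g₁) ≤ J(g₂)` implies `J(z g₁) ≤ J(z g₂)` for scalars `z`. -/
lemma J_le_mul {g₁ g₂ : G} (h : J H U g₁ ≤ J H U g₂) {z : G} (hz : z ∈ Z) :
    J H U (z * g₁) ≤ J H U (z * g₂) := by
  intro x hx
  rw [mem_J, H.sl_mul] at hx ⊢
  exact h (show (⟨sl z x, WU_sl H hU x.2 z⟩ : WU H U) ∈ J H U g₁ from hx)

omit hU in
lemma J_of_mem_U {u : G} (hu : u ∈ U) : J H U u = J H U 1 := by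
  ext x
  rw [mem_J, mem_J, H.sl_one]
  have h := H.le (x.2 u hu)
  constructor
  · intro hx
    have := P.sub_mem hx h
    simpa using this
  · intro hx
    have := P.add_mem h hx
    simpa using this

end

section norm
variable (H : Hyp sl Z I P B) {U : Subgroup G} (hU : U ≤ Z)
include H hU

/-- classes of the scalar translates only depend on the coset. -/
lemma mk_sl_eq {x : V} (hx : x ∈ WU H U) (w : Z) :
    Ideal.Quotient.mk I (sl (w : G) x) = Ideal.Quotient.mk I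
      (sl ((Quotient.out (QuotientGroup.mk (s := U.subgroupOf Z) w) : Z) : G) x) := by
  set c := (Quotient.out (QuotientGroup.mk (s := U.subgroupOf Z) w) : Z) with hc
  have h1 : QuotientGroup.mk (s := U.subgroupOf Z) c = QuotientGroup.mk w := Quotient.out_eq' _
  have h2 : c⁻¹ * w ∈ U.subgroupOf Z := QuotientGroup.eq.1 h1
  have h3 : ((c : G)⁻¹ * (w : G)) ∈ U := by simpa [Subgroup.mem_subgroupOf] using h2
  have h4 : (w : G) = ((c : G)⁻¹ * (w : G)) * (c : G) := by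
    have := H.comm c c.2 ((c : G)⁻¹ * (w : G))
    rw [← this]; group
  rw [h4, H.sl_mul, Ideal.Quotient.eq, ← map_sub]
  exact H.slI _ _ (hx _ h3)

/-- the norm of `x ∈ W_U`: a finite product of scalar translates of `x`, invariant mod `I`. -/
lemma exists_norm (hfin : (U.subgroupOf Z).FiniteIndex) (x : V) (hx : x ∈ WU H U) :
    ∃ (S : Finset (Z ⧸ U.subgroupOf Z)) (r : Z ⧸ U.subgroupOf Z → G),
    (∀ i, r i ∈ Z) ∧ (∃ i ∈ S, sl (r i) x - x ∈ I) ∧
    (∀ z ∈ Z, sl z (∏ i ∈ S, sl (r i) x) - ∏ i ∈ S, sl (r i) x ∈ I) := by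
  classical
  have := hfin
  have : Finite (Z ⧸ U.subgroupOf Z) := inferInstance
  have := Fintype.ofFinite (Z ⧸ U.subgroupOf Z)
  refine ⟨Finset.univ, fun c => ((Quotient.out c : Z) : G), fun i => (Quotient.out i : Z).2, ?_, ?_⟩
  · refine ⟨QuotientGroup.mk (1 : Z), Finset.mem_univ _, ?_⟩
    have := mk_sl_eq H hU hx (1 : Z)
    rw [← Ideal.Quotient.eq, ← this]
    simp [H.sl_one]
  · intro z hz
    rw [← Ideal.Quotient.eq, map_prod, map_prod, map_prod]
    have key : ∀ c : Z ⧸ U.subgroupOf Z,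
        Ideal.Quotient.mk I (sl z (sl ((Quotient.out c : Z) : G) x)) =
        Ideal.Quotient.mk I (sl ((Quotient.out ((⟨z, hz⟩ : Z) • c) : Z) : G) x) := by
      intro c
      rw [← H.sl_mul]
      have hzc : (⟨z, hz⟩ : Z) • c = QuotientGroup.mk ((⟨z, hz⟩ : Z) * Quotient.out c) := by
        conv_lhs => rw [← Quotient.out_eq' c]
        rfl
      rw [hzc, ← mk_sl_eq H hU hx]
      congr 2
      rw [Subgroup.coe_mul, H.comm z hz]
    simp_rw [key]
    exact Equiv.prod_comp (MulAction.toPerm (⟨z, hz⟩ : Z))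
      (fun c : Z ⧸ U.subgroupOf Z => Ideal.Quotient.mk I (sl ((Quotient.out c : Z) : G) x))

/-- `J(g) ≤ J(z)` for some scalar `z`. -/
lemma exists_le (hfin : (U.subgroupOf Z).FiniteIndex) (g : G) :
    ∃ z ∈ Z, J H U g ≤ J H U z := by
  classical
  have := hfin
  have : Finite (Z ⧸ U.subgroupOf Z) := inferInstance
  have := Fintype.ofFinite (Z ⧸ U.subgroupOf Z)
  set r : Z ⧸ U.subgroupOf Z → G := fun c => ((Quotient.out c : Z) : G) with hr
  have hsub : (J H U g : Set (WU H U)) ⊆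
      ⋃ i ∈ (↑(Finset.univ : Finset (Z ⧸ U.subgroupOf Z)) : Set _), (J H U (r i) : Set (WU H U)) := by
    intro x hx
    obtain ⟨S, r', hr', ⟨i₀, hi₀, h0⟩, hinv⟩ := exists_norm H hU hfin x x.2
    obtain ⟨b, hb, hyb⟩ := H.K _ hinv
    have hxg : sl g (x : V) ∈ P := hx
    have h1 : sl g (∏ i ∈ S, sl (r' i) (x : V)) ∈ P := by
      rw [map_prod, ← Finset.mul_prod_erase S _ hi₀]
      apply P.mul_mem_right
      have h2 := H.le (H.slI g _ h0)
      rw [map_sub] at h2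
      have := P.add_mem h2 hxg
      simpa using this
    have h2 : sl g b ∈ P := by
      have h3 := H.le (H.slI g _ hyb)
      rw [map_sub] at h3
      have := P.sub_mem h1 h3
      simpa using this
    have h3 : sl g b ∈ I := H.D _ (H.slB g b hb) h2
    have h4 : b ∈ I := by
      have := H.slI g⁻¹ _ h3
      rwa [← H.sl_mul, mul_inv_cancel, H.sl_one] at this
    have h5 : ∏ i ∈ S, sl (r' i) (x : V) ∈ P := by
      have := P.add_mem (H.le hyb) (H.le h4)
      simpa using this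
    have hP := H.prime
    obtain ⟨i, hi, hPi⟩ := (Ideal.IsPrime.prod_mem_iff).1 h5
    have h6 : sl (r (QuotientGroup.mk (⟨r' i, hr' i⟩ : Z))) (x : V) ∈ P := by
      have := mk_sl_eq H hU x.2 (⟨r' i, hr' i⟩ : Z)
      rw [Ideal.Quotient.eq] at this
      have := P.sub_mem hPi (H.le this)
      simpa using this
    simp only [Set.mem_iUnion]
    exact ⟨QuotientGroup.mk (⟨r' i, hr' i⟩ : Z), by simp, h6⟩
  rw [Ideal.subset_union_prime (QuotientGroup.mk (1 : Z)) (QuotientGroup.mk (1 : Z))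
    (fun i _ _ _ => J_prime H (r i))] at hsub
  obtain ⟨i, _, hi⟩ := hsub
  exact ⟨r i, (Quotient.out i : Z).2, hi⟩

/-- `J(g) = J(z)` for some scalar `z`. -/
lemma exists_eq (hfin : (U.subgroupOf Z).FiniteIndex) (g : G) :
    ∃ z ∈ Z, J H U g = J H U z := by
  obtain ⟨z, hz, h1⟩ := exists_le H hU hfin g
  obtain ⟨w, hw, h2⟩ := exists_le H hU hfin g⁻¹
  -- `J(1) ≤ J(w * g)`
  have h3 : J H U 1 ≤ J H U (w * g) := by
    intro y hy
    rw [mem_J, H.sl_one] at hy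
    have h4 : (⟨sl g y, WU_sl H hU y.2 g⟩ : WU H U) ∈ J H U g⁻¹ := by
      rw [mem_J, ← H.sl_mul, mul_inv_cancel, H.sl_one]
      exact hy
    have h5 := h2 h4
    rw [mem_J] at h5 ⊢
    rw [H.comm w hw, H.sl_mul]
    exact h5
  have h4 : J H U (w * g) ≤ J H U (w * z) := J_le_mul H hU h1 hw
  set y := w * z with hy
  have hyZ : y ∈ Z := Z.mul_mem hw hz
  have h5 : J H U 1 ≤ J H U y := h3.trans h4
  have h6 : ∀ n : ℕ, J H U y ≤ J H U (y ^ (n + 1)) := by
    intro n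
    induction n with
    | zero => simp
    | succ n ih =>
      have h7 : J H U (y ^ (n + 1) * 1) ≤ J H U (y ^ (n + 1) * y) :=
        J_le_mul H hU h5 (Z.pow_mem hyZ _)
      rw [mul_one, ← pow_succ] at h7
      exact ih.trans h7
  have h7 : J H U y = J H U 1 := by
    refine le_antisymm ?_ h5
    have hn : ∃ n : ℕ, y ^ (n + 1) ∈ U := by
      have := hfin
      obtain ⟨n, hn0, _, hn⟩ := (U.subgroupOf Z).exists_pow_mem_of_index_ne_zero
        (Subgroup.FiniteIndex.index_ne_zero) ⟨y, hyZ⟩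
      refine ⟨n - 1, ?_⟩
      rw [Nat.sub_add_cancel hn0]
      simpa [Subgroup.mem_subgroupOf] using hn
    obtain ⟨n, hn⟩ := hn
    have := h6 n
    rwa [J_of_mem_U H hn] at this
  have h8 : J H U 1 = J H U (w * g) := le_antisymm h3 (h4.trans h7.le)
  refine ⟨w⁻¹, Z.inv_mem hw, ?_⟩
  have h9 := J_le_mul H hU h8.le (Z.inv_mem hw)
  have h10 := J_le_mul H hU h8.ge (Z.inv_mem hw)
  rw [← mul_assoc, inv_mul_cancel, one_mul, mul_one] at h9 h10
  exact le_antisymm h10 h9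

/-- scalars act compatibly: `J(z₁) = J(z₂)` etc.  The set of `g` with `J(g) = J(1)` contains all
commutators. -/
lemma J_mul {g h z w : G} (hz : z ∈ Z) (hw : w ∈ Z) (hg : J H U g = J H U z)
    (hh : J H U h = J H U w) : J H U (g * h) = J H U (z * w) := by
  have e1 : J H U (w * g) = J H U (w * z) :=
    le_antisymm (J_le_mul H hU hg.le hw) (J_le_mul H hU hg.ge hw)
  have e2 : J H U (g * h) = J H U (w * g) := by
    ext x
    rw [mem_J, mem_J, H.sl_mul, ← mul_comm_of H hw g, H.sl_mul]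
    have h1 : (⟨sl g x, WU_sl H hU x.2 g⟩ : WU H U) ∈ J H U h ↔
        (⟨sl g x, WU_sl H hU x.2 g⟩ : WU H U) ∈ J H U w := by rw [hh]
    exact h1
  rw [e2, e1, H.comm w hw z]

lemma J_comm_eq (hfin : (U.subgroupOf Z).FiniteIndex) (g h : G) :
    J H U (g * h * g⁻¹ * h⁻¹) = J H U 1 := by
  obtain ⟨z, hz, h1⟩ := exists_eq H hU hfin g
  obtain ⟨w, hw, h2⟩ := exists_eq H hU hfin h
  obtain ⟨z', hz', h3⟩ := exists_eq H hU hfin g⁻¹
  obtain ⟨w', hw', h4⟩ := exists_eq H hU hfin h⁻¹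
  have e1 : J H U (z * z') = J H U 1 := by
    rw [← J_mul H hU hz hz' h1 h3, mul_inv_cancel]
  have e2 : J H U (w * w') = J H U 1 := by
    rw [← J_mul H hU hw hw' h2 h4, mul_inv_cancel]
  have e3 : J H U (g * h * g⁻¹ * h⁻¹) = J H U (z * w * z' * w') :=
    J_mul H hU (Z.mul_mem (Z.mul_mem hz hw) hz') hw'
      (J_mul H hU (Z.mul_mem hz hw) hz' (J_mul H hU hz hw h1 h2) h3) h4
  have e4 : z * w * z' * w' = (z * z') * (w * w') := by
    have := H.comm w hw z'
    calc z * w * z' * w' = z * (w * z') * w' := by group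
      _ = z * (z' * w) * w' := by rw [this]
      _ = (z * z') * (w * w') := by group
  rw [e3, e4]
  have := J_mul H hU (Z.one_mem) (Z.one_mem) e1 e2
  rw [this, mul_one]

/-- all `g` satisfy `J(g) = J(1)` when the stabiliser and the commutators generate. -/
lemma J_eq_one (hfin : (U.subgroupOf Z).FiniteIndex)
    (hgen : Subgroup.closure ({g : G | ∀ x, sl g x ∈ P ↔ x ∈ P} ∪
      {g | ∃ a b : G, a * b * a⁻¹ * b⁻¹ = g}) = ⊤) (g : G) :
    J H U g = J H U 1 := by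
  have hg : g ∈ Subgroup.closure ({g : G | ∀ x, sl g x ∈ P ↔ x ∈ P} ∪
      {g | ∃ a b : G, a * b * a⁻¹ * b⁻¹ = g}) := by rw [hgen]; trivial
  induction hg using Subgroup.closure_induction with
  | mem g hg =>
    rcases hg with hg | ⟨a, b, rfl⟩
    · ext x
      rw [mem_J, mem_J, H.sl_one]
      exact hg x
    · exact J_comm_eq H hU hfin a b
  | one => rfl
  | mul g h _ _ hg hh =>
    have := J_mul H hU Z.one_mem Z.one_mem hg hh
    rwa [mul_one] at this
  | inv g _ hg =>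
    obtain ⟨z', hz', h3⟩ := exists_eq H hU hfin g⁻¹
    have := J_mul H hU Z.one_mem hz' hg h3
    rw [mul_inv_cancel, one_mul] at this
    rw [h3, this]

end norm

/-- **q-expansion principle, abstract form**: `P = I`. -/
theorem eq_of_sep (H : Hyp sl Z I P B)
    (hgen : Subgroup.closure ({g : G | ∀ x, sl g x ∈ P ↔ x ∈ P} ∪
      {g | ∃ a b : G, a * b * a⁻¹ * b⁻¹ = g}) = ⊤)
    (hsep : ∀ x, (∀ g, sl g x ∈ P) → x ∈ I) : P = I := by
  refine le_antisymm (fun x hx => hsep x fun g => ?_) H.le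
  obtain ⟨U, hU, hfin, hfix⟩ := H.fin x
  have h := J_eq_one H hU hfin hgen g
  have h1 : (⟨x, hfix⟩ : WU H U) ∈ J H U 1 := by
    rw [mem_J, H.sl_one]; exact hx
  rw [← h] at h1
  exact h1


end Crest.Agent.R007.QPrin
end

-- ▼ part R007/QInst
section

/-! Row 7, section C: the q-expansion principle on `VV O` from (K) and (D)
(instance of `QPrin.eq_of_sep`). -/

set_option autoImplicit false

namespace Crest.Agent.R007.QInst

open UpperHalfPlane ModularForm CongruenceSubgroup Matrix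
open Crest.Agent.R007.Lat Crest.Agent.R007.Mix
open scoped MatrixGroups Manifold ModularForm

variable {O : Subring ℂ}

/-! ### primality -/

/-- `2 O` is a prime ideal, elementwise -/
def PrimeTwo (O : Subring ℂ) : Prop :=
  (∀ y ∈ O, (1 : ℂ) ≠ 2 * y) ∧
  ∀ x ∈ O, ∀ y ∈ O, (∃ z ∈ O, x * y = 2 * z) → (∃ z ∈ O, x = 2 * z) ∨ (∃ z ∈ O, y = 2 * z)

lemma two_or_two (hp : PrimeTwo O) {f g : ℍ → ℂ} (hf : f ∈ IntO O) (hg : g ∈ IntO O)
    (h : Two O (f * g)) : Two O f ∨ Two O g := by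
  by_contra hcon
  push Not at hcon
  obtain ⟨h1, h2⟩ := hcon
  unfold Two at h1 h2
  push Not at h1 h2
  set A : Set ℚ := {r | ∀ y ∈ O, (qf f).coeff r ≠ 2 * y} with hA
  set B : Set ℚ := {r | ∀ y ∈ O, (qf g).coeff r ≠ 2 * y} with hB
  have hAs : A ⊆ (qf f).support := by
    intro r hr
    rw [HahnSeries.mem_support]
    intro h0
    exact hr 0 O.zero_mem (by rw [h0, mul_zero])
  have hBs : B ⊆ (qf g).support := by
    intro r hr
    rw [HahnSeries.mem_support]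
    intro h0
    exact hr 0 O.zero_mem (by rw [h0, mul_zero])
  have hAn : A.Nonempty := h1
  have hBn : B.Nonempty := h2
  have hAw : A.IsWF := ((qf f).isPWO_support.mono hAs).isWF
  have hBw : B.IsWF := ((qf g).isPWO_support.mono hBs).isWF
  set a := hAw.min hAn with ha
  set b := hBw.min hBn with hb
  have haA : a ∈ A := hAw.min_mem hAn
  have hbB : b ∈ B := hBw.min_mem hBn
  have ha' : ∀ r < a, ∃ y ∈ O, (qf f).coeff r = 2 * y := by
    intro r hr
    by_contra hc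
    push Not at hc
    exact absurd hr (not_lt.2 (hAw.min_le hAn hc))
  have hb' : ∀ r < b, ∃ y ∈ O, (qf g).coeff r = 2 * y := by
    intro r hr
    by_contra hc
    push Not at hc
    exact absurd hr (not_lt.2 (hBw.min_le hBn hc))
  obtain ⟨y, hy, e⟩ := h (a + b)
  rw [qf_mul hf.1 hg.1, HahnSeries.coeff_mul] at e
  have hmem : (a, b) ∈ Finset.antidiagonal (qf f).isPWO_support (qf g).isPWO_support (a + b) := by
    rw [Finset.mem_antidiagonal]
    exact ⟨hAs haA, hBs hbB, rfl⟩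
  rw [← Finset.add_sum_erase _ _ hmem] at e
  have hrest : ∃ z ∈ O, ∑ x ∈ (Finset.antidiagonal (qf f).isPWO_support (qf g).isPWO_support
      (a + b)).erase (a, b), (qf f).coeff x.1 * (qf g).coeff x.2 = 2 * z := by
    have key : ∀ x ∈ (Finset.antidiagonal (qf f).isPWO_support (qf g).isPWO_support
      (a + b)).erase (a, b), ∃ z ∈ O, (qf f).coeff x.1 * (qf g).coeff x.2 = 2 * z := by
      intro x hx
      rw [Finset.mem_erase, Finset.mem_antidiagonal] at hx
      obtain ⟨hne, _, _, hsum⟩ := hx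
      rcases lt_trichotomy x.1 a with hlt | heq | hgt
      · obtain ⟨z, hz, ez⟩ := ha' _ hlt
        exact ⟨z * (qf g).coeff x.2, O.mul_mem hz (hg.2 _), by rw [ez]; ring⟩
      · exfalso
        apply hne
        have : x.2 = b := by linarith
        exact Prod.ext heq this
      · have hlt : x.2 < b := by linarith
        obtain ⟨z, hz, ez⟩ := hb' _ hlt
        exact ⟨(qf f).coeff x.1 * z, O.mul_mem (hf.2 _) hz, by rw [ez]; ring⟩
    choose! z hz ez using key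
    refine ⟨∑ x ∈ (Finset.antidiagonal (qf f).isPWO_support (qf g).isPWO_support
      (a + b)).erase (a, b), z x, O.sum_mem fun x hx => hz x hx, ?_⟩
    rw [Finset.mul_sum]
    exact Finset.sum_congr rfl fun x hx => ez x hx
  obtain ⟨z, hz, ez⟩ := hrest
  rw [ez] at e
  have : (qf f).coeff a * (qf g).coeff b = 2 * (y - z) := by
    have e' : (qf f).coeff (a, b).1 * (qf g).coeff (a, b).2 = 2 * y - 2 * z := by
      linear_combination e
    rw [show (qf f).coeff a * (qf g).coeff b = (qf f).coeff (a, b).1 * (qf g).coeff (a, b).2 from rfl,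
      e']
    ring
  rcases hp.2 _ (hf.2 a) _ (hg.2 b) ⟨y - z, O.sub_mem hy hz, this⟩ with ⟨w, hw, ew⟩ | ⟨w, hw, ew⟩
  · exact haA w hw ew
  · exact hbB w hw ew

/-- forms whose expansion at infinity is `0` mod `2` -/
def PP (O : Subring ℂ) : Ideal (VV O) where
  carrier := {F | Two O (res F.1)}
  add_mem' := by
    intro F G hF hG
    exact Two.add (VV_res F.2).1 (VV_res G.2).1 hF hG
  zero_mem' := by
    intro r
    refine ⟨0, O.zero_mem, ?_⟩
    have : res ((0 : VV O) : X → ℂ) = 0 := rfl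
    rw [this, qf_zero]
    simp
  smul_mem' := by
    intro F G hG
    exact Two.mul (VV_res F.2) (VV_res G.2).1 hG

lemma mem_PP {F : VV O} : F ∈ PP O ↔ Two O (res F.1) := Iff.rfl

lemma PP_prime (hp : PrimeTwo O) : (PP O).IsPrime := by
  refine ⟨?_, ?_⟩
  · rw [Ideal.ne_top_iff_one]
    intro h
    obtain ⟨y, hy, e⟩ := h 0
    have : res ((1 : VV O) : X → ℂ) = 1 := rfl
    rw [this, qf_one, HahnSeries.coeff_one, if_pos rfl] at e
    exact hp.1 y hy e
  · intro F G hFG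
    exact two_or_two hp (VV_res F.2) (VV_res G.2) hFG

/-- `2 V` -/
def II (O : Subring ℂ) : Ideal (VV O) := Ideal.span {(2 : VV O)}

lemma mem_II {F : VV O} : F ∈ II O ↔ ∃ G ∈ VV O, F.1 = 2 * G := by
  rw [II, Ideal.mem_span_singleton']
  constructor
  · rintro ⟨a, rfl⟩
    exact ⟨a.1, a.2, mul_comm _ _⟩
  · rintro ⟨G, hG, e⟩
    exact ⟨⟨G, hG⟩, Subtype.ext ((mul_comm _ _).trans e.symm)⟩

/-- slash as an endomorphism of `VV O` -/
noncomputable def sV (O : Subring ℂ) (g : G2) : VV O →+* VV O where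
  toFun F := ⟨sl F.1 g.1, VV_sl F.2 g.2⟩
  map_one' := rfl
  map_mul' _ _ := rfl
  map_zero' := rfl
  map_add' _ _ := rfl

@[simp] lemma sV_coe (g : G2) (F : VV O) : ((sV O g F : VV O) : X → ℂ) = sl F.1 g.1 := rfl

/-! ### scalars -/

/-- the matrix of an element of `G2` -/
def mat (g : G2) : Matrix (Fin 2) (Fin 2) ℝ := ((g.1 : GL (Fin 2) ℝ) : Matrix (Fin 2) (Fin 2) ℝ)

lemma mat_mul (g h : G2) : mat (g * h) = mat g * mat h := rfl
lemma mat_one : mat 1 = 1 := rfl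
lemma mat_inj {g h : G2} (e : mat g = mat h) : g = h :=
  Subtype.ext (Subtype.ext (Units.ext e))

/-- `z = m / n` -/
def IsSc (z : G2) (m n : ℕ) : Prop := Odd m ∧ Odd n ∧ (n : ℝ) • mat z = (m : ℝ) • 1

lemma IsSc.mul {z w : G2} {m n m' n' : ℕ} (h : IsSc z m n) (h' : IsSc w m' n') :
    IsSc (z * w) (m * m') (n * n') := by
  refine ⟨h.1.mul h'.1, h.2.1.mul h'.2.1, ?_⟩
  rw [mat_mul]
  have : ((n * n' : ℕ) : ℝ) • (mat z * mat w) = ((n : ℝ) • mat z) * ((n' : ℝ) • mat w) := by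
    rw [smul_mul_smul_comm]; push_cast; rfl
  rw [this, h.2.2, h'.2.2, smul_mul_smul_comm, mul_one]
  push_cast; rfl

lemma IsSc.inv {z : G2} {m n : ℕ} (h : IsSc z m n) : IsSc z⁻¹ n m := by
  refine ⟨h.2.1, h.1, ?_⟩
  have e : mat z * mat z⁻¹ = 1 := by rw [← mat_mul, mul_inv_cancel, mat_one]
  have e2 : ((n : ℝ) • mat z) * mat z⁻¹ = ((m : ℝ) • 1) * mat z⁻¹ := by rw [h.2.2]
  rw [smul_mul_assoc, e, smul_mul_assoc, one_mul] at e2
  exact e2.symm

lemma IsSc.one : IsSc 1 1 1 := ⟨odd_one, odd_one, by rw [mat_one]⟩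

/-- the scalars in `G2` -/
def ZZ : Subgroup G2 where
  carrier := {z | ∃ m n : ℕ, IsSc z m n}
  one_mem' := ⟨1, 1, IsSc.one⟩
  mul_mem' := by
    rintro z w ⟨m, n, h⟩ ⟨m', n', h'⟩
    exact ⟨_, _, h.mul h'⟩
  inv_mem' := by
    rintro z ⟨m, n, h⟩
    exact ⟨_, _, h.inv⟩


/-- the scalars congruent to `1` mod `N` -/
def ZN (N : ℕ) : Subgroup G2 where
  carrier := {z | ∃ m n : ℕ, IsSc z m n ∧ m ≡ n [MOD N]}
  one_mem' := ⟨1, 1, IsSc.one, Nat.ModEq.refl _⟩
  mul_mem' := by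
    rintro z w ⟨m, n, h, e⟩ ⟨m', n', h', e'⟩
    exact ⟨_, _, h.mul h', e.mul e'⟩
  inv_mem' := by
    rintro z ⟨m, n, h, e⟩
    exact ⟨_, _, h.inv, e.symm⟩

lemma ZN_le (N : ℕ) : ZN N ≤ ZZ := by
  rintro z ⟨m, n, h, _⟩
  exact ⟨m, n, h⟩

lemma ZN_finiteIndex (N : ℕ) [NeZero N] : ((ZN N).subgroupOf ZZ).FiniteIndex := by
  have hfin : Finite (ZZ ⧸ (ZN N).subgroupOf ZZ) := by
    have hch : ∀ z : ZZ, ∃ p : ℕ × ℕ, IsSc z.1 p.1 p.2 := fun z => by
      obtain ⟨m, n, h⟩ := z.2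
      exact ⟨(m, n), h⟩
    choose p hp using hch
    let f : (ZZ ⧸ (ZN N).subgroupOf ZZ) → ZMod N × ZMod N := fun c =>
      (((p (Quotient.out c)).1 : ZMod N), ((p (Quotient.out c)).2 : ZMod N))
    apply Finite.of_injective f
    intro c c' hcc
    simp only [f, Prod.mk.injEq, ZMod.natCast_eq_natCast_iff] at hcc
    rw [← Quotient.out_eq' c, ← Quotient.out_eq' c', QuotientGroup.eq, Subgroup.mem_subgroupOf]
    have h1 := (hp (Quotient.out c)).inv.mul (hp (Quotient.out c'))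
    refine ⟨_, _, h1, ?_⟩
    exact (hcc.2.mul hcc.1.symm).trans (by rw [mul_comm])
  exact Subgroup.finiteIndex_of_finite_quotient

lemma ZZ_comm {z : G2} (hz : z ∈ ZZ) (g : G2) : z * g = g * z := by
  obtain ⟨m, n, h⟩ := hz
  apply mat_inj
  rw [mat_mul, mat_mul]
  have hn : (n : ℝ) ≠ 0 := by exact_mod_cast h.2.1.pos.ne'
  apply smul_right_injective _ hn
  change (n : ℝ) • (mat z * mat g) = (n : ℝ) • (mat g * mat z)
  rw [← smul_mul_assoc, ← mul_smul_comm, h.2.2]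
  simp

lemma sc_pos {n : ℕ} (hn : Odd n) : 0 < (sc n).det := sc_det_pos (by exact_mod_cast hn.pos.ne')

lemma sc_odd {n : ℕ} (hn : Odd n) : Odd (sc n).det := by
  rw [sc_det]
  have : Odd (n : ℤ) := by exact_mod_cast hn
  exact this.mul this

/-- the scalar `n` -/
noncomputable def scG (n : ℕ) (hn : Odd n) : G2 := gG (sc n) (sc_pos hn) (sc_odd hn)

lemma scG_coe (n : ℕ) (hn : Odd n) : ((scG n hn : G2) : GL(2, ℝ)⁺) = iG (sc n) (sc_pos hn) := rfl

lemma mat_scG (n : ℕ) (hn : Odd n) : mat (scG n hn) = (n : ℝ) • 1 := by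
  have : mat (scG n hn) = (sc n).map (Int.cast : ℤ → ℝ) := rfl
  rw [this, sc_map]; simp

lemma scG_mem (n : ℕ) (hn : Odd n) : scG n hn ∈ ZZ :=
  ⟨n, 1, hn, odd_one, by rw [mat_scG]; simp⟩

lemma IsSc.eq {z : G2} {m n : ℕ} (h : IsSc z m n) : scG n h.2.1 * z = scG m h.1 := by
  apply mat_inj
  rw [mat_mul, mat_scG, mat_scG, smul_mul_assoc, one_mul, h.2.2]

/-- the action of a scalar in weight `k` -/
lemma sl_sc {k : ℕ} {F : X → ℂ} (hF : F ∈ Wt k) {z : G2} {m n : ℕ} (h : IsSc z m n) :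
    sl F z.1 = ((n : ℂ) / m) ^ k • F := by
  have hn : (n : ℂ) ≠ 0 := by exact_mod_cast h.2.1.pos.ne'
  have hm : (m : ℂ) ≠ 0 := by exact_mod_cast h.1.pos.ne'
  have e1 : sl F (scG n h.2.1 * z : G2).1 = sl F (scG m h.1 : G2).1 := by rw [h.eq]
  rw [Subgroup.coe_mul, sl_mul_right, scG_coe, scG_coe, sl_scalar hF, sl_scalar hF, sl_smul] at e1
  have e2 : sl F z.1 = (n : ℂ) ^ k • ((((n : ℤ) : ℂ)⁻¹) ^ k • sl F z.1) := by
    rw [smul_smul, ← mul_pow]
    push_cast
    rw [mul_inv_cancel₀ hn, one_pow, one_smul]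
  rw [e2, e1, smul_smul, ← mul_pow]
  push_cast
  rw [div_eq_mul_inv]

/-! ### components -/

lemma three_sub (j : ℕ) (hj : 1 ≤ j) : ∃ a t : ℕ, Odd t ∧ 3 ^ j - 1 = 2 ^ a * t := by
  have h : 3 ^ j - 1 ≠ 0 := by
    have : 3 ^ 1 ≤ 3 ^ j := Nat.pow_le_pow_right (by norm_num) hj
    omega
  obtain ⟨a, t, ht, e⟩ := Nat.exists_eq_two_pow_mul_odd h
  exact ⟨a, t, ht, e⟩

/-- all components of a `2`-integral mixed weight form are `2`-integral up to a power of `2` -/
lemma exists_two_pow (hodd : ∀ n : ℕ, Odd n → (n : ℂ)⁻¹ ∈ O) (N : ℕ) :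
    ∀ F : ℕ → X → ℂ, (∀ k, F k ∈ MO k) → (∑ k ∈ Finset.range N, F k) ∈ VV O →
      ∃ r : ℕ, ∀ k < N, (2 : ℂ) ^ r • F k ∈ VV O := by
  induction N with
  | zero => intro F _ _; exact ⟨0, fun k hk => absurd hk (Nat.not_lt_zero _)⟩
  | succ N ih =>
    intro F hF hs
    have h3 : Odd 3 := by decide
    have h30 : (3 : ℂ) ≠ 0 := by norm_num
    -- eliminate the top component
    have e1 : ∀ k, sl (F k) (scG 3 h3 : G2).1 = ((3 : ℂ)⁻¹) ^ k • F k := by
      intro k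
      rw [scG_coe, sl_scalar (MO_le_Wt (hF k))]
      norm_num
    have h1 : (3 : ℂ) ^ N • sl (∑ k ∈ Finset.range (N + 1), F k) (scG 3 h3 : G2).1 -
        ∑ k ∈ Finset.range (N + 1), F k ∈ VV O := by
      apply sub_mem _ hs
      apply VV_smul (VV_sl hs (scG 3 h3).2)
      exact O.pow_mem (by exact_mod_cast natCast_mem O 3) _
    have h2 : (3 : ℂ) ^ N • sl (∑ k ∈ Finset.range (N + 1), F k) (scG 3 h3 : G2).1 -
        ∑ k ∈ Finset.range (N + 1), F k = ∑ k ∈ Finset.range N, ((3 : ℂ) ^ (N - k) - 1) • F k := by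
      rw [sl_sum, Finset.smul_sum, ← Finset.sum_sub_distrib, Finset.sum_range_succ]
      have e2 : (3 : ℂ) ^ N • sl (F N) (scG 3 h3 : G2).1 - F N = 0 := by
        rw [e1, smul_smul, ← mul_pow, mul_inv_cancel₀ h30, one_pow, one_smul, sub_self]
      rw [e2, add_zero]
      apply Finset.sum_congr rfl
      intro k hk
      rw [e1, smul_smul, sub_smul, one_smul]
      congr 2
      have hk' : k ≤ N := (Finset.mem_range.1 hk).le
      have : (3 : ℂ) ^ N = 3 ^ (N - k) * 3 ^ k := by rw [← pow_add, Nat.sub_add_cancel hk']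
      rw [this, mul_assoc, ← mul_pow, mul_inv_cancel₀ h30, one_pow, mul_one]
    rw [h2] at h1
    obtain ⟨r, hr⟩ := ih (fun k => ((3 : ℂ) ^ (N - k) - 1) • F k)
      (fun k => Submodule.smul_mem _ _ (hF k)) h1
    -- each component with `k < N`
    have h4 : ∀ k, ∃ r : ℕ, k < N → (2 : ℂ) ^ r • F k ∈ VV O := by
      intro k
      by_cases hk : k < N
      · obtain ⟨a, t, ht, e⟩ := three_sub (N - k) (by omega)
        refine ⟨r + a, fun _ => ?_⟩
        have h5 := VV_smul (hr k hk) (hodd t ht)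
        have h6 : ((3 : ℂ) ^ (N - k) - 1) = 2 ^ a * t := by
          have h7 : 1 ≤ 3 ^ (N - k) := Nat.one_le_pow _ _ (by norm_num)
          have : ((3 ^ (N - k) - 1 : ℕ) : ℂ) = ((2 ^ a * t : ℕ) : ℂ) := by rw [e]
          rw [Nat.cast_sub h7] at this
          push_cast at this
          exact this
        have ht0 : (t : ℂ) ≠ 0 := by exact_mod_cast ht.pos.ne'
        rw [smul_smul, smul_smul, h6] at h5
        have h8 : (t : ℂ)⁻¹ * (2 ^ r * (2 ^ a * t)) = 2 ^ (r + a) := by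
          rw [pow_add]; field_simp
        rw [show (t : ℂ)⁻¹ * (2 ^ r) * (2 ^ a * t) = 2 ^ (r + a) by rw [← h8]; ring] at h5
        exact h5
      · exact ⟨0, fun h => absurd h hk⟩
    choose r' hr' using h4
    set R := ∑ k ∈ Finset.range N, r' k with hR
    have h5 : ∀ k < N, (2 : ℂ) ^ R • F k ∈ VV O := by
      intro k hk
      have h6 : r' k ≤ R := Finset.single_le_sum (f := r') (fun _ _ => Nat.zero_le _)
        (Finset.mem_range.2 hk)
      have : (2 : ℂ) ^ R • F k = (2 : ℂ) ^ (R - r' k) • ((2 : ℂ) ^ (r' k) • F k) := by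
        rw [smul_smul, ← pow_add, Nat.sub_add_cancel h6]
      rw [this]
      exact VV_smul (hr' k hk) (O.pow_mem (by exact_mod_cast natCast_mem O 2) _)
    refine ⟨R, fun k hk => ?_⟩
    rcases Nat.lt_succ_iff_lt_or_eq.1 hk with hk | rfl
    · exact h5 k hk
    · have h7 : (2 : ℂ) ^ R • F k = (2 : ℂ) ^ R • (∑ j ∈ Finset.range (k + 1), F j) -
          ∑ j ∈ Finset.range k, (2 : ℂ) ^ R • F j := by
        rw [Finset.sum_range_succ, smul_add, Finset.smul_sum]; abel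
      rw [h7]
      exact sub_mem (VV_smul hs (O.pow_mem (by exact_mod_cast natCast_mem O 2) _))
        (sum_mem fun j hj => h5 j (Finset.mem_range.1 hj))

/-- `[z] x = x` mod `2 V` for scalars `z = 1` mod a power of `2` -/
lemma exists_fix (hodd : ∀ n : ℕ, Odd n → (n : ℂ)⁻¹ ∈ O) {F : X → ℂ} (hF : F ∈ VV O) :
    ∃ R : ℕ, ∀ z ∈ ZN (2 ^ R), ∃ G ∈ VV O, sl F z.1 - F = 2 * G := by
  obtain ⟨N, f, hf, e⟩ := mem_MM_iff.1 hF.1
  rw [e] at hF
  obtain ⟨r, hr⟩ := exists_two_pow hodd N f hf hF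
  refine ⟨r + 1, ?_⟩
  rintro z ⟨m, n, hz, hmn⟩
  have hm : (m : ℂ) ≠ 0 := by exact_mod_cast hz.1.pos.ne'
  have key : ∀ k, k < N → ∃ G ∈ VV O, ((n : ℂ) / m) ^ k • f k - f k = 2 * G := by
    intro k hk
    have h1 : ((2 ^ (r + 1) : ℕ) : ℤ) ∣ (n : ℤ) ^ k - (m : ℤ) ^ k := by
      have := (Int.natCast_modEq_iff.2 hmn).pow k
      exact this.dvd
    obtain ⟨t, ht⟩ := h1
    refine ⟨((t : ℂ) * ((m ^ k : ℕ) : ℂ)⁻¹) • ((2 : ℂ) ^ r • f k), VV_smul (hr k hk)
      (O.mul_mem (intCast_mem O t) (hodd _ (hz.1.pow))), ?_⟩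
    have h2 : ((n : ℂ) ^ k - (m : ℂ) ^ k) = 2 ^ (r + 1) * t := by
      have := congrArg (Int.cast : ℤ → ℂ) ht
      push_cast at this
      exact this
    rw [two_mul_eq_smul, smul_smul, smul_smul]
    have h3 : ((n : ℂ) / m) ^ k • f k - f k = ((((n : ℂ) ^ k - (m : ℂ) ^ k)) * ((m : ℂ) ^ k)⁻¹) • f k := by
      rw [sub_mul, sub_smul, mul_inv_cancel₀ (pow_ne_zero _ hm), one_smul, div_pow, div_eq_mul_inv]
    rw [h3, h2]
    congr 1
    push_cast
    ring
  choose! G hG eG using key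
  refine ⟨∑ k ∈ Finset.range N, G k, sum_mem fun k hk => hG k (Finset.mem_range.1 hk), ?_⟩
  rw [e, sl_sum, ← Finset.sum_sub_distrib, Finset.mul_sum]
  apply Finset.sum_congr rfl
  intro k hk
  rw [sl_sc (MO_le_Wt (hf k)) hz, eG k (Finset.mem_range.1 hk)]

/-! ### upper triangular matrices with `d = 1` -/

lemma res_sl_ut1 (F : X → ℂ) {a b : ℕ} (h : 0 < (ut a b (1 : ℕ)).det) :
    res (sl F (iG (ut a b (1 : ℕ)) h)) = fun τ => res F (iG (ut a b (1 : ℕ)) h • τ) := by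
  funext τ
  rw [res_apply, sl_apply, res_apply]
  congr 1
  apply X.ext
  · rfl
  · rw [smul_w]
    apply Units.ext
    rw [mul_one, dn_ut]
    simp

lemma qf_sl_ut1 {F : X → ℂ} (hF : F ∈ MM) {a b : ℕ} (ha : Odd a)
    (h : 0 < (ut a b (1 : ℕ)).det) (s : ℚ) :
    (qf (res (sl F (iG (ut a b (1 : ℕ)) h)))).coeff (s * a) = ee (s * b) * (qf (res F)).coeff s := by
  rw [res_sl_ut1]
  have := qf_comp_ut (MM_res hF) (a := a) (b := b) (d := 1) ha odd_one h s
  simpa using this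

lemma two_T_iff (hroot : ∀ x : ℚ, Odd x.den → ee x ∈ O) {F : X → ℂ} (hF : F ∈ MM)
    (h : 0 < (ut (1 : ℕ) (1 : ℕ) (1 : ℕ)).det) :
    Two O (res (sl F (iG (ut (1 : ℕ) (1 : ℕ) (1 : ℕ)) h))) ↔ Two O (res F) := by
  have key : ∀ s : ℚ, (qf (res (sl F (iG (ut (1 : ℕ) (1 : ℕ) (1 : ℕ)) h)))).coeff s =
      ee s * (qf (res F)).coeff s := by
    intro s
    have := qf_sl_ut1 hF (a := 1) (b := 1) odd_one h s
    simpa using this
  have hz : ∀ s : ℚ, ¬ Odd s.den → (qf (res F)).coeff s = 0 := by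
    intro s hs
    obtain ⟨M, hM, hf⟩ := MM_res hF
    apply qf_coeff_of_notMem hM hf
    intro n hn
    apply hs
    rw [← hn]
    have h1 : ((n : ℚ) / M).den ∣ M := by
      have := Rat.den_dvd (n : ℤ) (M : ℤ)
      have h2 : ((n : ℤ) : ℚ) / ((M : ℤ) : ℚ) = (n : ℚ) / M := by push_cast; rfl
      rw [Rat.divInt_eq_div, h2] at this
      exact_mod_cast this
    exact hM.of_dvd_nat h1
  have hee : ∀ s : ℚ, ee (-s) * ee s = 1 := by
    intro s
    rw [← ee_add]
    simp [ee]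
  constructor
  · intro h2 s
    by_cases hs : Odd s.den
    · obtain ⟨y, hy, e⟩ := h2 s
      rw [key] at e
      refine ⟨ee (-s) * y, O.mul_mem (hroot _ (by simpa using hs)) hy, ?_⟩
      have : (qf (res F)).coeff s = (ee (-s) * ee s) * (qf (res F)).coeff s := by rw [hee, one_mul]
      rw [this, mul_assoc, e]; ring
    · exact ⟨0, O.zero_mem, by rw [hz s hs, mul_zero]⟩
  · intro h2 s
    rw [key]
    by_cases hs : Odd s.den
    · obtain ⟨y, hy, e⟩ := h2 s
      exact ⟨ee s * y, O.mul_mem (hroot _ hs) hy, by rw [e]; ring⟩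
    · exact ⟨0, O.zero_mem, by rw [hz s hs, mul_zero, mul_zero]⟩

lemma two_D_iff {F : X → ℂ} (hF : F ∈ MM) {n : ℕ} (hn : Odd n)
    (h : 0 < (ut (n : ℕ) (0 : ℕ) (1 : ℕ)).det) :
    Two O (res (sl F (iG (ut (n : ℕ) (0 : ℕ) (1 : ℕ)) h))) ↔ Two O (res F) := by
  have hn0 : (n : ℚ) ≠ 0 := by exact_mod_cast hn.pos.ne'
  have key : ∀ s : ℚ, (qf (res (sl F (iG (ut (n : ℕ) (0 : ℕ) (1 : ℕ)) h)))).coeff (s * n) =
      (qf (res F)).coeff s := by
    intro s
    have := qf_sl_ut1 hF (a := n) (b := 0) hn h s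
    rw [this]
    have : ee (s * ((0 : ℕ) : ℚ)) = 1 := by simp [ee]
    rw [this, one_mul]
  constructor
  · intro h2 s
    obtain ⟨y, hy, e⟩ := h2 (s * n)
    rw [key] at e
    exact ⟨y, hy, e⟩
  · intro h2 s
    obtain ⟨y, hy, e⟩ := h2 (s / n)
    have := key (s / n)
    rw [div_mul_cancel₀ _ hn0] at this
    exact ⟨y, hy, by rw [this, e]⟩

/-! ### the q-expansion principle -/

/-- statement (K) -/
def SK (O : Subring ℂ) : Prop := ∀ h ∈ VV O,
  (∀ (c : ℕ) (hc : Odd c), ∃ G ∈ VV O, sl h (iG (sc c) (sc_pos hc)) - h = 2 * G) →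
    ∃ k, ∃ f ∈ Lk O k, ∃ G ∈ VV O, h - f = 2 * G

/-- statement (D) -/
def SD (O : Subring ℂ) : Prop := ∀ k, ∀ f ∈ Lk O k, Two O (res f) → ∃ g ∈ Lk O k, f = 2 * g

theorem hyp (hp : PrimeTwo O) (hodd : ∀ n : ℕ, Odd n → (n : ℂ)⁻¹ ∈ O) (hK : SK O) (hD : SD O) :
    QPrin.Hyp (sV O) ZZ (II O) (PP O) {F : VV O | ∃ k, F.1 ∈ Lk O k} where
  sl_one x := Subtype.ext (sl_one_right x.1)
  sl_mul g h x := Subtype.ext (sl_mul_right x.1 g.1 h.1)
  comm z hz g := ZZ_comm hz g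
  slI g x hx := by
    rw [mem_II] at hx ⊢
    obtain ⟨G, hG, e⟩ := hx
    exact ⟨sl G g.1, VV_sl hG g.2, by rw [sV_coe, e]; rfl⟩
  prime := PP_prime hp
  le := by
    intro x hx
    rw [mem_II] at hx
    obtain ⟨G, hG, e⟩ := hx
    rw [mem_PP, e]
    exact two_res_of_VV hG
  slB := by
    rintro g b ⟨k, hk⟩
    exact ⟨k, Lk_sl hk g.2⟩
  fin x := by
    obtain ⟨R, hR⟩ := exists_fix hodd x.2
    have : NeZero (2 ^ R) := ⟨by positivity⟩
    refine ⟨ZN (2 ^ R), ZN_le _, ZN_finiteIndex _, fun u hu => ?_⟩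
    rw [mem_II]
    exact hR u hu
  K x hx := by
    obtain ⟨k, f, hf, G, hG, e⟩ := hK x.1 x.2 (by
      intro c hc
      have := hx (scG c hc) (scG_mem c hc)
      rw [mem_II] at this
      exact this)
    refine ⟨⟨f, Lk_le_VV hf⟩, ⟨k, hf⟩, ?_⟩
    rw [mem_II]
    exact ⟨G, hG, e⟩
  D := by
    rintro b ⟨k, hk⟩ hP
    rw [mem_II]
    obtain ⟨g, hg, e⟩ := hD k b.1 hk hP
    exact ⟨g, Lk_le_VV hg, e⟩

theorem PP_eq (hp : PrimeTwo O) (hodd : ∀ n : ℕ, Odd n → (n : ℂ)⁻¹ ∈ O)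
    (hroot : ∀ x : ℚ, Odd x.den → ee x ∈ O) (hK : SK O) (hD : SD O) : PP O = II O := by
  apply QPrin.eq_of_sep (hyp hp hodd hK hD)
  · apply G2_closure
    · intro x
      exact two_T_iff hroot x.2.1 (by simp [ut])
    · intro n hn ho x
      obtain ⟨m, rfl⟩ := Int.eq_ofNat_of_zero_le hn.le
      have hm : Odd m := by exact_mod_cast ho
      exact two_D_iff x.2.1 hm (by simpa [ut] using det_D hn)
  · intro x hx
    rw [mem_II]
    exact VV_half x.2.1 fun g hg => hx ⟨g, hg⟩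

/-- **the q-expansion principle on `V/2`** -/
theorem C1 (hp : PrimeTwo O) (hodd : ∀ n : ℕ, Odd n → (n : ℂ)⁻¹ ∈ O)
    (hroot : ∀ x : ℚ, Odd x.den → ee x ∈ O) (hK : SK O) (hD : SD O)
    {F : X → ℂ} (hF : F ∈ VV O) (h : Two O (res F)) : ∃ G ∈ VV O, F = 2 * G := by
  have h1 : (⟨F, hF⟩ : VV O) ∈ PP O := h
  rw [PP_eq hp hodd hroot hK hD, mem_II] at h1
  exact h1



end Crest.Agent.R007.QInst
end

-- ▼ part R007/QInstO

/-! Row 7, section C: `O = OO` satisfies the hypotheses of the q-expansion principle. -/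

set_option autoImplicit false

namespace Crest.Agent.R007.QInst

open UpperHalfPlane ModularForm CongruenceSubgroup Matrix
open Crest.Agent.R007.Lat Crest.Agent.R007.Mix
open scoped MatrixGroups Manifold ModularForm

open Crest.Agent.R007.Coef (OO)

theorem primeTwo_of_prime {O : Subring ℂ} (h : Prime (2 : O)) : PrimeTwo O := by
  refine ⟨?_, ?_⟩
  · intro y hy e
    apply h.not_isUnit
    refine IsUnit.of_mul_eq_one ⟨y, hy⟩ ?_
    exact Subtype.ext e.symm
  · rintro x hx y hy ⟨z, hz, e⟩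
    have h1 : (2 : O) ∣ ⟨x, hx⟩ * ⟨y, hy⟩ := ⟨⟨z, hz⟩, Subtype.ext e⟩
    rcases h.dvd_or_dvd h1 with ⟨w, hw⟩ | ⟨w, hw⟩
    · exact Or.inl ⟨w.1, w.2, congrArg Subtype.val hw⟩
    · exact Or.inr ⟨w.1, w.2, congrArg Subtype.val hw⟩

theorem OO_primeTwo : PrimeTwo OO := primeTwo_of_prime Coef.prime_two

theorem OO_hodd : ∀ n : ℕ, Odd n → (n : ℂ)⁻¹ ∈ OO := fun _ hn => Coef.inv_nat_mem hn

theorem OO_hroot : ∀ x : ℚ, Odd x.den → ee x ∈ OO := by
  intro x hx
  apply Coef.root_mem hx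
  rw [← ee_nsmul, mul_comm, Rat.mul_den_eq_num]
  simp only [ee, Rat.cast_intCast]
  rw [show (2 * Real.pi * Complex.I * (x.num : ℂ)) = (x.num : ℂ) * (2 * Real.pi * Complex.I) by ring]
  exact Complex.exp_int_mul_two_pi_mul_I x.num

/-- the q-expansion principle on `V/2`, `O = OO` -/
theorem C1_OO (hK : SK OO) (hD : SD OO) : ∀ F ∈ VV OO, Two OO (res F) → ∃ G ∈ VV OO, F = 2 * G :=
  fun _ hF h => C1 OO_primeTwo OO_hodd OO_hroot hK hD hF h

end Crest.Agent.R007.QInst
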