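import Crest.Agent.R007.Link
import Crest.Agent.R007.EHasse
import Crest.Agent.R007.QInstO
import Crest.Agent.R007.ELev1
import Crest.Agent.R007.EIn
import Crest.Agent.R007.EUnit
import Crest.Agent.R007.DThm
import Crest.Agent.R007.OOInst
import Crest.Agent.R007.FgW

-- ▼ part R007/LinkT
section

/-!
# Row 7 (S0007): LINK, second part (helper720): `TopZ.TData` from `QP`, `EOut`, `EmbOut`.
-/

set_option autoImplicit false

open scoped MatrixGroups

namespace Crest.Agent.R007.Link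

open Lat F

section Aux

variable {O : Subring ℂ} {M : ℕ} {A : Lat.X → ℂ} {κ : Type*} [Field κ] [CharP κ 2] {D : FData κ}

theorem LL_list_sum {k : ℕ} (l : List (Lat.X → ℂ)) (h : ∀ F ∈ l, F ∈ LL O k) : l.sum ∈ LL O k :=
  AddSubgroup.list_sum_mem _ h

theorem pow_mul_LL (hA : A ∈ LL O 1) {l : ℕ} (j : ℕ) {G : Lat.X → ℂ} (hG : G ∈ LL O l) :
    A ^ j * G ∈ LL O (j + l) := by
  have h := LL_pow hA j
  rw [mul_one] at h
  exact LL_mul h hG

theorem pow_mul_Cong (hA : A ∈ LL O 1) (hA1 : Cong O A cone) {l : ℕ} (j : ℕ) {G : Lat.X → ℂ}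
    (hG : G ∈ LL O l) {c : ℚ → ZMod 2} (hc : Cong O G c) : Cong O (A ^ j * G) c := by
  induction j with
  | zero => simpa using hc
  | succ j ih =>
    have e : A ^ (j + 1) * G = A * (A ^ j * G) := by ring
    rw [e]
    have h1 := pow_mul_LL hA j hG
    exact Cong.mul_one (LL_PO hA) (LL_PO h1) hA1 (LL_coeff h1) ih


/-- the class of `ev F / t^k` in `K/R` -/
noncomputable def EOut.cl (E : EOut O M A D) (p : E.P) (k : ℕ) (F : LL O k) : KR κ :=
  Submodule.Quotient.mk (E.q p k F)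

theorem EOut.cl_zero (E : EOut O M A D) {p : E.P} {k : ℕ} {F : LL O k} (h : E.cl p k F = 0) :
    (PowerSeries.X : PowerSeries κ) ^ k ∣ E.ev p k F := by
  rw [EOut.cl, Submodule.Quotient.mk_eq_zero] at h
  obtain ⟨b, hb⟩ := h
  refine ⟨b, ?_⟩
  rw [EOut.q, eq_div_iff (pow_ne_zero _ tne)] at hb
  apply IsFractionRing.injective (PowerSeries κ) (LaurentSeries κ)
  rw [map_mul, map_pow, ← hb, mul_comm]

end Aux

section Build

variable {O : Subring ℂ} {M : ℕ} {A : Lat.X → ℂ} {κ : Type*} [Field κ] [CharP κ 2] {D : FData κ}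
  {T0 W I : Type*} [CommRing T0] [Algebra (ZMod 2) T0]
  [AddCommGroup W] [Module (ZMod 2) W] [Module T0 W] {gen : I → T0} {a : W →ₗ[ZMod 2] ZMod 2}

/-- hypotheses of the link -/
structure Hyp (O : Subring ℂ) (M : ℕ) (A : Lat.X → ℂ) : Prop where
  qp : QP O
  A_mem : A ∈ LL O 1
  A_M : A ∈ MX M 1
  A_one : Cong O A cone
  one_ne : ∀ a ∈ O, (1 : ℂ) ≠ 2 * a

variable (H : Hyp O M A) (E : EOut O M A D) (B : EmbOut O M gen a)

/-- weight of the chosen representative -/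
noncomputable def wt (w : W) : ℕ := (B.surj w).choose

/-- the chosen representative -/
noncomputable def rp (w : W) : LL O (wt B w) :=
  ⟨(B.surj w).choose_spec.choose, (B.surj w).choose_spec.choose_spec.1⟩

theorem rp_MX (w : W) : (rp B w : Lat.X → ℂ) ∈ MX M (wt B w) :=
  (B.surj w).choose_spec.choose_spec.2.1

theorem rp_Cong (w : W) : Cong O (rp B w : Lat.X → ℂ) (B.Q w) :=
  (B.surj w).choose_spec.choose_spec.2.2

/-- supersingular expansions -/
noncomputable def Ev (p : E.P) (w : W) : KR κ := E.cl p (wt B w) (rp B w)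

include H in
theorem Ev_eq (p : E.P) (w : W) {k : ℕ} (F : LL O k) (h : Cong O F (B.Q w)) :
    Ev E B p w = E.cl p k F := by
  rw [Ev, EOut.cl, EOut.cl, E.q_congr H.qp H.A_mem H.A_one (rp B w) F (rp_Cong B w) h p]

include H in
theorem Ev_add (p : E.P) (w w' : W) : Ev E B p (w + w') = Ev E B p w + Ev E B p w' := by
  have h1 := pow_mul_LL H.A_mem (wt B w') (rp B w).2
  have h2 := pow_mul_LL H.A_mem (wt B w) (rp B w').2
  have c1 := pow_mul_Cong H.A_mem H.A_one (wt B w') (rp B w).2 (rp_Cong B w)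
  have c2 := pow_mul_Cong H.A_mem H.A_one (wt B w) (rp B w').2 (rp_Cong B w')
  rw [add_comm (wt B w') (wt B w)] at h1
  rw [Ev_eq H E B p w ⟨_, h1⟩ c1, Ev_eq H E B p w' ⟨_, h2⟩ c2]
  have c3 : Cong O ((⟨_, h1⟩ + ⟨_, h2⟩ : LL O (wt B w + wt B w')) : Lat.X → ℂ) (B.Q (w + w')) := by
    rw [map_add]
    exact Cong.add (LL_PO h1) (LL_PO h2) c1 c2
  rw [Ev_eq H E B p (w + w') _ c3, EOut.cl, EOut.cl, EOut.cl, E.q_add]
  rfl

/-- supersingular expansions as linear maps -/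
noncomputable def EL [Algebra (ZMod 2) κ] (p : E.P) : W →ₗ[ZMod 2] KR κ :=
  AddMonoidHom.toZModLinearMap 2
    { toFun := Ev E B p
      map_zero' := by
        have := Ev_add H E B p 0 0
        rw [add_zero] at this
        simpa using this
      map_add' := Ev_add H E B p }

@[simp] theorem EL_apply [Algebra (ZMod 2) κ] (p : E.P) (w : W) : EL H E B p w = Ev E B p w := rfl

include H in
theorem Q_adjoin [IsScalarTower (ZMod 2) T0 W] (x : T0)
    (hx : x ∈ Algebra.adjoin (ZMod 2) (Set.range gen)) :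
    ∀ w : W, B.Q w = 0 → B.Q (x • w) = 0 := by
  induction hx using Algebra.adjoin_induction with
  | mem x hx =>
    obtain ⟨i, rfl⟩ := hx
    intro w hw
    have h0 : Cong O ((rp B w : LL O (wt B w)) : Lat.X → ℂ) 0 := hw ▸ rp_Cong B w
    obtain ⟨G, hG, eG⟩ := H.qp _ _ (rp B w).2 (fun r => by
      obtain ⟨b, hb, eb⟩ := h0 r
      exact ⟨b, hb, by rw [eb]; simp⟩)
    have h1 := B.hecke i w _ _ (rp B w).2 (rp_MX B w) (rp_Cong B w)
    have hGl : ∀ F ∈ (B.hk i).map (sl G), F ∈ LL O (wt B w) := by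
      intro F hF
      obtain ⟨g, hg, rfl⟩ := List.mem_map.1 hF
      exact LL_sl hG (B.hk_mem i g hg)
    have h2 : ((B.hk i).map (sl (rp B w : Lat.X → ℂ))).sum = (2 : ℂ) • ((B.hk i).map (sl G)).sum := by
      rw [eG]
      have : ∀ l : List GL(2, ℝ)⁺, (l.map (sl ((2 : ℂ) • G))).sum = (2 : ℂ) • (l.map (sl G)).sum := by
        intro l
        induction l with
        | nil => simp
        | cons g l ih => rw [List.map_cons, List.sum_cons, ih, sl_smul, List.map_cons,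
            List.sum_cons, smul_add]
      exact this _
    rw [h2] at h1
    refine Cong.zero_of_two H.one_ne h1 fun r => ?_
    have hs := LL_list_sum _ hGl
    refine ⟨_, LL_coeff hs r, ?_⟩
    rw [res_smul, qf_smul _ (LL_PO hs), HahnSeries.coeff_smul, smul_eq_mul]
  | algebraMap r =>
    intro w hw
    rw [algebraMap_smul]
    have h2 : ∀ r : ZMod 2, r = 0 ∨ r = 1 := by decide
    rcases h2 r with rfl | rfl
    · rw [zero_smul, map_zero]
    · rw [one_smul, hw]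
  | add x y _ _ hx hy =>
    intro w hw
    rw [add_smul, map_add, hx w hw, hy w hw, add_zero]
  | mul x y _ _ hx hy =>
    intro w hw
    rw [mul_smul]
    exact hx _ (hy w hw)

include H in
theorem Ev_inj [IsScalarTower (ZMod 2) T0 W]
    (dual : ∀ w : W, (∀ t : T0, a (t • w) = 0) → w = 0)
    (approx : ∀ (s : Finset W) (t : T0), ∃ x ∈ Algebra.adjoin (ZMod 2) (Set.range gen),
      ∀ w ∈ s, t • w = x • w) (w : W) (h : ∀ p, Ev E B p w = 0) : w = 0 := by
  obtain ⟨c, hc, G, hG, eG⟩ := E.reg _ (rp B w) (rp_MX B w) fun p => E.cl_zero (h p)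
  -- the constant term
  have hAk := pow_mul_Cong H.A_mem H.A_one (wt B w) (LL_one (O := O)) (c := cone) (by
    intro r
    refine ⟨0, O.zero_mem, ?_⟩
    rw [res_one, qf_one, HahnSeries.coeff_one, cone]
    split_ifs <;> simp [ZMod.val_one])
  rw [mul_one] at hAk
  have hAm := pow_mul_LL H.A_mem (wt B w) (LL_one (O := O))
  rw [mul_one, add_zero] at hAm
  have hc2 : ∃ b ∈ O, c = 2 * b := by
    obtain ⟨b, hb, eb⟩ := rp_Cong B w 0
    obtain ⟨b', hb', eb'⟩ := hAk 0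
    rw [B.Q_zero, ZMod.val_zero, Nat.cast_zero, zero_add, eG, res_add, res_smul, res_smul,
      qf_add (Subalgebra.smul_mem _ (LL_PO hAm) _) (Subalgebra.smul_mem _ (LL_PO hG) _),
      qf_smul _ (LL_PO hAm), qf_smul _ (LL_PO hG), HahnSeries.coeff_add, HahnSeries.coeff_smul,
      HahnSeries.coeff_smul, smul_eq_mul, smul_eq_mul, eb'] at eb
    have h1 : ((cone 0).val : ℂ) = 1 := by simp [cone, ZMod.val_one]
    rw [h1] at eb
    refine ⟨b - c * b' - (qf (res G)).coeff 0,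
      O.sub_mem (O.sub_mem hb (O.mul_mem hc hb')) (LL_coeff hG 0), ?_⟩
    linear_combination eb
  obtain ⟨b, hb, rfl⟩ := hc2
  have hQ : B.Q w = 0 := by
    refine Cong.zero_of_two H.one_ne (rp_Cong B w) fun r => ?_
    have hm : b • A ^ (wt B w) + G ∈ LL O (wt B w) := add_mem (LL_smul hAm hb) hG
    refine ⟨_, LL_coeff hm r, ?_⟩
    have e2 : (rp B w : Lat.X → ℂ) = (2 : ℂ) • (b • A ^ (wt B w) + G) := by
      rw [eG, smul_add, smul_smul]
    rw [e2, res_smul, qf_smul _ (LL_PO hm), HahnSeries.coeff_smul, smul_eq_mul]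
  apply dual
  intro t
  obtain ⟨x, hx, e⟩ := approx {w} t
  rw [e w (by simp), ← B.Q_one, Q_adjoin H B x hx w hQ]
  rfl

/-- Hecke formula: transport of one matrix -/
theorem trans (p : E.P) (δ : GL(2, ℝ)⁺) (hδ : δ ∈ G2) :
    ∃ (g : Pr D) (p' : E.P), ∀ (k : ℕ) (F : LL O k), (F : Lat.X → ℂ) ∈ MX M k →
      E.cl p k ⟨sl (F : Lat.X → ℂ) δ, LL_sl F.2 hδ⟩ = actKR g.s (E.cl p' k F) := by
  obtain ⟨g, p', h⟩ := E.hecke p δ hδ
  refine ⟨g, p', fun k F hF => ?_⟩
  have := h k F ⟨sl (F : Lat.X → ℂ) δ, LL_sl F.2 hδ⟩ hF rfl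
  rw [EOut.cl, EOut.q, this, EOut.cl, actKR_mk]
  rfl

/-- the pairs -/
noncomputable def tr (p : E.P) (δ : GL(2, ℝ)⁺) : Pr D × E.P := by
  classical
  exact if hδ : δ ∈ G2 then ⟨(trans E p δ hδ).choose, (trans E p δ hδ).choose_spec.choose⟩
    else ⟨1, p⟩

theorem tr_spec (p : E.P) (δ : GL(2, ℝ)⁺) (hδ : δ ∈ G2) (k : ℕ) (F : LL O k)
    (hF : (F : Lat.X → ℂ) ∈ MX M k) :
    E.cl p k ⟨sl (F : Lat.X → ℂ) δ, LL_sl F.2 hδ⟩ = actKR (tr E p δ).1.s (E.cl (tr E p δ).2 k F) := by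
  rw [tr, dif_pos hδ]
  exact (trans E p δ hδ).choose_spec.choose_spec k F hF

include H in
theorem Ev_hecke [Algebra (ZMod 2) κ] (i : I) (p : E.P) (w : W) :
    EL H E B p (gen i • w) =
      (((B.hk i).map (tr E p)).map fun d => act (ZMod 2) D d.1 (EL H E B d.2 w)).sum := by
  have h1 := B.hecke i w _ _ (rp B w).2 (rp_MX B w) (rp_Cong B w)
  have key : ∀ l : List GL(2, ℝ)⁺, (∀ g ∈ l, g ∈ G2) →
      ∃ hm : (l.map (sl (rp B w : Lat.X → ℂ))).sum ∈ LL O (wt B w),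
        E.cl p (wt B w) ⟨_, hm⟩ =
          ((l.map (tr E p)).map fun d => act (ZMod 2) D d.1 (EL H E B d.2 w)).sum := by
    intro l
    induction l with
    | nil =>
      intro _
      refine ⟨by simp [(LL O (wt B w)).zero_mem], ?_⟩
      have : (⟨(([] : List GL(2, ℝ)⁺).map (sl (rp B w : Lat.X → ℂ))).sum, by
        simp [(LL O (wt B w)).zero_mem]⟩ : LL O (wt B w)) = 0 := Subtype.ext (by simp)
      rw [this, EOut.cl, EOut.q, map_zero, map_zero, zero_div]
      simp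
    | cons g l ih =>
      intro hl
      obtain ⟨hm, e⟩ := ih fun g' hg' => hl g' (List.mem_cons_of_mem _ hg')
      have hg := hl g (List.mem_cons_self ..)
      have hs : sl (rp B w : Lat.X → ℂ) g ∈ LL O (wt B w) := LL_sl (rp B w).2 hg
      refine ⟨by rw [List.map_cons, List.sum_cons]; exact add_mem hs hm, ?_⟩
      have e1 : (⟨((g :: l).map (sl (rp B w : Lat.X → ℂ))).sum, by
          rw [List.map_cons, List.sum_cons]; exact add_mem hs hm⟩ : LL O (wt B w)) =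
          ⟨_, hs⟩ + ⟨_, hm⟩ := Subtype.ext (by
            change ((g :: l).map (sl (rp B w : Lat.X → ℂ))).sum =
              sl (rp B w : Lat.X → ℂ) g + (l.map (sl (rp B w : Lat.X → ℂ))).sum
            rw [List.map_cons, List.sum_cons])
      rw [e1]
      have e2 : E.cl p (wt B w) (⟨_, hs⟩ + ⟨_, hm⟩) = E.cl p (wt B w) ⟨_, hs⟩ +
          E.cl p (wt B w) ⟨_, hm⟩ := by
        rw [EOut.cl, E.q_add]; rfl
      rw [e2, e, tr_spec E p g hg _ (rp B w) (rp_MX B w), List.map_cons, List.map_cons,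
        List.sum_cons]
      rfl
  obtain ⟨hm, e⟩ := key _ (B.hk_mem i)
  rw [EL_apply, Ev_eq H E B p _ ⟨_, hm⟩ h1, e]

/-- **TDATA.** -/
noncomputable def tdata [Algebra (ZMod 2) κ] [IsScalarTower (ZMod 2) T0 W]
    (dual_inj : ∀ t : T0, (∀ w : W, a (t • w) = 0) → t = 0)
    (dual_surj : ∀ f : W →ₗ[ZMod 2] ZMod 2, ∃ t : T0, ∀ w, f w = a (t • w))
    (dual : ∀ w : W, (∀ t : T0, a (t • w) = 0) → w = 0)
    (approx : ∀ (s : Finset W) (t : T0), ∃ x ∈ Algebra.adjoin (ZMod 2) (Set.range gen),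
      ∀ w ∈ s, t • w = x • w)
    (locfin : ∀ w : W, Module.Finite (ZMod 2) (Submodule.span T0 {w})) :
    TopZ.TData (ZMod 2) T0 W (KR κ) (Pr D) E.P I (act (ZMod 2) D) where
  a := a
  dual_inj := dual_inj
  dual_surj := dual_surj
  gen := gen
  approx := approx
  locfin := locfin
  E := EL H E B
  E_inj := fun w h => Ev_inj H E B dual approx w h
  hk := fun i p => (B.hk i).map (tr E p)
  hecke := fun i p w => Ev_hecke H E B i p w

end Build

end Crest.Agent.R007.Link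
end

-- ▼ part R007/Main1
section

/-!
# Row 7 (S0007): MAIN assembly, part 1 (helper720): `Link.Hyp` for the ring `Coef.OO`.
-/

set_option autoImplicit false

open scoped MatrixGroups

namespace Crest.Agent.R007.Main

open Lat

/-- the base point of order `3` -/
def v0 : Fin 2 → ℤ := ![1, 0]

theorem nz_v0 : Tc.NZ 3 v0 := Or.inl (by simp [v0])

theorem oddRing : Tc.OddRing Coef.OO where
  zeta_mem M hM := by
    have h : Wp.zeta M ^ M = 1 := Wp.zeta_pow M hM.pos.ne'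
    exact Coef.root_mem hM h
  inv_mem _ hn := Coef.inv_nat_mem hn

/-- the weight one Hasse form -/
noncomputable def AA : X → ℂ := lift 1 (Tc.A1 v0)

/-- the weight three form -/
noncomputable def BB : X → ℂ := lift 3 (Tc.A3 v0)

theorem AA_mem : AA ∈ Link.LL Coef.OO 1 := EH.A1_mem_Lk oddRing nz_v0

theorem BB_mem : BB ∈ Link.LL Coef.OO 3 := EH.A3_mem_Lk oddRing nz_v0

theorem AA_MX {M : ℕ} [NeZero M] (hM : 3 ∣ M) : AA ∈ MX M 1 :=
  MX_mono hM (EH.isF_mem_MX (Tc.isF_A1 nz_v0))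

theorem AA_Cong : Link.Cong Coef.OO AA Link.cone := by
  intro r
  obtain ⟨a, ha, e⟩ := EH.hasse_inf oddRing nz_v0 r
  refine ⟨a, ha, ?_⟩
  have h1 : res AA = (res AA - 1) + 1 := by ring
  have hA : res AA ∈ PO := Link.LL_PO AA_mem
  rw [h1, qf_add (sub_mem hA (one_mem _)) (one_mem _), HahnSeries.coeff_add]
  change (qf (res (lift 1 (Tc.A1 v0)) - 1)).coeff r + _ = _
  rw [e, qf_one, HahnSeries.coeff_one, Link.cone]
  split_ifs <;> simp [ZMod.val_one, add_comm]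

theorem one_ne : ∀ a ∈ Coef.OO, (1 : ℂ) ≠ 2 * a := by
  intro a ha h
  apply Coef.two_not_isUnit
  refine isUnit_iff_exists_inv.2 ⟨⟨a, ha⟩, ?_⟩
  exact Subtype.ext h.symm



end Crest.Agent.R007.Main
end

-- ▼ part R007/EInLev
section

/-!
R007/EInLev: the field `lev1` of `EIn`, in its exact form.
-/

set_option autoImplicit false

namespace Crest.Agent.R007.Lev1

open UpperHalfPlane ModularForm CongruenceSubgroup
open Crest.Agent.R007.Rat Crest.Agent.R007.Tc Crest.Agent.R007.Lat Crest.Agent.R007.Mix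
open scoped MatrixGroups Manifold

noncomputable section

variable {O : Subring ℂ} {v : Fin 2 → ℤ}

lemma lift_isR_mem (hO : OddRing O) (k : ℕ) (G : ℍ → ℂ) (h : IsR O 3 k G) :
    Lat.lift k G ∈ Mix.Lk O k := EH.isR_mem_Lk hO (by decide) h



lemma Disc_eq (hv : NZ 3 v) : EL.Disc (AX v) (BX v) = DX := (DX_eq hv).symm

theorem lev1_EIn (hO : OddRing O) (hv : NZ 3 v) : ∀ (k : ℕ) (F : X → ℂ), F ∈ Mix.Lk O k →
    F ∈ MX 1 k → ∃ (c : ℕ → O) (G : X → ℂ), G ∈ Mix.Lk O k ∧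
    F = ∑ i ∈ Finset.range (k / 12 + 1),
      (c i : ℂ) • ((EL.Disc (AX v) (BX v)) ^ i * AX v ^ (k - 12 * i)) + 2 * G := by
  intro k F hF h1
  obtain ⟨c, hc, G, hG, e⟩ := lev1_X hO hv (lift_isR_mem hO) hF h1
  refine ⟨fun i => ⟨c i, hc i⟩, G, hG, ?_⟩
  rw [Disc_eq hv, two_mul_eq_smul]
  exact e

end

end Crest.Agent.R007.Lev1
end

-- ▼ part R007/EUnit2
section

/-!
Row 7, section E: units, lifted forms. For `δ ∈ G2`, `A₃ ∥ δ` divides a power of `Δ` in `L`.
-/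

set_option autoImplicit false

namespace Crest.Agent.R007.EUnit

open Crest.Agent.R007.Wp hiding ee
open Crest.Agent.R007.Rat Crest.Agent.R007.WpId Crest.Agent.R007.Tc
open Crest.Agent.R007.Lat Crest.Agent.R007.Mix Crest.Agent.R007.EH Crest.Agent.R007.EL
open UpperHalfPlane hiding I
open Complex PeriodPair ModularForm Matrix Function Filter
open scoped MatrixGroups Real PeriodPair Manifold Topology

noncomputable section

section gen

variable {O : Subring ℂ} {M : ℕ} [NeZero M] {k l : ℤ} {F D : ℍ → ℂ}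

/-- **General division lemma.** -/
theorem isR_div_gen (hF : IsR O M k F) (hD : IsR O M l D) (h0 : ∀ τ, F τ ≠ 0)
    (hl : ∀ g : SL(2, ℤ), ∃ n, (∀ m < n, PowerSeries.coeff m (qe M (F ∣[k] g)) = 0) ∧
      PowerSeries.coeff n (qe M (F ∣[k] g)) ≠ 0 ∧ (PowerSeries.coeff n (qe M (F ∣[k] g)))⁻¹ ∈ O ∧
      (∀ m < n, PowerSeries.coeff m (qe M (D ∣[l] g)) = 0)) :
    IsR O M (l - k) (D / F) ∧ F * (D / F) = D := by
  have hslash : ∀ g : SL(2, ℤ), (D / F) ∣[(l - k : ℤ)] g = (D ∣[l] g) / (F ∣[k] g) := by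
    intro g
    rw [div_slash_SL2]
  have hne : ∀ (g : SL(2, ℤ)) (τ : ℍ), (F ∣[k] g) τ ≠ 0 := by
    intro g τ
    rw [SL_slash_apply]
    exact mul_ne_zero (h0 _) (zpow_ne_zero _ (denom_ne_zero _ _))
  have hbdd : ∀ g : SL(2, ℤ), IsBoundedAtImInfty ((D ∣[l] g) / (F ∣[k] g)) := by
    intro g
    obtain ⟨n, hlow, hnz, -, hlow'⟩ := hl g
    have t1 := tendsto_div (hF.isF.slash_SL g) hlow
    have t2 := tendsto_div (hD.isF.slash_SL g) hlow'
    have t4 := t2.div t1 hnz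
    have t5 : Tendsto ((D ∣[l] g) / (F ∣[k] g)) atImInfty
        (𝓝 (PowerSeries.coeff n (qe M (D ∣[l] g)) /
          PowerSeries.coeff n (qe M (F ∣[k] g)))) := by
      refine t4.congr fun τ => ?_
      have hq : Periodic.qParam (M : ℝ) (τ : ℂ) ≠ 0 := by
        rw [Periodic.qParam]; exact Complex.exp_ne_zero _
      have hne' := hne g τ
      simp only [Pi.div_apply]
      have hq2 := pow_ne_zero n hq
      field_simp
    exact t5.isBigO_one ℝ
  have hisF : IsF M (l - k) (D / F) := by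
    refine ⟨fun γ hγ => ?_, ?_, fun g => ?_⟩
    · rw [hslash, hF.isF.slash γ hγ, hD.isF.slash γ hγ]
    · have hDh := hD.isF.holo
      have hFh := hF.isF.holo
      rw [UpperHalfPlane.mdifferentiable_iff] at hDh hFh ⊢
      have h2 : DifferentiableOn ℂ (fun z => (D ∘ ofComplex) z / (F ∘ ofComplex) z)
          {z | 0 < z.im} := DifferentiableOn.div hDh hFh (fun z _ => h0 _)
      exact h2
    · rw [hslash]; exact hbdd g
  refine ⟨⟨hisF, fun g => ?_⟩, ?_⟩
  · obtain ⟨n, hlow, hnz, hinv, -⟩ := hl g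
    have hprod : (F ∣[k] g) * ((D / F) ∣[(l - k : ℤ)] g) = D ∣[l] g := by
      rw [hslash]
      funext τ
      simp only [Pi.mul_apply, Pi.div_apply]
      exact mul_div_cancel₀ _ (hne g τ)
    have hqe := qe_mul (hF.isF.slash_SL g) (hisF.slash_SL g)
    rw [hprod] at hqe
    exact coeffIn_of_mul (hF.coeff g) (hD.coeff g) hqe.symm hlow hnz hinv
  · funext τ
    simp only [Pi.mul_apply, Pi.div_apply]
    exact mul_div_cancel₀ _ (h0 τ)

lemma isR_dl_pow (j : ℕ) : IsR O M ((j : ℤ) * 12) (dl ^ j) := by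
  have h : IsR O M 12 dl := ⟨isF_dl.mono (one_dvd M), fun g => by rw [dl_slash]; exact coeffIn_qe_dl⟩
  exact h.pow j

lemma qe_dl_pow_low (j : ℕ) (m : ℕ) (hm : m < j * M) : PowerSeries.coeff m (qe M (dl ^ j)) = 0 := by
  have hdl : IsF M 12 dl := isF_dl.mono (one_dvd M)
  rw [Rat.qe_pow hdl]
  have h1 : (PowerSeries.X : PowerSeries ℂ) ^ M ∣ qe M dl :=
    PowerSeries.X_pow_dvd_iff.2 (qe_dl_low (M := M))
  have h2 := pow_dvd_pow_of_dvd h1 j
  rw [← pow_mul] at h2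
  exact PowerSeries.X_pow_dvd_iff.1 h2 m (by rw [mul_comm]; exact hm)

lemma dl_pow_slash (j : ℕ) (g : SL(2, ℤ)) : (dl ^ j) ∣[((j : ℤ) * 12 : ℤ)] g = dl ^ j := by
  rw [pow_slash', dl_slash]

end gen

section lead

/-- the lifted discriminant -/
def DX : X → ℂ := lift 12 dl

lemma DX_sG (γ : SL(2, ℤ)) : sl DX (sG γ) = DX := by
  rw [DX, sl_lift_SL]
  congr 1
  exact dl_slash γ

lemma DX_mem : DX ∈ MX 1 12 := isF_mem_MX (M := 1) (k := 12) isF_dl

lemma dl_PB : dl ∈ PB ((1 : ℕ) : ℝ) := isF_mem_PB (M := 1) isF_dl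

lemma dl_PO : dl ∈ PO := ⟨1, odd_one, dl_PB⟩

lemma qf_dl_low {s : ℚ} (hs : s < 1) : (qf dl).coeff s = 0 := by
  by_cases h : ∃ n : ℕ, (n : ℚ) / ((1 : ℕ) : ℚ) = s
  · obtain ⟨n, rfl⟩ := h
    rw [qf_eq' 1 odd_one dl_PB, emb_coeff]
    have hn : n = 0 := by
      rw [Nat.cast_one, div_one] at hs
      have : n < 1 := by exact_mod_cast hs
      omega
    subst hn
    exact coeff_zero_dl
  · push Not at h
    exact qf_coeff_of_notMem odd_one dl_PB h

lemma qf_dl_one : (qf dl).coeff 1 = 1 := by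
  have e : (1 : ℚ) = ((1 : ℕ) : ℚ) / ((1 : ℕ) : ℚ) := by norm_num
  rw [e, qf_eq' 1 odd_one dl_PB, emb_coeff]
  exact coeff_one_dl

variable {O : Subring ℂ}

/-- leading coefficients of `Δ ∥ A`. -/
theorem lead_iG (hO : OddRing O) (A : Matrix (Fin 2) (Fin 2) ℤ) (hA : 0 < A.det) (ho : Odd A.det) :
    ∃ r : ℚ, r ≤ A.det ∧ (∀ s < r, (qf (res (sl DX (iG A hA)))).coeff s = 0) ∧
      (qf (res (sl DX (iG A hA)))).coeff r ≠ 0 ∧ ((qf (res (sl DX (iG A hA)))).coeff r)⁻¹ ∈ O := by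
  obtain ⟨γ, a, b, d, ha, hd, had, hAe⟩ := EH.exists_hermite' A hA
  have hodd : Odd (a * d) := by
    have : Odd ((a * d : ℕ) : ℤ) := by rw [had]; exact ho
    exact_mod_cast this
  have hao : Odd a := Nat.Odd.of_mul_left hodd
  have hdo : Odd d := Nat.Odd.of_mul_right hodd
  have hut : 0 < (ut a b d).det := by rw [ut_det]; exact_mod_cast Nat.mul_pos ha hd
  have ha0 : (a : ℚ) ≠ 0 := by exact_mod_cast ha.ne'
  have hd0 : (d : ℚ) ≠ 0 := by exact_mod_cast hd.ne'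
  have e3 : iG A hA = sG γ * iG (ut a b d) hut := by
    rw [sG, ← iG_mul _ _ _ _ (by rw [← hAe]; exact hA)]
    exact iG_congr hAe hA
  have e4 : res (sl DX (iG A hA)) =
      (((d : ℤ) : ℂ)⁻¹) ^ 12 • (fun τ => dl (iG (ut a b d) hut • τ)) := by
    rw [e3, sl_mul_right, DX_sG]
    funext τ
    have h := res_sl_ut (lift_mem 12 dl) hut τ
    rw [res_lift] at h
    exact h
  have hPO : (fun τ => dl (iG (ut a b d) hut • τ)) ∈ PO :=
    ⟨1 * d, odd_one.mul hdo, PB_comp_ut dl_PB hd hut⟩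
  have key : ∀ s : ℚ, (qf (res (sl DX (iG A hA)))).coeff (s * a / d) =
      (((d : ℤ) : ℂ)⁻¹) ^ 12 * (ee (s * b / d) * (qf dl).coeff s) := by
    intro s
    rw [e4, qf_smul _ hPO, HahnSeries.coeff_smul, smul_eq_mul, qf_comp_ut dl_PO hao hdo hut]
  have hdC : (((d : ℤ) : ℂ)) ≠ 0 := by exact_mod_cast hd.ne'
  refine ⟨(a : ℚ) / d, ?_, ?_, ?_, ?_⟩
  · have h1 : (A.det : ℚ) = (a : ℚ) * d := by rw [← had]; push_cast; ring
    rw [h1, div_le_iff₀ (by exact_mod_cast hd)]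
    have h2 : (1 : ℚ) ≤ d := by exact_mod_cast hd
    have h3 : (0 : ℚ) < a := by exact_mod_cast ha
    nlinarith [mul_pos h3 (by linarith : (0:ℚ) < d), mul_le_mul_of_nonneg_left h2 h3.le]
  · intro s hs
    have e : s = (s * d / a) * a / d := by field_simp
    rw [e, key, qf_dl_low, mul_zero, mul_zero]
    rw [div_lt_one (by exact_mod_cast ha)]
    rwa [lt_div_iff₀ (by exact_mod_cast hd)] at hs
  · have e : (a : ℚ) / d = 1 * a / d := by ring
    rw [e, key, qf_dl_one, mul_one]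
    exact mul_ne_zero (pow_ne_zero _ (inv_ne_zero hdC)) (Complex.exp_ne_zero _)
  · have e : (a : ℚ) / d = 1 * a / d := by ring
    rw [e, key, qf_dl_one, mul_one, mul_inv, inv_pow, inv_inv]
    refine mul_mem (pow_mem (by rw [Int.cast_natCast]; exact natCast_mem O d) _) ?_
    have hee : (ee (1 * b / d))⁻¹ = ee (-(1 * b / d)) := by
      rw [inv_eq_iff_eq_inv, eq_comm]
      apply inv_eq_of_mul_eq_one_left
      rw [← ee_add, add_neg_cancel]
      simp [ee]
    rw [hee]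
    apply root_mem_of_oddRing hO
    have h2 : (-(1 * (b : ℚ) / (d : ℚ))).den ∣ d := by
      rw [Rat.den_neg_eq_den]
      have h3 := Rat.den_dvd (b : ℤ) (d : ℤ)
      rw [Rat.divInt_eq_div, Int.cast_natCast, Int.cast_natCast] at h3
      rw [one_mul]
      exact Int.natCast_dvd_natCast.1 h3
    exact hdo.of_dvd_nat h2

/-- `Δ ∥ A` has no zeros. -/
lemma sl_DX_ne_zero (g : GL(2, ℝ)⁺) (x : X) : sl DX g x ≠ 0 := by
  rw [sl_apply, DX, lift_apply]
  refine mul_ne_zero (pow_ne_zero _ (Units.ne_zero _)) ?_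
  exact discriminant_ne_zero _

/-- `Δ ∥ A` divides a power of `Δ`. -/
theorem unit_iG (hO : OddRing O) (A : Matrix (Fin 2) (Fin 2) ℤ) (hA : 0 < A.det) (ho : Odd A.det) :
    ∃ (j k : ℕ) (G : X → ℂ), G ∈ Lk O k ∧ sl DX (iG A hA) * G = DX ^ j := by
  set j : ℕ := A.det.natAbs with hj
  have hjA : (j : ℤ) = A.det := by rw [hj]; exact Int.natAbs_of_nonneg hA.le
  have hj0 : 0 < j := by omega
  have hjo : Odd j := by
    have : Odd (j : ℤ) := by rw [hjA]; exact ho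
    exact_mod_cast this
  have : NeZero j := ⟨hj0.ne'⟩
  set E : X → ℂ := sl DX (iG A hA) with hE
  have hEM : E ∈ MX j 12 := by
    have := MX_sl_iG DX_mem A hA
    rwa [one_mul] at this
  have hDL : DX ∈ Lk O 12 := isR_mem_Lk hO odd_one (k := 12) isR_dl
  have hEL : E ∈ Lk O 12 := Lk_sl hDL (iG_mem_G2 A hA ho)
  obtain ⟨f, hf⟩ := hEM
  have hfE : (f : ℍ → ℂ) = res E := by rw [hf, res_lift]
  have hF : IsF j 12 (res E) := by
    rw [← hfE]; exact IsF.of_modularForm f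
  have hlift : lift 12 (res E) = E := by rw [hf, res_lift]
  -- slashes
  have hdet : ∀ g : SL(2, ℤ), 0 < (A * g.1).det := fun g => by simpa using hA
  have hsl : ∀ g : SL(2, ℤ), (res E) ∣[(12 : ℤ)] g = res (sl DX (iG (A * g.1) (hdet g))) := by
    intro g
    have h1 := slash_SL_eq_res 12 (res E) g
    rw [hlift] at h1
    have h2 : (res E) ∣[(12 : ℤ)] g = res (sl E (sG g)) := h1
    rw [h2, hE, ← sl_mul_right]
    congr 2
    rw [sG, ← iG_mul A g.1 _ _ (hdet g)]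
  have hcoef : ∀ (g : SL(2, ℤ)) (m : ℕ), PowerSeries.coeff m (qe j ((res E) ∣[(12 : ℤ)] g)) =
      (qf (res (sl DX (iG (A * g.1) (hdet g))))).coeff ((m : ℚ) / j) := by
    intro g m
    rw [← hsl g, qf_eq' j hjo (isF_mem_PB (hF.slash_SL g)), emb_coeff]
    rfl
  have hR : IsR O j 12 (res E) := by
    refine ⟨hF, fun g m => ?_⟩
    rw [hcoef]
    exact (hDL.2 _ (iG_mem_G2 _ (hdet g) (by simpa using ho))).2 _
  have hjq : (0 : ℚ) < j := by exact_mod_cast hj0
  have hne : ∀ τ, res E τ ≠ 0 := fun τ => sl_DX_ne_zero _ _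
  obtain ⟨hG, hmul⟩ := isR_div_gen hR (isR_dl_pow (O := O) (M := j) j) hne (by
    intro g
    obtain ⟨r, hr, hlow, hnz, hinv⟩ := lead_iG hO (A * g.1) (hdet g) (by simpa using ho)
    have hex : ∃ n : ℕ, (n : ℚ) / j = r := by
      by_contra hcon
      push Not at hcon
      apply hnz
      rw [← hsl g]
      exact qf_coeff_of_notMem hjo (isF_mem_PB (hF.slash_SL g)) hcon
    obtain ⟨n, rfl⟩ := hex
    refine ⟨n, fun m hm => ?_, ?_, ?_, fun m hm => ?_⟩
    · rw [hcoef]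
      apply hlow
      rw [div_lt_div_iff_of_pos_right hjq]
      exact_mod_cast hm
    · rw [hcoef]; exact hnz
    · rw [hcoef]; exact hinv
    · rw [dl_pow_slash]
      apply qe_dl_pow_low
      have h1 : (((A * g.1).det : ℤ) : ℚ) = j := by
        have : (A * g.1).det = j := by rw [hjA]; simp
        rw [this]; simp
      rw [h1, div_le_iff₀ hjq] at hr
      have h2 : n ≤ j * j := by exact_mod_cast hr
      exact lt_of_lt_of_le hm h2)
  have hcast : ((j : ℤ) * 12 - 12) = ((12 * (j - 1) : ℕ) : ℤ) := by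
    push_cast [Nat.cast_sub hj0]
    ring
  refine ⟨j, 12 * (j - 1), lift (12 * (j - 1)) (dl ^ j / res E),
    isR_mem_Lk hO hjo (hG.cast hcast), ?_⟩
  have h3 : E * lift (12 * (j - 1)) (dl ^ j / res E) = lift (12 + 12 * (j - 1)) (dl ^ j) := by
    rw [← hmul, lift_mul, hlift, hmul]
  rw [h3]
  have h4 : ∀ i : ℕ, lift (12 * i) (dl ^ i) = DX ^ i := by
    intro i
    induction i with
    | zero => simp [lift_one]
    | succ i ih => rw [Nat.mul_succ, pow_succ, lift_mul, ih, pow_succ, DX]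
  have h5 : 12 + 12 * (j - 1) = 12 * j := by omega
  rw [h5, h4]

/-- `Δ ∥ δ` divides a power of `Δ`, for all `δ ∈ G2`. -/
theorem unit_DX (hO : OddRing O) {δ : GL(2, ℝ)⁺} (hδ : δ ∈ G2) :
    ∃ (j k : ℕ) (G : X → ℂ), G ∈ Lk O k ∧ sl DX δ * G = DX ^ j := by
  obtain ⟨n, A, hn, hA, h1, h2, e1, -⟩ := G2_exists hδ
  obtain ⟨j, k, G, hG, e⟩ := unit_iG hO A h1 hA
  -- `sl DX (iG A) = n^{-12} sl DX δ`
  have h3 : sl (sl DX (iG (sc n) h2)) δ = sl DX (iG A h1) := by rw [← sl_mul_right, e1]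
  rw [sl_scalar (F := DX) (lift_mem 12 dl) n h2, sl_smul] at h3
  refine ⟨j, k, ((((n : ℤ) : ℂ))⁻¹) ^ 12 • G, Lk_smul hG (pow_mem ?_ _), ?_⟩
  · rw [Int.cast_natCast]; exact hO.inv_mem n hn
  · rw [← e, ← h3, mul_smul_comm, smul_mul_assoc]

/-- division of the discriminant by a lifted form. -/
theorem unit_lift (hO : OddRing O) {M : ℕ} (hM : Odd M) {k l : ℕ} (hkl : k + l = 12) {F : ℍ → ℂ}
    (h : IsR O M (12 - (k : ℤ)) (dl / F) ∧ F * (dl / F) = dl) :
    ∃ G ∈ Lk O l, lift k F * G = lift 12 dl := by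
  refine ⟨lift l (dl / F), isR_mem_Lk hO hM (h.1.cast (by omega)), ?_⟩
  rw [← lift_mul, h.2, hkl]



/-- `A₃` divides the discriminant. -/
theorem unit_A3_lift (hO : OddRing O) {v : Fin 2 → ℤ} (hv : NZ 3 v) :
    ∃ G ∈ Lk O 9, lift 3 (A3 v) * G = lift 12 dl :=
  unit_lift hO (by decide) (by norm_num) (unit_A3 hO hv)

lemma Disc_eq {v : Fin 2 → ℤ} (hv : NZ 3 v) :
    Disc (lift 1 (A1 v)) (lift 3 (A3 v)) = lift 12 dl := by
  funext x
  have h := disc_eq hv x.t
  simp only [Disc, Pi.mul_apply, Pi.pow_apply, Pi.sub_apply, lift_apply]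
  rw [show dl x.t = ModularForm.discriminant x.t from rfl, h]
  simp only [Pi.ofNat_apply]
  ring

/-- THE FIELD `unit` OF `EIn`. -/
theorem unit_field (hO : OddRing O) {v : Fin 2 → ℤ} (hv : NZ 3 v) :
    ∀ δ ∈ G2, ∃ (j : ℕ) (G : X → ℂ), G ∈ LL O ∧
      sl (lift 3 (A3 v)) δ * G = (Disc (lift 1 (A1 v)) (lift 3 (A3 v))) ^ j := by
  intro δ hδ
  obtain ⟨G0, hG0, e0⟩ := unit_A3_lift hO hv
  obtain ⟨j, k, G, hG, e⟩ := unit_DX hO hδ
  refine ⟨j, sl G0 δ * G, le_SR (famL O) (Lk_mul (Lk_sl hG0 hδ) hG), ?_⟩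
  rw [Disc_eq hv, ← mul_assoc, ← sl_mul, e0]
  exact e

end lead

end

end Crest.Agent.R007.EUnit
end

-- ▼ part R007/Main2

/-!
# Row 7 (S0007): MAIN assembly, part 2 (helper720): the instance `EIn` for `Coef.OO`.
-/

set_option autoImplicit false

open scoped MatrixGroups
open Crest.LubinTate

namespace Crest.Agent.R007.Main

open Lat

theorem hypM (M : ℕ) [NeZero M] (hM : 3 ∣ M) : Link.Hyp Coef.OO M AA where
  qp := Dsec.qp
  A_mem := AA_mem
  A_M := AA_MX hM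
  A_one := AA_Cong
  one_ne := one_ne

/-- scaling of the formal group -/
theorem phi_sc {A : Type*} [CommRing A] (u a b : A) (hu : IsUnit u) :
    ∃ G, IsFGHom (Fg.Phi a b) (Fg.Phi (u * a) (u ^ 3 * b)) G ∧
      IsUnit (PowerSeries.coeff 1 G) := by
  obtain ⟨v, rfl⟩ := hu
  refine ⟨PowerSeries.C ((v⁻¹ : Aˣ) : A) * PowerSeries.X, ?_, ?_⟩
  · have h := Fg.scale ((v⁻¹ : Aˣ) : A) ((v : A) * a) ((v : A) ^ 3 * b)
    have e1 : ((v⁻¹ : Aˣ) : A) * ((v : A) * a) = a := by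
      rw [← mul_assoc, Units.inv_mul, one_mul]
    have e2 : ((v⁻¹ : Aˣ) : A) ^ 3 * ((v : A) ^ 3 * b) = b := by
      rw [← mul_assoc, ← mul_pow, Units.inv_mul, one_pow, one_mul]
    rwa [e1, e2] at h
  · have : PowerSeries.coeff 1 (PowerSeries.C ((v⁻¹ : Aˣ) : A) * PowerSeries.X) =
        ((v⁻¹ : Aˣ) : A) := by
      rw [PowerSeries.coeff_C_mul, PowerSeries.coeff_one_X, mul_one]
    rw [this]
    exact Units.isUnit _

/-- the statement of E-FG -/
def FG : Prop :=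
  ∀ e : EL.LL Coef.OO →+* PowerSeries Coef.kappa,
    EL.IsPt Coef.res (EL.mkL Coef.OO AA AA_mem) (EL.mkL Coef.OO BB BB_mem) e →
    ∀ (δ : GL(2, ℝ)⁺) (hδ : δ ∈ G2), ∃ H,
      IsFGHom (Fg.Phi (e (EL.slL Coef.OO δ hδ (EL.mkL Coef.OO AA AA_mem)))
          (e (EL.slL Coef.OO δ hδ (EL.mkL Coef.OO BB BB_mem))))
        (Fg.Phi PowerSeries.X 1) H ∧ IsUnit (PowerSeries.coeff 1 H)

/-- the statement of existence of points -/
def PT : Prop :=
  ∃ e : EL.LL Coef.OO →+* PowerSeries Coef.kappa,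
    EL.IsPt Coef.res (EL.mkL Coef.OO AA AA_mem) (EL.mkL Coef.OO BB BB_mem) e

/-- **The input of section E.** -/
noncomputable def eIn (hfg : FG) (hpt : PT) : EL.EIn Coef.OO Coef.res where
  ρ_surj := OOI.rho_surj
  ρ_ker := OOI.rho_ker
  A1 := AA
  A3 := BB
  A1_mem := AA_mem
  A3_mem := BB_mem
  hasse_inf := EH.hasse_inf oddRing nz_v0
  hasse := fun _ hδ => EH.hasse_diff oddRing nz_v0 hδ
  unit := EUnit.unit_field oddRing nz_v0
  lev1 := Lev1.lev1_EIn oddRing nz_v0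
  qprin := fun _ _ hF h => Dsec.D_OO_half hF h
  D := Fg.fdata Coef.kappa
  Phi := Fg.Phi
  Phi_map := Fg.Phi_map
  Phi_D := rfl
  Phi_sc := fun u a b hu => phi_sc u a b hu
  fg := hfg
  exists_pt := hpt

end Crest.Agent.R007.Main
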