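import Mathlib
import Crest.Agent.R007.EIn
import Crest.Agent.R007.Link
import Crest.Agent.R007.FEnd
import Crest.Agent.R007.FTop
import Crest.Agent.R007.Main2
import Crest.Agent.R007.EUnit
import Crest.Agent.R007.ELev1
import Crest.Agent.R007.EHasse

-- ▼ part R007/ECore1
section

/-!
Row 7 (S0007), section E, algebraic core (wishes C1a - C1e of helper879).
-/

set_option autoImplicit false

namespace Crest.Agent.R007.ECore

open Polynomial

section C1a

variable {B Om G : Type*} [CommRing B] [Field Om] [Group G] [MulSemiringAction G B]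



end C1a

section C1b

variable {B Om G O κ J : Type*} [CommRing B] [Field Om] [Group G] [Finite G]
  [MulSemiringAction G B] [CommRing O] [Algebra O B] [SMulCommClass G O B] [Field κ] [Infinite κ]
  [Fintype J]


end C1b

section C1e

/-- **(C1e), existence.** -/
theorem exists_extension {A B Om : Type*} [CommRing A] [CommRing B] [Algebra A B]
    [Algebra.IsIntegral A B] [Field Om] [IsAlgClosed Om] (hinj : Function.Injective (algebraMap A B))
    (φ : A →+* Om) : ∃ e : B →+* Om, ∀ a, e (algebraMap A B a) = φ a := by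
  classical
  let P : Ideal A := RingHom.ker φ
  have hP : P.IsPrime := RingHom.ker_isPrime φ
  obtain ⟨Q, -, hQ, hQP⟩ := Ideal.exists_ideal_over_prime_of_isIntegral (R := A) (S := B) P ⊥ (by
    intro x hx
    rw [Ideal.mem_comap, Ideal.mem_bot] at hx
    have : x = 0 := hinj (by rw [hx, map_zero])
    rw [this]; exact zero_mem _)
  -- quotient rings
  let A' := A ⧸ P
  let B' := B ⧸ Q
  let f : A' →+* B' := Ideal.quotientMap Q (algebraMap A B) (by rw [hQP])
  have hf : Function.Injective f := Ideal.quotientMap_injective' (by rw [hQP])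
  let φ' : A' →+* Om := Ideal.Quotient.lift P φ (fun a ha => ha)
  have hφ' : Function.Injective φ' := by
    rw [RingHom.injective_iff_ker_eq_bot, Ideal.ker_quotient_lift, Ideal.map_quotient_self]
  let _ : Algebra A' B' := f.toAlgebra
  let _ : Algebra A' Om := φ'.toAlgebra
  have : IsDomain A' := Ideal.Quotient.isDomain P
  have : IsDomain B' := Ideal.Quotient.isDomain Q
  have hint : Algebra.IsIntegral A' B' := by
    constructor
    intro b
    obtain ⟨b, rfl⟩ := Ideal.Quotient.mk_surjective b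
    obtain ⟨p, hp, hpb⟩ := Algebra.IsIntegral.isIntegral (R := A) b
    refine ⟨p.map (Ideal.Quotient.mk P), hp.map _, ?_⟩
    rw [eval₂_map]
    have h1 : (algebraMap A' B').comp (Ideal.Quotient.mk P) =
        (Ideal.Quotient.mk Q).comp (algebraMap A B) := by
      ext a
      rfl
    rw [h1, ← hom_eval₂, hpb, map_zero]
  have : Module.IsTorsionFree A' B' :=
    Module.isTorsionFree_iff_algebraMap_injective.mpr hf
  have : Module.IsTorsionFree A' Om :=
    Module.isTorsionFree_iff_algebraMap_injective.mpr hφ'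
  have : Algebra.IsAlgebraic A' B' := Algebra.IsIntegral.isAlgebraic
  let g : B' →ₐ[A'] Om := IsAlgClosed.lift
  refine ⟨g.toRingHom.comp (Ideal.Quotient.mk Q), fun a => ?_⟩
  have h2 : g (algebraMap A' B' (Ideal.Quotient.mk P a)) = algebraMap A' Om (Ideal.Quotient.mk P a) :=
    g.commutes _
  exact h2

/-- **(C1e), transitivity.** -/
theorem exists_smul_eq {B Om G : Type*} [CommRing B] [CommRing Om] [IsDomain Om] [Group G]
    [Finite G] [MulSemiringAction G B] (e1 e2 : B →+* Om)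
    (h : ∀ b : B, (∀ g : G, g • b = b) → e1 b = e2 b) : ∃ g : G, ∀ b, e2 b = e1 (g • b) := by
  classical
  have : Fintype G := Fintype.ofFinite G
  by_contra hcon
  push Not at hcon
  choose b hb using hcon
  let L : G → MvPolynomial G B := fun g => ∑ k : G, MvPolynomial.C (g • b k) * MvPolynomial.X k
  let P : Polynomial (MvPolynomial G B) := ∏ g : G, (Polynomial.X - Polynomial.C (L g))
  let act : G → (MvPolynomial G B →+* MvPolynomial G B) := fun k =>
    MvPolynomial.map (MulSemiringAction.toRingHom G B k)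
  have hL : ∀ k g, act k (L g) = L (k * g) := by
    intro k g
    simp only [act, L, map_sum, map_mul, MvPolynomial.map_X, MvPolynomial.map_C,
      MulSemiringAction.toRingHom_apply, smul_smul]
  have hinv : ∀ k, P.map (act k) = P := by
    intro k
    simp only [P, Polynomial.map_prod, Polynomial.map_sub, Polynomial.map_X, Polynomial.map_C, hL]
    exact Fintype.prod_equiv (Equiv.mulLeft k) _ _ (fun g => rfl)
  have hP : P.map (MvPolynomial.map e1) = P.map (MvPolynomial.map e2) := by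
    ext j m
    rw [Polynomial.coeff_map, Polynomial.coeff_map, MvPolynomial.coeff_map, MvPolynomial.coeff_map]
    apply h
    intro k
    have h1 := congrArg (fun Q => MvPolynomial.coeff m (Polynomial.coeff Q j)) (hinv k)
    simp only [Polynomial.coeff_map, act, MvPolynomial.coeff_map] at h1
    exact h1
  let M1 : G → MvPolynomial G Om := fun g => ∑ k : G, MvPolynomial.C (e1 (g • b k)) * MvPolynomial.X k
  let M2 : G → MvPolynomial G Om := fun g => ∑ k : G, MvPolynomial.C (e2 (g • b k)) * MvPolynomial.X k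
  have hM1 : ∀ g, MvPolynomial.map e1 (L g) = M1 g := by
    intro g; simp only [L, M1, map_sum, map_mul, MvPolynomial.map_X, MvPolynomial.map_C]
  have hM2 : ∀ g, MvPolynomial.map e2 (L g) = M2 g := by
    intro g; simp only [L, M2, map_sum, map_mul, MvPolynomial.map_X, MvPolynomial.map_C]
  simp only [P, Polynomial.map_prod, Polynomial.map_sub, Polynomial.map_X, Polynomial.map_C,
    hM1, hM2] at hP
  have h0 := congrArg (Polynomial.eval (M2 1)) hP
  rw [Polynomial.eval_prod, Polynomial.eval_prod] at h0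
  have h1 : ∏ g : G, Polynomial.eval (M2 1) (Polynomial.X - Polynomial.C (M2 g)) = 0 := by
    apply Finset.prod_eq_zero (Finset.mem_univ (1 : G))
    rw [Polynomial.eval_sub, Polynomial.eval_X, Polynomial.eval_C, sub_self]
  rw [h1, Finset.prod_eq_zero_iff] at h0
  obtain ⟨g, -, hg⟩ := h0
  rw [Polynomial.eval_sub, Polynomial.eval_X, Polynomial.eval_C, sub_eq_zero] at hg
  apply hb g
  have h2 := congrArg (MvPolynomial.coeff (Finsupp.single g 1)) hg
  simp only [M1, M2, MvPolynomial.coeff_sum, one_smul] at h2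
  have h3 : ∀ c : G → Om, ∑ k : G, MvPolynomial.coeff (Finsupp.single g 1)
      (MvPolynomial.C (c k) * (MvPolynomial.X k : MvPolynomial G Om)) = c g := by
    intro c
    rw [Finset.sum_eq_single g]
    · rw [MvPolynomial.coeff_C_mul, MvPolynomial.coeff_X, if_pos rfl, mul_one]
    · intro k _ hk
      rw [MvPolynomial.coeff_C_mul, MvPolynomial.coeff_X, if_neg, mul_zero]
      intro heq
      exact hk (Finsupp.single_left_injective one_ne_zero heq)
    · intro hn; exact absurd (Finset.mem_univ _) hn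
  rw [h3 (fun k => e2 (b k)), h3 (fun k => e1 (g • b k))] at h2
  exact h2

end C1e

section C1d

/-- **(C1d)** -/
theorem laurent_mem_of_integral {κ : Type*} [Field κ] (x : LaurentSeries κ)
    (hx : IsIntegral (PowerSeries κ) x) : ∃ r : PowerSeries κ, algebraMap (PowerSeries κ) (LaurentSeries κ) r = x :=
  IsIntegrallyClosed.isIntegral_iff.mp hx

theorem mem_of_integral_of_laurent {κ Om : Type*} [Field κ] [Field Om] [Algebra (PowerSeries κ) Om]
    [Algebra (LaurentSeries κ) Om] [IsScalarTower (PowerSeries κ) (LaurentSeries κ) Om]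
    (x : LaurentSeries κ) (hx : IsIntegral (PowerSeries κ) (algebraMap (LaurentSeries κ) Om x)) :
    ∃ r : PowerSeries κ, algebraMap (PowerSeries κ) Om r = algebraMap (LaurentSeries κ) Om x := by
  have h1 : IsIntegral (PowerSeries κ) x :=
    (isIntegral_algebraMap_iff (algebraMap (LaurentSeries κ) Om).injective).mp hx
  obtain ⟨r, hr⟩ := laurent_mem_of_integral x h1
  exact ⟨r, by rw [← hr, ← IsScalarTower.algebraMap_apply]⟩

end C1d

section C1c

/-- **(C1c)** a monic polynomial over `κ⟦t⟧` which splits with "unit differences" of its roots has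
all its roots in `κ⟦t⟧`. -/
theorem roots_mem {κ Om I : Type*} [Field κ] [IsAlgClosed κ] [Field Om] [Algebra (PowerSeries κ) Om]
    (hinj : Function.Injective (algebraMap (PowerSeries κ) Om)) [Fintype I] (f : (PowerSeries κ)[X])
    (hf : f.Monic) (ρ : I → Om) (hρ : f.map (algebraMap (PowerSeries κ) Om) = ∏ i : I, (X - C (ρ i)))
    (hd : ∀ i j, i ≠ j → ∃ c : Om, IsIntegral (PowerSeries κ) c ∧ (ρ i - ρ j) * c = 1) (i : I) :
    ∃ r : PowerSeries κ, algebraMap (PowerSeries κ) Om r = ρ i := by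
  classical
  let S := integralClosure (PowerSeries κ) Om
  have hroot : ∀ i, Polynomial.aeval (ρ i) f = 0 := by
    intro i
    rw [Polynomial.aeval_def, ← Polynomial.eval_map, hρ, Polynomial.eval_prod]
    apply Finset.prod_eq_zero (Finset.mem_univ i)
    simp
  have hint : ∀ i, IsIntegral (PowerSeries κ) (ρ i) := fun i => ⟨f, hf, hroot i⟩
  let ρS : I → S := fun i => ⟨ρ i, hint i⟩
  have hSinj : Function.Injective (algebraMap (PowerSeries κ) S) := by
    intro a b hab
    apply hinj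
    exact congrArg Subtype.val hab
  -- residue map extends to S
  obtain ⟨ψ, hψ⟩ := exists_extension (A := PowerSeries κ) (B := S) (Om := κ) hSinj
    (PowerSeries.constantCoeff (R := κ))
  let a0 : κ := ψ (ρS i)
  -- the polynomial in S
  have hfS : f.map (algebraMap (PowerSeries κ) S) = ∏ i : I, (X - C (ρS i)) := by
    apply Polynomial.map_injective (algebraMap S Om) (fun a b hab => Subtype.ext hab)
    rw [Polynomial.map_map, Polynomial.map_prod]
    simp only [Polynomial.map_sub, map_X, map_C]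
    rw [← IsScalarTower.algebraMap_eq]
    exact hρ
  have hres : f.map (PowerSeries.constantCoeff (R := κ)) = ∏ i : I, (X - C (ψ (ρS i))) := by
    have h1 : f.map (PowerSeries.constantCoeff (R := κ)) =
        (f.map (algebraMap (PowerSeries κ) S)).map ψ := by
      rw [Polynomial.map_map]
      congr 1
      exact RingHom.ext fun a => (hψ a).symm
    rw [h1, hfS, Polynomial.map_prod]
    simp only [Polynomial.map_sub, map_X, map_C]
  have hdist : ∀ i j, i ≠ j → ψ (ρS i) ≠ ψ (ρS j) := by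
    intro i j hij heq
    obtain ⟨c, hc, hc1⟩ := hd i j hij
    let cS : S := ⟨c, hc⟩
    have h1 : (ρS i - ρS j) * cS = 1 := Subtype.ext hc1
    have h2 := congrArg ψ h1
    rw [map_mul, map_sub, heq, sub_self, zero_mul, map_one] at h2
    exact zero_ne_one h2
  -- Hensel
  have hX : IsAdicComplete (Ideal.span {(PowerSeries.X : PowerSeries κ)}) (PowerSeries κ) := inferInstance
  have hmem : ∀ z : PowerSeries κ, z ∈ Ideal.span {(PowerSeries.X : PowerSeries κ)} ↔
      PowerSeries.constantCoeff z = 0 := by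
    intro z
    rw [Ideal.mem_span_singleton, PowerSeries.X_dvd_iff]
  have hev : ∀ g : (PowerSeries κ)[X], PowerSeries.constantCoeff (g.eval (PowerSeries.C a0)) =
      (g.map (PowerSeries.constantCoeff (R := κ))).eval a0 := by
    intro g
    rw [Polynomial.eval_map, ← Polynomial.eval₂_at_apply, PowerSeries.constantCoeff_C]
  obtain ⟨a, ha, haa⟩ := HenselianRing.is_henselian
    (I := Ideal.span {(PowerSeries.X : PowerSeries κ)}) f hf (PowerSeries.C a0) (by
      rw [hmem, hev, hres, Polynomial.eval_prod]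
      apply Finset.prod_eq_zero (Finset.mem_univ i)
      simp [a0]) (by
      have h1 : IsUnit (f.derivative.eval (PowerSeries.C a0)) := by
        rw [PowerSeries.isUnit_iff_constantCoeff, isUnit_iff_ne_zero, hev,
          ← Polynomial.derivative_map, hres, Polynomial.derivative_prod_finset, Polynomial.eval_finsetSum,
          Finset.sum_eq_single i]
        · rw [Polynomial.eval_mul, Polynomial.eval_prod]
          simp only [derivative_sub, derivative_X, derivative_C, sub_zero, eval_one, mul_one,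
            eval_sub, eval_X, eval_C]
          rw [Finset.prod_ne_zero_iff]
          intro j hj
          rw [Finset.mem_erase] at hj
          exact sub_ne_zero.mpr (hdist i j (Ne.symm hj.1))
        · intro j _ hji
          rw [Polynomial.eval_mul, Polynomial.eval_prod]
          apply mul_eq_zero_of_left
          apply Finset.prod_eq_zero (i := i)
          · rw [Finset.mem_erase]; exact ⟨Ne.symm hji, Finset.mem_univ _⟩
          · simp [a0]
        · intro h; exact absurd (Finset.mem_univ _) h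
      exact h1.map _)
  -- `a` is a root of `f`, so equals some `ρ j` in Om
  have hcong : ψ (algebraMap _ S a) = a0 := by
    rw [hψ]
    rw [hmem, map_sub, PowerSeries.constantCoeff_C, sub_eq_zero] at haa
    exact haa
  have h1 : (f.map (algebraMap (PowerSeries κ) S)).eval (algebraMap _ S a) = 0 := by
    rw [Polynomial.eval_map, Polynomial.eval₂_at_apply, ha.eq_zero, map_zero]
  rw [hfS, Polynomial.eval_prod, Finset.prod_eq_zero_iff] at h1
  obtain ⟨j, -, hj⟩ := h1
  rw [eval_sub, eval_X, eval_C, sub_eq_zero] at hj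
  have hji : j = i := by
    by_contra hne
    apply hdist j i hne
    rw [← hj, hcong]
  refine ⟨a, ?_⟩
  have h2 := congrArg Subtype.val hj
  rw [hji] at h2
  exact h2

end C1c

end Crest.Agent.R007.ECore
end

-- ▼ part R007/ETop1
section

/-!
Row 7, section E (helper853): level `M` subring of `L`, action of `SL(2,ℤ) ⧸ Γ(M)`, transitivity,
the finite set of points of level `M`, Hecke step.
-/

set_option autoImplicit false

namespace Crest.Agent.R007.EL

open UpperHalfPlane ModularForm CongruenceSubgroup Matrix Crest.LubinTate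
open Crest.Agent.R007.Lat Crest.Agent.R007.Mix
open scoped MatrixGroups Manifold ModularForm

/-! ### level `M` -/

section Level

theorem MX_sl_SL' {M : ℕ} [NeZero M] {k : ℕ} {F : X → ℂ} (hF : F ∈ MX M k) (γ : SL(2, ℤ)) :
    sl F (sG γ) ∈ MX M k := by
  have := MX_sl_iG hF γ.1 (by simp)
  have h1 : M * γ.1.det.natAbs = M := by simp
  rw [h1] at this
  exact this

theorem MX_one_of_inv' {M : ℕ} [NeZero M] {k : ℕ} {F : X → ℂ} (hF : F ∈ MX M k)
    (h : ∀ γ : SL(2, ℤ), sl F (sG γ) = F) : F ∈ MX 1 k := by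
  rw [mem_MX_iff] at hF ⊢
  exact ⟨hF.1, fun γ _ => h γ, hF.2.2⟩

variable (O : Subring ℂ) (M : ℕ) [NeZero M]

/-- the family `L_k ∩ MX M k` -/
def BM (k : ℕ) : AddSubgroup (X → ℂ) := Lk O k ⊓ (MX M k).toAddSubgroup


theorem famM : Fam (BM O M) :=
  ⟨⟨Lk_one, MX_one⟩, fun h h' => ⟨Lk_mul h.1 h'.1, MX_mul h.2 h'.2⟩, fun h => MO_le_Wt h.1.1⟩

/-- the subring of level `M` -/
abbrev LM : Subring (X → ℂ) := SR (famM O M)

theorem LM_le : LM O M ≤ LL O := by
  rintro F ⟨n, f, hf, h⟩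
  exact ⟨n, f, fun k => (hf k).1, h⟩

/-- the inclusion -/
def incM : LM O M →+* LL O := Subring.inclusion (LM_le O M)

@[simp] theorem incM_coe (x : LM O M) : ((incM O M x : LL O) : X → ℂ) = x := rfl

theorem BM_sl (γ : SL(2, ℤ)) (k : ℕ) (F : X → ℂ) (hF : F ∈ BM O M k) : sl F (sG γ) ∈ BM O M k :=
  ⟨Lk_sl hF.1 (sG_mem_G2 γ), MX_sl_SL' hF.2 γ⟩

noncomputable def slM (γ : SL(2, ℤ)) : LM O M →+* LM O M := slR (famM O M) (sG γ) (BM_sl O M γ)

@[simp] theorem slM_coe (γ : SL(2, ℤ)) (x : LM O M) : ((slM O M γ x : LM O M) : X → ℂ) = sl x (sG γ) :=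
  rfl

theorem slM_mul (γ δ : SL(2, ℤ)) (x : LM O M) : slM O M (γ * δ) x = slM O M δ (slM O M γ x) := by
  apply Subtype.ext
  rw [slM_coe, slM_coe, slM_coe, sG_mul, sl_mul_right]

theorem slM_one (x : LM O M) : slM O M 1 x = x := by
  apply Subtype.ext
  rw [slM_coe, sG_one, sl_one_right]

/-- `γ ↦ (F ↦ F ∥ γ⁻¹)` -/
noncomputable def autM : SL(2, ℤ) →* RingAut (LM O M) where
  toFun γ := RingEquiv.ofRingHom (slM O M γ⁻¹) (slM O M γ)
    (by
      ext1 x
      rw [RingHom.comp_apply, ← slM_mul, mul_inv_cancel, slM_one]; rfl)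
    (by
      ext1 x
      rw [RingHom.comp_apply, ← slM_mul, inv_mul_cancel, slM_one]; rfl)
  map_one' := by
    ext1 x
    change slM O M (1⁻¹) x = x
    rw [inv_one, slM_one]
  map_mul' γ δ := by
    ext1 x
    change slM O M (γ * δ)⁻¹ x = slM O M γ⁻¹ (slM O M δ⁻¹ x)
    rw [_root_.mul_inv_rev, slM_mul]


theorem autM_mem (γ : SL(2, ℤ)) (hγ : γ ∈ Gamma M) : autM O M γ = 1 := by
  ext1 x
  change slM O M γ⁻¹ x = x
  apply Subtype.ext
  obtain ⟨n, f, hf, h⟩ := x.2
  rw [slM_coe, h, sl_sum]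
  refine Finset.sum_congr rfl fun k _ => ?_
  exact (mem_MX_iff.1 (hf k).2).2.1 _ (inv_mem hγ)

instance : (Gamma M).Normal := Gamma_normal M

/-- the finite group -/
abbrev GM : Type := SL(2, ℤ) ⧸ Gamma M

noncomputable def qautM : GM M →* RingAut (LM O M) :=
  QuotientGroup.lift (Gamma M) (autM O M) (autM_mem O M)

noncomputable instance actM : MulSemiringAction (GM M) (LM O M) :=
  MulSemiringAction.compHom (LM O M) (qautM O M)

theorem smul_def (γ : SL(2, ℤ)) (x : LM O M) : ((γ : GM M) • x) = slM O M γ⁻¹ x := rfl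

instance : Finite (GM M) := by
  have : (Gamma M).FiniteIndex := inferInstance
  infer_instance

/-- invariant elements have level one components -/
theorem exists_level_one {x : LM O M} (hx : ∀ g : GM M, g • x = x) :
    ∃ (n : ℕ) (f : ℕ → X → ℂ), (∀ k, f k ∈ Lk O k ∧ f k ∈ MX 1 k) ∧
      (x : X → ℂ) = ∑ k ∈ Finset.range n, f k := by
  obtain ⟨n, f, hf, h⟩ := x.2
  refine ⟨n, fun k => if k < n then f k else 0, fun k => ?_, ?_⟩
  · show (if k < n then f k else 0) ∈ Lk O k ∧ (if k < n then f k else 0) ∈ MX 1 k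
    split_ifs with hk
    · refine ⟨(hf k).1, MX_one_of_inv' (hf k).2 fun γ => ?_⟩
      have h1 := hx ((γ⁻¹ : SL(2, ℤ)) : GM M)
      rw [smul_def, inv_inv] at h1
      have h2 := congrArg (Subtype.val : LM O M → X → ℂ) h1
      rw [slM_coe, h, sl_sum] at h2
      exact Wt_unique (fun k => Wt_sl (MX_le_Wt (hf k).2) _) (fun k => MX_le_Wt (hf k).2) h2 k hk
    · exact ⟨zero_mem _, zero_mem _⟩
  · rw [h]
    exact Finset.sum_congr rfl fun k hk => (if_pos (Finset.mem_range.1 hk)).symm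

end Level

/-! ### points -/

section Points

variable {O : Subring ℂ} {κ : Type*} [Field κ] [CharP κ 2] {ρ : O →+* κ}

/-- `A₁` as an element of `L` -/
def EIn.a1 (E : EIn O ρ) : LL O := mkL O E.A1 E.A1_mem
/-- `A₃` as an element of `L` -/
def EIn.a3 (E : EIn O ρ) : LL O := mkL O E.A3 E.A3_mem

@[simp] theorem EIn.a1_coe (E : EIn O ρ) : ((E.a1 : LL O) : X → ℂ) = E.A1 := rfl
@[simp] theorem EIn.a3_coe (E : EIn O ρ) : ((E.a3 : LL O) : X → ℂ) = E.A3 := rfl

/-- `Pt₀` -/
abbrev EIn.Pt (E : EIn O ρ) (e : LL O →+* PowerSeries κ) : Prop := IsPt ρ E.a1 E.a3 e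

theorem two_zero : (2 : PowerSeries κ) = 0 := CharTwo.two_eq_zero

theorem map_two_mul (e : LL O →+* PowerSeries κ) (x : LL O) : e (2 * x) = 0 := by
  rw [map_mul, map_ofNat, two_zero, zero_mul]

theorem eq_add_two {k : ℕ} {e : LL O →+* PowerSeries κ} {x y : LL O} {G : X → ℂ} (hG : G ∈ Lk O k)
    (h : (x : X → ℂ) = (y : X → ℂ) + 2 * G) : e x = e y := by
  have : x = y + 2 * mkL O G hG := Subtype.ext h
  rw [this, map_add, map_two_mul, add_zero]

theorem EIn.e_disc (E : EIn O ρ) {e : LL O →+* PowerSeries κ} (he : E.Pt e) :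
    e (E.a3 ^ 3 * (E.a1 ^ 3 - 27 * E.a3)) = 1 + PowerSeries.X ^ 3 := by
  rw [map_mul, map_pow, map_sub, map_pow, map_mul, map_ofNat, he.A1, he.A3, one_pow, one_mul, mul_one]
  have h2 : (2 : PowerSeries κ) = 0 := two_zero
  linear_combination (-14 : PowerSeries κ) * h2

theorem isUnit_one_add : IsUnit (1 + PowerSeries.X ^ 3 : PowerSeries κ) := by
  rw [ECore2.isUnit_iff_cc]
  simp

theorem EIn.e_sl_a1 (E : EIn O ρ) {e : LL O →+* PowerSeries κ} (he : E.Pt e) (δ : GL(2, ℝ)⁺)
    (hδ : δ ∈ G2) : e (slL O δ hδ E.a1) = PowerSeries.X := by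
  obtain ⟨G, hG, h⟩ := E.hasse δ hδ
  rw [← he.A1]
  exact eq_add_two hG h

theorem EIn.e_sl_a3 (E : EIn O ρ) {e : LL O →+* PowerSeries κ} (he : E.Pt e) (δ : GL(2, ℝ)⁺)
    (hδ : δ ∈ G2) : IsUnit (e (slL O δ hδ E.a3)) := by
  obtain ⟨j, G, hG, h⟩ := E.unit δ hδ
  have h1 : slL O δ hδ E.a3 * ⟨G, hG⟩ = (E.a3 ^ 3 * (E.a1 ^ 3 - 27 * E.a3)) ^ j := Subtype.ext h
  have h2 := congrArg e h1
  rw [map_mul, map_pow, E.e_disc he] at h2
  exact isUnit_of_mul_isUnit_left (h2 ▸ isUnit_one_add.pow j)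

/-- value on level one elements -/
theorem EIn.e_lev1 (E : EIn O ρ) {k : ℕ} {F : X → ℂ} (hF : F ∈ Lk O k) (h1 : F ∈ MX 1 k) :
    ∃ c : ℕ → O, (∀ e : LL O →+* PowerSeries κ, E.Pt e → e (mkL O F hF) =
      ∑ i ∈ Finset.range (k / 12 + 1), PowerSeries.C (ρ (c i)) *
        ((1 + PowerSeries.X ^ 3) ^ i * PowerSeries.X ^ (k - 12 * i))) ∧
      ∃ G ∈ Lk O k, F = ∑ i ∈ Finset.range (k / 12 + 1),
        (c i : ℂ) • ((Disc E.A1 E.A3) ^ i * E.A1 ^ (k - 12 * i)) + 2 * G := by
  obtain ⟨c, G, hG, h⟩ := E.lev1 k F hF h1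
  refine ⟨c, fun e he => ?_, G, hG, h⟩
  have h2 : e (mkL O F hF) = e (∑ i ∈ Finset.range (k / 12 + 1), cst O (c i) *
      ((E.a3 ^ 3 * (E.a1 ^ 3 - 27 * E.a3)) ^ i * E.a1 ^ (k - 12 * i))) := by
    apply eq_add_two hG
    rw [mkL_coe, h]
    congr 1
    have h3 := map_sum (LL O).subtype (fun i => cst O (c i) *
      ((E.a3 ^ 3 * (E.a1 ^ 3 - 27 * E.a3)) ^ i * E.a1 ^ (k - 12 * i))) (Finset.range (k / 12 + 1))
    refine Eq.trans ?_ h3.symm
    refine Finset.sum_congr rfl fun i _ => ?_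
    change _ = ((c i : ℂ) • (1 : X → ℂ)) * (Disc E.A1 E.A3 ^ i * E.A1 ^ (k - 12 * i))
    rw [smul_mul_assoc, one_mul]
  rw [h2, map_sum]
  refine Finset.sum_congr rfl fun i _ => ?_
  rw [map_mul, map_mul, map_pow, map_pow, E.e_disc he, he.c, he.A1]

/-- **transitivity** -/
theorem EIn.transitive (E : EIn O ρ) (M : ℕ) [NeZero M] {e e' : LL O →+* PowerSeries κ}
    (he : E.Pt e) (he' : E.Pt e') : ∃ g : GM M, ∀ b : LM O M, e' (incM O M b) = e (incM O M (g • b)) := by
  refine ECore.exists_smul_eq (G := GM M) (e.comp (incM O M)) (e'.comp (incM O M)) fun b hb => ?_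
  obtain ⟨n, f, hf, h⟩ := exists_level_one O M hb
  have h1 : incM O M b = ∑ k ∈ Finset.range n, mkL O (f k) (hf k).1 := by
    apply Subtype.ext
    rw [incM_coe, h]
    exact (map_sum (LL O).subtype (fun k => mkL O (f k) (hf k).1) (Finset.range n)).symm
  rw [RingHom.comp_apply, RingHom.comp_apply, h1, map_sum, map_sum]
  refine Finset.sum_congr rfl fun k _ => ?_
  obtain ⟨c, hc, -⟩ := E.e_lev1 (hf k).1 (hf k).2
  rw [hc e he, hc e' he']

variable [IsAlgClosed κ]

/-- **the step** `e ↦ e'_δ` -/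
theorem EIn.step (E : EIn O ρ) {e : LL O →+* PowerSeries κ} (he : E.Pt e) (δ : GL(2, ℝ)⁺)
    (hδ : δ ∈ G2) : ∃ (p : F.Pr E.D) (e' : LL O →+* PowerSeries κ), E.Pt e' ∧
      ∀ k, ∀ F ∈ piece O k, e (slL O δ hδ F) * p.s PowerSeries.X ^ k = p.s (e' F) * PowerSeries.X ^ k := by
  obtain ⟨H, hH, hu⟩ := E.fg e he δ hδ
  have hH' : IsFGHom (E.Phi ((e.comp (slL O δ hδ)) E.a1) ((e.comp (slL O δ hδ)) E.a3))
      (E.Phi PowerSeries.X 1) H := hH
  obtain ⟨p, e', h1, h3, h0, hk⟩ := EStep.step (piece O) (pc_one (famL O)) (pc_mul (famL O))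
    (pc_internal (famL O)) (A1 := E.a1) (A3 := E.a3) E.A1_mem E.A3_mem E.D E.Phi E.Phi_map E.Phi_D
    E.Phi_sc (e.comp (slL O δ hδ)) (E.e_sl_a1 he δ hδ) (E.e_sl_a3 he δ hδ) hH' hu
  refine ⟨p, e', ⟨fun c => ?_, h1, h3⟩, hk⟩
  apply h0 _ (cst_mem O c)
  have : slL O δ hδ (cst O c) = cst O c := Subtype.ext rfl
  rw [RingHom.comp_apply, this, he.c]

end Points

end Crest.Agent.R007.EL
end

-- ▼ part R007/ETop2
section

/-!
Row 7, section E (helper853): regular at all points ⟹ constant.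
-/

set_option autoImplicit false

namespace Crest.Agent.R007.EL

open UpperHalfPlane ModularForm CongruenceSubgroup Matrix Crest.LubinTate
open Crest.Agent.R007.Lat Crest.Agent.R007.Mix
open scoped MatrixGroups Manifold ModularForm

/-! ### the reduced `q`-expansion -/

section QBar

variable {O : Subring ℂ} {κ : Type*} [Field κ]

/-- the `q`-expansion with coefficients in `O` -/
noncomputable def qOf (f : IntO O) : HahnSeries ℚ O where
  coeff r := ⟨(qf f.1).coeff r, f.2.2 r⟩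
  isPWO_support' := (qf f.1).isPWO_support.mono (by
    intro r hr h0
    apply hr
    exact Subtype.ext h0)

theorem qOf_coeff (f : IntO O) (r : ℚ) : (((qOf f).coeff r : O) : ℂ) = (qf f.1).coeff r := rfl

theorem qOf_map (f : IntO O) : (qOf f).map O.subtype = qf f.1 := by
  ext r; rfl

theorem map_sub_inj {x y : HahnSeries ℚ O} (h : x.map O.subtype = y.map O.subtype) : x = y := by
  ext r
  have := congrArg (fun z => HahnSeries.coeff z r) h
  simpa using this

/-- the `q`-expansion, ring hom to `HahnSeries ℚ O` -/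
noncomputable def qO (O : Subring ℂ) : IntO O →+* HahnSeries ℚ O where
  toFun := qOf
  map_one' := by
    ext r
    rw [qOf_coeff]
    change (qf 1).coeff r = _
    rw [qf_one, HahnSeries.coeff_one, HahnSeries.coeff_one]
    split_ifs <;> rfl
  map_zero' := by
    ext r
    rw [qOf_coeff]
    change (qf 0).coeff r = _
    rw [qf_zero]; rfl
  map_add' f g := by
    ext r
    rw [qOf_coeff, HahnSeries.coeff_add]
    change (qf (f.1 + g.1)).coeff r = _
    rw [qf_add f.2.1 g.2.1, HahnSeries.coeff_add]; rfl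
  map_mul' f g := by
    apply map_sub_inj
    have h := HahnSeries.map_mul (O.subtype : O →ₙ+* ℂ) (x := qOf f) (y := qOf g)
    rw [qOf_map]
    change qf (f.1 * g.1) = _
    rw [qf_mul f.2.1 g.2.1, ← qOf_map f, ← qOf_map g]
    exact h.symm

/-- coefficientwise application of a ring hom -/
noncomputable def hmap {R S : Type*} [CommRing R] [CommRing S] (ρ : R →+* S) :
    HahnSeries ℚ R →+* HahnSeries ℚ S where
  toFun x := x.map ρ
  map_one' := by
    ext r
    rw [HahnSeries.map_coeff, HahnSeries.coeff_one, HahnSeries.coeff_one]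
    split_ifs <;> simp
  map_zero' := by ext r; simp
  map_add' x y := by ext r; simp
  map_mul' x y := HahnSeries.map_mul (ρ : R →ₙ+* S)

variable (ρ : O →+* κ)

/-- the reduced `q`-expansion of `F ∈ L` -/
noncomputable def qL : LL O →+* HahnSeries ℚ κ :=
  (hmap ρ).comp ((qO O).comp
    { toFun := fun x => (⟨res x, by
        obtain ⟨n, f, hf, h⟩ := x.2
        rw [h, res_sum]
        exact sum_mem fun k _ => VV_res (Lk_le_VV (hf k))⟩ : IntO O)
      map_one' := rfl
      map_mul' := fun _ _ => rfl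
      map_zero' := rfl
      map_add' := fun _ _ => rfl })

theorem qL_coeff_eq_zero {ρ : O →+* κ} (hρ : ∀ c : O, ρ c = 0 ↔ ∃ d : O, c = 2 * d) {x : LL O}
    (h : qL ρ x = 0) : Two O (res x) := by
  intro r
  have h1 := congrArg (fun z => HahnSeries.coeff z r) h
  change ρ ⟨(qf (res x)).coeff r, _⟩ = 0 at h1
  obtain ⟨d, hd⟩ := (hρ _).1 h1
  refine ⟨d, d.2, ?_⟩
  have := congrArg (Subtype.val : O → ℂ) hd
  exact this

theorem qL_of_two {ρ : O →+* κ} (hρ : ∀ c : O, ρ c = 0 ↔ ∃ d : O, c = 2 * d) {x : LL O}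
    (h : Two O (res x)) : qL ρ x = 0 := by
  ext r
  change ρ ⟨(qf (res x)).coeff r, _⟩ = 0
  obtain ⟨y, hy, e⟩ := h r
  exact (hρ _).2 ⟨⟨y, hy⟩, Subtype.ext e⟩

theorem qL_cst (c : O) : qL ρ (cst O c) = HahnSeries.C (ρ c) := by
  ext r
  change ρ ⟨(qf ((c : ℂ) • (1 : ℍ → ℂ))).coeff r, _⟩ = _
  have h1 : (qf ((c : ℂ) • (1 : ℍ → ℂ))).coeff r = if r = 0 then (c : ℂ) else 0 := by
    rw [qf_smul _ (one_mem _), qf_one, HahnSeries.coeff_smul, HahnSeries.coeff_one]
    split_ifs <;> simp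
  rw [HahnSeries.C_apply, HahnSeries.coeff_single]
  split_ifs with h
  · congr 1
    apply Subtype.ext
    change (qf ((c : ℂ) • (1 : ℍ → ℂ))).coeff r = c
    rw [h1, if_pos h]
  · have : (⟨(qf ((c : ℂ) • (1 : ℍ → ℂ))).coeff r, by rw [h1, if_neg h]; exact zero_mem _⟩ : O) = 0 := by
      apply Subtype.ext
      change (qf ((c : ℂ) • (1 : ℍ → ℂ))).coeff r = 0
      rw [h1, if_neg h]
    rw [this, map_zero]

end QBar

/-! ### polynomial lemma -/

/-- coefficients of `∏ (T - a_i)` in a graded family -/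
theorem coeff_prod_mem {A ι : Type*} [CommRing A] (W : ℕ → AddSubgroup A) (h1 : (1 : A) ∈ W 0)
    (hmul : ∀ i j, ∀ a ∈ W i, ∀ b ∈ W j, a * b ∈ W (i + j)) {k : ℕ} (a : ι → A) (ha : ∀ i, a i ∈ W k)
    (s : Finset ι) (m : ℕ) : m ≤ s.card →
      (∏ i ∈ s, (Polynomial.X - Polynomial.C (a i))).coeff m ∈ W ((s.card - m) * k) := by
  classical
  induction s using Finset.induction_on generalizing m with
  | empty =>
    intro hm
    have : m = 0 := by simpa using hm
    subst this
    simpa using h1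
  | insert i s hi ih =>
    intro hm
    have hdeg : (∏ i ∈ s, (Polynomial.X - Polynomial.C (a i))).natDegree ≤ s.card := by
      refine (Polynomial.natDegree_prod_le _ _).trans ?_
      refine (Finset.sum_le_card_nsmul _ _ 1 fun i _ => Polynomial.natDegree_X_sub_C_le _).trans ?_
      simp
    rw [Finset.prod_insert hi, Finset.card_insert_of_notMem hi] at *
    rw [sub_mul, Polynomial.coeff_sub, Polynomial.coeff_C_mul]
    have h2 : a i * (∏ i ∈ s, (Polynomial.X - Polynomial.C (a i))).coeff m ∈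
        W ((s.card + 1 - m) * k) := by
      by_cases hms : m ≤ s.card
      · have := hmul _ _ _ (ha i) _ (ih m hms)
        have e : k + (s.card - m) * k = (s.card + 1 - m) * k := by
          rw [Nat.sub_add_comm hms, Nat.add_mul, one_mul, add_comm]
        rwa [e] at this
      · rw [Polynomial.coeff_eq_zero_of_natDegree_lt (by omega), mul_zero]
        exact zero_mem _
    refine sub_mem ?_ h2
    cases m with
    | zero =>
      rw [Polynomial.coeff_X_mul_zero]
      exact zero_mem _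
    | succ m =>
      rw [Polynomial.coeff_X_mul]
      have := ih m (by omega)
      have e : s.card + 1 - (m + 1) = s.card - m := by omega
      rwa [e]

/-- (C2d) in the form used -/
theorem coeff_zero_of_dvd {κ : Type*} [Field κ] {K : ℕ} (a : ℕ → κ)
    (h : (PowerSeries.X : PowerSeries κ) ^ K ∣ ∑ i ∈ Finset.range (K / 12 + 1), PowerSeries.C (a i) *
      ((1 + PowerSeries.X ^ 3) ^ i * PowerSeries.X ^ (K - 12 * i))) :
    ∀ i ∈ Finset.range (K / 12 + 1), i ≠ 0 → a i = 0 := by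
  classical
  obtain ⟨r, hr⟩ := h
  let p : Polynomial κ := ∑ i ∈ Finset.range (K / 12 + 1), Polynomial.C (a i) * Polynomial.X ^ i
  have hinj := IsFractionRing.injective (PowerSeries κ) (FractionRing (PowerSeries κ))
  set ι := algebraMap (PowerSeries κ) (FractionRing (PowerSeries κ)) with hι
  have hX : ι PowerSeries.X ≠ 0 := by
    intro h0
    exact PowerSeries.X_ne_zero (hinj (h0.trans (map_zero _).symm))
  have hp : Polynomial.aeval (ι (1 + PowerSeries.X ^ 3) / ι PowerSeries.X ^ 12) p = ι r := by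
    simp only [p, map_sum, map_mul, map_pow, Polynomial.aeval_C, Polynomial.aeval_X]
    apply mul_left_cancel₀ (pow_ne_zero K hX)
    have h2 := congrArg ι hr
    rw [map_mul, map_pow] at h2
    rw [← h2, map_sum, Finset.mul_sum]
    refine Finset.sum_congr rfl fun i hi => ?_
    have hi' : 12 * i ≤ K := by
      have := Finset.mem_range.1 hi
      omega
    rw [map_mul, map_mul, map_pow, map_pow]
    have e1 : algebraMap κ (FractionRing (PowerSeries κ)) (a i) = ι (PowerSeries.C (a i)) := by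
      rw [hι, IsScalarTower.algebraMap_apply κ (PowerSeries κ) (FractionRing (PowerSeries κ))]; rfl
    have e2 : K = (K - 12 * i) + 12 * i := by omega
    rw [e1, div_pow, ← pow_mul]
    conv_lhs => rw [e2, pow_add]
    field_simp
  obtain ⟨b, hb⟩ := ECore2.coeff_eq_zero_of_regular (FractionRing (PowerSeries κ)) p r hp
  intro i hi hi0
  have h3 : p.coeff i = a i := by
    simp only [p, Polynomial.finsetSum_coeff, Polynomial.coeff_C_mul_X_pow]
    rw [Finset.sum_eq_single i]
    · simp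
    · intro j _ hj
      rw [if_neg (Ne.symm hj)]
    · intro h; exact absurd hi h
  rw [← h3, hb, Polynomial.coeff_C, if_neg hi0]

end Crest.Agent.R007.EL
end

-- ▼ part R007/ETop
section

/-!
Row 7, section E (helper853): `EOut` from `EIn`.
-/

set_option autoImplicit false

namespace Crest.Agent.R007.EL

open UpperHalfPlane ModularForm CongruenceSubgroup Matrix Crest.LubinTate
open Crest.Agent.R007.Lat Crest.Agent.R007.Mix
open scoped MatrixGroups Manifold ModularForm

variable {O : Subring ℂ} {κ : Type*} [Field κ] [CharP κ 2] {ρ : O →+* κ}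

/-! ### regularity -/

/-- elements of level `M`, weight `j`, with value divisible by `t^j` -/
def WE (M : ℕ) [NeZero M] (e : LL O →+* PowerSeries κ) (j : ℕ) : AddSubgroup (LM O M) where
  carrier := {x | (x : X → ℂ) ∈ BM O M j ∧ PowerSeries.X ^ j ∣ e (incM O M x)}
  add_mem' := by
    rintro x y ⟨h1, h2⟩ ⟨h3, h4⟩
    exact ⟨add_mem h1 h3, by rw [map_add, map_add]; exact dvd_add h2 h4⟩
  zero_mem' := ⟨zero_mem _, by rw [map_zero, map_zero]; exact dvd_zero _⟩
  neg_mem' := by
    rintro x ⟨h1, h2⟩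
    exact ⟨neg_mem h1, by rw [map_neg, map_neg]; exact (dvd_neg).2 h2⟩


/-- level one, regular ⟹ reduced `q`-expansion constant -/
theorem EIn.qL_const (E : EIn O ρ) {e : LL O →+* PowerSeries κ} (he : E.Pt e) {k : ℕ} {F : X → ℂ}
    (hF : F ∈ Lk O k) (h1 : F ∈ MX 1 k) (hd : PowerSeries.X ^ k ∣ e (mkL O F hF)) :
    ∃ b : κ, qL ρ (mkL O F hF) = HahnSeries.C b := by
  obtain ⟨c, hc, G, hG, h⟩ := E.e_lev1 hF h1
  rw [hc e he] at hd
  have h0 := coeff_zero_of_dvd (fun i => ρ (c i)) hd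
  refine ⟨ρ (c 0), ?_⟩
  have hA1 : qL ρ E.a1 = 1 := by
    have h2 : qL ρ (E.a1 - 1) = 0 := qL_of_two E.ρ_ker E.hasse_inf
    rw [map_sub, map_one, sub_eq_zero] at h2
    exact h2
  have h3 : mkL O F hF = ∑ i ∈ Finset.range (k / 12 + 1), cst O (c i) *
      ((E.a3 ^ 3 * (E.a1 ^ 3 - 27 * E.a3)) ^ i * E.a1 ^ (k - 12 * i)) + 2 * mkL O G hG := by
    apply Subtype.ext
    rw [mkL_coe]
    conv_lhs => rw [h]
    have h4 := map_sum (LL O).subtype (fun i => cst O (c i) *
      ((E.a3 ^ 3 * (E.a1 ^ 3 - 27 * E.a3)) ^ i * E.a1 ^ (k - 12 * i))) (Finset.range (k / 12 + 1))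
    have h5 : ((∑ i ∈ Finset.range (k / 12 + 1), cst O (c i) *
      ((E.a3 ^ 3 * (E.a1 ^ 3 - 27 * E.a3)) ^ i * E.a1 ^ (k - 12 * i)) + 2 * mkL O G hG : LL O) : X → ℂ)
       = (LL O).subtype (∑ i ∈ Finset.range (k / 12 + 1), cst O (c i) *
      ((E.a3 ^ 3 * (E.a1 ^ 3 - 27 * E.a3)) ^ i * E.a1 ^ (k - 12 * i))) + 2 * G := rfl
    rw [h5, h4]
    congr 1
    refine Finset.sum_congr rfl fun i _ => ?_
    change _ = ((c i : ℂ) • (1 : X → ℂ)) * (Disc E.A1 E.A3 ^ i * E.A1 ^ (k - 12 * i))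
    rw [smul_mul_assoc, one_mul]
  have h2z : qL ρ (2 * mkL O G hG) = 0 := by
    refine qL_of_two E.ρ_ker ?_
    exact two_res_of_VV (Lk_le_VV hG)
  rw [h3, map_add, h2z, add_zero, map_sum, Finset.sum_eq_single 0]
  · rw [map_mul, qL_cst, map_mul, pow_zero, map_one, map_pow, hA1, one_pow, mul_one, mul_one]
  · intro i hi hi0
    have := h0 i hi hi0
    rw [map_mul, qL_cst, this, map_zero, zero_mul]
  · intro h; exact absurd (Finset.mem_range.2 (by omega)) h

variable [IsAlgClosed κ]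

/-- regularity is stable under `SL₂(ℤ)` -/
theorem EIn.reg_sl (E : EIn O ρ) {k : ℕ} {F : LL O} (hF : F ∈ piece O k)
    (h : ∀ e, E.Pt e → PowerSeries.X ^ k ∣ e F) {e : LL O →+* PowerSeries κ} (he : E.Pt e)
    (δ : GL(2, ℝ)⁺) (hδ : δ ∈ G2) : PowerSeries.X ^ k ∣ e (slL O δ hδ F) := by
  obtain ⟨p, e', he', hk⟩ := E.step he δ hδ
  exact (EStep.dvd_of_cross p.s (hk k F hF)).2 (h e' he')

/-- **regular at all points ⟹ constant** -/
theorem EIn.regular (E : EIn O ρ) (M : ℕ) [NeZero M] {k : ℕ} {F : X → ℂ} (hF : F ∈ Lk O k)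
    (hM : F ∈ MX M k) (h : ∀ e, E.Pt e → PowerSeries.X ^ k ∣ e (mkL O F hF)) :
    ∃ c ∈ O, ∃ G ∈ Lk O k, F = c • E.A1 ^ k + (2 : ℂ) • G := by
  classical
  obtain ⟨e, he⟩ := E.exists_pt
  have : Fintype (GM M) := Fintype.ofFinite _
  let x : LM O M := ⟨F, le_SR (famM O M) ⟨hF, hM⟩⟩
  let P : Polynomial (LM O M) := ∏ g : GM M, (Polynomial.X - Polynomial.C (g • x))
  set n := (Finset.univ : Finset (GM M)).card with hn
  -- the conjugates are regular
  have hx : ∀ g : GM M, g • x ∈ WE M e k := by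
    intro g
    obtain ⟨γ, rfl⟩ := QuotientGroup.mk_surjective g
    refine ⟨BM_sl O M _ k F ⟨hF, hM⟩, ?_⟩
    have h1 := E.reg_sl (F := mkL O F hF) hF h he (sG γ⁻¹) (sG_mem_G2 γ⁻¹)
    have h2 : incM O M ((γ : GM M) • x) = slL O (sG γ⁻¹) (sG_mem_G2 γ⁻¹) (mkL O F hF) :=
      Subtype.ext rfl
    rw [h2]
    exact h1
  -- homogeneity and regularity of coefficients
  have hcoef : ∀ m, m ≤ n → P.coeff m ∈ WE M e ((n - m) * k) := by
    intro m hm
    refine coeff_prod_mem (WE M e) ⟨⟨Lk_one, MX_one⟩, by simp⟩ ?_ (fun g : GM M => g • x) hx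
      Finset.univ m hm
    rintro i j a ⟨h1, h2⟩ b ⟨h3, h4⟩
    refine ⟨(famM O M).mul h1 h3, ?_⟩
    rw [map_mul, map_mul, pow_add]
    exact mul_dvd_mul h2 h4
  -- invariance
  have hinv : ∀ g : GM M, P.map (MulSemiringAction.toRingHom (GM M) (LM O M) g) = P := by
    intro g
    simp only [P, Polynomial.map_prod, Polynomial.map_sub, Polynomial.map_X, Polynomial.map_C,
      MulSemiringAction.toRingHom_apply, smul_smul]
    exact Fintype.prod_equiv (Equiv.mulLeft g) _ _ (fun _ => rfl)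
  have hinv' : ∀ (m : ℕ) (g : GM M), g • P.coeff m = P.coeff m := by
    intro m g
    have h1 := congrArg (fun Q => Polynomial.coeff Q m) (hinv g)
    simpa [Polynomial.coeff_map] using h1
  -- coefficients have constant reduced q-expansion
  have hconst : ∀ m, m ≤ n → ∃ b : κ, qL ρ (incM O M (P.coeff m)) = HahnSeries.C b := by
    intro m hm
    obtain ⟨h1, h2⟩ := hcoef m hm
    have h3 : ((P.coeff m : LM O M) : X → ℂ) ∈ MX 1 ((n - m) * k) := by
      refine MX_one_of_inv' h1.2 fun γ => ?_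
      have h4 := hinv' m ((γ⁻¹ : SL(2, ℤ)) : GM M)
      rw [smul_def, inv_inv] at h4
      exact congrArg (Subtype.val : LM O M → X → ℂ) h4
    have h5 : incM O M (P.coeff m) = mkL O _ h1.1 := Subtype.ext rfl
    rw [h5] at h2 ⊢
    exact E.qL_const he h1.1 h3 h2
  have hmonic : P.Monic := Polynomial.monic_prod_of_monic _ _ fun g _ => Polynomial.monic_X_sub_C _
  have : Nonempty X := ⟨⟨UpperHalfPlane.I, 1⟩⟩
  have : Nontrivial (LM O M) := inferInstance
  have hdeg : P.natDegree = n := by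
    rw [Polynomial.natDegree_prod_of_monic _ _ fun g _ => Polynomial.monic_X_sub_C _]
    simp only [Polynomial.natDegree_X_sub_C, Finset.sum_const, smul_eq_mul, mul_one, hn]
  choose b hb using fun m : Fin (n + 1) => hconst m (Nat.lt_succ_iff.1 m.2)
  let B : ℕ → κ := fun m => if h : m < n + 1 then b ⟨m, h⟩ else 0
  have hB : ∀ m, m ≤ n → qL ρ (incM O M (P.coeff m)) = HahnSeries.C (B m) := by
    intro m hm
    have : B m = b ⟨m, by omega⟩ := dif_pos (by omega)
    rw [this]
    exact hb ⟨m, by omega⟩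
  let p : Polynomial κ := ∑ m ∈ Finset.range (n + 1), Polynomial.C (B m) * Polynomial.X ^ m
  have hBn : B n = 1 := by
    have h1 := hB n le_rfl
    have h2 : P.coeff n = 1 := by rw [← hdeg]; exact hmonic
    rw [h2, map_one, map_one] at h1
    have h3 : (HahnSeries.C (1 : κ) : HahnSeries ℚ κ) = HahnSeries.C (B n) := by rw [← h1, map_one]
    exact (HahnSeries.C_injective h3).symm
  have hp0 : p ≠ 0 := by
    intro h0
    have h1 : p.coeff n = B n := by
      simp only [p, Polynomial.finsetSum_coeff, Polynomial.coeff_C_mul_X_pow]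
      rw [Finset.sum_eq_single n]
      · simp
      · intro j _ hj
        rw [if_neg (Ne.symm hj)]
      · intro h; exact absurd (Finset.mem_range.2 (by omega)) h
    rw [h0, Polynomial.coeff_zero, hBn] at h1
    exact zero_ne_one h1
  have hroot : P.eval x = 0 := by
    rw [Polynomial.eval_prod]
    apply Finset.prod_eq_zero (Finset.mem_univ (1 : GM M))
    rw [one_smul]; simp
  have hp : p.eval₂ (HahnSeries.C : κ →+* HahnSeries ℚ κ) (qL ρ (mkL O F hF)) = 0 := by
    have h1 := congrArg ((qL ρ).comp (incM O M)) hroot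
    rw [map_zero, Polynomial.eval_eq_sum_range, hdeg, map_sum] at h1
    simp only [p, Polynomial.eval₂_finsetSum, Polynomial.eval₂_mul, Polynomial.eval₂_C,
      Polynomial.eval₂_pow, Polynomial.eval₂_X]
    rw [← h1]
    refine Finset.sum_congr rfl fun m hm => ?_
    rw [map_mul, map_pow, RingHom.comp_apply, hB m (Nat.lt_succ_iff.1 (Finset.mem_range.1 hm))]
    rfl
  obtain ⟨a, ha⟩ := ECore2.algebraic_const_hahn hp0 hp
  obtain ⟨c, rfl⟩ := E.ρ_surj a
  have hA1 : qL ρ E.a1 = 1 := by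
    have h2 : qL ρ (E.a1 - 1) = 0 := qL_of_two E.ρ_ker E.hasse_inf
    rw [map_sub, map_one, sub_eq_zero] at h2
    exact h2
  have hz : qL ρ (mkL O F hF - cst O c * E.a1 ^ k) = 0 := by
    rw [map_sub, map_mul, map_pow, hA1, one_pow, mul_one, qL_cst, ha, sub_self]
  have hT := qL_coeff_eq_zero E.ρ_ker hz
  have hA1k : E.A1 ^ k ∈ Lk O k := by
    have := Link.LL_pow E.A1_mem k
    rwa [mul_one] at this
  have hmem : F - (c : ℂ) • E.A1 ^ k ∈ Lk O k := sub_mem hF (Lk_smul hA1k c.2)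
  have hT' : Two O (res (F - (c : ℂ) • E.A1 ^ k)) := by
    have e1 : ((mkL O F hF - cst O c * E.a1 ^ k : LL O) : X → ℂ) = F - (c : ℂ) • E.A1 ^ k := by
      change F - ((c : ℂ) • (1 : X → ℂ)) * E.A1 ^ k = _
      rw [smul_mul_assoc, one_mul]
    rwa [e1] at hT
  obtain ⟨G, hG, hG'⟩ := E.qprin k _ hmem hT'
  refine ⟨c, c.2, G, hG, ?_⟩
  rw [← two_mul_eq_smul, ← hG']
  abel

/-! ### the output -/

open Classical in
/-- the point of `L` attached to a class -/
noncomputable def EIn.pt (E : EIn O ρ) (M : ℕ) [NeZero M] (q : GM M) : LL O →+* PowerSeries κ :=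
  if h : ∃ e : LL O →+* PowerSeries κ, E.Pt e ∧
      ∀ b : LM O M, e (incM O M b) = E.exists_pt.choose (incM O M (q • b)) then h.choose
  else E.exists_pt.choose

theorem EIn.pt_mem (E : EIn O ρ) (M : ℕ) [NeZero M] (q : GM M) : E.Pt (E.pt M q) := by
  rw [EIn.pt]
  split_ifs with h
  · exact h.choose_spec.1
  · exact E.exists_pt.choose_spec

theorem EIn.exists_pt_eq (E : EIn O ρ) (M : ℕ) [NeZero M] {e : LL O →+* PowerSeries κ}
    (he : E.Pt e) : ∃ q : GM M, ∀ b : LM O M, E.pt M q (incM O M b) = e (incM O M b) := by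
  obtain ⟨q, hq⟩ := E.transitive M E.exists_pt.choose_spec he
  refine ⟨q, fun b => ?_⟩
  have h : ∃ e : LL O →+* PowerSeries κ, E.Pt e ∧
      ∀ b : LM O M, e (incM O M b) = E.exists_pt.choose (incM O M (q • b)) := ⟨e, he, hq⟩
  rw [EIn.pt, dif_pos h, h.choose_spec.2 b, hq b]

/-- **OUTPUT OF SECTION E** -/
noncomputable def EIn.out (E : EIn O ρ) (M : ℕ) [NeZero M] : Link.EOut O M E.A1 E.D where
  P := GM M
  fin := inferInstance
  ev q k :=
    { toFun := fun F => E.pt M q (mkL O F.1 F.2)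
      map_zero' := by
        have : mkL O ((0 : Link.LL O k) : X → ℂ) (0 : Link.LL O k).2 = 0 := Subtype.ext rfl
        rw [this, map_zero]
      map_add' := fun F G => by
        have : mkL O ((F + G : Link.LL O k) : X → ℂ) (F + G).2 = mkL O F.1 F.2 + mkL O G.1 G.2 :=
          Subtype.ext rfl
        rw [this, map_add] }
  ev_A q k F G h := by
    change E.pt M q (mkL O G.1 G.2) = PowerSeries.X * E.pt M q (mkL O F.1 F.2)
    have : mkL O G.1 G.2 = E.a1 * mkL O F.1 F.2 := Subtype.ext h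
    rw [this, map_mul, (E.pt_mem M q).A1]
  reg k F hM h := by
    refine E.regular M F.2 hM fun e he => ?_
    obtain ⟨q, hq⟩ := E.exists_pt_eq M he
    have h1 := h q
    have h2 := hq ⟨F.1, le_SR (famM O M) ⟨F.2, hM⟩⟩
    have h3 : incM O M ⟨F.1, le_SR (famM O M) ⟨F.2, hM⟩⟩ = mkL O F.1 F.2 := Subtype.ext rfl
    rw [h3] at h2
    rw [← h2]
    exact h1
  hecke q δ hδ := by
    obtain ⟨p, e', he', hk⟩ := E.step (E.pt_mem M q) δ hδ
    obtain ⟨q', hq'⟩ := E.exists_pt_eq M he'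
    refine ⟨p, q', fun k F G hM hG => ?_⟩
    apply EStep.ext_of_cross
    change E.pt M q (mkL O G.1 G.2) * _ = p.s (E.pt M q' (mkL O F.1 F.2)) * _
    have h2 := hq' ⟨F.1, le_SR (famM O M) ⟨F.2, hM⟩⟩
    have h3 : incM O M ⟨F.1, le_SR (famM O M) ⟨F.2, hM⟩⟩ = mkL O F.1 F.2 := Subtype.ext rfl
    rw [h3] at h2
    have h4 : mkL O G.1 G.2 = slL O δ hδ (mkL O F.1 F.2) := Subtype.ext hG
    rw [h2, h4]
    exact hk k (mkL O F.1 F.2) F.2

end Crest.Agent.R007.EL
end

-- ▼ part R007/FEndD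
section

/-!
Row 7, section F (helper2): link between `FData`/`Pr` (helper360) and the endomorphism ring of `Φ₀`
(FEnd), the filtration of helper686 and the smoothness of the action on `κ⟦t⟧` (helper507's FCen).
-/

set_option autoImplicit false

open PowerSeries Crest.LubinTate

namespace Crest.Agent.R007.F

variable {κ : Type*} [Field κ] [CharP κ 2]

instance instCommΦ (D : FData κ) : D.Φ.IsComm := D.comm

theorem isComm_map {R S : Type*} [CommRing R] [CommRing S] (Φ : FormalGroup R) [Φ.IsComm]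
    (f : R →+* S) : (Φ.map f).IsComm := by
  apply R227.isComm_of
  have h0 := MvPowerSeries.constantCoeff_X (R := R) (0 : Fin 2)
  have h1 := MvPowerSeries.constantCoeff_X (R := R) (1 : Fin 2)
  have h := congrArg (MvPowerSeries.map f) (R227.fadd_comm Φ _ _ h0 h1)
  rw [R227.map_fadd f Φ _ _ h0 h1, R227.map_fadd f Φ _ _ h1 h0] at h
  simpa using h

instance instCommΦ0 (D : FData κ) : D.Φ0.IsComm := isComm_map D.Φ _

theorem FData.htTwo (D : FData κ) : HtTwo D.Φ0 where
  frob := D.frob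
  ht := by
    refine ⟨D.g.map (constantCoeff (R := κ)), ?_, ?_, ?_⟩
    · have h := congrArg (PowerSeries.map (constantCoeff (R := κ))) D.two
      have h1 := R227.map_fadd (τ := Unit) (constantCoeff (R := κ)) D.Φ
        (X : PowerSeries (PowerSeries κ)) X constantCoeff_X constantCoeff_X
      have h2 : (MvPowerSeries.map (constantCoeff (R := κ)) (X : PowerSeries (PowerSeries κ)) :
          MvPowerSeries Unit κ) = (X : PowerSeries κ) := PowerSeries.map_X _
      rw [h2] at h1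
      have h3 : PowerSeries.map (constantCoeff (R := κ)) (expand 2 two_ne_zero D.g) =
          expand 2 two_ne_zero (D.g.map (constantCoeff (R := κ))) :=
        MvPowerSeries.map_expand (σ := Unit) 2 two_ne_zero (constantCoeff (R := κ)) D.g
      rw [h3] at h
      rw [← h]
      exact h1.symm
    · rw [PowerSeries.coeff_map, D.g_one, constantCoeff_X]
    · rw [PowerSeries.coeff_map]
      exact isUnit_iff_cc.1 D.g_two

/-- reduction modulo `t` as a monoid homomorphism -/
noncomputable def redHom (D : FData κ) : Pr D →* EndFG D.Φ0 where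
  toFun p := ⟨p.red, p.red_hom⟩
  map_one' := EndFG.ext Pr.red_one
  map_mul' p q := EndFG.ext (Pr.red_mul p q)

theorem redHom_val (D : FData κ) (p : Pr D) : (redHom D p).val = p.red := rfl

/-- the data needed by helper507's `sectionF` -/
noncomputable def endData (D : FData κ) {w : κ} (hw : HasW D.Φ0 w) : EndData D (EndFG D.Φ0) where
  io := redHom D
  hone := HtTwo.one_ne
  hfin := hw.fin D.htTwo
  hQ := ⟨2, hw.quat D.htTwo⟩
  near := by
    intro p c _ n _ y h1 i hi
    have h2 := D.htTwo.cong n h1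
    rw [EndFG.natCast_val, redHom_val] at h2
    rw [X_pow_dvd_iff] at h2
    have h4 := h2 i hi
    rw [map_sub, sub_eq_zero] at h4
    exact h4


end Crest.Agent.R007.F
end

-- ▼ part R007/Main3
section

/-!
# Row 7 (S0007): MAIN assembly, part 3 (helper720): `T0` is Noetherian of dimension `≤ 2`.
-/

set_option autoImplicit false

open scoped MatrixGroups
open Crest.LubinTate

namespace Crest.Agent.R007.Main

open Lat

theorem dimT0 (hfg : FG) (hpt : PT) {T0 W I : Type*} [CommRing T0] [Algebra (ZMod 2) T0]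
    [AddCommGroup W] [Module (ZMod 2) W] [Module T0 W] [IsScalarTower (ZMod 2) T0 W]
    {gen : I → T0} {a : W →ₗ[ZMod 2] ZMod 2} (M : ℕ) [NeZero M] (h3 : 3 ∣ M)
    (B : Link.EmbOut Coef.OO M gen a)
    (dual_inj : ∀ t : T0, (∀ w : W, a (t • w) = 0) → t = 0)
    (dual_surj : ∀ f : W →ₗ[ZMod 2] ZMod 2, ∃ t : T0, ∀ w, f w = a (t • w))
    (dual : ∀ w : W, (∀ t : T0, a (t • w) = 0) → w = 0)
    (approx : ∀ (s : Finset W) (t : T0), ∃ x ∈ Algebra.adjoin (ZMod 2) (Set.range gen),
      ∀ w ∈ s, t • w = x • w)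
    (locfin : ∀ w : W, Module.Finite (ZMod 2) (Submodule.span T0 {w})) :
    IsNoetherianRing T0 ∧ ringKrullDim T0 ≤ 2 := by
  obtain ⟨ω, hω⟩ := OOI.exists_omega
  let _ : Algebra (ZMod 2) Coef.kappa := ZMod.algebra Coef.kappa 2
  let E : Link.EOut Coef.OO M AA (Fg.fdata Coef.kappa) := (eIn hfg hpt).out M
  have _ : Finite E.P := E.fin
  exact TopZ.dimT0 (F.endData (Fg.fdata Coef.kappa) (Fg.hasW hω))
    (Link.tdata (hypM M h3) E B dual_inj dual_surj dual approx locfin)

end Crest.Agent.R007.Main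
end

-- ▼ part R007/EPt1
section

/-!
Row 7 (S0007), section E: existence of the points `e : L →+* κ⟦t⟧`, abstract part.
-/

set_option autoImplicit false

namespace Crest.Agent.R007.EPt

open Polynomial

section sep

variable {Γ B Om I : Type*} [Group Γ] [CommRing B] [MulSemiringAction Γ B] [Field Om]
  [Fintype I] [MulAction Γ I]

theorem map_prod_inv (w : I → B) (hw : ∀ (g : Γ) i, w (g • i) = g • w i) (g : Γ) :
    (∏ i, (X - C (w i))).map (MulSemiringAction.toRingHom Γ B g) = ∏ i, (X - C (w i)) := by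
  simp only [Polynomial.map_prod, Polynomial.map_sub, map_X, map_C,
    MulSemiringAction.toRingHom_apply, ← hw]
  exact Fintype.prod_equiv (MulAction.toPerm g) _ _ fun i => rfl

theorem mem_of_sep [DecidableEq I] (e : B →+* Om) (K : Subfield Om)
    (hK : ∀ b : B, (∀ g : Γ, g • b = b) → e b ∈ K) (b w : I → B)
    (hb : ∀ (g : Γ) i, b (g • i) = g • b i) (hw : ∀ (g : Γ) i, w (g • i) = g • w i) (i0 : I)
    (hw0 : e (w i0) ∈ K) (hsep : ∀ i, i ≠ i0 → e (w i) ≠ e (w i0)) : e (b i0) ∈ K := by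
  classical
  have key : ∀ b : I → B, (∀ (g : Γ) i, b (g • i) = g • b i) →
      e (b i0) * ∏ j ∈ Finset.univ.erase i0, (e (w i0) - e (w j)) ∈ K := by
    intro b hb
    let T : B[X] := ∑ i : I, C (b i) * ∏ j ∈ Finset.univ.erase i, (X - C (w j))
    have hinv : ∀ k : Γ, T.map (MulSemiringAction.toRingHom Γ B k) = T := by
      intro k
      simp only [T, Polynomial.map_sum, Polynomial.map_mul, Polynomial.map_prod, Polynomial.map_sub,
        map_X, map_C, MulSemiringAction.toRingHom_apply, ← hb, ← hw]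
      refine Fintype.sum_equiv (MulAction.toPerm k) _ _ ?_
      intro i
      simp only [MulAction.toPerm_apply]
      congr 1
      refine Finset.prod_bij' (fun h _ => k • h) (fun h _ => k⁻¹ • h) ?_ ?_ ?_ ?_ ?_
      · intro h hh
        rw [Finset.mem_erase] at hh ⊢
        exact ⟨fun heq => hh.1 (MulAction.injective k heq), Finset.mem_univ _⟩
      · intro h hh
        rw [Finset.mem_erase] at hh ⊢
        refine ⟨fun heq => hh.1 ?_, Finset.mem_univ _⟩
        rw [← heq]; simp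
      · intro h _; simp
      · intro h _; simp
      · intro h _; rfl
    have hcoef : ∀ j, e (T.coeff j) ∈ K := by
      intro j
      apply hK
      intro g
      have := congrArg (fun P => Polynomial.coeff P j) (hinv g)
      simpa [Polynomial.coeff_map] using this
    have heval : e (T.eval (w i0)) ∈ K := by
      rw [Polynomial.eval_eq_sum_range, map_sum]
      apply sum_mem
      intro j _
      rw [map_mul, map_pow]
      exact mul_mem (hcoef j) (pow_mem hw0 j)
    have hT : T.eval (w i0) = b i0 * ∏ j ∈ Finset.univ.erase i0, (w i0 - w j) := by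
      simp only [T, eval_finsetSum, eval_mul, eval_C, eval_prod, eval_sub, eval_X]
      rw [Finset.sum_eq_single i0]
      · intro i _ hi
        have h1 : ∏ h ∈ Finset.univ.erase i, (w i0 - w h) = 0 := by
          apply Finset.prod_eq_zero (i := i0)
          · rw [Finset.mem_erase]; exact ⟨Ne.symm hi, Finset.mem_univ _⟩
          · rw [sub_self]
        rw [h1, mul_zero]
      · intro h; exact absurd (Finset.mem_univ _) h
    rw [hT, map_mul, map_prod] at heval
    simp only [map_sub] at heval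
    exact heval
  have h1 := key b hb
  have h2 := key (fun _ => 1) (fun g _ => (smul_one g).symm)
  rw [map_one, one_mul] at h2
  have h3 : ∏ j ∈ Finset.univ.erase i0, (e (w i0) - e (w j)) ≠ 0 := by
    rw [Finset.prod_ne_zero_iff]
    intro h hh
    rw [Finset.mem_erase] at hh
    exact sub_ne_zero.mpr (Ne.symm (hsep h hh.1))
  have h4 := mul_mem h1 (inv_mem h2)
  rwa [mul_assoc, mul_inv_cancel₀ h3, mul_one] at h4

theorem exists_sep {O κ J : Type*} [CommRing O] [Field κ] [Infinite κ] [Fintype J]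
    (e : B →+* Om) (K : Subfield Om) (r : O →+* κ) (hr : Function.Surjective r)
    (ι : κ →+* Om) (hι : ∀ c, ι c ∈ K) (cst : O →+* B) (hcinv : ∀ (g : Γ) c, g • cst c = cst c)
    (hcomp : ∀ c : O, e (cst c) = ι (r c)) (i0 : I) (θ : J → I → B)
    (hθe : ∀ j (g : Γ) i, θ j (g • i) = g • θ j i) (hθ : ∀ j, e (θ j i0) ∈ K)
    (hsep : ∀ i, i ≠ i0 → ∃ j, e (θ j i) ≠ e (θ j i0)) :
    ∃ w : I → B, (∀ (g : Γ) i, w (g • i) = g • w i) ∧ e (w i0) ∈ K ∧
      ∀ i, i ≠ i0 → e (w i) ≠ e (w i0) := by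
  classical
  let _ : Algebra κ Om := ι.toAlgebra
  let v : I → J → Om := fun i j => e (θ j i) - e (θ j i0)
  let ℓ : I → ((J → κ) →ₗ[κ] Om) := fun i =>
    { toFun := fun lam => ∑ j, ι (lam j) * v i j
      map_add' := by
        intro a b
        simp only [Pi.add_apply, map_add, add_mul, Finset.sum_add_distrib]
      map_smul' := by
        intro c a
        simp only [Pi.smul_apply, smul_eq_mul, map_mul, mul_assoc, ← Finset.mul_sum,
          RingHom.id_apply, Algebra.smul_def, RingHom.algebraMap_toAlgebra] }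
  have hcov : ⋃ i : {i : I // i ≠ i0}, ((LinearMap.ker (ℓ i.1) : Submodule κ (J → κ)) : Set (J → κ))
      ≠ Set.univ := by
    intro hcov
    obtain ⟨i, hi⟩ := Subspace.exists_eq_top_of_iUnion_eq_univ hcov
    obtain ⟨j, hj⟩ := hsep i.1 i.2
    have h1 : Pi.single j (1 : κ) ∈ LinearMap.ker (ℓ i.1) := by rw [hi]; trivial
    rw [LinearMap.mem_ker] at h1
    change ∑ j', ι ((Pi.single j (1 : κ) : J → κ) j') * v i.1 j' = 0 at h1
    rw [Finset.sum_eq_single j] at h1
    · rw [Pi.single_eq_same, map_one, one_mul] at h1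
      exact hj (sub_eq_zero.mp h1)
    · intro j' _ hj'
      rw [Pi.single_eq_of_ne hj', map_zero, zero_mul]
    · intro h; exact absurd (Finset.mem_univ _) h
  rw [Set.ne_univ_iff_exists_notMem] at hcov
  obtain ⟨lam, hlam⟩ := hcov
  rw [Set.mem_iUnion, not_exists] at hlam
  choose c hc using fun j => hr (lam j)
  refine ⟨fun i => ∑ j, cst (c j) * θ j i, ?_, ?_, ?_⟩
  · intro g i
    rw [Finset.smul_sum]
    refine Finset.sum_congr rfl fun j _ => ?_
    rw [smul_mul', hcinv, hθe]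
  · rw [map_sum]
    apply sum_mem
    intro j _
    rw [map_mul, hcomp]
    exact mul_mem (hι _) (hθ j)
  · intro i hi heq
    apply hlam ⟨i, hi⟩
    rw [SetLike.mem_coe, LinearMap.mem_ker]
    change ∑ j, ι (lam j) * v i j = 0
    rw [map_sum, map_sum, ← sub_eq_zero, ← Finset.sum_sub_distrib] at heq
    rw [← heq]
    apply Finset.sum_congr rfl
    intro j _
    simp only [v]
    rw [map_mul, map_mul, hcomp, hc, mul_sub]

end sep

/-- the data coming from the values `P_v` of level `M` -/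
structure Pd (Γ : Type*) {L : Type*} [Group Γ] [CommRing L] [MulSemiringAction Γ L]
    (A1 A3 : L) (I : Type*) [MulAction Γ I] where
  i0 : I
  d : I → I → L
  d_sub : ∀ i j k, d i k - d j k = d i j
  d_smul : ∀ (g : Γ) i j, d (g • i) (g • j) = g • d i j
  d_unit : ∀ i j, i ≠ j → ∃ (G : L) (n : ℕ), d i j * G = (A3 ^ 3 * (A1 ^ 3 - 27 * A3)) ^ n
  T : Set I
  T_smul : ∀ (g : Γ) i, i ∈ T → g • i ∈ T
  i0_mem : i0 ∈ T
  q : I → L
  q_smul : ∀ (g : Γ), ∀ i ∈ T, q (g • i) = g • q i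
  q_zero : q i0 = A3 ^ 2
  q_eq : ∀ i ∈ T, q i = 4 * d i i0 ^ 3 + (A1 * d i i0 + A3) ^ 2

namespace Pd

variable {Γ L : Type*} [Group Γ] [CommRing L] [MulSemiringAction Γ L] {A1 A3 : L} {I : Type*}
  [MulAction Γ I] (D : Pd Γ A1 A3 I)


end Pd

section main

variable {Γ L O κ I Om : Type*} [Group Γ] [CommRing L] [MulSemiringAction Γ L] [CommRing O]
  [Field κ] [IsAlgClosed κ] [CharP κ 2] {A1 A3 : L} [Finite I] [MulAction Γ I]
  [Field Om] [Algebra (PowerSeries κ) Om] [Algebra (LaurentSeries κ) Om]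
  [IsScalarTower (PowerSeries κ) (LaurentSeries κ) Om]

omit [CharP κ 2] [IsAlgClosed κ] in
theorem algMap_inj : Function.Injective (algebraMap (PowerSeries κ) Om) := by
  rw [IsScalarTower.algebraMap_eq (PowerSeries κ) (LaurentSeries κ) Om]
  exact (algebraMap (LaurentSeries κ) Om).injective.comp
    (IsFractionRing.injective (PowerSeries κ) (LaurentSeries κ))

theorem two_Om (κ Om : Type*) [Field κ] [CharP κ 2] [Field Om] [Algebra (PowerSeries κ) Om] :
    (2 : Om) = 0 := by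
  have h : algebraMap (PowerSeries κ) Om (PowerSeries.C (2 : κ)) = 2 := by
    rw [map_ofNat, map_ofNat]
  rw [← h, CharTwo.two_eq_zero, map_zero, map_zero]

omit [IsAlgClosed κ] in
theorem disc_unit : IsUnit ((PowerSeries.X : PowerSeries κ) ^ 3 - 27) := by
  rw [PowerSeries.isUnit_iff_constantCoeff, map_sub, map_pow, PowerSeries.constantCoeff_X]
  have h27 : PowerSeries.constantCoeff (27 : PowerSeries κ) = 1 := by
    rw [map_ofNat]
    have h2 : (2 : κ) = 0 := CharTwo.two_eq_zero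
    linear_combination (13 : κ) * h2
  rw [h27]
  simp

theorem mem_K_of_Pd (D : Pd Γ A1 A3 I) (ρ : O →+* κ) (hρ : Function.Surjective ρ)
    (e : L →+* Om) (hA1 : e A1 = algebraMap (PowerSeries κ) Om PowerSeries.X) (hA3 : e A3 = 1)
    (hinv : ∀ b : L, (∀ g : Γ, g • b = b) → ∃ r : PowerSeries κ, e b = algebraMap _ Om r)
    (hint : ∀ b : L, IsIntegral (PowerSeries κ) (e b)) (cst : O →+* L)
    (hcinv : ∀ (g : Γ) c, g • cst c = cst c)
    (hcst : ∀ c, e (cst c) = algebraMap (PowerSeries κ) Om (PowerSeries.C (ρ c))) (b : L)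
    (hb : ∀ g : Γ, (∀ i : I, g • i = i) → g • b = b) :
    e b ∈ (algebraMap (LaurentSeries κ) Om).fieldRange := by
  classical
  have : Fintype I := Fintype.ofFinite I
  set K := (algebraMap (LaurentSeries κ) Om).fieldRange with hKdef
  have hR : ∀ r : PowerSeries κ, algebraMap (PowerSeries κ) Om r ∈ K := fun r =>
    ⟨algebraMap _ _ r, by rw [← IsScalarTower.algebraMap_apply]⟩
  have hKinv : ∀ b : L, (∀ g : Γ, g • b = b) → e b ∈ K := by
    intro b hb
    obtain ⟨r, hr⟩ := hinv b hb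
    rw [hr]; exact hR r
  have hX : algebraMap (PowerSeries κ) Om PowerSeries.X ≠ 0 := by
    rw [Ne, map_eq_zero_iff _ algMap_inj]
    exact PowerSeries.X_ne_zero
  have h2 : (2 : Om) = 0 := two_Om κ Om
  have hdu : ∀ i j, i ≠ j → ∃ c : Om, IsIntegral (PowerSeries κ) c ∧ e (D.d i j) * c = 1 := by
    intro i j hij
    obtain ⟨G, n, hG⟩ := D.d_unit i j hij
    obtain ⟨u, hu⟩ := disc_unit (κ := κ)
    refine ⟨e G * algebraMap (PowerSeries κ) Om ((u⁻¹ : (PowerSeries κ)ˣ) : PowerSeries κ) ^ n,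
      (hint G).mul (isIntegral_algebraMap.pow n), ?_⟩
    have h := congrArg e hG
    rw [map_mul, map_pow, map_mul, map_pow, hA3, map_sub, map_pow, hA1, map_mul, hA3, map_ofNat] at h
    have h' : (1 ^ 3 * (algebraMap (PowerSeries κ) Om PowerSeries.X ^ 3 - 27 * 1)) =
        algebraMap (PowerSeries κ) Om (u : PowerSeries κ) := by
      rw [hu, map_sub, map_pow, map_ofNat]; ring
    rw [h'] at h
    rw [← mul_assoc, h, ← mul_pow, ← map_mul, Units.mul_inv, map_one, one_pow]
  have hdne : ∀ i j, i ≠ j → e (D.d i j) ≠ 0 := by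
    intro i j hij h0
    obtain ⟨c, _, hc⟩ := hdu i j hij
    rw [h0, zero_mul] at hc
    exact zero_ne_one hc
  have hqne : ∀ i ∈ D.T, i ≠ D.i0 → e (D.q i) ≠ e (D.q D.i0) := by
    intro i hi hne heq
    rw [D.q_zero, D.q_eq i hi, map_add, map_mul, map_pow, map_pow, map_add, map_mul, hA1, hA3,
      map_ofNat, map_pow, hA3] at heq
    have h3 : (algebraMap (PowerSeries κ) Om PowerSeries.X * e (D.d i D.i0)) ^ 2 = 0 := by
      linear_combination heq - (2 * e (D.d i D.i0) ^ 3 +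
        algebraMap (PowerSeries κ) Om PowerSeries.X * e (D.d i D.i0)) * h2
    exact (mul_ne_zero hX (hdne i D.i0 hne)) (pow_eq_zero_iff (two_ne_zero) |>.1 h3)
  -- Step 1
  let T' := {i : I // i ∈ D.T}
  let _ : MulAction Γ T' :=
    { smul := fun g i => ⟨g • i.1, D.T_smul g i.1 i.2⟩
      one_smul := fun i => Subtype.ext (one_smul _ _)
      mul_smul := fun g h i => Subtype.ext (mul_smul _ _ _) }
  have hsm : ∀ (g : Γ) (i : T'), (g • i).1 = g • i.1 := fun _ _ => rfl
  let f : I → L[X] := fun i => ∏ j : I, (X - C (D.d j i))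
  have hf : ∀ (g : Γ) i, f (g • i) = (f i).map (MulSemiringAction.toRingHom Γ L g) := by
    intro g i
    simp only [f, Polynomial.map_prod, Polynomial.map_sub, map_X, map_C,
      MulSemiringAction.toRingHom_apply, ← D.d_smul]
    exact (Fintype.prod_equiv (MulAction.toPerm g) _ _ fun i => rfl).symm
  have hcoefK : ∀ n, e ((f D.i0).coeff n) ∈ K := by
    intro n
    refine mem_of_sep (Γ := Γ) (I := T') e K hKinv (fun i => (f i.1).coeff n) (fun i => D.q i.1)
      ?_ ?_ ⟨D.i0, D.i0_mem⟩ ?_ ?_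
    · intro g i
      simp only [hsm]
      rw [hf, Polynomial.coeff_map]
      rfl
    · intro g i
      exact D.q_smul g i.1 i.2
    · change e (D.q D.i0) ∈ K
      rw [D.q_zero, map_pow, hA3, one_pow]
      exact one_mem _
    · intro i hi
      exact hqne i.1 i.2 fun h => hi (Subtype.ext h)
  have hcoefR : ∀ n, ∃ r : PowerSeries κ, algebraMap (PowerSeries κ) Om r = e ((f D.i0).coeff n) := by
    intro n
    obtain ⟨x, hx⟩ := hcoefK n
    have := ECore.mem_of_integral_of_laurent (Om := Om) x (by rw [hx]; exact hint _)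
    rw [hx] at this
    exact this
  have hlift : (f D.i0).map e ∈ Polynomial.lifts (algebraMap (PowerSeries κ) Om) := by
    rw [Polynomial.lifts_iff_coeff_lifts]
    intro n
    rw [Polynomial.coeff_map]
    exact hcoefR n
  have hmon : ((f D.i0).map e).Monic := (monic_prod_of_monic _ _ fun j _ => monic_X_sub_C _).map e
  obtain ⟨F, hF, -, hFm⟩ := Polynomial.lifts_and_natDegree_eq_and_monic hlift hmon
  have hθ : ∀ i, ∃ r : PowerSeries κ, algebraMap (PowerSeries κ) Om r = e (D.d i D.i0) := by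
    refine ECore.roots_mem (algMap_inj (κ := κ)) F hFm (fun i => e (D.d i D.i0)) ?_ ?_
    · rw [hF]
      simp only [f, Polynomial.map_prod, Polynomial.map_sub, map_X, map_C]
    · intro i j hij
      obtain ⟨c, hc, h1⟩ := hdu i j hij
      refine ⟨c, hc, ?_⟩
      rw [← map_sub, D.d_sub]
      exact h1
  -- Step 2
  let N : Subgroup Γ := (MulAction.toPermHom Γ I).ker
  have hN : ∀ g : Γ, g ∈ N ↔ ∀ i : I, g • i = i := by
    intro g
    rw [MonoidHom.mem_ker]
    constructor
    · intro h i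
      have := congrArg (fun p : Equiv.Perm I => p i) h
      simpa using this
    · intro h
      ext i
      simpa using h i
  have : Finite (Γ ⧸ N) := by
    have hinj : Function.Injective (QuotientGroup.kerLift (MulAction.toPermHom Γ I)) :=
      QuotientGroup.kerLift_injective _
    exact Finite.of_injective _ hinj
  have : Fintype (Γ ⧸ N) := Fintype.ofFinite _
  -- equivariant extension of an `N`-fixed element
  have hwd : ∀ b : L, (∀ g : Γ, (∀ i : I, g • i = i) → g • b = b) →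
      ∃ β : Γ ⧸ N → L, (∀ g : Γ, β (g : Γ ⧸ N) = g • b) := by
    intro b hb
    refine ⟨Quotient.lift (fun g : Γ => g • b) ?_, fun g => rfl⟩
    intro g h hgh
    have hgh' : g⁻¹ * h ∈ N := QuotientGroup.leftRel_apply.1 hgh
    have := hb _ ((hN _).1 hgh')
    change g • b = h • b
    rw [mul_smul, inv_smul_eq_iff] at this
    exact this.symm
  have heq : ∀ (b : L) (β : Γ ⧸ N → L), (∀ g : Γ, β (g : Γ ⧸ N) = g • b) →
      ∀ (g : Γ) (x : Γ ⧸ N), β (g • x) = g • β x := by
    intro b β hβ g x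
    obtain ⟨h, rfl⟩ := QuotientGroup.mk_surjective x
    have : g • (h : Γ ⧸ N) = ((g * h : Γ) : Γ ⧸ N) := rfl
    rw [this, hβ, hβ, mul_smul]
  let θ0 : Option I → L := fun j => match j with
    | none => D.q D.i0
    | some i => D.d i D.i0
  have hθ0 : ∀ j, ∀ g : Γ, (∀ i : I, g • i = i) → g • θ0 j = θ0 j := by
    intro j g hg
    match j with
    | none => 
      change g • D.q D.i0 = D.q D.i0
      rw [← D.q_smul g _ D.i0_mem, hg]
    | some i => 
      change g • D.d i D.i0 = D.d i D.i0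
      rw [← D.d_smul, hg, hg]
  choose θ hθβ using fun j => hwd (θ0 j) (hθ0 j)
  obtain ⟨β, hβ⟩ := hwd b hb
  have hone : ∀ (b : L) (β : Γ ⧸ N → L), (∀ g : Γ, β (g : Γ ⧸ N) = g • b) → 
      β ((1 : Γ) : Γ ⧸ N) = b := by
    intro b β hβ
    rw [hβ, one_smul]
  let ι : κ →+* Om := (algebraMap (PowerSeries κ) Om).comp PowerSeries.C
  have hinf : Infinite κ := IsAlgClosed.instInfinite
  obtain ⟨w, hw1, hw2, hw3⟩ := exists_sep (Γ := Γ) (I := Γ ⧸ N) e K ρ hρ ι (fun c => hR _) cst hcinv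
    hcst ((1 : Γ) : Γ ⧸ N) θ (fun j => heq _ _ (hθβ j)) (by
      intro j
      rw [hone _ _ (hθβ j)]
      match j with
      | none => 
        change e (D.q D.i0) ∈ K
        rw [D.q_zero, map_pow, hA3, one_pow]
        exact one_mem _
      | some i => 
        obtain ⟨r, hr⟩ := hθ i
        change e (D.d i D.i0) ∈ K
        rw [← hr]; exact hR r) (by
      intro x hx
      obtain ⟨g, rfl⟩ := QuotientGroup.mk_surjective x
      have hgN : g ∉ N := by
        intro hg
        apply hx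
        exact (QuotientGroup.eq_one_iff g).2 hg
      simp only [hone _ _ (hθβ _), hθβ]
      by_cases h0 : g • D.i0 = D.i0
      · rw [hN] at hgN
        push Not at hgN
        obtain ⟨i, hi⟩ := hgN
        refine ⟨some i, fun h => ?_⟩
        change e (g • D.d i D.i0) = e (D.d i D.i0) at h
        rw [← D.d_smul, h0, ← sub_eq_zero, ← map_sub, D.d_sub] at h
        exact hdne _ _ hi h
      · refine ⟨none, ?_⟩
        change e (g • D.q D.i0) ≠ e (D.q D.i0)
        rw [← D.q_smul g _ D.i0_mem]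
        exact hqne _ (D.T_smul g _ D.i0_mem) h0)
  have := mem_of_sep (Γ := Γ) (I := Γ ⧸ N) e K hKinv β w (heq _ _ hβ) hw1 _ hw2 hw3
  rwa [hone _ _ hβ] at this

end main

section exist

variable {Γ L O κ : Type*} [Group Γ] [CommRing L] [MulSemiringAction Γ L] [CommRing O]
  [Field κ] [IsAlgClosed κ] [CharP κ 2] {A1 A3 : L}

theorem exists_monic (S : Subring L) (hS : ∀ b : L, (∀ g : Γ, g • b = b) → b ∈ S) (b : L)
    (hb : (MulAction.orbit Γ b).Finite) : ∃ p : S[X], p.Monic ∧ (p.map S.subtype).eval b = 0 := by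
  classical
  have : Fintype (MulAction.orbit Γ b) := hb.fintype
  let P : L[X] := ∏ i : MulAction.orbit Γ b, (X - C (i : L))
  have hP : ∀ g : Γ, P.map (MulSemiringAction.toRingHom Γ L g) = P :=
    map_prod_inv (fun i : MulAction.orbit Γ b => (i : L)) (fun g i => rfl)
  have hcoef : ∀ n, P.coeff n ∈ S := by
    intro n
    apply hS
    intro g
    have := congrArg (fun Q => Polynomial.coeff Q n) (hP g)
    simpa [Polynomial.coeff_map] using this
  have hlift : P ∈ Polynomial.lifts S.subtype := by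
    rw [Polynomial.lifts_iff_coeff_lifts]
    intro n
    exact ⟨⟨_, hcoef n⟩, rfl⟩
  have hmon : P.Monic := monic_prod_of_monic _ _ fun j _ => monic_X_sub_C _
  obtain ⟨p, hp, -, hpm⟩ := Polynomial.lifts_and_natDegree_eq_and_monic hlift hmon
  refine ⟨p, hpm, ?_⟩
  rw [hp, Polynomial.eval_prod]
  apply Finset.prod_eq_zero (Finset.mem_univ (⟨b, MulAction.mem_orbit_self b⟩ : MulAction.orbit Γ b))
  simp

/-- **existence of points** -/
theorem exists_point (ρ : O →+* κ) (hρ : Function.Surjective ρ) (cst : O →+* L)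
    (hcinv : ∀ (g : Γ) c, g • cst c = cst c) (S : Subring L)
    (hS : ∀ b : L, (∀ g : Γ, g • b = b) → b ∈ S) (hcS : ∀ c, cst c ∈ S) (hA1 : A1 ∈ S)
    (hA3 : A3 ∈ S) (φ : S →+* PowerSeries κ) (hφ1 : φ ⟨A1, hA1⟩ = PowerSeries.X)
    (hφ3 : φ ⟨A3, hA3⟩ = 1) (hφc : ∀ c, φ ⟨cst c, hcS c⟩ = PowerSeries.C (ρ c))
    (horb : ∀ b : L, (MulAction.orbit Γ b).Finite)
    (hgen : ∀ b : L, b ∈ AddSubgroup.closure {b : L |
      ∃ (b' : L) (I : Type) (_ : Finite I) (_ : MulAction Γ I) (_ : Pd Γ A1 A3 I),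
        (b' = b ∨ b' = A1 * b) ∧ ∀ g : Γ, (∀ i : I, g • i = i) → g • b' = b'}) :
    ∃ e : L →+* PowerSeries κ, (∀ c, e (cst c) = PowerSeries.C (ρ c)) ∧ e A1 = PowerSeries.X ∧
      e A3 = 1 := by
  classical
  let Om := AlgebraicClosure (LaurentSeries κ)
  have hint : Algebra.IsIntegral S L := by
    constructor
    intro b
    obtain ⟨p, hp, h⟩ := exists_monic (Γ := Γ) S hS b (horb b)
    refine ⟨p, hp, ?_⟩
    rw [← Polynomial.eval_map]
    exact h
  obtain ⟨e, he⟩ := ECore.exists_extension (A := S) (B := L) (Om := Om) Subtype.val_injective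
    ((algebraMap (PowerSeries κ) Om).comp φ)
  have he' : ∀ a (ha : a ∈ S), e a = algebraMap (PowerSeries κ) Om (φ ⟨a, ha⟩) := fun a ha =>
    he ⟨a, ha⟩
  have heint : ∀ b, IsIntegral (PowerSeries κ) (e b) := by
    intro b
    obtain ⟨p, hp, h⟩ := exists_monic (Γ := Γ) S hS b (horb b)
    refine ⟨p.map φ, hp.map _, ?_⟩
    rw [eval₂_map]
    have h1 : (algebraMap (PowerSeries κ) Om).comp φ = e.comp S.subtype := by
      ext a
      exact (he a).symm
    rw [h1, ← Polynomial.eval₂_map, Polynomial.eval₂_at_apply, h, map_zero]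
  have e1 : e A1 = algebraMap (PowerSeries κ) Om PowerSeries.X := by rw [he' _ hA1, hφ1]
  have e3 : e A3 = 1 := by rw [he' _ hA3, hφ3, map_one]
  have ec : ∀ c, e (cst c) = algebraMap (PowerSeries κ) Om (PowerSeries.C (ρ c)) := fun c => by
    rw [he' _ (hcS c), hφc]
  have hX : algebraMap (PowerSeries κ) Om PowerSeries.X ≠ 0 := by
    rw [Ne, map_eq_zero_iff _ algMap_inj]
    exact PowerSeries.X_ne_zero
  have hK : ∀ b, e b ∈ (algebraMap (LaurentSeries κ) Om).fieldRange := by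
    intro b
    refine AddSubgroup.closure_induction (p := fun b _ => e b ∈
      (algebraMap (LaurentSeries κ) Om).fieldRange) ?_ ?_ ?_ ?_ (hgen b)
    · rintro b ⟨b', I, hI, hIa, D, hb', hfix⟩
      have h := mem_K_of_Pd D ρ hρ e e1 e3 (fun b hb => ⟨_, he' b (hS b hb)⟩) heint cst hcinv ec b'
        hfix
      rcases hb' with rfl | rfl
      · exact h
      · rw [map_mul, e1] at h
        have h2 : algebraMap (PowerSeries κ) Om PowerSeries.X ∈
            (algebraMap (LaurentSeries κ) Om).fieldRange :=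
          ⟨algebraMap _ _ PowerSeries.X,
            (IsScalarTower.algebraMap_apply (PowerSeries κ) (LaurentSeries κ) Om _).symm⟩
        have h3 := mul_mem (inv_mem h2) h
        rwa [inv_mul_cancel_left₀ hX] at h3
    · rw [map_zero]; exact zero_mem _
    · intro x y _ _ hx hy
      rw [map_add]; exact add_mem hx hy
    · intro x _ hx
      rw [map_neg]; exact neg_mem hx
  have hR : ∀ b, e b ∈ (algebraMap (PowerSeries κ) Om).range := by
    intro b
    obtain ⟨x, hx⟩ := hK b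
    have := ECore.mem_of_integral_of_laurent (Om := Om) x (by rw [hx]; exact heint _)
    rw [hx] at this
    exact this
  let eR : L →+* (algebraMap (PowerSeries κ) Om).range := e.codRestrict _ hR
  let ε := RingEquiv.ofBijective (algebraMap (PowerSeries κ) Om).rangeRestrict
    ⟨fun a b h => algMap_inj (congrArg Subtype.val h), RingHom.rangeRestrict_surjective _⟩
  have key : ∀ b r, e b = algebraMap (PowerSeries κ) Om r → ε.symm (eR b) = r := by
    intro b r h
    rw [RingEquiv.symm_apply_eq]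
    exact Subtype.ext h
  refine ⟨(ε.symm : _ →+* PowerSeries κ).comp eR, fun c => key _ _ (ec c), key _ _ e1,
    key _ _ (by rw [e3, map_one])⟩

end exist

end Crest.Agent.R007.EPt
end

-- ▼ part R007/EPt2
section

/-!
Row 7 (S0007), section E: existence of the points, concrete part 1: the action of `SL(2,ℤ)` on `L`,
invariants = polynomials in `A₁`, `A₃`, algebraic independence.
-/

set_option autoImplicit false

namespace Crest.Agent.R007.EPt

open UpperHalfPlane ModularForm CongruenceSubgroup Matrix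
open Crest.Agent.R007.Lat Crest.Agent.R007.Mix Crest.Agent.R007.EL Crest.Agent.R007.Tc
open scoped MatrixGroups Manifold ModularForm

variable (O : Subring ℂ)

/-- `SL(2,ℤ)` acts on `L` -/
@[reducible] noncomputable def slAct : MulSemiringAction SL(2, ℤ) (LL O) where
  smul g x := slL O (sG g⁻¹) (sG_mem_G2 _) x
  one_smul x := Subtype.ext (by
    change sl _ (sG 1⁻¹) = _
    rw [inv_one, sG_one, sl_one_right])
  mul_smul g h x := Subtype.ext (by
    change sl _ (sG (g * h)⁻¹) = sl (sl _ (sG h⁻¹)) (sG g⁻¹)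
    rw [_root_.mul_inv_rev, sG_mul, sl_mul_right])
  smul_zero g := map_zero _
  smul_add g x y := map_add _ _ _
  smul_one g := map_one _
  smul_mul g x y := map_mul _ _ _

attribute [local instance] slAct

theorem smul_coe (g : SL(2, ℤ)) (x : LL O) : ((g • x : LL O) : X → ℂ) = sl x (sG g⁻¹) := rfl

theorem exists_level (x : LL O) : ∃ M : ℕ, Odd M ∧ 3 ∣ M ∧ ∃ (n : ℕ) (f : ℕ → X → ℂ),
    (∀ k, f k ∈ Lk O k) ∧ (∀ k, k < n → f k ∈ MX M k) ∧
    (x : X → ℂ) = ∑ k ∈ Finset.range n, f k := by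
  obtain ⟨n, f, hf, hx⟩ := x.2
  choose m hm1 hm2 using fun k => (hf k).1
  have hne : ∀ k, m k ≠ 0 := fun k => (hm1 k).pos.ne'
  refine ⟨3 * ∏ k ∈ Finset.range n, m k, ?_, dvd_mul_right _ _, n, f, hf, ?_, hx⟩
  · refine Odd.mul (by decide) ?_
    refine Finset.prod_induction _ Odd (fun a b ha hb => ha.mul hb) odd_one fun k _ => hm1 k
  · intro k hk
    have i1 : NeZero (m k) := ⟨hne k⟩
    have i2 : NeZero (3 * ∏ k ∈ Finset.range n, m k) :=
      ⟨mul_ne_zero (by norm_num) (Finset.prod_ne_zero_iff.2 fun k _ => hne k)⟩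
    exact MX_mono ((Finset.dvd_prod_of_mem m (Finset.mem_range.2 hk)).mul_left 3) (hm2 k)

theorem MX_fix {M k : ℕ} [NeZero M] {F : X → ℂ} (hF : F ∈ MX M k) {γ : SL(2, ℤ)}
    (hγ : γ ∈ Gamma M) : sl F (sG γ) = F := (mem_MX_iff.1 hF).2.1 γ hγ

theorem orbit_finite (x : LL O) : (MulAction.orbit SL(2, ℤ) x).Finite := by
  obtain ⟨M, hM, -, n, f, -, hfM, hx⟩ := exists_level O x
  have : NeZero M := ⟨hM.pos.ne'⟩
  have hle : Gamma M ≤ MulAction.stabilizer SL(2, ℤ) x := by
    intro γ hγ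
    rw [MulAction.mem_stabilizer_iff]
    apply Subtype.ext
    rw [smul_coe, hx, sl_sum]
    refine Finset.sum_congr rfl fun k hk => ?_
    exact MX_fix (hfM k (Finset.mem_range.1 hk)) (inv_mem hγ)
  have hfi : (MulAction.stabilizer SL(2, ℤ) x).FiniteIndex := Subgroup.finiteIndex_of_le hle
  have : Finite (SL(2, ℤ) ⧸ MulAction.stabilizer SL(2, ℤ) x) := Subgroup.finite_quotient_of_finiteIndex
  have : Finite (MulAction.orbit SL(2, ℤ) x) :=
    Finite.of_equiv _ (MulAction.orbitEquivQuotientStabilizer SL(2, ℤ) x).symm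
  exact Set.toFinite _

theorem invariant_comp (x : LL O) (hx : ∀ g : SL(2, ℤ), g • x = x) : ∃ (n : ℕ) (f : ℕ → X → ℂ),
    (∀ k, k < n → f k ∈ Lk O k ∧ f k ∈ MX 1 k) ∧ (x : X → ℂ) = ∑ k ∈ Finset.range n, f k := by
  obtain ⟨M, hM, -, n, f, hf, hfM, hx'⟩ := exists_level O x
  have : NeZero M := ⟨hM.pos.ne'⟩
  refine ⟨n, f, fun k hk => ⟨hf k, ?_⟩, hx'⟩
  have h1 := mem_MX_iff.1 (hfM k hk)
  rw [mem_MX_iff]
  refine ⟨h1.1, fun γ _ => ?_, h1.2.2⟩
  have h2 := congrArg (Subtype.val : LL O → X → ℂ) (hx γ⁻¹)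
  rw [smul_coe, inv_inv, hx', sl_sum] at h2
  exact Wt_unique (F := fun k => sl (f k) (sG γ)) (G := f) (n := n)
    (fun k => Wt_sl (MO_le_Wt (hf k).1) _) (fun k => MO_le_Wt (hf k).1) h2 k hk

/-! ### polynomials in `A₁`, `A₃` -/

section poly

variable {O} (hO : OddRing O) {v : Fin 2 → ℤ} (hv : NZ 3 v)

/-- `A₁` in `L` -/
noncomputable abbrev a1 : LL O := mkL O (lift 1 (A1 v)) (EH.A1_mem_Lk hO hv)

/-- `A₃` in `L` -/
noncomputable abbrev a3 : LL O := mkL O (lift 3 (A3 v)) (EH.A3_mem_Lk hO hv)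

/-- `O[Y][X] → L`, `Y ↦ A₃`, `X ↦ A₁` -/
noncomputable def Psi : Polynomial (Polynomial O) →+* LL O :=
  Polynomial.eval₂RingHom (Polynomial.eval₂RingHom (cst O) (a3 hO hv)) (a1 hO hv)

theorem Psi_C (c : O) : Psi hO hv (Polynomial.C (Polynomial.C c)) = cst O c := by
  simp [Psi]

theorem Psi_X : Psi hO hv Polynomial.X = a1 hO hv := by simp [Psi]

theorem Psi_Y : Psi hO hv (Polynomial.C Polynomial.X) = a3 hO hv := by simp [Psi]

/-- the subring `O[A₁, A₃]` of `L` -/
noncomputable def PsiR : Subring (LL O) :=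
  RingHom.range (R := Polynomial (Polynomial O)) (S := LL O) (Psi hO hv)


theorem cst_mem_range (c : O) : cst O c ∈ PsiR hO hv := ⟨_, Psi_C hO hv c⟩
theorem a1_mem_range : a1 hO hv ∈ PsiR hO hv := ⟨_, Psi_X hO hv⟩
theorem a3_mem_range : a3 hO hv ∈ PsiR hO hv := ⟨_, Psi_Y hO hv⟩

theorem E4_mem : ∃ s : LL O, s ∈ PsiR hO hv ∧ (s : X → ℂ) = lift 4 Lev1.E4 := by
  refine ⟨a1 hO hv ^ 4 - 24 * (a1 hO hv * a3 hO hv), ?_, ?_⟩
  · have h24 : (24 : LL O) ∈ PsiR hO hv := ofNat_mem _ 24
    exact sub_mem (pow_mem (a1_mem_range hO hv) 4) (mul_mem h24 (mul_mem (a1_mem_range hO hv)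
      (a3_mem_range hO hv)))
  · funext x
    have h := E4_eq hv (τ := x.t)
    change (lift 1 (A1 v) x) ^ 4 - 24 * (lift 1 (A1 v) x * lift 3 (A3 v) x) = lift 4 Lev1.E4 x
    simp only [lift_apply, Lev1.E4]
    rw [h]
    ring

theorem E6_mem : ∃ s : LL O, s ∈ PsiR hO hv ∧ (s : X → ℂ) = lift 6 Lev1.E6 := by
  refine ⟨a1 hO hv ^ 6 - 36 * (a1 hO hv ^ 3 * a3 hO hv) + 216 * a3 hO hv ^ 2, ?_, ?_⟩
  · have h36 : (36 : LL O) ∈ PsiR hO hv := ofNat_mem _ 36
    have h216 : (216 : LL O) ∈ PsiR hO hv := ofNat_mem _ 216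
    exact add_mem (sub_mem (pow_mem (a1_mem_range hO hv) 6) (mul_mem h36
      (mul_mem (pow_mem (a1_mem_range hO hv) 3) (a3_mem_range hO hv))))
      (mul_mem h216 (pow_mem (a3_mem_range hO hv) 2))
  · funext x
    have h := E6_eq hv (τ := x.t)
    change (lift 1 (A1 v) x) ^ 6 - 36 * ((lift 1 (A1 v) x) ^ 3 * lift 3 (A3 v) x) +
      216 * (lift 3 (A3 v) x) ^ 2 = lift 6 Lev1.E6 x
    simp only [lift_apply, Lev1.E6]
    rw [h]
    ring

theorem Dl_mem : ∃ s : LL O, s ∈ PsiR hO hv ∧ (s : X → ℂ) = lift 12 Lev1.Dl := by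
  refine ⟨a3 hO hv ^ 3 * (a1 hO hv ^ 3 - 27 * a3 hO hv), ?_, ?_⟩
  · have h27 : (27 : LL O) ∈ PsiR hO hv := ofNat_mem _ 27
    exact mul_mem (pow_mem (a3_mem_range hO hv) 3) (sub_mem (pow_mem (a1_mem_range hO hv) 3)
      (mul_mem h27 (a3_mem_range hO hv)))
  · exact (Lev1.DX_eq hv).symm

theorem lev1_mem {k : ℕ} {F : X → ℂ} (hF : F ∈ Lk O k) (h1 : F ∈ MX 1 k) :
    ∃ s : LL O, s ∈ PsiR hO hv ∧ (s : X → ℂ) = F := by
  have h := Lev1.mem_span (Lev1.isR_res hF h1)
  have key : ∀ f ∈ Submodule.span O (Lev1.mons (k : ℤ)), ∃ s : LL O, s ∈ PsiR hO hv ∧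
      (s : X → ℂ) = lift k f := by
    intro f hf
    induction hf using Submodule.span_induction with
    | zero => exact ⟨0, zero_mem _, (lift_zero k).symm⟩
    | add x y _ _ hx hy =>
      obtain ⟨s, hs, e⟩ := hx
      obtain ⟨t, ht, e'⟩ := hy
      exact ⟨s + t, add_mem hs ht, by rw [lift_add, ← e, ← e']; rfl⟩
    | smul c x _ hx =>
      obtain ⟨s, hs, e⟩ := hx
      refine ⟨cst O c * s, mul_mem (cst_mem_range hO hv c) hs, ?_⟩
      change ((c : ℂ) • (1 : X → ℂ)) * (s : X → ℂ) = lift k ((c : ℂ) • x)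
      rw [e, lift_smul, smul_mul_assoc, one_mul]
    | mem x hx =>
      obtain ⟨a, b, c, habc, rfl⟩ := hx
      obtain ⟨s4, h4, e4⟩ := E4_mem hO hv
      obtain ⟨s6, h6, e6⟩ := E6_mem hO hv
      obtain ⟨sD, hD, eD⟩ := Dl_mem hO hv
      refine ⟨s4 ^ a * s6 ^ b * sD ^ c, mul_mem (mul_mem (pow_mem h4 a) (pow_mem h6 b))
        (pow_mem hD c), ?_⟩
      change (s4 : X → ℂ) ^ a * (s6 : X → ℂ) ^ b * (sD : X → ℂ) ^ c = _
      have hk : k = 4 * a + 6 * b + 12 * c := by
        have : (k : ℤ) = ((4 * a + 6 * b + 12 * c : ℕ) : ℤ) := by push_cast; linarith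
        exact_mod_cast this
      rw [e4, e6, eD, hk, lift_mul, lift_mul, Lev1.lift_pow', Lev1.lift_pow', Lev1.lift_pow']
  obtain ⟨s, hs, e⟩ := key _ h
  exact ⟨s, hs, by rw [e, lift_res (MX_le_Wt h1)]⟩

theorem invariant_mem (x : LL O) (hx : ∀ g : SL(2, ℤ), g • x = x) : x ∈ PsiR hO hv := by
  obtain ⟨n, f, hf, e⟩ := invariant_comp O x hx
  have h : ∀ k, ∃ s : LL O, s ∈ PsiR hO hv ∧ (k < n → (s : X → ℂ) = f k) := by
    intro k
    by_cases hk : k < n
    · obtain ⟨s, hs, e⟩ := lev1_mem hO hv (hf k hk).1 (hf k hk).2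
      exact ⟨s, hs, fun _ => e⟩
    · exact ⟨0, zero_mem _, fun h => absurd h hk⟩
  choose s hs hs' using h
  have : x = ∑ k ∈ Finset.range n, s k := by
    apply Subtype.ext
    rw [e]
    refine Eq.trans ?_ (map_sum (LL O).subtype _ _).symm
    exact Finset.sum_congr rfl fun k hk => (hs' k (Finset.mem_range.1 hk)).symm
  rw [this]
  exact sum_mem fun k _ => hs k

end poly

end Crest.Agent.R007.EPt
end

-- ▼ part R007/EPt3
section

/-!
Row 7 (S0007), section E: existence of the points, concrete part 2: `A₁`, `A₃` are algebraically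
independent.
-/

set_option autoImplicit false

namespace Crest.Agent.R007.EPt

open UpperHalfPlane ModularForm CongruenceSubgroup Matrix
open Crest.Agent.R007.Lat Crest.Agent.R007.Mix Crest.Agent.R007.EL Crest.Agent.R007.Tc
open Crest.Agent.R007.Wp Crest.Agent.R007.Rat
open Filter
open scoped MatrixGroups Manifold ModularForm Topology

section lim

variable {v : Fin 2 → ℤ} (hv : NZ 3 v) (h0 : (v 0 : ZMod 3) ≠ 0)
include hv h0

theorem tendsto_A1 : ∃ c : ℂ, c ≠ 0 ∧ Tendsto (A1 v) atImInfty (𝓝 c) := by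
  refine ⟨PowerSeries.coeff 0 (qe 3 (A1 v)), ?_, ?_⟩
  · intro hc
    have h1 := congrArg (PowerSeries.coeff 0) (qe_A1_sq hv)
    rw [PowerSeries.coeff_zero_eq_constantCoeff_apply, map_pow,
      ← PowerSeries.coeff_zero_eq_constantCoeff_apply, hc, zero_pow two_ne_zero] at h1
    rw [PowerSeries.coeff_smul, sP, PowerSeries.coeff_mk, cP] at h1
    simp only [if_true, Nat.divisorsAntidiagonal_zero, Finset.sum_empty, add_zero, smul_eq_mul] at h1
    rw [cP0_three hv, if_neg h0] at h1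
    exact zero_ne_one h1
  · have := EUnit.tendsto_div (M := 3) (isF_A1 hv) (n := 0) (fun m hm => absurd hm (Nat.not_lt_zero m))
    simpa using this

omit h0 in
theorem coeff_zero_A3 (h0 : (v 0 : ZMod 3) ≠ 0) : PowerSeries.coeff 0 (qe 3 (A3 v)) = 0 := by
  rw [A3, qe_Q, PowerSeries.coeff_mk, cQ_zero, cQ0_eq (by norm_num) hv, if_neg h0]

theorem tendsto_A3 : Tendsto (A3 v) atImInfty (𝓝 0) := by
  have := EUnit.tendsto_div (M := 3) (isF_A3 v) (n := 0) (fun m hm => absurd hm (Nat.not_lt_zero m))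
  rw [coeff_zero_A3 hv h0] at this
  simpa using this

theorem ratio_infinite : (Set.range fun τ : ℍ => A1 v τ ^ 3 / A3 v τ).Infinite := by
  intro hfin
  obtain ⟨B, hB⟩ := (hfin.image (fun z : ℂ => ‖z‖)).bddAbove
  obtain ⟨c, hc, h1⟩ := tendsto_A1 hv h0
  have h3 := tendsto_A3 hv h0
  have hle : ∀ τ : ℍ, ‖A1 v τ ^ 3‖ ≤ B * ‖A3 v τ‖ := by
    intro τ
    have h := hB ⟨_, ⟨τ, rfl⟩, rfl⟩
    simp only [norm_div] at h
    rwa [div_le_iff₀ (norm_pos_iff.2 (A3_ne_zero hv τ))] at h
  have t1 : Tendsto (fun τ : ℍ => ‖A1 v τ ^ 3‖) atImInfty (𝓝 ‖c ^ 3‖) := (h1.pow 3).norm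
  have t2 : Tendsto (fun τ : ℍ => B * ‖A3 v τ‖) atImInfty (𝓝 (B * ‖(0 : ℂ)‖)) :=
    h3.norm.const_mul B
  have := le_of_tendsto_of_tendsto' t1 t2 hle
  rw [norm_zero, mul_zero] at this
  exact (pow_ne_zero 3 hc) (norm_le_zero_iff.1 this)

end lim

section inj

variable {O : Subring ℂ} (hO : OddRing O) {v : Fin 2 → ℤ} (hv : NZ 3 v)

/-- evaluation at a point of `X` -/
noncomputable def evX (O : Subring ℂ) (x : X) : LL O →+* ℂ :=
  (Pi.evalRingHom (fun _ : X => ℂ) x).comp (LL O).subtype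

theorem evX_Psi (x : X) (p : Polynomial (Polynomial O)) : evX O x (Psi hO hv p) =
    (p.map (Polynomial.eval₂RingHom O.subtype (lift 3 (A3 v) x))).eval (lift 1 (A1 v) x) := by
  have h : (evX O x).comp (Psi hO hv) =
      (Polynomial.evalRingHom (lift 1 (A1 v) x)).comp
        (Polynomial.mapRingHom (Polynomial.eval₂RingHom O.subtype (lift 3 (A3 v) x))) := by
    apply Polynomial.ringHom_ext'
    · apply Polynomial.ringHom_ext'
      · ext c
        simp only [RingHom.comp_apply, Psi_C]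
        simp [evX]
      · simp only [RingHom.comp_apply, Psi_Y]
        simp [evX]
    · simp only [RingHom.comp_apply, Psi_X]
      simp [evX]
  exact congrArg (fun f => f p) h

theorem Psi_injective (h0 : (v 0 : ZMod 3) ≠ 0) : Function.Injective (Psi hO hv) := by
  rw [injective_iff_map_eq_zero]
  intro p hp
  have key : ∀ β : ℂ, β ≠ 0 → p.map (Polynomial.eval₂RingHom O.subtype β) = 0 := by
    intro β hβ
    apply Polynomial.eq_zero_of_infinite_isRoot
    apply Set.Infinite.of_image (fun a => a ^ 3 / β)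
    refine (ratio_infinite hv h0).mono ?_
    rintro _ ⟨τ, rfl⟩
    have h3 := A3_ne_zero hv τ
    obtain ⟨w, hw⟩ := IsAlgClosed.exists_pow_nat_eq (A3 v τ / β) (n := 3) (by norm_num)
    have hw0 : w ≠ 0 := by
      rintro rfl
      rw [zero_pow (by norm_num)] at hw
      exact (div_ne_zero h3 hβ) hw.symm
    let x : X := ⟨τ, Units.mk0 w hw0⟩
    have e3 : lift 3 (A3 v) x = β := by
      rw [lift_apply]
      change ((((Units.mk0 w hw0)⁻¹ : ℂˣ) : ℂ)) ^ 3 * A3 v τ = β
      rw [Units.val_inv_eq_inv_val, Units.val_mk0, inv_pow, hw]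
      field_simp
    have e1 : lift 1 (A1 v) x = w⁻¹ * A1 v τ := by
      rw [lift_apply]
      change ((((Units.mk0 w hw0)⁻¹ : ℂˣ) : ℂ)) ^ 1 * A1 v τ = _
      rw [Units.val_inv_eq_inv_val, Units.val_mk0, pow_one]
    refine ⟨w⁻¹ * A1 v τ, ?_, ?_⟩
    · have h := evX_Psi hO hv x p
      rw [hp, map_zero, e3, e1] at h
      exact h.symm
    · change (w⁻¹ * A1 v τ) ^ 3 / β = _
      rw [mul_pow, inv_pow, hw]
      field_simp
  ext1 n
  rw [Polynomial.coeff_zero]
  have h2 : (p.coeff n).map O.subtype = 0 := by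
    apply Polynomial.eq_zero_of_infinite_isRoot
    refine Set.Infinite.mono (s := {β : ℂ | β ≠ 0}) ?_ ?_
    · intro β hβ
      have h := congrArg (fun q => Polynomial.coeff q n) (key β hβ)
      rw [Polynomial.coeff_map] at h
      change Polynomial.IsRoot _ _
      rw [Polynomial.IsRoot, Polynomial.eval_map]
      exact h
    · have : ({β : ℂ | β ≠ 0}) = ({0} : Set ℂ)ᶜ := rfl
      rw [this]
      exact (Set.finite_singleton (0 : ℂ)).infinite_compl
  exact (Polynomial.map_eq_zero_iff Subtype.val_injective).1 h2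

/-- the hom `O[A₁, A₃] → κ⟦t⟧`, `A₁ ↦ t`, `A₃ ↦ 1` -/
theorem exists_phi (h0 : (v 0 : ZMod 3) ≠ 0) {κ : Type*} [Field κ] (ρ : O →+* κ) :
    ∃ φ : PsiR hO hv →+* PowerSeries κ, φ ⟨a1 hO hv, a1_mem_range hO hv⟩ = PowerSeries.X ∧
      φ ⟨a3 hO hv, a3_mem_range hO hv⟩ = 1 ∧
      ∀ c, φ ⟨cst O c, cst_mem_range hO hv c⟩ = PowerSeries.C (ρ c) := by
  let f : Polynomial (Polynomial O) →+* PsiR hO hv :=
    RingHom.codRestrict (R := Polynomial (Polynomial O)) (S := LL O) (Psi hO hv) (PsiR hO hv)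
      fun p => ⟨p, rfl⟩
  have hf : Function.Bijective f := by
    constructor
    · intro p q h
      exact Psi_injective hO hv h0 (congrArg Subtype.val h)
    · rintro ⟨_, p, rfl⟩
      exact ⟨p, rfl⟩
  let ε : Polynomial (Polynomial O) ≃+* PsiR hO hv := RingEquiv.ofBijective f hf
  let g : Polynomial (Polynomial O) →+* PowerSeries κ :=
    Polynomial.eval₂RingHom (Polynomial.eval₂RingHom ((PowerSeries.C).comp ρ) 1) PowerSeries.X
  have key : ∀ (s : PsiR hO hv) (p : Polynomial (Polynomial O)), Psi hO hv p = s →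
      (g.comp (ε.symm : PsiR hO hv →+* Polynomial (Polynomial O))) s = g p := by
    intro s p h
    rw [RingHom.comp_apply]
    congr 1
    change ε.symm s = p
    rw [RingEquiv.symm_apply_eq]
    exact Subtype.ext h.symm
  refine ⟨g.comp (ε.symm : PsiR hO hv →+* Polynomial (Polynomial O)), ?_, ?_, ?_⟩
  · rw [key _ _ (Psi_X hO hv)]
    simp [g]
  · rw [key _ _ (Psi_Y hO hv)]
    simp [g]
  · intro c
    rw [key _ _ (Psi_C hO hv c)]
    simp [g]

end inj

end Crest.Agent.R007.EPt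
end

-- ▼ part R007/EPt4

/-!
Row 7 (S0007), section E: existence of the points, concrete part 3: the `SL(2,ℤ)`-sets `{P_v}`,
and the theorem `exists_pt`.
-/

set_option autoImplicit false

namespace Crest.Agent.R007.EPt

open UpperHalfPlane ModularForm CongruenceSubgroup Matrix
open Crest.Agent.R007.Lat Crest.Agent.R007.Mix Crest.Agent.R007.EL Crest.Agent.R007.Tc
open Crest.Agent.R007.Wp Crest.Agent.R007.Rat
open Filter
open scoped MatrixGroups Manifold ModularForm Topology

attribute [local instance] slAct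

/-! ### the set `{P_v}` -/

/-- `P_v` on `X` -/
noncomputable def PX (M : ℕ) (v : Fin 2 → ℤ) : X → ℂ := lift 2 (P M v)

/-- `SL(2,ℤ)` acts on functions on `X` -/
@[reducible] noncomputable def fnAct : MulAction SL(2, ℤ) (X → ℂ) where
  smul g F := sl F (sG g⁻¹)
  one_smul F := by
    change sl _ (sG 1⁻¹) = _
    rw [inv_one, sG_one, sl_one_right]
  mul_smul g h F := by
    change sl _ (sG (g * h)⁻¹) = sl (sl _ (sG h⁻¹)) (sG g⁻¹)
    rw [_root_.mul_inv_rev, sG_mul, sl_mul_right]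

theorem sl_PX (M : ℕ) (v : Fin 2 → ℤ) (g : SL(2, ℤ)) :
    sl (PX M v) (sG g) = PX M (v ᵥ* (g : Matrix (Fin 2) (Fin 2) ℤ)) := by
  rw [PX, sl_lift_SL]
  exact congrArg (lift 2) (P_slash (γ := g) M v)

/-- the set `{P_v}` -/
def IM (M : ℕ) : Type := {F : X → ℂ // ∃ v, NZ M v ∧ F = PX M v}

noncomputable instance actIM (M : ℕ) : MulAction SL(2, ℤ) (IM M) where
  smul g F := ⟨sl F.1 (sG g⁻¹), by
    obtain ⟨v, hv, e⟩ := F.2
    exact ⟨_, hv.vecMul g⁻¹, by rw [e, sl_PX]⟩⟩
  one_smul F := Subtype.ext (by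
    change sl _ (sG 1⁻¹) = _
    rw [inv_one, sG_one, sl_one_right])
  mul_smul g h F := Subtype.ext (by
    change sl _ (sG (g * h)⁻¹) = sl (sl _ (sG h⁻¹)) (sG g⁻¹)
    rw [_root_.mul_inv_rev, sG_mul, sl_mul_right])

theorem smul_IM {M : ℕ} (g : SL(2, ℤ)) (F : IM M) : (g • F).1 = sl F.1 (sG g⁻¹) := rfl

theorem finite_IM {M : ℕ} (hM : M ≠ 0) : Finite (IM M) := by
  have : NeZero M := ⟨hM⟩
  have hr : (Set.range fun u : Fin 2 → ZMod M => PX M (fun i => (u i).val)).Finite :=
    Set.finite_range _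
  have : Finite {F : X → ℂ // F ∈ Set.range fun u : Fin 2 → ZMod M => PX M (fun i => (u i).val)} :=
    hr.to_subtype
  refine Finite.of_injective (β := {F : X → ℂ // F ∈ Set.range fun u : Fin 2 → ZMod M =>
    PX M (fun i => (u i).val)}) (fun F : IM M => ⟨F.1, ?_⟩) ?_
  swap
  · intro F G h
    exact Subtype.ext (Subtype.mk.inj h)
  obtain ⟨v, hv, e⟩ := F.2
  refine ⟨fun i => (v i : ZMod M), ?_⟩
  simp only
  rw [e, PX, PX]
  congr 1
  apply P_congr hM
  intro i
  simp

section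

variable {O : Subring ℂ} (hO : OddRing O) {M : ℕ} (hM : Odd M) {v : Fin 2 → ℤ} (hv : NZ 3 v)
include hO hM

theorem sub_mem_Lk (F G : IM M) : F.1 - G.1 ∈ Lk O 2 := by
  obtain ⟨v, hv, e⟩ := F.2
  obtain ⟨w, hw, e'⟩ := G.2
  rw [e, e', PX, PX, ← lift_sub]
  exact EH.isR_mem_Lk hO hM (EUnit.isR_P_sub hO hM hv hw)

/-- the difference -/
noncomputable def dI (F G : IM M) : LL O := mkL O (F.1 - G.1) (sub_mem_Lk hO hM F G)

theorem dI_unit (F G : IM M) (h : F ≠ G) : ∃ (H : LL O) (n : ℕ),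
    dI hO hM F G * H = (a3 hO hv ^ 3 * (a1 hO hv ^ 3 - 27 * a3 hO hv)) ^ n := by
  obtain ⟨v', hv', e⟩ := F.2
  obtain ⟨w, hw, e'⟩ := G.2
  have h1 : ¬ ∀ i, (v' i : ZMod M) = w i := by
    intro hc
    apply h
    apply Subtype.ext
    rw [e, e', PX, PX, P_congr hM.pos.ne' hc]
  have h2 : ¬ ∀ i, (v' i : ZMod M) = -(w i : ZMod M) := by
    intro hc
    apply h
    apply Subtype.ext
    rw [e, e', PX, PX, ← P_neg M w]
    congr 1
    apply P_congr hM.pos.ne'
    intro i
    rw [hc i]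
    simp
  obtain ⟨g1, g2⟩ := EUnit.unit_P_sub hO hM hv' hw h1 h2
  refine ⟨mkL O (k := 10) (lift 10 (dl / (P M v' - P M w))) (EH.isR_mem_Lk hO hM (g1.cast (by
    norm_num))), 1, ?_⟩
  rw [pow_one]
  apply Subtype.ext
  change (F.1 - G.1) * lift 10 (dl / (P M v' - P M w)) =
    Lev1.BX v ^ 3 * (Lev1.AX v ^ 3 - 27 * Lev1.BX v)
  rw [← Lev1.DX_eq hv, e, e', PX, PX, ← lift_sub, ← lift_mul, g2]
  rfl

end

/-- `P_v` in level `3` and `M` -/
theorem PX_three {M : ℕ} (h3 : 3 ∣ M) (hM : M ≠ 0) (v : Fin 2 → ℤ) :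
    PX M (fun i => ((M / 3 : ℕ) : ℤ) * v i) = PX 3 v := by
  obtain ⟨c, rfl⟩ := h3
  have hc : (c : ℂ) ≠ 0 := by
    intro h
    have : c = 0 := by exact_mod_cast h
    rw [this] at hM; simp at hM
  rw [Nat.mul_div_cancel_left c (by norm_num), PX, PX]
  congr 1
  funext τ
  rw [P, P]
  congr 2
  rw [pt, pt]
  push_cast
  field_simp

theorem NZ_three {M : ℕ} (h3 : 3 ∣ M) (hM : M ≠ 0) {v : Fin 2 → ℤ} (hv : NZ 3 v) :
    NZ M (fun i => ((M / 3 : ℕ) : ℤ) * v i) := by
  obtain ⟨c, rfl⟩ := h3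
  have hc : (c : ℤ) ≠ 0 := by
    intro h
    have : c = 0 := by exact_mod_cast h
    rw [this] at hM; simp at hM
  have key : ∀ z : ℤ, (z : ZMod 3) ≠ 0 → ((((3 * c / 3 : ℕ) : ℤ) * z : ℤ) : ZMod (3 * c)) ≠ 0 := by
    intro z hz h
    apply hz
    rw [ZMod.intCast_zmod_eq_zero_iff_dvd] at h ⊢
    rw [Nat.mul_div_cancel_left c (by norm_num)] at h
    obtain ⟨t, ht⟩ := h
    refine ⟨t, ?_⟩
    push_cast at ht ⊢
    apply mul_left_cancel₀ hc
    rw [ht]; ring
  rcases hv with h | h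
  · exact Or.inl (key _ h)
  · exact Or.inr (key _ h)

/-- the relation at a point of order three -/
theorem Q_sq_eq {M : ℕ} (hM : M ≠ 0) {v w : Fin 2 → ℤ} (hv : NZ 3 v) (hw : NZ M w) (τ : ℍ) :
    Q M w τ ^ 2 = 4 * (P M w τ - P 3 v τ) ^ 3 + (A1 v τ * (P M w τ - P 3 v τ) + A3 v τ) ^ 2 := by
  have h1 := Q_sq hM hw τ
  have h2 := A1_sq hv τ
  have h3 := E4_eq hv τ
  have h4 := E6_eq hv τ
  rw [h3, h4] at h1
  rw [h1]
  have h5 : P 3 v τ = A1 v τ ^ 2 / 12 := by rw [h2]; ring
  rw [h5]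
  ring

theorem qX_eq {v w : Fin 2 → ℤ} (hv : NZ 3 v) (hw : NZ 3 w) :
    lift 6 (Q 3 w ^ 2) = 4 * (PX 3 w - PX 3 v) ^ 3 +
      (lift 1 (A1 v) * (PX 3 w - PX 3 v) + lift 3 (A3 v)) ^ 2 := by
  funext x
  have h := Q_sq_eq (M := 3) (by norm_num) hv hw x.t
  simp only [PX, Pi.add_apply, Pi.mul_apply, Pi.sub_apply, Pi.pow_apply, lift_apply]
  rw [h]
  simp only [Pi.ofNat_apply]
  ring

theorem qX_sl (w : Fin 2 → ℤ) (g : SL(2, ℤ)) :
    sl (lift 6 (Q 3 w ^ 2)) (sG g) = lift 6 (Q 3 (w ᵥ* (g : Matrix (Fin 2) (Fin 2) ℤ)) ^ 2) := by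
  have h1 : ∀ f : ℍ → ℂ, lift 6 (f ^ 2) = lift 3 f ^ 2 := fun f => Lev1.lift_pow' 3 2 f
  have h2 : sl (lift 3 (Q 3 w) ^ 2) (sG g) = (sl (lift 3 (Q 3 w)) (sG g)) ^ 2 := rfl
  rw [h1, h1, h2, sl_lift_SL]
  congr 2
  exact Q_slash (γ := g) 3 w

section

variable {O : Subring ℂ} (hO : OddRing O) {M : ℕ} (hM : Odd M) (h3 : 3 ∣ M) {v : Fin 2 → ℤ}
  (hv : NZ 3 v)

/-- the base point -/
noncomputable def i0 : IM M := ⟨PX 3 v, _, NZ_three h3 hM.pos.ne' hv, (PX_three h3 hM.pos.ne' v).symm⟩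

/-- the points of order three -/
def TM (M : ℕ) : Set (IM M) := {F | ∃ w, NZ 3 w ∧ F.1 = PX 3 w}

/-- the data -/
noncomputable def PdM : Pd SL(2, ℤ) (a1 hO hv) (a3 hO hv) (IM M) where
  i0 := i0 hM h3 hv
  d := dI hO hM
  d_sub i j k := Subtype.ext (by
    change (i.1 - k.1) - (j.1 - k.1) = i.1 - j.1
    abel)
  d_smul g i j := Subtype.ext rfl
  d_unit i j h := dI_unit hO hM hv i j h
  T := TM M
  T_smul g i hi := by
    obtain ⟨w, hw, e⟩ := hi
    exact ⟨_, hw.vecMul g⁻¹, by rw [smul_IM, e, sl_PX]⟩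
  i0_mem := ⟨v, hv, rfl⟩
  q i := 4 * dI hO hM i (i0 hM h3 hv) ^ 3 +
    (a1 hO hv * dI hO hM i (i0 hM h3 hv) + a3 hO hv) ^ 2
  q_smul g i hi := by
    obtain ⟨w, hw, e⟩ := hi
    have h1 : ∀ (j : IM M) (u : Fin 2 → ℤ), NZ 3 u → j.1 = PX 3 u →
        ((4 * dI hO hM j (i0 hM h3 hv) ^ 3 +
        (a1 hO hv * dI hO hM j (i0 hM h3 hv) + a3 hO hv) ^ 2 : LL O) : X → ℂ) =
        lift 6 (Q 3 u ^ 2) := by
      intro j u hu hj
      rw [qX_eq hv hu, ← hj]
      rfl
    apply Subtype.ext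
    rw [h1 (g • i) _ (hw.vecMul g⁻¹) (by rw [smul_IM, e, sl_PX]), smul_coe, h1 i w hw e, qX_sl]
  q_zero := by
    have : dI hO hM (i0 hM h3 hv) (i0 hM h3 hv) = 0 := Subtype.ext (sub_self _)
    rw [this]
    ring
  q_eq i _ := rfl

end

/-! ### fixers -/

/-- an element of `SL(2,ℤ)` fixing all `P_v` is `≡ ± 1 mod M` -/
theorem fix_aux {M : ℕ} (hM : Odd M) {v w : Fin 2 → ℤ} (hv : NZ M v) (hw : NZ M w)
    (h : PX M v = PX M w) : (∀ i, (v i : ZMod M) = w i) ∨ (∀ i, (v i : ZMod M) = -(w i : ZMod M)) := by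
  by_contra hc
  push Not at hc
  have hne := EUnit.P_ne (M := M) hM.pos.ne' hv hw (fun h => by
    obtain ⟨i, hi⟩ := hc.1; exact hi (h i)) (fun h => by obtain ⟨i, hi⟩ := hc.2; exact hi (h i))
    UpperHalfPlane.I
  exact hne (congrFun (lift_inj h) _)

theorem fix_pm {M : ℕ} (hM : Odd M) (h3 : 3 ∣ M) (g : SL(2, ℤ))
    (h : ∀ F : IM M, sl F.1 (sG g) = F.1) : g ∈ Gamma M ∨ -g ∈ Gamma M := by
  have hM0 := hM.pos.ne'
  have hM3 : 3 ≤ M := Nat.le_of_dvd hM.pos h3
  have one_ne : ((1 : ℤ) : ZMod M) ≠ 0 := by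
    rw [Ne, ZMod.intCast_zmod_eq_zero_iff_dvd]
    intro hd
    have := Int.le_of_dvd one_pos hd
    omega
  have key : ∀ v : Fin 2 → ℤ, NZ M v →
      (∀ i, ((v ᵥ* (g : Matrix (Fin 2) (Fin 2) ℤ)) i : ZMod M) = v i) ∨
      (∀ i, ((v ᵥ* (g : Matrix (Fin 2) (Fin 2) ℤ)) i : ZMod M) = -(v i : ZMod M)) := by
    intro v hv
    apply fix_aux hM (hv.vecMul g) hv
    rw [← sl_PX]
    exact h ⟨PX M v, v, hv, rfl⟩
  have n1 : NZ M ![1, 0] := Or.inl (by simpa using one_ne)
  have n2 : NZ M ![0, 1] := Or.inr (by simpa using one_ne)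
  have n3 : NZ M ![1, 1] := Or.inl (by simpa using one_ne)
  have k1 := key _ n1
  have k2 := key _ n2
  have k3 := key _ n3
  have two_ne : ((2 : ℤ) : ZMod M) ≠ 0 := by
    rw [Ne, ZMod.intCast_zmod_eq_zero_iff_dvd]
    intro hd
    have := Int.le_of_dvd two_pos hd
    omega
  simp only [Fin.forall_fin_two, Matrix.vecMul, dotProduct, Fin.sum_univ_two, cons_val_zero,
    cons_val_one, one_mul, zero_mul, add_zero, zero_add, Int.cast_one, Int.cast_zero, neg_zero,
    Int.cast_add, Matrix.cons_val_fin_one] at k1 k2 k3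
  simp only [Gamma_mem, Matrix.SpecialLinearGroup.coe_neg, Matrix.neg_apply, Int.cast_neg]
  rcases k1 with ⟨a, b⟩ | ⟨a, b⟩ <;> rcases k2 with ⟨c, d⟩ | ⟨c, d⟩
  · left; exact ⟨a, b, c, d⟩
  · exfalso
    rw [a, b, c, d] at k3
    rcases k3 with ⟨e, f⟩ | ⟨e, f⟩
    · apply two_ne; push_cast; linear_combination -f
    · apply two_ne; push_cast; linear_combination e
  · exfalso
    rw [a, b, c, d] at k3
    rcases k3 with ⟨e, f⟩ | ⟨e, f⟩
    · apply two_ne; push_cast; linear_combination -e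
    · apply two_ne; push_cast; linear_combination f
  · right
    rw [a, b, c, d]
    simp

theorem sG_neg_one : sG (-1) = iG (sc (-1)) (by rw [sc_det]; norm_num) := by
  rw [sG]
  apply iG_congr
  ext i j
  fin_cases i <;> fin_cases j <;> simp [sc]

theorem sl_neg_one {k : ℕ} (hk : Even k) {F : X → ℂ} (hF : F ∈ Wt k) : sl F (sG (-1)) = F := by
  rw [sG_neg_one, sl_scalar hF]
  have : (((-1 : ℤ) : ℂ)⁻¹) ^ k = 1 := by
    push_cast
    rw [inv_neg, inv_one]
    exact hk.neg_one_pow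
  rw [this, one_smul]

theorem fix_of_even {M : ℕ} (hM : Odd M) (h3 : 3 ∣ M) {k : ℕ} (hk : Even k) {F : X → ℂ}
    (hF : F ∈ MX M k) (g : SL(2, ℤ)) (h : ∀ F : IM M, sl F.1 (sG g) = F.1) : sl F (sG g) = F := by
  have : NeZero M := ⟨hM.pos.ne'⟩
  rcases fix_pm hM h3 g h with h | h
  · exact MX_fix hF h
  · have e : g = (-1) * (-g) := by simp
    rw [e, sG_mul, sl_mul_right, sl_neg_one hk (MX_le_Wt hF)]
    exact MX_fix hF h

/-- **existence of points** (field `exists_pt` of `EIn`) -/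
theorem exists_pt {O : Subring ℂ} (hO : OddRing O) {v : Fin 2 → ℤ} (hv : NZ 3 v)
    (h0 : (v 0 : ZMod 3) ≠ 0) {κ : Type*} [Field κ] [IsAlgClosed κ] [CharP κ 2] (ρ : O →+* κ)
    (hρ : Function.Surjective ρ) :
    ∃ e : LL O →+* PowerSeries κ, IsPt ρ (a1 hO hv) (a3 hO hv) e := by
  obtain ⟨φ, hφ1, hφ3, hφc⟩ := exists_phi hO hv h0 ρ
  obtain ⟨e, hec, he1, he3⟩ := exists_point (Γ := SL(2, ℤ)) (L := LL O) (A1 := a1 hO hv)
    (A3 := a3 hO hv) ρ hρ (cst O) (fun g c => Subtype.ext (by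
      rw [smul_coe, cst_coe, sl_smul, sl_one])) (PsiR hO hv) (invariant_mem hO hv)
    (cst_mem_range hO hv) (a1_mem_range hO hv) (a3_mem_range hO hv) φ hφ1 hφ3 hφc
    (orbit_finite O) (by
      intro b
      obtain ⟨M, hM, h3, n, f, hf, hfM, hb⟩ := exists_level O b
      have hne : NeZero M := ⟨hM.pos.ne'⟩
      have hfin : Finite (IM M) := finite_IM hM.pos.ne'
      have hb' : b = ∑ k ∈ Finset.range n, mkL O (f k) (hf k) := by
        apply Subtype.ext
        rw [hb]
        exact (map_sum (LL O).subtype (fun k => mkL O (f k) (hf k)) (Finset.range n)).symm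
      rw [hb']
      refine sum_mem fun k hk => AddSubgroup.subset_closure ?_
      have hk' := hfM k (Finset.mem_range.1 hk)
      rcases Nat.even_or_odd k with he | ho
      · refine ⟨mkL O (f k) (hf k), IM M, hfin, actIM M, PdM hO hM h3 hv, Or.inl rfl, ?_⟩
        intro g hg
        apply Subtype.ext
        rw [smul_coe]
        exact fix_of_even hM h3 he hk' _ fun F => congrArg Subtype.val (hg F)
      · refine ⟨a1 hO hv * mkL O (f k) (hf k), IM M, hfin, actIM M, PdM hO hM h3 hv, Or.inr rfl, ?_⟩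
        intro g hg
        apply Subtype.ext
        rw [smul_coe]
        have h1 : lift 1 (A1 v) ∈ MX M 1 := MX_mono h3 (EH.isF_mem_MX (M := 3) (isF_A1 hv))
        have h2 : lift 1 (A1 v) * f k ∈ MX M (1 + k) := MX_mul h1 hk'
        exact fix_of_even hM h3 (odd_one.add_odd ho) h2 _ fun F =>
          congrArg Subtype.val (hg F))
  exact ⟨e, hec, he1, he3⟩

end Crest.Agent.R007.EPt
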