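import Mathlib
import Crest.Prelude.Def_HeckeTwo
import Crest.Agent.R007.Lat3

/-!
# Row 7, node N2 (TLB): Hecke operators in the `G2`-picture

`TX ℓ γ F = ℓ⁻¹ (∑_{j<ℓ} F ∥ (1/ℓ, j/ℓ; 0, 1) + F ∥ (γ (1,0;0,1/ℓ)))`, independent of the weight.
-/

set_option autoImplicit false

namespace Crest.Agent.R007.Tlb

open UpperHalfPlane ModularForm CongruenceSubgroup Matrix
open scoped MatrixGroups Manifold ModularForm
open Crest.Agent.R007.Lat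
open Crest.NumberTheoryR.HeckeTwoAdic

/-- scalar `1/n` in `GL(2,ℝ)⁺` -/
noncomputable def si (n : ℕ) (hn : n ≠ 0) : GL(2, ℝ)⁺ :=
  (iG (sc n) (sc_det_pos (by exact_mod_cast hn)))⁻¹

lemma si_mem {n : ℕ} (hn : n ≠ 0) (ho : Odd n) : si n hn ∈ G2 := by
  refine inv_mem (iG_mem_G2 _ _ ?_)
  rw [sc_det]
  have : Odd (n : ℤ) := by exact_mod_cast ho
  exact this.mul this

lemma sl_si {k : ℕ} {F : X → ℂ} (hF : F ∈ Wt k) {n : ℕ} (hn : n ≠ 0) :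
    sl F (si n hn) = (n : ℂ) ^ k • F := by
  have h1 := sl_scalar hF (n : ℤ) (sc_det_pos (by exact_mod_cast hn))
  have hn' : (n : ℂ) ≠ 0 := by exact_mod_cast hn
  have h2 : sl (sl F (iG (sc n) (sc_det_pos (by exact_mod_cast hn)))) (si n hn) = F := by
    rw [← sl_mul_right, si, mul_inv_cancel, sl_one_right]
  rw [h1, sl_smul] at h2
  have h3 : (n : ℂ) ^ k • ((((n : ℤ) : ℂ)⁻¹) ^ k • sl F (si n hn)) = (n : ℂ) ^ k • F := by
    rw [h2]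
  rw [smul_smul, ← mul_pow] at h3
  simpa [hn'] using h3

lemma upD (l : ℕ) (hl : l ≠ 0) (j : ℕ) : 0 < (!![1, (j : ℤ); 0, (l : ℤ)] : Matrix (Fin 2) (Fin 2) ℤ).det := by
  rw [Matrix.det_fin_two_of]; simp; omega

lemma loD (l : ℕ) (hl : l ≠ 0) : 0 < (!![(l : ℤ), 0; 0, 1] : Matrix (Fin 2) (Fin 2) ℤ).det := by
  rw [Matrix.det_fin_two_of]; simp; omega

/-- `(1/ℓ, j/ℓ; 0, 1)` -/
noncomputable def dUp (l : ℕ) (hl : l ≠ 0) (j : ℕ) : GL(2, ℝ)⁺ :=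
  si l hl * iG !![1, (j : ℤ); 0, (l : ℤ)] (upD l hl j)

/-- `(1, 0; 0, 1/ℓ)` -/
noncomputable def dLo (l : ℕ) (hl : l ≠ 0) : GL(2, ℝ)⁺ :=
  si l hl * iG !![(l : ℤ), 0; 0, 1] (loD l hl)

lemma dUp_mem {l : ℕ} (hl : l ≠ 0) (ho : Odd l) (j : ℕ) : dUp l hl j ∈ G2 := by
  refine mul_mem (si_mem hl ho) (iG_mem_G2 _ _ ?_)
  rw [Matrix.det_fin_two_of]
  simpa using ho

lemma dLo_mem {l : ℕ} (hl : l ≠ 0) (ho : Odd l) : dLo l hl ∈ G2 := by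
  refine mul_mem (si_mem hl ho) (iG_mem_G2 _ _ ?_)
  rw [Matrix.det_fin_two_of]
  simpa using ho












end Crest.Agent.R007.Tlb
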