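import Crest.Agent.R007.Emb3
import Crest.Agent.R007.EmbDens

-- ▼ part R007/Emb4
section

/-! Row 7, node EMB (helper7), part 4: the depleted form `vF` attached to a mixed form. -/

set_option autoImplicit false

namespace Crest.Agent.R007.Emb

open UpperHalfPlane ModularForm CongruenceSubgroup Matrix
open scoped MatrixGroups Manifold ModularForm
open Crest.NumberTheoryR.HeckeTwoAdic Crest.Agent.R007.Op Crest.Agent.R007.Lat Crest.Agent.R007.Mix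
open Crest.Agent.R007.Coef

/-- The depletion operators, precision `m`, weights `1, …, k`. -/
structure Dep (N N' : ℕ) (D : ℕ → (i : ℕ) → (MF N i →ₗ[ℂ] MF N i)) (m k : ℕ) where
  w : ℕ
  dvd : 2 ^ (m + 1) ∣ w
  P : (i : Fin k) → (MF N ((i : ℕ) + 1) →ₗ[ℂ] MF N' ((i : ℕ) + 1 + w))
  slash : ∀ (i : Fin k) (f f₁ : MF N ((i : ℕ) + 1)) (g : SL(2, ℤ)), g ∈ Gamma0 N' →
    (⇑f₁ : ℍ → ℂ) = (⇑f) ∣[(((i : ℕ) + 1 : ℕ) : ℤ)] g →
    (⇑(P i f₁) : ℍ → ℂ) = (⇑(P i f)) ∣[(((i : ℕ) + 1 + w : ℕ) : ℤ)] g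
  int : ∀ (i : Fin k) (f : MF N ((i : ℕ) + 1)),
    (∀ d : ℕ, d.Coprime N → ∀ n, an (D d ((i : ℕ) + 1) f) n ∈ OO) →
    ∀ n, ∃ z ∈ OO, an (P i f) n - (if n.Coprime (2 * N) then an f n else 0) = 2 ^ (m + 1) * z
  rat : ∀ (i : Fin k) (f : MF N ((i : ℕ) + 1)),
    (∀ d : ℕ, d.Coprime N → ∀ n, an (D d ((i : ℕ) + 1) f) n ∈ K0) →
    ∀ n, an (P i f) n ∈ K0

section bd

variable {N : ℕ} [NeZero N] {D : ℕ → (i : ℕ) → (MF N i →ₗ[ℂ] MF N i)} {k : ℕ}

/-- `2^m F` is integral together with all its diamond translates. -/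
def Bd (D : ℕ → (i : ℕ) → (MF N i →ₗ[ℂ] MF N i)) (m : ℕ) (F : Mix N k) : Prop :=
  ∀ (i : Fin k) (d : ℕ), d.Coprime N → ∀ n, (2 ^ m : ℂ) * an (D d ((i : ℕ) + 1) (F i)) n ∈ OO

/-- `F` is `K0`-rational together with all its diamond translates. -/
def RatM (D : ℕ → (i : ℕ) → (MF N i →ₗ[ℂ] MF N i)) (F : Mix N k) : Prop :=
  ∀ (i : Fin k) (d : ℕ), d.Coprime N → ∀ n, an (D d ((i : ℕ) + 1) (F i)) n ∈ K0

lemma Bd.gS (hD : IsDiamondFamily N D) {m : ℕ} {F : Mix N k} (h : Bd D m F) {l : ℕ}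
    (hl : l.Coprime N) : Bd D m (act (gS D k l) F) := by
  intro i d hd n
  rw [act_apply, Emb.gS, LinearMap.smul_apply, map_smul, an_smul,
    Base.D_mul hD hl hd (m := l * d) (by push_cast; rfl)]
  have h1 := h i (l * d) (Nat.Coprime.mul_left hl hd) n
  have h2 : ((l : ℂ) ^ (i : ℕ)) ∈ OO := OO.pow_mem (natCast_mem OO l) _
  have := OO.mul_mem h2 h1
  refine Eq.mp ?_ this
  congr 1
  ring

lemma RatM.gS (hD : IsDiamondFamily N D) {F : Mix N k} (h : RatM D F) {l : ℕ}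
    (hl : l.Coprime N) : RatM D (act (gS D k l) F) := by
  intro i d hd n
  rw [act_apply, Emb.gS, LinearMap.smul_apply, map_smul, an_smul,
    Base.D_mul hD hl hd (m := l * d) (by push_cast; rfl)]
  exact K0.mul_mem (K0.pow_mem (natCast_mem K0 l) _) (h i (l * d) (Nat.Coprime.mul_left hl hd) n)

/-- weight-dependent scaling. -/
noncomputable def scl (c : ℂ) (F : Mix N k) : Mix N k := fun i => c ^ (i : ℕ) • F i

omit [NeZero N] in
@[simp] lemma scl_apply (c : ℂ) (F : Mix N k) (i : Fin k) : scl c F i = c ^ (i : ℕ) • F i := rfl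

lemma Bd.scl {m : ℕ} {F : Mix N k} (h : Bd D m F) {c : ℂ} (hc : c ∈ OO) : Bd D m (scl c F) := by
  intro i d hd n
  rw [scl_apply, map_smul, an_smul]
  have := OO.mul_mem (OO.pow_mem hc (i : ℕ)) (h i d hd n)
  refine Eq.mp ?_ this
  congr 1
  ring

lemma RatM.scl {F : Mix N k} (h : RatM D F) {c : ℂ} (hc : c ∈ K0) : RatM D (scl c F) := by
  intro i d hd n
  rw [scl_apply, map_smul, an_smul]
  exact K0.mul_mem (K0.pow_mem hc _) (h i d hd n)

end bd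

section vF

variable {N N' : ℕ} [NeZero N] [NeZero N'] {D : ℕ → (i : ℕ) → (MF N i →ₗ[ℂ] MF N i)} {m k : ℕ}

/-- the pieces. -/
noncomputable def piece (P : Dep N N' D m k) (F : Mix N k) (i : Fin k) : X → ℂ :=
  lift ((i : ℕ) + 1 + P.w) (⇑(P.P i (F i)))

/-- the depleted mixed form. -/
noncomputable def vF (P : Dep N N' D m k) (F : Mix N k) : X → ℂ := ∑ i, piece P F i

lemma piece_mem (P : Dep N N' D m k) (F : Mix N k) (i : Fin k) :
    piece P F i ∈ MX N' ((i : ℕ) + 1 + P.w) := lift_mem_MX _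

lemma piece_res (P : Dep N N' D m k) (F : Mix N k) (i : Fin k) :
    res (piece P F i) = ⇑(P.P i (F i)) := res_lift _ _

lemma mf_mem_PO {N : ℕ} [NeZero N] {j : ℕ} (f : MF N j) : (⇑f : ℍ → ℂ) ∈ PO :=
  ⟨1, odd_one, mf_mem_PB f⟩

lemma qf_sum {ι : Type*} (s : Finset ι) (f : ι → ℍ → ℂ) (hf : ∀ i ∈ s, f i ∈ PO) (r : ℚ) :
    (qf (∑ i ∈ s, f i)).coeff r = ∑ i ∈ s, (qf (f i)).coeff r := by
  classical
  induction s using Finset.induction_on with
  | empty => simp [qf_zero]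
  | insert a s ha ih =>
    rw [Finset.sum_insert ha, Finset.sum_insert ha, qf_add (hf a (Finset.mem_insert_self _ _))
      (sum_mem fun i hi => hf i (Finset.mem_insert_of_mem hi)), HahnSeries.coeff_add,
      ih fun i hi => hf i (Finset.mem_insert_of_mem hi)]

lemma vF_res (P : Dep N N' D m k) (F : Mix N k) : res (vF P F) = ∑ i, (⇑(P.P i (F i)) : ℍ → ℂ) := by
  have h := map_sum resHom (piece P F) Finset.univ
  have h2 : res (vF P F) = ∑ i, res (piece P F i) := h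
  rw [h2]
  exact Finset.sum_congr rfl fun i _ => piece_res P F i

lemma vF_coeff_nat (P : Dep N N' D m k) (F : Mix N k) (n : ℕ) :
    (qf (res (vF P F))).coeff (n : ℚ) = ∑ i, an (P.P i (F i)) n := by
  rw [vF_res, qf_sum _ _ fun i _ => mf_mem_PO _]
  exact Finset.sum_congr rfl fun i _ => qf_an _ _

lemma vF_coeff_not_nat (P : Dep N N' D m k) (F : Mix N k) {r : ℚ} (hr : ∀ n : ℕ, (n : ℚ) ≠ r) :
    (qf (res (vF P F))).coeff r = 0 := by
  rw [vF_res, qf_sum _ _ fun i _ => mf_mem_PO _]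
  exact Finset.sum_eq_zero fun i _ => qf_not_nat _ hr

/-- the depletion approximates the coefficients mod 2. -/
lemma Dep.approx (P : Dep N N' D m k) {F : Mix N k} (hB : Bd D m F) (i : Fin k) (n : ℕ) :
    an (P.P i (F i)) n - (if n.Coprime (2 * N) then an (F i) n else 0) ∈ T2 := by
  obtain ⟨z, hz, e⟩ := P.int i ((2 ^ m : ℂ) • F i) (fun d hd n => by
    rw [map_smul, an_smul]; exact hB i d hd n) n
  rw [map_smul, an_smul, an_smul] at e
  refine mem_T2.2 ⟨z, hz, ?_⟩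
  have h2 : (2 ^ m : ℂ) ≠ 0 := pow_ne_zero _ two_ne_zero
  apply mul_left_cancel₀ h2
  rw [pow_succ] at e
  rw [← mul_assoc, ← e]
  split_ifs <;> ring

/-- coefficients of `vF` mod 2. -/
lemma vF_approx (P : Dep N N' D m k) {F : Mix N k} (hB : Bd D m F) (n : ℕ) :
    (qf (res (vF P F))).coeff (n : ℚ) - (if n.Coprime (2 * N) then aM F n else 0) ∈ T2 := by
  rw [vF_coeff_nat]
  have h := T2.sum_mem fun i (_ : i ∈ Finset.univ) => P.approx hB i n
  rw [Finset.sum_sub_distrib] at h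
  by_cases hn : n.Coprime (2 * N)
  · simp only [if_pos hn] at h ⊢
    exact h
  · simp only [if_neg hn, Finset.sum_const_zero] at h ⊢
    exact h

end vF

end Crest.Agent.R007.Emb
end

-- ▼ part R007/Emb5
section

/-! Row 7, node EMB (helper7), part 5: `vF` in `V`, its components, scaling and diamonds. -/

set_option autoImplicit false
set_option linter.unusedSectionVars false

namespace Crest.Agent.R007.Emb

open UpperHalfPlane ModularForm CongruenceSubgroup Matrix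
open scoped MatrixGroups Manifold ModularForm
open Crest.NumberTheoryR.HeckeTwoAdic Crest.Agent.R007.Op Crest.Agent.R007.Lat Crest.Agent.R007.Mix
open Crest.Agent.R007.Coef

/-- congruence of the expansion at infinity mod 2. -/
def CC (F : X → ℂ) (c : ℚ → ZMod 2) : Prop := ∀ r : ℚ, (qf (res F)).coeff r - toC (c r) ∈ T2

/-- bounded denominators at level `Γ₁(N)`. -/
def BDst (N : ℕ) (D : ℕ → (i : ℕ) → (MF N i →ₗ[ℂ] MF N i)) : Prop :=
  ∀ (j : ℕ) (f : MF N j), (∀ d : ℕ, d.Coprime N → ∀ n, an (D d j f) n ∈ K0) →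
    ∃ r : ℕ, ((2 : ℂ) ^ r) • lift j f ∈ Lk OO j

/-- the `q`-expansion principle mod 2 on `V`. -/
def C1st : Prop := ∀ F ∈ VV OO, Two OO (res F) → ∃ G ∈ VV OO, F = 2 * G

lemma two_mem : (2 : ℂ) ∈ OO := by
  have : (2 : ℂ) = 1 + 1 := by norm_num
  rw [this]; exact OO.add_mem OO.one_mem OO.one_mem

section gen

lemma MM_PO {F : X → ℂ} (hF : F ∈ MM) : res F ∈ PO := MM_res hF

lemma res_sub' (F G : X → ℂ) : res (F - G) = res F - res G := rfl

/-- congruent `q`-expansions imply congruence mod `2V`. -/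
lemma cg_of_CC (hC1 : C1st) {F G : X → ℂ} (hF : F ∈ VV OO) (hG : G ∈ VV OO) {c : ℚ → ZMod 2}
    (h : CC F c) (h' : CC G c) : Cg OO F G := by
  apply hC1 _ (sub_mem hF hG)
  intro r
  have h1 := T2.sub_mem (h r) (h' r)
  rw [res_sub', qf_sub (MM_PO hF.1) (MM_PO hG.1), HahnSeries.coeff_sub]
  apply mem_T2.1
  refine Eq.mp ?_ h1
  congr 1
  ring

lemma CC.of_cg {F G : X → ℂ} (hF : F ∈ MM) (hG : G ∈ MM) (h : Cg OO F G) {c : ℚ → ZMod 2}
    (h' : CC G c) : CC F c := by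
  intro r
  have h1 := h.two r
  rw [res_sub', qf_sub (MM_PO hF) (MM_PO hG), HahnSeries.coeff_sub] at h1
  have h2 := T2.add_mem (mem_T2.2 h1) (h' r)
  refine Eq.mp ?_ h2
  congr 1
  ring

lemma cg_smul_of_sub {F : X → ℂ} (hF : F ∈ VV OO) {c : ℂ} (hc : c - 1 ∈ T2) : Cg OO (c • F) F := by
  obtain ⟨z, hz, e⟩ := mem_T2.1 hc
  refine ⟨z • F, VV_smul hF hz, ?_⟩
  rw [two_mul_eq_smul, smul_smul, ← e, sub_smul, one_smul]

lemma odd_sub_one {c : ℕ} (hc : Odd c) : (c : ℂ) - 1 ∈ T2 := by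
  obtain ⟨b, rfl⟩ := hc
  refine mem_T2.2 ⟨b, natCast_mem OO b, ?_⟩
  push_cast; ring

lemma cg_odd_smul {F : X → ℂ} (hF : F ∈ VV OO) {c : ℕ} (hc : Odd c) : Cg OO ((c : ℂ) • F) F :=
  cg_smul_of_sub hF (odd_sub_one hc)

end gen

section vF

variable {N N' : ℕ} [NeZero N] [NeZero N'] {T D : ℕ → (i : ℕ) → (MF N i →ₗ[ℂ] MF N i)}
  {D' : ℕ → (i : ℕ) → (MF N' i →ₗ[ℂ] MF N' i)} {m k : ℕ}

lemma vF_CC (hT : IsHeckeFamily N T D) (P : Dep N N' D m k) {φ : stage N T D k →+ ZMod 2}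
    {F : Mix N k} (hL : Lift φ F) (hB : Bd D m F) : CC (vF P F) (Qf φ) := by
  intro r
  by_cases hr : ∃ n : ℕ, (n : ℚ) = r
  · obtain ⟨n, rfl⟩ := hr
    have h1 := vF_approx P hB n
    rw [Qf_nat]
    by_cases hn : n.Coprime (2 * N)
    · rw [if_pos hn] at h1 ⊢
      have h2 := T2.add_mem h1 (hL.coef hT hn)
      refine Eq.mp ?_ h2
      congr 1
      ring
    · rw [if_neg hn] at h1 ⊢
      rw [toC_zero]
      exact h1
  · have hr' : ∀ n : ℕ, (n : ℚ) ≠ r := fun n hn => hr ⟨n, hn⟩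
    rw [vF_coeff_not_nat P F hr', Qf_not_nat φ hr', toC_zero, sub_zero]
    exact T2.zero_mem

lemma gamma_down (h : N ∣ N') {γ : SL(2, ℤ)} (hγ : γ ∈ Gamma0 N') {d : ℕ}
    (hd : ((γ 1 1 : ℤ) : ZMod N') = d) : γ ∈ Gamma0 N ∧ ((γ 1 1 : ℤ) : ZMod N) = d := by
  constructor
  · rw [Gamma0_mem] at hγ ⊢
    have := congrArg (ZMod.castHom h (ZMod N)) hγ
    simpa using this
  · have := congrArg (ZMod.castHom h (ZMod N)) hd
    simpa using this

lemma coprime_down (h : N ∣ N') {d : ℕ} (hd : d.Coprime N') : d.Coprime N :=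
  Nat.Coprime.coprime_dvd_right h hd

/-- diamond translate of a piece. -/
lemma diam_P (hD : IsDiamondFamily N D) (hD' : IsDiamondFamily N' D') (h : N ∣ N')
    (P : Dep N N' D m k) (i : Fin k) (f : MF N ((i : ℕ) + 1)) {d : ℕ} (hd : d.Coprime N') :
    D' d ((i : ℕ) + 1 + P.w) (P.P i f) = P.P i (D d ((i : ℕ) + 1) f) := by
  obtain ⟨γ, hγ, h1⟩ := Base.exists_gamma N' d hd
  obtain ⟨hγ', h1'⟩ := gamma_down h hγ h1
  apply DFunLike.coe_injective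
  rw [hD' d _ γ hγ h1]
  exact (P.slash i f _ γ hγ (hD d _ γ hγ' h1' f)).symm

/-- the pieces have bounded denominators. -/
lemma piece_bd (hD : IsDiamondFamily N D) (hD' : IsDiamondFamily N' D') (h : N ∣ N')
    (hbd : BDst N' D') (P : Dep N N' D m k) {F : Mix N k} (hR : RatM D F) (i : Fin k) :
    ∃ r : ℕ, ((2 : ℂ) ^ r) • piece P F i ∈ Lk OO ((i : ℕ) + 1 + P.w) := by
  apply hbd
  intro d hd n
  rw [diam_P hD hD' h P i (F i) hd]
  apply P.rat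
  intro e he n
  rw [Base.D_mul hD (coprime_down h hd) he (m := d * e) (by push_cast; rfl)]
  exact hR i (d * e) (Nat.Coprime.mul_left (coprime_down h hd) he) n

lemma pow_smul_mem_VV {F : X → ℂ} {r s : ℕ} (hrs : r ≤ s) (h : ((2 : ℂ) ^ r) • F ∈ VV OO) :
    ((2 : ℂ) ^ s) • F ∈ VV OO := by
  have : ((2 : ℂ) ^ s) • F = ((2 : ℂ) ^ (s - r)) • (((2 : ℂ) ^ r) • F) := by
    rw [smul_smul, ← pow_add, Nat.sub_add_cancel hrs]
  rw [this]
  exact VV_smul h (OO.pow_mem two_mem _)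

lemma pieces_bd (hD : IsDiamondFamily N D) (hD' : IsDiamondFamily N' D') (h : N ∣ N')
    (hbd : BDst N' D') (P : Dep N N' D m k) {F : Mix N k} (hR : RatM D F) :
    ∃ R : ℕ, ∀ i, ((2 : ℂ) ^ R) • piece P F i ∈ VV OO := by
  choose r hr using fun i => piece_bd hD hD' h hbd P hR i
  refine ⟨∑ i, r i, fun i => pow_smul_mem_VV ?_ (Lk_le_VV (hr i))⟩
  exact Finset.single_le_sum (f := r) (fun _ _ => Nat.zero_le _) (Finset.mem_univ i)

/-- `vF` lies in `V`. -/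
lemma vF_VV (hC1 : C1st) (hT : IsHeckeFamily N T D) (hD : IsDiamondFamily N D)
    (hD' : IsDiamondFamily N' D') (h : N ∣ N') (hbd : BDst N' D') (P : Dep N N' D m k)
    {φ : stage N T D k →+ ZMod 2} {F : Mix N k} (hL : Lift φ F) (hR : RatM D F) (hB : Bd D m F) :
    vF P F ∈ VV OO := by
  obtain ⟨R, hR'⟩ := pieces_bd hD hD' h hbd P hR
  refine VV_of_int hC1 R ?_ fun r => ?_
  · rw [vF, Finset.smul_sum]
    exact sum_mem fun i _ => hR' i
  · have h1 := OO.add_mem (T2_le (vF_CC hT P hL hB r)) (toC_mem (Qf φ r))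
    rw [sub_add_cancel] at h1
    exact h1

/-- the component of weight `j`. -/
noncomputable def GG (P : Dep N N' D m k) (F : Mix N k) (j : ℕ) : X → ℂ :=
  ∑ i : Fin k, if (i : ℕ) + 1 + P.w = j then piece P F i else 0

lemma GG_mem (P : Dep N N' D m k) (F : Mix N k) (j : ℕ) : GG P F j ∈ MX N' j := by
  refine Submodule.sum_mem _ fun i _ => ?_
  split_ifs with h
  · rw [← h]; exact piece_mem P F i
  · exact zero_mem _

lemma sum_GG (P : Dep N N' D m k) (F : Mix N k) (c : ℂ) :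
    ∑ j ∈ Finset.range (k + 1 + P.w), c ^ j • GG P F j =
      ∑ i : Fin k, c ^ ((i : ℕ) + 1 + P.w) • piece P F i := by
  simp only [GG, Finset.smul_sum]
  rw [Finset.sum_comm]
  refine Finset.sum_congr rfl fun i _ => ?_
  simp only [smul_ite, smul_zero]
  rw [Finset.sum_ite_eq, if_pos]
  rw [Finset.mem_range]
  have := i.2
  omega

lemma sum_GG_one (P : Dep N N' D m k) (F : Mix N k) :
    ∑ j ∈ Finset.range (k + 1 + P.w), GG P F j = vF P F := by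
  have := sum_GG P F 1
  simpa [vF] using this

lemma GG_bd (hD : IsDiamondFamily N D) (hD' : IsDiamondFamily N' D') (h : N ∣ N')
    (hbd : BDst N' D') (P : Dep N N' D m k) {F : Mix N k} (hR : RatM D F) (j : ℕ) :
    ∃ r : ℕ, ((2 : ℂ) ^ r) • GG P F j ∈ VV OO := by
  obtain ⟨R, hR'⟩ := pieces_bd hD hD' h hbd P hR
  refine ⟨R, ?_⟩
  rw [GG, Finset.smul_sum]
  refine sum_mem fun i _ => ?_
  split_ifs with hi
  · exact hR' i
  · rw [smul_zero]; exact zero_mem _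

/-- scaling. -/
lemma vF_scl (P : Dep N N' D m k) (F : Mix N k) (c : ℂ) :
    c ^ (1 + P.w) • vF P (scl c F) = ∑ j ∈ Finset.range (k + 1 + P.w), c ^ j • GG P F j := by
  rw [sum_GG, vF, Finset.smul_sum]
  refine Finset.sum_congr rfl fun i _ => ?_
  have : piece P (scl c F) i = c ^ (i : ℕ) • piece P F i := by
    rw [piece, scl_apply, map_smul, piece, ← lift_smul]
    rfl
  rw [this, smul_smul, ← pow_add]
  congr 2
  ring

/-- diamonds. -/
lemma vF_gS (hD : IsDiamondFamily N D) (h : N ∣ N') (P : Dep N N' D m k) (F : Mix N k) {l : ℕ}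
    {s : SL(2, ℤ)} (hs : s ∈ Gamma0 N') (hl : ((s 1 1 : ℤ) : ZMod N') = l) :
    ((l : ℂ) ^ (1 + P.w)) • vF P (act (gS D k l) F) =
      sl (∑ j ∈ Finset.range (k + 1 + P.w), (l : ℂ) ^ j • GG P F j) (sG s) := by
  obtain ⟨hγ', h1'⟩ := gamma_down h hs hl
  rw [sum_GG, vF, Finset.smul_sum]
  have hsum : sl (∑ i : Fin k, (l : ℂ) ^ ((i : ℕ) + 1 + P.w) • piece P F i) (sG s) =
      ∑ i : Fin k, sl ((l : ℂ) ^ ((i : ℕ) + 1 + P.w) • piece P F i) (sG s) :=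
    Lat.sl_sum _ _ _
  rw [hsum]
  refine Finset.sum_congr rfl fun i _ => ?_
  have e1 : piece P (act (gS D k l) F) i = (l : ℂ) ^ (i : ℕ) • sl (piece P F i) (sG s) := by
    have e2 : act (gS D k l) F i = (l : ℂ) ^ (i : ℕ) • D l ((i : ℕ) + 1) (F i) := rfl
    have e3 := P.slash i (F i) _ s hs (hD l _ s hγ' h1' (F i))
    rw [piece, e2, map_smul, piece, sl_lift_SL, ← e3, ← lift_smul]
    rfl
  rw [e1, sl_smul, smul_smul, ← pow_add]
  congr 2
  ring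

end vF

end Crest.Agent.R007.Emb
end

-- ▼ part R007/Emb6

/-! Row 7, node EMB (helper7), part 6: `surj` and `dia` at the stage level. -/

set_option autoImplicit false
set_option linter.unusedSectionVars false

namespace Crest.Agent.R007.Emb

open UpperHalfPlane ModularForm CongruenceSubgroup Matrix
open scoped MatrixGroups Manifold ModularForm
open Crest.NumberTheoryR.HeckeTwoAdic Crest.Agent.R007.Op Crest.Agent.R007.Lat Crest.Agent.R007.Mix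
open Crest.Agent.R007.Coef

variable {N N' : ℕ} [NeZero N] [NeZero N'] {T D : ℕ → (i : ℕ) → (MF N i →ₗ[ℂ] MF N i)}
  {D' : ℕ → (i : ℕ) → (MF N' i →ₗ[ℂ] MF N' i)} {m k : ℕ}

/-- `D_d = 1` for `d ≡ 1`. -/
lemma D_one (hD : IsDiamondFamily N D) {d : ℕ} (hd : (d : ZMod N) = 1) (i : ℕ) (f : MF N i) :
    D d i f = f := by
  apply DFunLike.coe_injective
  rw [hD d i 1 (one_mem _) (by simp [hd])]
  exact SlashAction.slash_one _ _

/-- scaling by `l ≡ 1 mod N` is `l S_l`. -/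
lemma act_gS_eq_scl (hD : IsDiamondFamily N D) {l : ℕ} (hl : (l : ZMod N) = 1) (F : Mix N k) :
    act (gS D k l) F = scl (l : ℂ) F := by
  funext i
  rw [act_apply, gS, LinearMap.smul_apply, D_one hD hl, scl_apply]

lemma scl_mul (a b : ℂ) (F : Mix N k) : scl a (scl b F) = scl (a * b) F := by
  funext i
  rw [scl_apply, scl_apply, scl_apply, smul_smul, mul_pow]

lemma scl_one (F : Mix N k) : scl (1 : ℂ) F = F := by
  funext i
  rw [scl_apply, one_pow, one_smul]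

/-- invariance of lifts under scaling. -/
lemma Lift.scl (hD : IsDiamondFamily N D) {φ : stage N T D k →+ ZMod 2} {l : ℕ} (hlp : l.Prime)
    (hlN : ¬ l ∣ 2 * N) (hl : (l : ZMod N) = 1) (hφ : ∀ s, φ (s * eS N T D k l) = φ s)
    {F : Mix N k} (h : Lift φ F) : Lift φ (scl (l : ℂ) F) := by
  have h1 := h.act (eS N T D k l)
  rw [coe_eS hlp hlN, act_gS_eq_scl hD hl] at h1
  have h2 : mulR φ (eS N T D k l) = φ := by
    ext s; exact hφ s
  rwa [h2] at h1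

lemma Lift.scl_pow (hD : IsDiamondFamily N D) {φ : stage N T D k →+ ZMod 2} {l : ℕ} (hlp : l.Prime)
    (hlN : ¬ l ∣ 2 * N) (hl : (l : ZMod N) = 1) (hφ : ∀ s, φ (s * eS N T D k l) = φ s)
    {F : Mix N k} (h : Lift φ F) (a : ℕ) : Lift φ (Emb.scl ((l ^ a : ℕ) : ℂ) F) := by
  induction a with
  | zero => simpa [scl_one] using h
  | succ a ih =>
    have := Lift.scl hD hlp hlN hl hφ ih
    rw [scl_mul] at this
    have e : ((l : ℂ) * ((l ^ a : ℕ) : ℂ)) = ((l ^ (a + 1) : ℕ) : ℂ) := by push_cast; ring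
    rwa [e] at this

/-- all data and inputs for EMB. -/
structure Ctx (N N' M : ℕ) [NeZero N] [NeZero N'] [NeZero M]
    (T D : ℕ → (i : ℕ) → (MF N i →ₗ[ℂ] MF N i)) (D' : ℕ → (i : ℕ) → (MF N' i →ₗ[ℂ] MF N' i))
    (l₀ n₀ : ℕ) : Prop where
  hM : Odd M
  h3 : 3 ∣ M
  hN'M : N' ∣ M
  hNN' : N ∣ N'
  hD : IsDiamondFamily N D
  hT : IsHeckeFamily N T D
  hD' : IsDiamondFamily N' D'
  c1 : C1st
  pure : ∀ (n : ℕ) (F : ℕ → X → ℂ), (∀ k, F k ∈ MX M k) → ∑ k ∈ Finset.range n, F k ∈ VV OO →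
    (∀ R c : ℕ, Odd c → ∃ c' : ℕ, Odd c' ∧ c' ≡ c [MOD 2 ^ R] ∧
      Cg OO (∑ k ∈ Finset.range n, (c' : ℂ) ^ k • F k) (∑ k ∈ Finset.range n, F k)) →
    ∃ K, ∃ f ∈ Lk OO K, f ∈ MX M K ∧ Cg OO (∑ k ∈ Finset.range n, F k) f
  bd : BDst N D
  bd' : BDst N' D'
  dep : ∀ m k, Nonempty (Dep N N' D m k)
  real : ∀ (k : ℕ) (φ : stage N T D k →+ ZMod 2), ∃ F : Mix N k, RatM D F ∧ Lift φ F
  l_prime : l₀.Prime
  l_N : ¬ l₀ ∣ 2 * N
  l_eight : l₀ % 8 = 5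
  l_one : (l₀ : ZMod N) = 1
  n_prime : n₀.Prime
  n_N : ¬ n₀ ∣ 2 * N
  n_four : n₀ % 4 = 3
  n_one : (n₀ : ZMod N) = 1

/-- the functionals killed by `y`, `y'`. -/
def Inv (l₀ n₀ : ℕ) (φ : stage N T D k →+ ZMod 2) : Prop :=
  (∀ s, φ (s * eS N T D k l₀) = φ s) ∧ (∀ s, φ (s * eS N T D k n₀) = φ s)

section main

variable {M : ℕ} [NeZero M] {l₀ n₀ : ℕ} (H : Ctx N N' M T D D' l₀ n₀)
include H

/-- bounded denominators of a rational mixed form, with all diamonds. -/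
lemma Ctx.exists_Bd {F : Mix N k} (hR : RatM D F) : ∃ m, Bd D m F := by
  have h1 : ∀ i : Fin k, ∃ r : ℕ, ((2 : ℂ) ^ r) • lift ((i : ℕ) + 1) (F i) ∈ Lk OO ((i : ℕ) + 1) :=
    fun i => H.bd _ (F i) (hR i)
  choose r hr using h1
  refine ⟨∑ i, r i, fun i d hd n => ?_⟩
  obtain ⟨γ, hγ, hγd⟩ := Base.exists_gamma N d hd
  have h2 := (hr i).2 (sG γ) (sG_mem_G2 γ)
  have e : res (sl (((2 : ℂ) ^ r i) • lift ((i : ℕ) + 1) (F i)) (sG γ)) =
      ((2 : ℂ) ^ r i) • (⇑(D d ((i : ℕ) + 1) (F i)) : ℍ → ℂ) := by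
    rw [sl_smul, res_smul, sl_lift_SL, res_lift, H.hD d _ γ hγ hγd (F i)]
  rw [e] at h2
  have h3 := h2.2 (n : ℚ)
  rw [qf_smul _ (mf_mem_PO _), HahnSeries.coeff_smul, qf_an, smul_eq_mul] at h3
  have hle : r i ≤ ∑ i, r i :=
    Finset.single_le_sum (f := r) (fun _ _ => Nat.zero_le _) (Finset.mem_univ i)
  have h4 := OO.mul_mem (OO.pow_mem two_mem ((∑ i, r i) - r i)) h3
  rw [← mul_assoc, ← pow_add, Nat.sub_add_cancel hle] at h4
  exact h4

lemma Ctx.l_odd : Odd l₀ := by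
  rw [Nat.odd_iff]; have := H.l_eight; omega

lemma Ctx.n_odd : Odd n₀ := by
  rw [Nat.odd_iff]; have := H.n_four; omega

/-- `[c']`-invariance mod `2V` for a dense set of `c'`. -/
lemma Ctx.inv (P : Dep N N' D m k) {φ : stage N T D k →+ ZMod 2} (hφ : Inv l₀ n₀ φ) {F : Mix N k}
    (hL : Lift φ F) (hR : RatM D F) (hB : Bd D m F) :
    ∀ R c : ℕ, Odd c → ∃ c' : ℕ, Odd c' ∧ c' ≡ c [MOD 2 ^ R] ∧
      Cg OO (∑ j ∈ Finset.range (k + 1 + P.w), (c' : ℂ) ^ j • GG P F j)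
        (∑ j ∈ Finset.range (k + 1 + P.w), GG P F j) := by
  intro R c hc
  obtain ⟨a, b, hab⟩ := EmbDens.dens H.l_eight H.n_four R c hc
  refine ⟨l₀ ^ a * n₀ ^ b, (H.l_odd.pow).mul (H.n_odd.pow), hab, ?_⟩
  set c' := l₀ ^ a * n₀ ^ b with hc'
  have hodd : Odd c' := (H.l_odd.pow).mul (H.n_odd.pow)
  have hL1 : Lift φ (scl ((c' : ℕ) : ℂ) F) := by
    have h1 := Lift.scl_pow H.hD H.n_prime H.n_N H.n_one hφ.2 hL b
    have h2 := Lift.scl_pow H.hD H.l_prime H.l_N H.l_one hφ.1 h1 a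
    rw [scl_mul] at h2
    have e : (((l₀ ^ a : ℕ) : ℂ) * ((n₀ ^ b : ℕ) : ℂ)) = ((c' : ℕ) : ℂ) := by
      rw [hc']; push_cast; ring
    rwa [e] at h2
  have hR1 : RatM D (scl ((c' : ℕ) : ℂ) F) := hR.scl (natCast_mem K0 _)
  have hB1 : Bd D m (scl ((c' : ℕ) : ℂ) F) := hB.scl (natCast_mem OO _)
  have hv := vF_VV H.c1 H.hT H.hD H.hD' H.hNN' H.bd' P hL hR hB
  have hv1 := vF_VV H.c1 H.hT H.hD H.hD' H.hNN' H.bd' P hL1 hR1 hB1
  rw [sum_GG_one, ← vF_scl]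
  have h1 : Cg OO ((c' : ℂ) ^ (1 + P.w) • vF P (scl (c' : ℂ) F)) (vF P (scl (c' : ℂ) F)) := by
    have := cg_odd_smul hv1 (c := c' ^ (1 + P.w)) hodd.pow
    rwa [Nat.cast_pow] at this
  exact h1.trans (cg_of_CC H.c1 hv1 hv (vF_CC H.hT P hL1 hB1) (vF_CC H.hT P hL hB))

/-- **surj** at the stage level. -/
theorem Ctx.surj {φ : stage N T D k →+ ZMod 2} (hφ : Inv l₀ n₀ φ) :
    ∃ K, ∃ f ∈ Lk OO K, f ∈ MX M K ∧ CC f (Qf φ) := by
  obtain ⟨F, hR, hL⟩ := H.real k φ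
  obtain ⟨m, hB⟩ := H.exists_Bd hR
  obtain ⟨P⟩ := H.dep m k
  have hv := vF_VV H.c1 H.hT H.hD H.hD' H.hNN' H.bd' P hL hR hB
  obtain ⟨K, f, hf, hfM, hfc⟩ := H.pure (k + 1 + P.w) (GG P F)
    (fun j => MX_mono H.hN'M (GG_mem P F j)) (by rw [sum_GG_one]; exact hv) (H.inv P hφ hL hR hB)
  refine ⟨K, f, hf, hfM, ?_⟩
  rw [sum_GG_one] at hfc
  exact CC.of_cg (Lk_le_VV hf).1 hv.1 hfc.symm (vF_CC H.hT P hL hB)

/-- **dia** at the stage level: diamonds and `l S_l`. -/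
theorem Ctx.dia (hinv_all : ∀ (n : ℕ) (G : ℕ → X → ℂ), (∀ j, ∃ r : ℕ, ((2 : ℂ) ^ r) • G j ∈ VV OO) →
      (∀ R c : ℕ, Odd c → ∃ c' : ℕ, Odd c' ∧ c' ≡ c [MOD 2 ^ R] ∧
        Cg OO (∑ k ∈ Finset.range n, (c' : ℂ) ^ k • G k) (∑ k ∈ Finset.range n, G k)) →
      ∀ c : ℕ, Odd c → Cg OO (∑ k ∈ Finset.range n, (c : ℂ) ^ k • G k) (∑ k ∈ Finset.range n, G k))
    {φ : stage N T D k →+ ZMod 2} (hφ : Inv l₀ n₀ φ) {K : ℕ} {f : X → ℂ} (hf : f ∈ Lk OO K)
    (hc : CC f (Qf φ)) {l : ℕ} (hlp : l.Prime) (hlN : ¬ l ∣ 2 * N) {s : SL(2, ℤ)}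
    (hs : s ∈ Gamma0 N') (hl : ((s 1 1 : ℤ) : ZMod N') = l) :
    CC (sl f (sG s)) (Qf (mulR φ (eS N T D k l))) := by
  obtain ⟨F, hR, hL⟩ := H.real k φ
  obtain ⟨m, hB⟩ := H.exists_Bd hR
  obtain ⟨P⟩ := H.dep m k
  have hlc : l.Coprime N := Base.coprime_of_prime hlp hlN
  have hlo : Odd l := by
    rcases hlp.eq_two_or_odd' with h | h
    · exact absurd (h ▸ Dvd.intro N rfl) hlN
    · exact h
  have hv := vF_VV H.c1 H.hT H.hD H.hD' H.hNN' H.bd' P hL hR hB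
  -- the form attached to `φ(· l S_l)`
  have hL1 : Lift (mulR φ (eS N T D k l)) (act (gS D k l) F) := by
    have := hL.act (eS N T D k l)
    rwa [coe_eS hlp hlN] at this
  have hR1 : RatM D (act (gS D k l) F) := hR.gS H.hD hlc
  have hB1 : Bd D m (act (gS D k l) F) := hB.gS H.hD hlc
  have hv1 := vF_VV H.c1 H.hT H.hD H.hD' H.hNN' H.bd' P hL1 hR1 hB1
  have h1 : Cg OO f (vF P F) := cg_of_CC H.c1 (Lk_le_VV hf) hv hc (vF_CC H.hT P hL hB)
  have h2 : Cg OO (∑ j ∈ Finset.range (k + 1 + P.w), (l : ℂ) ^ j • GG P F j) (vF P F) := by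
    have := hinv_all (k + 1 + P.w) (GG P F)
      (GG_bd H.hD H.hD' H.hNN' H.bd' P hR) (H.inv P hφ hL hR hB) l hlo
    rwa [sum_GG_one] at this
  have h3 := (h1.trans h2.symm).sl (sG_mem_G2 s)
  rw [← vF_gS H.hD H.hNN' P F hs hl] at h3
  have h4 : Cg OO ((l : ℂ) ^ (1 + P.w) • vF P (act (gS D k l) F)) (vF P (act (gS D k l) F)) := by
    have := cg_odd_smul hv1 (c := l ^ (1 + P.w)) hlo.pow
    rwa [Nat.cast_pow] at this
  exact CC.of_cg (Lk_le_VV (Lk_sl hf (sG_mem_G2 s))).1 hv1.1 (h3.trans h4) (vF_CC H.hT P hL1 hB1)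

end main

end Crest.Agent.R007.Emb
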