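import Mathlib
import Crest.Prelude.Def_HeckeTwo

-- ▼ part R007/OpMat
section

/-! Row 7, operator layer: integer matrices, coset combinatorics for `T_ℓ`. (helper668) -/

set_option autoImplicit false

namespace Crest.Agent.R007.Op

open Matrix UpperHalfPlane ModularForm CongruenceSubgroup
open scoped MatrixGroups ModularForm
open Crest.NumberTheoryR.HeckeTwoAdic

/-- Integer 2×2 matrices. -/
abbrev IM := Matrix (Fin 2) (Fin 2) ℤ

/-- The matrix is in the set `Δ` of level `N` and determinant `n`. -/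
def Del (N : ℕ) (n : ℤ) (M : IM) : Prop :=
  M.det = n ∧ ((M 0 0 : ℤ) : ZMod N) = 1 ∧ ((M 1 0 : ℤ) : ZMod N) = 0

/-- `v` is in the right kernel of `M` modulo `ℓ`. -/
def Ker (ℓ : ℕ) (M : IM) (v w : ℤ) : Prop :=
  (ℓ : ℤ) ∣ M 0 0 * v + M 0 1 * w ∧ (ℓ : ℤ) ∣ M 1 0 * v + M 1 1 * w

lemma exists_left {ℓ : ℕ} (hℓ : ℓ.Prime) {M M' : IM} (hM : M.det = ℓ) (hM' : M'.det = ℓ)
    {v w : ℤ} (hv : ¬ ((ℓ : ℤ) ∣ v ∧ (ℓ : ℤ) ∣ w)) (h : Ker ℓ M v w) (h' : Ker ℓ M' v w) :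
    ∃ Y : SL(2, ℤ), M' = Y.1 * M := by
  have hp : Prime (ℓ : ℤ) := Nat.prime_iff_prime_int.mp hℓ
  have key : ∀ a b c d : ℤ, (ℓ : ℤ) ∣ a * v + b * w → (ℓ : ℤ) ∣ c * v + d * w →
      (ℓ : ℤ) ∣ a * d - b * c := by
    intro a b c d h1 h2
    have e1 : (ℓ : ℤ) ∣ v * (a * d - b * c) := by
      have : v * (a * d - b * c) = d * (a * v + b * w) - b * (c * v + d * w) := by ring
      rw [this]; exact dvd_sub (h1.mul_left _) (h2.mul_left _)
    have e2 : (ℓ : ℤ) ∣ w * (a * d - b * c) := by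
      have : w * (a * d - b * c) = a * (c * v + d * w) - c * (a * v + b * w) := by ring
      rw [this]; exact dvd_sub (h2.mul_left _) (h1.mul_left _)
    rcases hp.dvd_or_dvd e1 with h3 | h3
    · rcases hp.dvd_or_dvd e2 with h4 | h4
      · exact absurd ⟨h3, h4⟩ hv
      · exact h4
    · exact h3
  rw [Matrix.det_fin_two] at hM hM'
  obtain ⟨y00, h00⟩ := key _ _ _ _ h'.1 h.2
  obtain ⟨y01, h01⟩ := key _ _ _ _ h'.1 h.1
  obtain ⟨y10, h10⟩ := key _ _ _ _ h'.2 h.2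
  obtain ⟨y11, h11⟩ := key _ _ _ _ h'.2 h.1
  have hl0 : (ℓ : ℤ) ≠ 0 := hp.ne_zero
  -- Y = M' adj(M) / ℓ ; adj M = (D, -B; -C, A)
  -- Y00 = (A' D - B' C)/ℓ ; Y01 = (-A' B + B' A)/ℓ ; Y10 = (C' D - D' C)/ℓ ; Y11 = (-C' B + D' A)/ℓ
  have hdet : (!![y00, -y01; y10, -y11] : IM).det = 1 := by
    rw [Matrix.det_fin_two_of]
    have h2 : (ℓ : ℤ) * ℓ * (y00 * -y11 - -y01 * y10) = (ℓ : ℤ) * ℓ * 1 := by
      linear_combination ((ℓ : ℤ) * y11) * h00 + (M' 0 0 * M 1 1 - M' 0 1 * M 1 0) * h11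
        - ((ℓ : ℤ) * y10) * h01 - (M' 0 0 * M 0 1 - M' 0 1 * M 0 0) * h10
        + (ℓ : ℤ) * hM + (M 0 0 * M 1 1 - M 0 1 * M 1 0) * hM'
    exact mul_left_cancel₀ (mul_ne_zero hl0 hl0) h2
  refine ⟨⟨!![y00, -y01; y10, -y11], hdet⟩, ?_⟩
  have e00 : M' 0 0 = y00 * M 0 0 + -y01 * M 1 0 := by
    apply mul_left_cancel₀ hl0
    linear_combination (M 0 0) * h00 - (M 1 0) * h01 - (M' 0 0) * hM
  have e01 : M' 0 1 = y00 * M 0 1 + -y01 * M 1 1 := by
    apply mul_left_cancel₀ hl0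
    linear_combination (M 0 1) * h00 - (M 1 1) * h01 - (M' 0 1) * hM
  have e10 : M' 1 0 = y10 * M 0 0 + -y11 * M 1 0 := by
    apply mul_left_cancel₀ hl0
    linear_combination (M 0 0) * h10 - (M 1 0) * h11 - (M' 1 0) * hM
  have e11 : M' 1 1 = y10 * M 0 1 + -y11 * M 1 1 := by
    apply mul_left_cancel₀ hl0
    linear_combination (M 0 1) * h10 - (M 1 1) * h11 - (M' 1 1) * hM
  ext i j
  fin_cases i <;> fin_cases j <;> simp [Matrix.mul_apply, Fin.sum_univ_two, e00, e01, e10, e11]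

lemma left_mem_Gamma1 {N : ℕ} {n : ℤ} (hn : IsUnit ((n : ℤ) : ZMod N)) {M M' : IM}
    (hM : Del N n M) (hM' : Del N n M') {Y : SL(2, ℤ)} (hY : M' = Y.1 * M) :
    Y ∈ Gamma1 N := by
  obtain ⟨hd, ha, hc⟩ := hM
  obtain ⟨hd', ha', hc'⟩ := hM'
  rw [Matrix.det_fin_two] at hd hd'
  have hD : ((M 1 1 : ℤ) : ZMod N) = n := by
    have := congrArg (fun z : ℤ => (z : ZMod N)) hd
    push_cast at this
    rw [ha, hc] at this
    simpa using this
  have hD' : ((M' 1 1 : ℤ) : ZMod N) = n := by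
    have := congrArg (fun z : ℤ => (z : ZMod N)) hd'
    push_cast at this
    rw [ha', hc'] at this
    simpa using this
  have e : ∀ i j, M' i j = Y.1 i 0 * M 0 j + Y.1 i 1 * M 1 j := by
    intro i j
    rw [hY, Matrix.mul_apply, Fin.sum_univ_two]
  have e00 := congrArg (fun z : ℤ => (z : ZMod N)) (e 0 0)
  have e10 := congrArg (fun z : ℤ => (z : ZMod N)) (e 1 0)
  have e11 := congrArg (fun z : ℤ => (z : ZMod N)) (e 1 1)
  push_cast at e00 e10 e11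
  rw [ha', ha, hc] at e00
  rw [hc', ha, hc] at e10
  rw [hD', hD] at e11
  have f00 : ((Y.1 0 0 : ℤ) : ZMod N) = 1 := by simpa using e00.symm
  have f10 : ((Y.1 1 0 : ℤ) : ZMod N) = 0 := by simpa using e10.symm
  rw [f10] at e11
  have f11 : ((Y.1 1 1 : ℤ) : ZMod N) = 1 := by
    apply hn.mul_right_cancel
    rw [one_mul]
    simpa using e11.symm
  rw [Gamma1_mem]
  exact ⟨f00, f11, f10⟩


/-- Conjugation of `Δ` by `Γ₀(N)`: `γ⁻¹ M γ`. -/
lemma conj_mem_Del {N : ℕ} {n : ℤ} {M : IM} (hM : Del N n M) {Y : SL(2, ℤ)} (hY : Y ∈ Gamma0 N) :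
    Del N n ((Y⁻¹).1 * M * Y.1) := by
  obtain ⟨hd, ha, hc⟩ := hM
  rw [Gamma0_mem] at hY
  have y10 : ((Y.1 1 0 : ℤ) : ZMod N) = 0 := hY
  have hdet := Y.2
  rw [Matrix.det_fin_two] at hdet
  have hdet' := congrArg (fun z : ℤ => (z : ZMod N)) hdet
  push_cast at hdet'
  rw [y10] at hdet'
  have hinv : (Y⁻¹).1 = !![Y.1 1 1, -Y.1 0 1; -Y.1 1 0, Y.1 0 0] := by
    rw [Matrix.SpecialLinearGroup.SL2_inv_expl]; rfl
  refine ⟨by rw [Matrix.det_mul, Matrix.det_mul, Y.2, (Y⁻¹).2, one_mul, mul_one, hd], ?_, ?_⟩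
  · rw [hinv]
    simp only [Matrix.mul_apply, Fin.sum_univ_two, Matrix.of_apply, Matrix.cons_val', Matrix.cons_val_zero,
      Matrix.cons_val_one, Matrix.cons_val_fin_one]
    push_cast
    rw [ha, hc, y10]
    linear_combination hdet'
  · rw [hinv]
    simp only [Matrix.mul_apply, Fin.sum_univ_two, Matrix.of_apply, Matrix.cons_val', Matrix.cons_val_zero,
      Matrix.cons_val_one, Matrix.cons_val_fin_one]
    push_cast
    rw [ha, hc, y10]
    ring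

/-- Data of an element `g ∈ Γ₀(N)` with lower right entry `≡ ℓ`. -/
def IsDiam (N : ℕ) (d : ℕ) (g : SL(2, ℤ)) : Prop := g ∈ Gamma0 N ∧ ((g 1 1 : ℤ) : ZMod N) = d

lemma exists_isDiam {N d : ℕ} (h : Nat.Coprime d N) : ∃ g : SL(2, ℤ), IsDiam N d g := by
  have hc : IsCoprime (d : ℤ) (N : ℤ) := Nat.isCoprime_iff_coprime.mpr h
  obtain ⟨a, b, hab⟩ := hc
  refine ⟨⟨!![a, -b; (N : ℤ), (d : ℤ)], ?_⟩, ?_, ?_⟩
  · rw [Matrix.det_fin_two_of]; linear_combination hab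
  · rw [Gamma0_mem]
    change (((N : ℕ) : ℤ) : ZMod N) = 0
    simp
  · change (((d : ℕ) : ℤ) : ZMod N) = d
    simp

/-- The coset representatives of `Γ₁(N) \ Δ_ℓ`. -/
def Rep (ℓ : ℕ) (g : SL(2, ℤ)) : Option (Fin ℓ) → IM
  | none => g.1 * !![(ℓ : ℤ), 0; 0, 1]
  | some j => !![1, (j : ℤ); 0, (ℓ : ℤ)]

lemma Rep_mem {N ℓ : ℕ} {g : SL(2, ℤ)} (hg : IsDiam N ℓ g) (i : Option (Fin ℓ)) :
    Del N ℓ (Rep ℓ g i) := by
  obtain ⟨h0, h1⟩ := hg
  rw [Gamma0_mem] at h0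
  have g10 : ((g.1 1 0 : ℤ) : ZMod N) = 0 := h0
  have g11 : ((g.1 1 1 : ℤ) : ZMod N) = ℓ := h1
  cases i with
  | none =>
    refine ⟨?_, ?_, ?_⟩
    · simp only [Rep]
      rw [Matrix.det_mul, g.2, Matrix.det_fin_two_of]; ring
    · simp only [Rep, Matrix.mul_apply, Fin.sum_univ_two, Matrix.of_apply, Matrix.cons_val',
        Matrix.cons_val_zero, Matrix.cons_val_one, Matrix.cons_val_fin_one]
      have hdet := g.2
      rw [Matrix.det_fin_two] at hdet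
      have hdet' := congrArg (fun z : ℤ => (z : ZMod N)) hdet
      push_cast at hdet' ⊢
      rw [g10, g11] at hdet'
      linear_combination hdet'
    · simp only [Rep, Matrix.mul_apply, Fin.sum_univ_two, Matrix.of_apply, Matrix.cons_val',
        Matrix.cons_val_zero, Matrix.cons_val_one, Matrix.cons_val_fin_one]
      push_cast
      rw [g10]; ring
  | some j =>
    refine ⟨?_, ?_, ?_⟩
    · simp [Rep, Matrix.det_fin_two_of]
    · simp [Rep]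
    · simp [Rep]

/-- The kernel vector attached to an index. -/
def kv (ℓ : ℕ) : Option (Fin ℓ) → ℤ × ℤ
  | none => (1, 0)
  | some j => ((j : ℤ), -1)

lemma kv_not {ℓ : ℕ} (hℓ : ℓ.Prime) (i : Option (Fin ℓ)) :
    ¬ ((ℓ : ℤ) ∣ (kv ℓ i).1 ∧ (ℓ : ℤ) ∣ (kv ℓ i).2) := by
  have hp : Prime (ℓ : ℤ) := Nat.prime_iff_prime_int.mp hℓ
  rintro ⟨h1, h2⟩
  cases i with
  | none => exact hp.not_isUnit (isUnit_of_dvd_one h1)
  | some j =>
    have : (ℓ : ℤ) ∣ -1 := h2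
    exact hp.not_isUnit (isUnit_of_dvd_one (by simpa using this))

lemma Ker_Rep {ℓ : ℕ} (g : SL(2, ℤ)) (i : Option (Fin ℓ)) :
    Ker ℓ (Rep ℓ g i) (kv ℓ i).1 (kv ℓ i).2 := by
  cases i with
  | none =>
    simp only [Ker, Rep, kv, Matrix.mul_apply, Fin.sum_univ_two, Matrix.of_apply, Matrix.cons_val',
        Matrix.cons_val_zero, Matrix.cons_val_one, Matrix.cons_val_fin_one]
    constructor
    · exact ⟨g.1 0 0, by ring⟩
    · exact ⟨g.1 1 0, by ring⟩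
  | some j =>
    simp only [Ker, Rep, kv, Matrix.of_apply, Matrix.cons_val',
        Matrix.cons_val_zero, Matrix.cons_val_one, Matrix.cons_val_fin_one]
    constructor
    · exact ⟨0, by ring⟩
    · exact ⟨-1, by ring⟩

/-- Every matrix of determinant `ℓ` has one of our kernel vectors. -/
lemma exists_kv {ℓ : ℕ} (hℓ : ℓ.Prime) {M : IM} (hM : M.det = ℓ) :
    ∃ i : Option (Fin ℓ), Ker ℓ M (kv ℓ i).1 (kv ℓ i).2 := by
  have hp : Prime (ℓ : ℤ) := Nat.prime_iff_prime_int.mp hℓ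
  have hpos : 0 < ℓ := hℓ.pos
  have : Fact ℓ.Prime := ⟨hℓ⟩
  rw [Matrix.det_fin_two] at hM
  by_cases hAC : (ℓ : ℤ) ∣ M 0 0 ∧ (ℓ : ℤ) ∣ M 1 0
  · refine ⟨none, ?_, ?_⟩
    · simpa [kv] using hAC.1
    · simpa [kv] using hAC.2
  · -- find j in ZMod ℓ
    have hdetz : ((M 0 0 : ℤ) : ZMod ℓ) * (M 1 1 : ℤ) = (M 0 1 : ℤ) * (M 1 0 : ℤ) := by
      have := congrArg (fun z : ℤ => (z : ZMod ℓ)) hM
      push_cast at this
      simp only [CharP.cast_eq_zero] at this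
      linear_combination this
    have hex : ∃ j : ZMod ℓ, ((M 0 0 : ℤ) : ZMod ℓ) * j = (M 0 1 : ℤ) ∧
        ((M 1 0 : ℤ) : ZMod ℓ) * j = (M 1 1 : ℤ) := by
      by_cases hA : (ℓ : ℤ) ∣ M 0 0
      · have hC : ¬ (ℓ : ℤ) ∣ M 1 0 := fun h => hAC ⟨hA, h⟩
        have hC' : ((M 1 0 : ℤ) : ZMod ℓ) ≠ 0 := by
          rwa [Ne, ZMod.intCast_zmod_eq_zero_iff_dvd]
        refine ⟨(M 1 1 : ℤ) / (M 1 0 : ℤ), ?_, ?_⟩
        · field_simp
          linear_combination hdetz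
        · field_simp
      · have hA' : ((M 0 0 : ℤ) : ZMod ℓ) ≠ 0 := by
          rwa [Ne, ZMod.intCast_zmod_eq_zero_iff_dvd]
        refine ⟨(M 0 1 : ℤ) / (M 0 0 : ℤ), ?_, ?_⟩
        · field_simp
        · field_simp
          linear_combination -hdetz
    obtain ⟨j, hj1, hj2⟩ := hex
    refine ⟨some ⟨j.val, ZMod.val_lt j⟩, ?_, ?_⟩
    · simp only [kv]
      rw [← ZMod.intCast_zmod_eq_zero_iff_dvd]
      push_cast
      rw [ZMod.natCast_zmod_val, hj1]; ring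
    · simp only [kv]
      rw [← ZMod.intCast_zmod_eq_zero_iff_dvd]
      push_cast
      rw [ZMod.natCast_zmod_val, hj2]; ring

lemma exists_rep {N ℓ : ℕ} (hℓ : ℓ.Prime) (hN : ¬ ℓ ∣ N) {g : SL(2, ℤ)} (hg : IsDiam N ℓ g)
    {M : IM} (hM : Del N ℓ M) :
    ∃ i : Option (Fin ℓ), ∃ Y ∈ Gamma1 N, M = Y.1 * Rep ℓ g i := by
  obtain ⟨i, hi⟩ := exists_kv hℓ hM.1
  obtain ⟨Y, hY⟩ := exists_left hℓ (Rep_mem hg i).1 hM.1 (kv_not hℓ i) (Ker_Rep g i) hi
  refine ⟨i, Y, left_mem_Gamma1 (n := ℓ) ?_ (Rep_mem hg i) hM hY, hY⟩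
  have : Nat.Coprime ℓ N := (Nat.Prime.coprime_iff_not_dvd hℓ).mpr hN
  simpa using (ZMod.isUnit_iff_coprime ℓ N).mpr this

lemma Ker_mul_left {ℓ : ℕ} {M : IM} {v w : ℤ} (h : Ker ℓ M v w) (Y : IM) : Ker ℓ (Y * M) v w := by
  obtain ⟨h1, h2⟩ := h
  constructor
  · have : (Y * M) 0 0 * v + (Y * M) 0 1 * w =
        Y 0 0 * (M 0 0 * v + M 0 1 * w) + Y 0 1 * (M 1 0 * v + M 1 1 * w) := by
      simp only [Matrix.mul_apply, Fin.sum_univ_two]; ring
    rw [this]; exact dvd_add (h1.mul_left _) (h2.mul_left _)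
  · have : (Y * M) 1 0 * v + (Y * M) 1 1 * w =
        Y 1 0 * (M 0 0 * v + M 0 1 * w) + Y 1 1 * (M 1 0 * v + M 1 1 * w) := by
      simp only [Matrix.mul_apply, Fin.sum_univ_two]; ring
    rw [this]; exact dvd_add (h1.mul_left _) (h2.mul_left _)

lemma Ker_of_mul_left {ℓ : ℕ} {M : IM} {v w : ℤ} {Y : SL(2, ℤ)} (h : Ker ℓ (Y.1 * M) v w) :
    Ker ℓ M v w := by
  have := Ker_mul_left h (Y⁻¹).1
  rw [← Matrix.mul_assoc] at this
  have e : (Y⁻¹).1 * Y.1 = 1 := by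
    rw [← Matrix.SpecialLinearGroup.coe_mul]
    simp
  rwa [e, one_mul] at this

lemma rep_unique {ℓ : ℕ} (hℓ : ℓ.Prime) {g : SL(2, ℤ)} {i j : Option (Fin ℓ)} {Y : SL(2, ℤ)}
    (h : Rep ℓ g i = Y.1 * Rep ℓ g j) : i = j := by
  have hp : Prime (ℓ : ℤ) := Nat.prime_iff_prime_int.mp hℓ
  have h1 : Ker ℓ (Rep ℓ g i) (kv ℓ j).1 (kv ℓ j).2 := by
    rw [h]; exact Ker_mul_left (Ker_Rep g j) _
  cases i with
  | none =>
    cases j with
    | none => rfl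
    | some j =>
      exfalso
      have h2 := Ker_of_mul_left (M := !![(ℓ : ℤ), 0; 0, 1]) (Y := g) h1
      have h3 := h2.2
      simp [kv] at h3
      exact hp.not_isUnit (isUnit_of_dvd_one h3)
  | some i =>
    have h2 := h1.1
    cases j with
    | none =>
      exfalso
      simp [Rep, kv] at h2
      exact hp.not_isUnit (isUnit_of_dvd_one h2)
    | some j =>
      simp [Rep, kv] at h2
      have h3 : (ℓ : ℤ) ∣ (j : ℤ) - i := by simpa [sub_eq_add_neg] using h2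
      have h4 : ((j : ℕ) : ℤ) - ((i : ℕ) : ℤ) = 0 := by
        have hi := i.2
        have hj := j.2
        apply Int.eq_zero_of_abs_lt_dvd h3
        rw [abs_lt]; constructor <;> omega
      congr 1
      ext
      omega

/-- The permutation of coset representatives induced by conjugation with `γ ∈ Γ₀(N)`. -/
lemma exists_perm {N ℓ : ℕ} (hℓ : ℓ.Prime) (hN : ¬ ℓ ∣ N) {g : SL(2, ℤ)} (hg : IsDiam N ℓ g)
    {γ : SL(2, ℤ)} (hγ : γ ∈ Gamma0 N) :
    ∃ σ : Equiv.Perm (Option (Fin ℓ)), ∀ i, ∃ Y ∈ Gamma1 N,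
      (γ⁻¹).1 * Rep ℓ g i * γ.1 = Y.1 * Rep ℓ g (σ i) := by
  have h1 : ∀ i : Option (Fin ℓ), ∃ i' : Option (Fin ℓ), ∃ Y ∈ Gamma1 N,
      (γ⁻¹).1 * Rep ℓ g i * γ.1 = Y.1 * Rep ℓ g i' :=
    fun i => exists_rep hℓ hN hg (conj_mem_Del (Rep_mem hg i) hγ)
  choose σ Y hY hσ using h1
  have hγγ : γ.1 * (γ⁻¹).1 = 1 := by
    rw [← Matrix.SpecialLinearGroup.coe_mul]; simp
  have hinj : Function.Injective σ := by
    intro i j hij
    have e1 := hσ i
    have e2 := hσ j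
    rw [hij] at e1
    have e3 : Rep ℓ g (σ j) = ((Y j)⁻¹).1 * ((γ⁻¹).1 * Rep ℓ g j * γ.1) := by
      rw [e2, ← Matrix.mul_assoc, ← Matrix.SpecialLinearGroup.coe_mul]
      simp
    rw [e3] at e1
    have e4 : Rep ℓ g i = (γ * Y i * (Y j)⁻¹ * γ⁻¹ : SL(2, ℤ)).1 * Rep ℓ g j := by
      have : γ.1 * ((γ⁻¹).1 * Rep ℓ g i * γ.1) * (γ⁻¹).1 =
          γ.1 * ((Y i).1 * (((Y j)⁻¹).1 * ((γ⁻¹).1 * Rep ℓ g j * γ.1))) * (γ⁻¹).1 := by rw [e1]
      have l1 : γ.1 * ((γ⁻¹).1 * Rep ℓ g i * γ.1) * (γ⁻¹).1 = Rep ℓ g i := by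
        calc _ = (γ.1 * (γ⁻¹).1) * Rep ℓ g i * (γ.1 * (γ⁻¹).1) := by simp only [Matrix.mul_assoc]
          _ = _ := by rw [hγγ]; simp
      rw [l1] at this
      rw [this]
      simp only [Matrix.SpecialLinearGroup.coe_mul]
      calc _ = γ.1 * (Y i).1 * ((Y j)⁻¹).1 * (γ⁻¹).1 * Rep ℓ g j * (γ.1 * (γ⁻¹).1) := by
            simp only [Matrix.mul_assoc]
        _ = _ := by rw [hγγ, mul_one]
    exact rep_unique hℓ e4
  exact ⟨Equiv.ofBijective σ (Finite.injective_iff_bijective.mp hinj),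
    fun i => ⟨Y i, hY i, hσ i⟩⟩

end Crest.Agent.R007.Op
private theorem rz_dc320148e7 : type_of% @_root_.Crest.Agent.R007.Op.Rep.eq_1 := @_root_.Crest.Agent.R007.Op.Rep.eq_1 -- L167
private theorem rz_429ab84e86 : type_of% @_root_.Crest.Agent.R007.Op.kv.eq_1 := @_root_.Crest.Agent.R007.Op.kv.eq_1 -- L201
end

-- ▼ part R007/OpForm
section

/-! Row 7, operator layer: existence of the Hecke and diamond operators. (helper668) -/

set_option autoImplicit false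

namespace Crest.Agent.R007.Op

open Matrix UpperHalfPlane ModularForm CongruenceSubgroup Matrix.SpecialLinearGroup
open scoped MatrixGroups ModularForm Manifold Pointwise
open Crest.NumberTheoryR.HeckeTwoAdic

/-- An integer matrix of nonzero determinant as a real invertible matrix. -/
noncomputable def gl (M : IM) (h : M.det ≠ 0) : GL (Fin 2) ℝ :=
  Matrix.GeneralLinearGroup.mkOfDetNeZero (M.map (Int.cast : ℤ → ℝ)) (by
    have e : (M.map (Int.cast : ℤ → ℝ)).det = ((M.det : ℤ) : ℝ) := by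
      simp [Matrix.det_fin_two]
    rw [e]; exact_mod_cast h)

/-- The rational version. -/
noncomputable def glQ (M : IM) (h : M.det ≠ 0) : GL (Fin 2) ℚ :=
  Matrix.GeneralLinearGroup.mkOfDetNeZero (M.map (Int.cast : ℤ → ℚ)) (by
    have e : (M.map (Int.cast : ℤ → ℚ)).det = ((M.det : ℤ) : ℚ) := by
      simp [Matrix.det_fin_two]
    rw [e]; exact_mod_cast h)

@[simp] lemma gl_apply (M : IM) (h : M.det ≠ 0) (i j : Fin 2) : (gl M h) i j = (M i j : ℝ) := rfl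

@[simp] lemma glQ_apply (M : IM) (h : M.det ≠ 0) (i j : Fin 2) : (glQ M h) i j = (M i j : ℚ) := rfl

lemma glQ_map (M : IM) (h : M.det ≠ 0) : (glQ M h).map (Rat.castHom ℝ) = gl M h := by
  ext i j
  simp [glQ, gl, Matrix.GeneralLinearGroup.mkOfDetNeZero, Matrix.GeneralLinearGroup.map_apply]

lemma gl_mul (M M' : IM) (h : M.det ≠ 0) (h' : M'.det ≠ 0) (h'' : (M * M').det ≠ 0) :
    gl (M * M') h'' = gl M h * gl M' h' := by
  ext i j
  simp [Matrix.mul_apply, Fin.sum_univ_two]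

lemma gl_SL (Y : SL(2, ℤ)) (h : Y.1.det ≠ 0) : gl Y.1 h = mapGL ℝ Y := by
  ext i j
  simp [mapGL]

lemma gl_det (M : IM) (h : M.det ≠ 0) : (gl M h).det.val = (M.det : ℝ) := by
  simp [Matrix.det_fin_two]

/-- Slash by an integer matrix (zero if the determinant is zero). -/
noncomputable def isl (k : ℤ) (M : IM) (f : ℍ → ℂ) : ℍ → ℂ :=
  if h : M.det ≠ 0 then f ∣[k] gl M h else 0

lemma isl_of (k : ℤ) (M : IM) (h : M.det ≠ 0) (f : ℍ → ℂ) : isl k M f = f ∣[k] gl M h := dif_pos h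

lemma isl_mul (k : ℤ) (M M' : IM) (h : M.det ≠ 0) (h' : M'.det ≠ 0) (f : ℍ → ℂ) :
    isl k (M * M') f = isl k M' (isl k M f) := by
  have h'' : (M * M').det ≠ 0 := by rw [Matrix.det_mul]; exact mul_ne_zero h h'
  rw [isl_of _ _ h'', isl_of _ _ h', isl_of _ _ h, gl_mul _ _ h h' h'', SlashAction.slash_mul]

lemma SL_det_ne (Y : SL(2, ℤ)) : Y.1.det ≠ 0 := by rw [Y.2]; exact one_ne_zero

lemma isl_SL (k : ℤ) (Y : SL(2, ℤ)) (f : ℍ → ℂ) : isl k Y.1 f = f ∣[k] Y := by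
  rw [isl_of _ _ (SL_det_ne Y), gl_SL, SL_slash]
  rfl

lemma isl_add (k : ℤ) (M : IM) (f g : ℍ → ℂ) : isl k M (f + g) = isl k M f + isl k M g := by
  by_cases h : M.det ≠ 0
  · simp only [isl_of _ _ h, SlashAction.add_slash]
  · simp [isl, h]



lemma isl_smul (k : ℤ) (M : IM) (hM : 0 < M.det) (c : ℂ) (f : ℍ → ℂ) :
    isl k M (c • f) = c • isl k M f := by
  have h : M.det ≠ 0 := hM.ne'
  rw [isl_of _ _ h, isl_of _ _ h, smul_slash]
  congr 1
  have : 0 < (gl M h).det.val := by rw [gl_det]; exact_mod_cast hM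
  simp only [σ, this, ↓reduceIte]
  rfl

lemma isl_mdiff (k : ℤ) (M : IM) {f : ℍ → ℂ} (hf : MDiff f) : MDiff (isl k M f) := by
  by_cases h : M.det ≠ 0
  · rw [isl_of _ _ h]; exact hf.slash k _
  · simp only [isl, h, dif_neg, not_false_iff]
    exact fun _ => mdifferentiableAt_const

lemma upperMat_eq (ℓ j : ℕ) (hℓ : ℓ ≠ 0) (h : (!![1, (j : ℤ); 0, (ℓ : ℤ)] : IM).det ≠ 0) :
    upperMat ℓ j hℓ = gl !![1, (j : ℤ); 0, (ℓ : ℤ)] h := by
  ext i j
  fin_cases i <;> fin_cases j <;>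
    simp [upperMat, mat2, Matrix.GeneralLinearGroup.mkOfDetNeZero]

lemma lowerMat_eq (ℓ : ℕ) (hℓ : ℓ ≠ 0) (h : (!![(ℓ : ℤ), 0; 0, 1] : IM).det ≠ 0) :
    lowerMat ℓ hℓ = gl !![(ℓ : ℤ), 0; 0, 1] h := by
  ext i j
  fin_cases i <;> fin_cases j <;>
    simp [lowerMat, mat2, Matrix.GeneralLinearGroup.mkOfDetNeZero]

/-- Γ₁(N)-invariance of a function. -/
def Inv1 (N : ℕ) (k : ℤ) (f : ℍ → ℂ) : Prop := ∀ Y ∈ Gamma1 N, f ∣[k] Y = f

lemma inv1_mf {N : ℕ} {k : ℕ} (f : MF N k) : Inv1 N k f := by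
  intro Y hY
  rw [SL_slash]
  exact f.slash_action_eq' _ ⟨Y, hY, rfl⟩

lemma conj_Gamma1 {N : ℕ} {g Y : SL(2, ℤ)} (hg : g ∈ Gamma0 N) (hY : Y ∈ Gamma1 N) :
    g * Y * g⁻¹ ∈ Gamma1 N := by
  rw [Gamma0_mem] at hg
  rw [Gamma1_mem] at hY ⊢
  obtain ⟨a1, a2, a3⟩ := hY
  have g10 : ((g.1 1 0 : ℤ) : ZMod N) = 0 := hg
  have y00 : ((Y.1 0 0 : ℤ) : ZMod N) = 1 := a1
  have y11 : ((Y.1 1 1 : ℤ) : ZMod N) = 1 := a2
  have y10 : ((Y.1 1 0 : ℤ) : ZMod N) = 0 := a3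
  have hdet := g.2
  rw [Matrix.det_fin_two] at hdet
  have hdet' := congrArg (fun z : ℤ => (z : ZMod N)) hdet
  push_cast at hdet'
  rw [g10] at hdet'
  have hinv : (g⁻¹).1 = !![g.1 1 1, -g.1 0 1; -g.1 1 0, g.1 0 0] := by
    rw [Matrix.SpecialLinearGroup.SL2_inv_expl]; rfl
  have e : (g * Y * g⁻¹).1 = g.1 * Y.1 * !![g.1 1 1, -g.1 0 1; -g.1 1 0, g.1 0 0] := by
    rw [← hinv]; simp
  refine ⟨?_, ?_, ?_⟩
  · change (((g * Y * g⁻¹).1 0 0 : ℤ) : ZMod N) = 1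
    rw [e]
    simp only [Matrix.mul_apply, Fin.sum_univ_two, Matrix.of_apply, Matrix.cons_val', Matrix.cons_val_zero,
      Matrix.cons_val_one, Matrix.cons_val_fin_one]
    push_cast
    rw [g10, y00, y11, y10]
    linear_combination hdet'
  · change (((g * Y * g⁻¹).1 1 1 : ℤ) : ZMod N) = 1
    rw [e]
    simp only [Matrix.mul_apply, Fin.sum_univ_two, Matrix.of_apply, Matrix.cons_val', Matrix.cons_val_zero,
      Matrix.cons_val_one, Matrix.cons_val_fin_one]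
    push_cast
    rw [g10, y00, y11, y10]
    linear_combination hdet'
  · change (((g * Y * g⁻¹).1 1 0 : ℤ) : ZMod N) = 0
    rw [e]
    simp only [Matrix.mul_apply, Fin.sum_univ_two, Matrix.of_apply, Matrix.cons_val', Matrix.cons_val_zero,
      Matrix.cons_val_one, Matrix.cons_val_fin_one]
    push_cast
    rw [g10, y00, y11, y10]
    ring

lemma inv1_diam {N : ℕ} {k : ℤ} {f : ℍ → ℂ} (hf : Inv1 N k f) {g : SL(2, ℤ)} (hg : g ∈ Gamma0 N) :
    Inv1 N k (f ∣[k] g) := by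
  intro Y hY
  rw [← SlashAction.slash_mul]
  have : g * Y = (g * Y * g⁻¹) * g := by group
  rw [this, SlashAction.slash_mul, hf _ (conj_Gamma1 hg hY)]

/-- The diamond slash depends only on the lower right entry. -/
lemma diam_indep {N : ℕ} {k : ℤ} {f : ℍ → ℂ} (hf : Inv1 N k f) {d : ℕ} {g g' : SL(2, ℤ)}
    (hg : IsDiam N d g) (hg' : IsDiam N d g') : f ∣[k] g = f ∣[k] g' := by
  obtain ⟨h0, h1⟩ := hg
  obtain ⟨h0', h1'⟩ := hg'
  have hmem : g' * g⁻¹ ∈ Gamma1 N := by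
    rw [Gamma0_mem] at h0 h0'
    have g10 : ((g.1 1 0 : ℤ) : ZMod N) = 0 := h0
    have g10' : ((g'.1 1 0 : ℤ) : ZMod N) = 0 := h0'
    have g11 : ((g.1 1 1 : ℤ) : ZMod N) = d := h1
    have g11' : ((g'.1 1 1 : ℤ) : ZMod N) = d := h1'
    have hdet := g.2
    rw [Matrix.det_fin_two] at hdet
    have hdet1 := congrArg (fun z : ℤ => (z : ZMod N)) hdet
    push_cast at hdet1
    have hdet2 := g'.2
    rw [Matrix.det_fin_two] at hdet2
    have hdet3 := congrArg (fun z : ℤ => (z : ZMod N)) hdet2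
    push_cast at hdet3
    rw [g10, g11] at hdet1
    rw [g10', g11'] at hdet3
    have hinv : (g⁻¹).1 = !![g.1 1 1, -g.1 0 1; -g.1 1 0, g.1 0 0] := by
      rw [Matrix.SpecialLinearGroup.SL2_inv_expl]; rfl
    have e : (g' * g⁻¹).1 = g'.1 * !![g.1 1 1, -g.1 0 1; -g.1 1 0, g.1 0 0] := by
      rw [← hinv]; simp
    rw [Gamma1_mem]
    refine ⟨?_, ?_, ?_⟩
    · change (((g' * g⁻¹).1 0 0 : ℤ) : ZMod N) = 1
      rw [e]
      simp only [Matrix.mul_apply, Fin.sum_univ_two, Matrix.of_apply, Matrix.cons_val', Matrix.cons_val_zero,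
        Matrix.cons_val_one, Matrix.cons_val_fin_one]
      push_cast
      rw [g10, g11]
      linear_combination hdet3
    · change (((g' * g⁻¹).1 1 1 : ℤ) : ZMod N) = 1
      rw [e]
      simp only [Matrix.mul_apply, Fin.sum_univ_two, Matrix.of_apply, Matrix.cons_val', Matrix.cons_val_zero,
        Matrix.cons_val_one, Matrix.cons_val_fin_one]
      push_cast
      rw [g10', g11']
      linear_combination hdet1
    · change (((g' * g⁻¹).1 1 0 : ℤ) : ZMod N) = 0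
      rw [e]
      simp only [Matrix.mul_apply, Fin.sum_univ_two, Matrix.of_apply, Matrix.cons_val', Matrix.cons_val_zero,
        Matrix.cons_val_one, Matrix.cons_val_fin_one]
      push_cast
      rw [g10', g10]
      ring
  have : g' = (g' * g⁻¹) * g := by group
  rw [this, SlashAction.slash_mul, hf _ hmem]

/-- `T_ℓ` on functions. -/
noncomputable def Tfun (k : ℤ) (ℓ : ℕ) (g : SL(2, ℤ)) (f : ℍ → ℂ) : ℍ → ℂ :=
  ∑ i : Option (Fin ℓ), isl k (Rep ℓ g i) f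

lemma Rep_det {N ℓ : ℕ} {g : SL(2, ℤ)} (hg : IsDiam N ℓ g) (hℓ : ℓ ≠ 0) (i : Option (Fin ℓ)) :
    (Rep ℓ g i).det ≠ 0 := by
  rw [(Rep_mem hg i).1]; exact_mod_cast hℓ

lemma Rep_det_pos {N ℓ : ℕ} {g : SL(2, ℤ)} (hg : IsDiam N ℓ g) (hℓ : ℓ ≠ 0) (i : Option (Fin ℓ)) :
    0 < (Rep ℓ g i).det := by
  rw [(Rep_mem hg i).1]; exact_mod_cast Nat.pos_of_ne_zero hℓ

lemma isl_inv1 {N : ℕ} {k : ℤ} {f : ℍ → ℂ} (hf : Inv1 N k f) {Y : SL(2, ℤ)} (hY : Y ∈ Gamma1 N)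
    {M : IM} (hM : M.det ≠ 0) : isl k (Y.1 * M) f = isl k M f := by
  rw [isl_mul _ _ _ (SL_det_ne Y) hM, isl_SL, hf Y hY]

lemma Tfun_slash {N ℓ : ℕ} {k : ℤ} (hℓ : ℓ.Prime) (hN : ¬ ℓ ∣ N) {g : SL(2, ℤ)}
    (hg : IsDiam N ℓ g) {f : ℍ → ℂ} (hf : Inv1 N k f) {γ : SL(2, ℤ)} (hγ : γ ∈ Gamma0 N) :
    (Tfun k ℓ g f) ∣[k] γ = Tfun k ℓ g (f ∣[k] γ) := by
  obtain ⟨τ, hτ⟩ := exists_perm hℓ hN hg hγ
  have h0 : ∀ i, (Rep ℓ g i).det ≠ 0 := Rep_det hg hℓ.ne_zero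
  unfold Tfun
  rw [SlashAction.sum_slash]
  have e1 : ∀ i, (isl k (Rep ℓ g i) f) ∣[k] γ = isl k (Rep ℓ g (τ i)) (f ∣[k] γ) := by
    intro i
    obtain ⟨Y, hY, hYi⟩ := hτ i
    have h1 : ((γ⁻¹).1 * Rep ℓ g i * γ.1).det ≠ 0 := by
      rw [Matrix.det_mul, Matrix.det_mul, γ.2, (γ⁻¹).2]; simpa using h0 i
    calc (isl k (Rep ℓ g i) f) ∣[k] γ = isl k (Rep ℓ g i * γ.1) f := by
          rw [isl_mul _ _ _ (h0 i) (SL_det_ne γ), isl_SL]
      _ = isl k (γ.1 * ((γ⁻¹).1 * Rep ℓ g i * γ.1)) f := by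
          congr 1
          rw [← Matrix.mul_assoc, ← Matrix.mul_assoc, ← Matrix.SpecialLinearGroup.coe_mul]
          simp
      _ = isl k ((γ⁻¹).1 * Rep ℓ g i * γ.1) (f ∣[k] γ) := by
          rw [isl_mul _ _ _ (SL_det_ne γ) h1, isl_SL]
      _ = isl k (Rep ℓ g (τ i)) (f ∣[k] γ) := by
          rw [hYi, isl_inv1 (inv1_diam hf hγ) hY (h0 _)]
  rw [Finset.sum_congr rfl (fun i _ => e1 i)]
  exact Equiv.sum_comp τ (fun i => isl k (Rep ℓ g i) (f ∣[k] γ))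

lemma Tfun_inv1 {N ℓ : ℕ} {k : ℤ} (hℓ : ℓ.Prime) (hN : ¬ ℓ ∣ N) {g : SL(2, ℤ)}
    (hg : IsDiam N ℓ g) {f : ℍ → ℂ} (hf : Inv1 N k f) : Inv1 N k (Tfun k ℓ g f) := by
  intro Y hY
  rw [Tfun_slash hℓ hN hg hf (Gamma1_in_Gamma0 N hY), hf Y hY]

/-- `T_ℓ` through the matrices of the definition. -/
lemma Tfun_eq {N ℓ : ℕ} {k : ℤ} (hℓ : ℓ ≠ 0) {g : SL(2, ℤ)}
    (hg : IsDiam N ℓ g) (f : ℍ → ℂ) :
    Tfun k ℓ g f = (∑ j ∈ Finset.range ℓ, f ∣[k] upperMat ℓ j hℓ) +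
      (f ∣[k] g) ∣[k] lowerMat ℓ hℓ := by
  have h0 := Rep_det hg hℓ
  unfold Tfun
  rw [Fintype.sum_option, add_comm]
  congr 1
  · rw [Finset.sum_range]
    refine Finset.sum_congr rfl fun j _ => ?_
    rw [isl_of _ _ (h0 (some j)), upperMat_eq ℓ j hℓ (h0 (some j))]
    rfl
  · have h1 : (!![(ℓ : ℤ), 0; 0, 1] : IM).det ≠ 0 := by
      rw [Matrix.det_fin_two_of]; simpa using hℓ
    have e : Rep ℓ g none = g.1 * !![(ℓ : ℤ), 0; 0, 1] := rfl
    rw [e, isl_mul _ _ _ (SL_det_ne g) h1, isl_SL, isl_of _ _ h1, lowerMat_eq ℓ hℓ h1]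

/-- Boundedness at cusps of integer slashes of modular forms. -/
lemma bdd_isl {N : ℕ} [NeZero N] {k : ℕ} (f : MF N k) (M : IM) (hM : M.det ≠ 0)
    {c : OnePoint ℝ} (hc : IsCusp c ((Gamma1 N : Subgroup SL(2, ℤ)) : Subgroup (GL (Fin 2) ℝ))) :
    c.IsBoundedAt (isl k M f) k := by
  rw [isl_of _ _ hM]
  have key := (ModularForm.translate f (gl M hM)).bdd_at_cusps' (c := c)
  apply key
  have harith : (ConjAct.toConjAct (gl M hM)⁻¹ •
      ((Gamma1 N : Subgroup SL(2, ℤ)) : Subgroup (GL (Fin 2) ℝ))).IsArithmetic := by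
    have := Subgroup.IsArithmetic.conj ((Gamma1 N : Subgroup SL(2, ℤ)) : Subgroup (GL (Fin 2) ℝ))
      (glQ M hM)⁻¹
    rw [map_inv, glQ_map] at this
    exact this
  rw [Subgroup.IsArithmetic.isCusp_iff_isCusp_SL2Z] at hc ⊢
  exact hc

/-- The diamond operator as a linear map. -/
noncomputable def Dop (N : ℕ) [NeZero N] (k : ℕ) (g : SL(2, ℤ)) (hg : g ∈ Gamma0 N) :
    MF N k →ₗ[ℂ] MF N k where
  toFun f :=
    { toFun := (⇑f) ∣[(k : ℤ)] g
      slash_action_eq' := by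
        rintro _ ⟨Y, hY, rfl⟩
        exact inv1_diam (inv1_mf f) hg Y hY
      holo' := by
        have := isl_mdiff (k : ℤ) g.1 (ModularFormClass.holo f)
        rw [isl_SL] at this
        exact this
      bdd_at_cusps' := by
        intro c hc
        have := bdd_isl f g.1 (SL_det_ne g) hc
        rw [isl_SL] at this
        exact this }
  map_add' f f' := by
    ext z
    change ((⇑(f + f')) ∣[(k : ℤ)] g) z = ((⇑f) ∣[(k : ℤ)] g) z + ((⇑f') ∣[(k : ℤ)] g) z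
    rw [FunLike.coe_add, SlashAction.add_slash]; rfl
  map_smul' c f := by
    ext z
    change ((⇑(c • f)) ∣[(k : ℤ)] g) z = c • (((⇑f) ∣[(k : ℤ)] g) z)
    rw [FunLike.coe_smul, SL_smul_slash]; rfl

@[simp] lemma Dop_coe (N : ℕ) [NeZero N] (k : ℕ) (g : SL(2, ℤ)) (hg : g ∈ Gamma0 N) (f : MF N k) :
    ⇑(Dop N k g hg f) = (⇑f) ∣[(k : ℤ)] g := rfl

/-- The Hecke operator as a linear map. -/
noncomputable def Top (N : ℕ) [NeZero N] (k : ℕ) (ℓ : ℕ) (hℓ : ℓ.Prime) (hN : ¬ ℓ ∣ N)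
    (g : SL(2, ℤ)) (hg : IsDiam N ℓ g) : MF N k →ₗ[ℂ] MF N k where
  toFun f :=
    { toFun := Tfun k ℓ g f
      slash_action_eq' := by
        rintro _ ⟨Y, hY, rfl⟩
        exact Tfun_inv1 hℓ hN hg (inv1_mf f) Y hY
      holo' := by
        change MDiff (Tfun k ℓ g f)
        unfold Tfun
        have : ∀ s : Finset (Option (Fin ℓ)), MDiff (∑ i ∈ s, isl k (Rep ℓ g i) (⇑f)) := by
          intro s
          classical
          induction s using Finset.induction_on with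
          | empty => simp only [Finset.sum_empty]; exact fun _ => mdifferentiableAt_const
          | insert a s ha ih =>
            rw [Finset.sum_insert ha]
            exact (isl_mdiff (k : ℤ) _ (ModularFormClass.holo f)).add ih
        exact this _
      bdd_at_cusps' := by
        intro c hc
        change c.IsBoundedAt (Tfun k ℓ g f) k
        unfold Tfun
        have : ∀ s : Finset (Option (Fin ℓ)), c.IsBoundedAt (∑ i ∈ s, isl k (Rep ℓ g i) (⇑f)) k := by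
          intro s
          classical
          induction s using Finset.induction_on with
          | empty =>
            simp only [Finset.sum_empty]
            exact (0 : MF N k).bdd_at_cusps' hc
          | insert a s ha ih =>
            rw [Finset.sum_insert ha]
            exact (bdd_isl f _ (Rep_det hg hℓ.ne_zero a) hc).add ih
        exact this _ }
  map_add' f f' := by
    ext z
    change Tfun k ℓ g (⇑(f + f')) z = Tfun k ℓ g f z + Tfun k ℓ g f' z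
    simp only [Tfun, FunLike.coe_add, isl_add, Finset.sum_add_distrib, Pi.add_apply]
  map_smul' c f := by
    ext z
    change Tfun k ℓ g (⇑(c • f)) z = c • (Tfun k ℓ g f z)
    have e : Tfun k ℓ g (⇑(c • f)) = c • Tfun k ℓ g f := by
      unfold Tfun
      rw [Finset.smul_sum]
      refine Finset.sum_congr rfl fun i _ => ?_
      rw [FunLike.coe_smul, isl_smul _ _ (Rep_det_pos hg hℓ.ne_zero i)]
    rw [e]; rfl

@[simp] lemma Top_coe (N : ℕ) [NeZero N] (k : ℕ) (ℓ : ℕ) (hℓ : ℓ.Prime) (hN : ¬ ℓ ∣ N)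
    (g : SL(2, ℤ)) (hg : IsDiam N ℓ g) (f : MF N k) : ⇑(Top N k ℓ hℓ hN g hg f) = Tfun k ℓ g f := rfl

open Classical in
/-- The chosen element of `Γ₀(N)` with lower right entry `≡ d`, if it exists. -/
noncomputable def chi (N d : ℕ) : SL(2, ℤ) :=
  if h : ∃ g, IsDiam N d g then h.choose else 1

lemma chi_spec {N d : ℕ} (h : ∃ g, IsDiam N d g) : IsDiam N d (chi N d) := by
  unfold chi; rw [dif_pos h]; exact h.choose_spec

lemma chi_mem (N d : ℕ) : chi N d ∈ Gamma0 N := by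
  unfold chi
  split_ifs with h
  · exact h.choose_spec.1
  · exact one_mem _

/-- The diamond family. -/
noncomputable def DD (N : ℕ) [NeZero N] (d : ℕ) (i : ℕ) : MF N i →ₗ[ℂ] MF N i :=
  Dop N i (chi N d) (chi_mem N d)

open Classical in
/-- The Hecke family. -/
noncomputable def TT (N : ℕ) [NeZero N] (ℓ : ℕ) (i : ℕ) : MF N i →ₗ[ℂ] MF N i :=
  if h : ℓ.Prime ∧ ¬ ℓ ∣ N then
    Top N i ℓ h.1 h.2 (chi N ℓ) (chi_spec (exists_isDiam ((Nat.Prime.coprime_iff_not_dvd h.1).mpr h.2)))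
  else 0

lemma isDiamondFamily (N : ℕ) [NeZero N] : IsDiamondFamily N (DD N) := by
  intro d i γ hγ hd f
  exact diam_indep (inv1_mf f) (chi_spec ⟨γ, hγ, hd⟩) ⟨hγ, hd⟩

lemma isHeckeFamily (N : ℕ) [NeZero N] : IsHeckeFamily N (TT N) (DD N) := by
  intro ℓ hℓ hN i f
  have hN' : ¬ ℓ ∣ N := fun h => hN (h.mul_left 2)
  have e : TT N ℓ i = Top N i ℓ hℓ hN' (chi N ℓ)
      (chi_spec (exists_isDiam ((Nat.Prime.coprime_iff_not_dvd hℓ).mpr hN'))) := by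
    unfold TT; rw [dif_pos ⟨hℓ, hN'⟩]
  rw [e, Top_coe, Tfun_eq hℓ.ne_zero (chi_spec (exists_isDiam ((Nat.Prime.coprime_iff_not_dvd hℓ).mpr hN')))]
  rfl

end Crest.Agent.R007.Op
end

-- ▼ part R007/OpQ

/-! Row 7, operator layer: q-expansions of `T_ℓ f`. (helper668) -/

set_option autoImplicit false

namespace Crest.Agent.R007.Op

open Matrix UpperHalfPlane ModularForm CongruenceSubgroup Matrix.SpecialLinearGroup
open scoped MatrixGroups ModularForm Manifold Pointwise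
open Crest.NumberTheoryR.HeckeTwoAdic

local notation "𝕢" => Function.Periodic.qParam

/-- Slash by an upper triangular integer matrix with positive diagonal. -/
lemma isl_upper (k : ℤ) (a b d : ℤ) (ha : 0 < a) (hd : 0 < d) (F : ℍ → ℂ) (τ : ℍ) :
    ∃ τ' : ℍ, (τ' : ℂ) = (a * τ + b) / d ∧
      isl k !![a, b; 0, d] F τ = ((a : ℂ) * d) ^ (k - 1) * (d : ℂ) ^ (-k) * F τ' := by
  have hdet : (!![a, b; 0, d] : IM).det ≠ 0 := by
    rw [Matrix.det_fin_two_of]; simp [ha.ne', hd.ne']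
  have hpos : (0 : ℝ) < (gl !![a, b; 0, d] hdet).det.val := by
    rw [gl_det, Matrix.det_fin_two_of]
    have : 0 < a * d - b * 0 := by simpa using mul_pos ha hd
    exact_mod_cast this
  have hdetv : (gl !![a, b; 0, d] hdet).det.val = (a : ℝ) * d := by
    rw [gl_det, Matrix.det_fin_two_of]; push_cast; ring
  refine ⟨gl !![a, b; 0, d] hdet • τ, ?_, ?_⟩
  · rw [coe_smul_of_det_pos hpos]
    simp [num, denom]
  · rw [isl_of _ _ hdet, slash_apply]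
    have hσ : σ (gl !![a, b; 0, d] hdet) = ContinuousAlgEquiv.refl ℝ ℂ := by
      rw [σ, if_pos hpos]
    rw [hσ, hdetv]
    have habs : |(a : ℝ) * d| = a * d := abs_of_pos (by exact_mod_cast mul_pos ha hd)
    rw [habs]
    have hden : denom (gl !![a, b; 0, d] hdet) τ = d := by simp [denom]
    rw [hden]
    simp only [ContinuousAlgEquiv.refl_apply]
    push_cast
    ring

/-- Root of unity filter for `q`-expansions. -/
lemma hasSum_upper (k : ℤ) {a : ℕ → ℂ} {F : ℍ → ℂ}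
    (hF : ∀ τ : ℍ, HasSum (fun n => a n * 𝕢 1 τ ^ n) (F τ)) {ℓ : ℕ} (hℓ : ℓ ≠ 0) (τ : ℍ) :
    HasSum (fun m => a (ℓ * m) * 𝕢 1 τ ^ m)
      ((∑ j ∈ Finset.range ℓ, F ∣[k] upperMat ℓ j hℓ) τ) := by
  have hℓpos : (0 : ℤ) < ℓ := by exact_mod_cast Nat.pos_of_ne_zero hℓ
  have hℓC : (ℓ : ℂ) ≠ 0 := by exact_mod_cast hℓ
  -- each summand
  have h1 : ∀ j : ℕ, HasSum (fun n : ℕ => (ℓ : ℂ)⁻¹ * (a n *
      (Complex.exp (2 * Real.pi * Complex.I * (τ : ℂ) / ℓ) ^ n *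
        Complex.exp (2 * Real.pi * Complex.I * j / ℓ) ^ n)))
      ((F ∣[k] upperMat ℓ j hℓ) τ) := by
    intro j
    have hdet : (!![1, (j : ℤ); 0, (ℓ : ℤ)] : IM).det ≠ 0 := by
      rw [Matrix.det_fin_two_of]; simpa using hℓ
    obtain ⟨τ', hτ', hsl⟩ := isl_upper k 1 j ℓ one_pos hℓpos F τ
    rw [isl_of _ _ hdet, ← upperMat_eq ℓ j hℓ hdet] at hsl
    rw [hsl]
    have hc : (((1 : ℤ) : ℂ) * ((ℓ : ℤ) : ℂ)) ^ (k - 1) * ((ℓ : ℤ) : ℂ) ^ (-k) = (ℓ : ℂ)⁻¹ := by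
      push_cast
      rw [one_mul, ← zpow_add₀ hℓC, show k - 1 + -k = -1 by ring, _root_.zpow_neg_one]
    rw [hc]
    refine (HasSum.mul_left _ (hF τ')).congr_fun ?_ |> fun h => h
    intro n
    congr 2
    rw [← mul_pow, ← Complex.exp_add]
    congr 1
    rw [Function.Periodic.qParam, hτ']
    congr 1
    push_cast
    field_simp
  have h2 : HasSum (fun n : ℕ => ∑ j ∈ Finset.range ℓ, (ℓ : ℂ)⁻¹ * (a n *
      (Complex.exp (2 * Real.pi * Complex.I * (τ : ℂ) / ℓ) ^ n *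
        Complex.exp (2 * Real.pi * Complex.I * j / ℓ) ^ n)))
      ((∑ j ∈ Finset.range ℓ, F ∣[k] upperMat ℓ j hℓ) τ) := by
    rw [Finset.sum_apply]
    exact hasSum_sum fun j _ => h1 j
  have h3 : ∀ n : ℕ, (∑ j ∈ Finset.range ℓ, (ℓ : ℂ)⁻¹ * (a n *
      (Complex.exp (2 * Real.pi * Complex.I * (τ : ℂ) / ℓ) ^ n *
        Complex.exp (2 * Real.pi * Complex.I * j / ℓ) ^ n))) =
      if ℓ ∣ n then a n * Complex.exp (2 * Real.pi * Complex.I * (τ : ℂ) / ℓ) ^ n else 0 := by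
    intro n
    have e1 : ∀ j : ℕ, Complex.exp (2 * Real.pi * Complex.I * j / ℓ) ^ n =
        (Complex.exp (2 * Real.pi * Complex.I / ℓ) ^ n) ^ j := by
      intro j
      rw [← Complex.exp_nat_mul, ← Complex.exp_nat_mul, ← Complex.exp_nat_mul]
      congr 1; ring
    have hprim : IsPrimitiveRoot (Complex.exp (2 * Real.pi * Complex.I / ℓ)) ℓ :=
      Complex.isPrimitiveRoot_exp ℓ hℓ
    split_ifs with h
    · obtain ⟨m, rfl⟩ := h
      have e2 : (Complex.exp (2 * Real.pi * Complex.I / ℓ)) ^ (ℓ * m) = 1 := by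
        rw [pow_mul, hprim.pow_eq_one, one_pow]
      rw [Finset.sum_congr rfl fun j _ => by rw [e1 j, e2, one_pow, mul_one]]
      rw [Finset.sum_const, Finset.card_range, nsmul_eq_mul, ← mul_assoc, mul_inv_cancel₀ hℓC, one_mul]
    · have hne : Complex.exp (2 * Real.pi * Complex.I / ℓ) ^ n ≠ 1 := by
        intro hh
        exact h ((hprim.pow_eq_one_iff_dvd n).mp hh)
      rw [Finset.sum_congr rfl fun j _ => by rw [e1 j]]
      rw [← Finset.mul_sum, ← Finset.mul_sum, ← Finset.mul_sum, geom_sum_eq hne]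
      have : ((Complex.exp (2 * Real.pi * Complex.I / ℓ)) ^ n) ^ ℓ = 1 := by
        rw [← pow_mul, Nat.mul_comm n ℓ, pow_mul, hprim.pow_eq_one, one_pow]
      rw [this]; simp
  rw [funext h3] at h2
  have hinj : Function.Injective (fun m : ℕ => ℓ * m) := fun x y hxy =>
    Nat.eq_of_mul_eq_mul_left (Nat.pos_of_ne_zero hℓ) hxy
  have h4 := (hinj.hasSum_iff (f := fun n : ℕ => if ℓ ∣ n then
      a n * Complex.exp (2 * Real.pi * Complex.I * (τ : ℂ) / ℓ) ^ n else 0) (by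
    intro n hn
    rw [if_neg]
    rintro ⟨m, rfl⟩
    exact hn ⟨m, rfl⟩)).mpr h2
  refine h4.congr_fun ?_ |> fun h => h
  intro m
  simp only [Function.comp, dvd_mul_right, if_true]
  congr 1
  rw [pow_mul, ← Complex.exp_nat_mul]
  congr 1
  rw [Function.Periodic.qParam]
  congr 1
  push_cast
  field_simp

lemma hasSum_lower (k : ℤ) {b : ℕ → ℂ} {G : ℍ → ℂ}
    (hG : ∀ τ : ℍ, HasSum (fun n => b n * 𝕢 1 τ ^ n) (G τ)) {ℓ : ℕ} (hℓ : ℓ ≠ 0) (τ : ℍ) :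
    HasSum (fun m => (if ℓ ∣ m then (ℓ : ℂ) ^ (k - 1) * b (m / ℓ) else 0) * 𝕢 1 τ ^ m)
      ((G ∣[k] lowerMat ℓ hℓ) τ) := by
  have hℓpos : (0 : ℤ) < ℓ := by exact_mod_cast Nat.pos_of_ne_zero hℓ
  have hℓC : (ℓ : ℂ) ≠ 0 := by exact_mod_cast hℓ
  have hdet : (!![(ℓ : ℤ), 0; 0, 1] : IM).det ≠ 0 := by
    rw [Matrix.det_fin_two_of]; simpa using hℓ
  obtain ⟨τ', hτ', hsl⟩ := isl_upper k ℓ 0 1 hℓpos one_pos G τ
  rw [isl_of _ _ hdet, ← lowerMat_eq ℓ hℓ hdet] at hsl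
  rw [hsl]
  have h1 := HasSum.mul_left ((((ℓ : ℤ) : ℂ) * ((1 : ℤ) : ℂ)) ^ (k - 1) * ((1 : ℤ) : ℂ) ^ (-k)) (hG τ')
  have hinj : Function.Injective (fun m : ℕ => ℓ * m) := fun x y hxy =>
    Nat.eq_of_mul_eq_mul_left (Nat.pos_of_ne_zero hℓ) hxy
  refine (hinj.hasSum_iff (f := fun m : ℕ => (if ℓ ∣ m then (ℓ : ℂ) ^ (k - 1) * b (m / ℓ) else 0) *
      𝕢 1 τ ^ m) (by
    intro n hn
    rw [if_neg, zero_mul]
    rintro ⟨m, rfl⟩
    exact hn ⟨m, rfl⟩)).mp ?_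
  refine h1.congr_fun ?_ |> fun h => h
  intro m
  simp only [Function.comp, dvd_mul_right, if_true]
  rw [Nat.mul_div_cancel_left _ (Nat.pos_of_ne_zero hℓ)]
  have e : 𝕢 1 (τ : ℂ) ^ (ℓ * m) = 𝕢 1 (τ' : ℂ) ^ m := by
    rw [pow_mul]
    congr 1
    rw [Function.Periodic.qParam, Function.Periodic.qParam, ← Complex.exp_nat_mul, hτ']
    congr 1
    push_cast
    ring
  rw [e]
  push_cast
  simp
  ring

lemma one_mem_periods (N : ℕ) :
    (1 : ℝ) ∈ ((Gamma1 N : Subgroup SL(2, ℤ)) : Subgroup (GL (Fin 2) ℝ)).strictPeriods := by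
  rw [strictPeriods_Gamma1]
  exact AddSubgroup.mem_zmultiples 1

/-- The `q`-expansion of a modular form of level `Γ₁(N)`. -/
noncomputable def an {N k : ℕ} (f : MF N k) (n : ℕ) : ℂ := (qExpansion 1 (⇑f)).coeff n

lemma hasSum_an {N : ℕ} [NeZero N] {k : ℕ} (f : MF N k) (τ : ℍ) :
    HasSum (fun n => an f n * 𝕢 1 τ ^ n) (f τ) :=
  ModularForm.hasSum_qExpansion f one_pos (one_mem_periods N) τ

lemma an_unique {N : ℕ} [NeZero N] {k : ℕ} (f : MF N k) {c : ℕ → ℂ}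
    (hc : ∀ τ : ℍ, HasSum (fun n => c n * 𝕢 1 τ ^ n) (f τ)) (n : ℕ) : an f n = c n :=
  (ModularFormClass.qExpansion_coeff_unique (F := MF N k) one_pos (one_mem_periods N)
    (f := f) (c := c) (by simpa using hc) n).symm

/-- **The `q`-expansion formula for Hecke operators**, for arbitrary families. -/
theorem an_hecke {N : ℕ} [NeZero N] {T D : ℕ → (i : ℕ) → (MF N i →ₗ[ℂ] MF N i)}
    (hT : IsHeckeFamily N T D) {ℓ : ℕ} (hℓ : ℓ.Prime) (hN : ¬ ℓ ∣ 2 * N) {k : ℕ} (f : MF N k)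
    (n : ℕ) : an (T ℓ k f) n = an f (ℓ * n) +
      (if ℓ ∣ n then (ℓ : ℂ) ^ ((k : ℤ) - 1) * an (D ℓ k f) (n / ℓ) else 0) := by
  apply an_unique
  intro τ
  rw [hT ℓ hℓ hN k f, Pi.add_apply]
  have h1 := hasSum_upper (k : ℤ) (hasSum_an f) hℓ.ne_zero τ
  have h2 := hasSum_lower (k : ℤ) (hasSum_an (D ℓ k f)) hℓ.ne_zero τ
  refine (h1.add h2).congr_fun ?_ |> fun h => h
  intro m
  ring

lemma an_add {N : ℕ} [NeZero N] {k : ℕ} (f g : MF N k) (n : ℕ) : an (f + g) n = an f n + an g n := by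
  apply an_unique
  intro τ
  refine ((hasSum_an f τ).add (hasSum_an g τ)).congr_fun ?_ |> fun h => h
  intro m; ring

lemma an_smul {N : ℕ} [NeZero N] {k : ℕ} (c : ℂ) (f : MF N k) (n : ℕ) : an (c • f) n = c * an f n := by
  apply an_unique
  intro τ
  refine ((hasSum_an f τ).mul_left c).congr_fun ?_ |> fun h => h
  intro m; ring

lemma eq_zero_of_an {N : ℕ} [NeZero N] {k : ℕ} (f : MF N k) (h : ∀ n, an f n = 0) : f = 0 := by
  ext τ
  have := hasSum_an f τ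
  simp only [h, zero_mul] at this
  exact this.unique hasSum_zero

/-- The `n`-th coefficient as a linear functional. -/
noncomputable def anL (N : ℕ) [NeZero N] (k n : ℕ) : MF N k →ₗ[ℂ] ℂ where
  toFun f := an f n
  map_add' f g := an_add f g n
  map_smul' c f := an_smul c f n

end Crest.Agent.R007.Op
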