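import Mathlib
import Crest.Prelude.Def_HeckeTwo
import Crest.Agent.R007.OpU

-- ▼ part R007/Frob1
section

/-! Row 7, node FROB, part 1: q-series calculus and `E₄`. (helper668) -/

set_option autoImplicit false

namespace Crest.Agent.R007.Op

open Matrix UpperHalfPlane ModularForm CongruenceSubgroup Matrix.SpecialLinearGroup
open scoped MatrixGroups ModularForm Manifold Pointwise
open Crest.NumberTheoryR.HeckeTwoAdic

local notation "𝕢" => Function.Periodic.qParam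

/-- `P` is given on the upper half plane by the power series `s` in `q`. -/
def HasQ (P : ℍ → ℂ) (s : PowerSeries ℂ) : Prop :=
  ∀ τ : ℍ, HasSum (fun n => s.coeff n * 𝕢 1 τ ^ n) (P τ)

namespace HasQ

variable {P Q : ℍ → ℂ} {s t : PowerSeries ℂ}

lemma add (hP : HasQ P s) (hQ : HasQ Q t) : HasQ (P + Q) (s + t) := by
  intro τ
  refine ((hP τ).add (hQ τ)).congr_fun ?_ |> fun h => h
  intro n; rw [map_add]; ring

lemma smul (c : ℂ) (hP : HasQ P s) : HasQ (c • P) (c • s) := by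
  intro τ
  refine ((hP τ).mul_left c).congr_fun ?_ |> fun h => h
  intro n
  rw [map_smul, smul_eq_mul]; ring

lemma neg (hP : HasQ P s) : HasQ (-P) (-s) := by
  have := hP.smul (-1)
  simpa using this

lemma sub (hP : HasQ P s) (hQ : HasQ Q t) : HasQ (P - Q) (s - t) := by
  rw [sub_eq_add_neg, sub_eq_add_neg]; exact hP.add hQ.neg

lemma one : HasQ 1 1 := by
  intro τ
  have := hasSum_single (f := fun n => (PowerSeries.coeff n (1 : PowerSeries ℂ)) * 𝕢 1 (τ : ℂ) ^ n) 0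
    (by intro n hn; rw [PowerSeries.coeff_one, if_neg hn, zero_mul])
  simpa using this

lemma mul (hP : HasQ P s) (hQ : HasQ Q t) : HasQ (P * Q) (s * t) := by
  intro τ
  have h1 := (hP τ).summable.norm
  have h2 := (hQ τ).summable.norm
  have h3 := summable_norm_sum_mul_antidiagonal_of_summable_norm h1 h2
  have h4 := tsum_mul_tsum_eq_tsum_sum_antidiagonal_of_summable_norm h1 h2
  rw [(hP τ).tsum_eq, (hQ τ).tsum_eq] at h4
  rw [Pi.mul_apply, h4]
  refine (h3.of_norm.hasSum).congr_fun ?_ |> fun h => h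
  intro n
  rw [PowerSeries.coeff_mul, Finset.sum_mul]
  refine Finset.sum_congr rfl fun x hx => ?_
  rw [← Finset.HasAntidiagonal.mem_antidiagonal.mp hx, pow_add]; ring

lemma pow (hP : HasQ P s) (n : ℕ) : HasQ (P ^ n) (s ^ n) := by
  induction n with
  | zero => simpa using one
  | succ n ih => rw [pow_succ, pow_succ]; exact ih.mul hP

end HasQ

/-- `s(q) ↦ s(q^p)`. -/
noncomputable def V (p : ℕ) (s : PowerSeries ℂ) : PowerSeries ℂ :=
  PowerSeries.mk fun n => if p ∣ n then s.coeff (n / p) else 0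

@[simp] lemma coeff_V (p n : ℕ) (s : PowerSeries ℂ) :
    (V p s).coeff n = if p ∣ n then s.coeff (n / p) else 0 := by simp [V]

/-- `Σ a_n q^n ↦ Σ a_{pn} q^n`. -/
noncomputable def U (p : ℕ) (s : PowerSeries ℂ) : PowerSeries ℂ :=
  PowerSeries.mk fun n => s.coeff (p * n)

@[simp] lemma coeff_U (p n : ℕ) (s : PowerSeries ℂ) : (U p s).coeff n = s.coeff (p * n) := by simp [U]

lemma HasQ.V {P P' : ℍ → ℂ} {s : PowerSeries ℂ} (hP : HasQ P s) {p : ℕ} (hp : p ≠ 0)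
    (h : ∀ τ τ' : ℍ, (τ' : ℂ) = p * τ → P' τ = P τ') : HasQ P' (V p s) := by
  intro τ
  let τ' : ℍ := ⟨(p : ℂ) * τ, by
    have h1 : (0 : ℝ) < p := by exact_mod_cast Nat.pos_of_ne_zero hp
    have : ((p : ℂ) * (τ : ℂ)).im = p * τ.im := by simp
    rw [this]; exact mul_pos h1 τ.im_pos⟩
  have hτ' : (τ' : ℂ) = p * τ := rfl
  rw [h τ τ' hτ']
  have hinj : Function.Injective (fun m : ℕ => p * m) := fun x y hxy =>
    Nat.eq_of_mul_eq_mul_left (Nat.pos_of_ne_zero hp) hxy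
  refine (hinj.hasSum_iff (f := fun m : ℕ => (PowerSeries.coeff m (Op.V p s)) *
      𝕢 1 (τ : ℂ) ^ m) (by
    intro n hn
    rw [coeff_V, if_neg, zero_mul]
    rintro ⟨m, rfl⟩
    exact hn ⟨m, rfl⟩)).mp ?_
  refine (hP τ').congr_fun ?_ |> fun h => h
  intro m
  simp only [Function.comp, coeff_V, dvd_mul_right, if_true]
  rw [Nat.mul_div_cancel_left _ (Nat.pos_of_ne_zero hp)]
  have e : 𝕢 1 (τ : ℂ) ^ (p * m) = 𝕢 1 (τ' : ℂ) ^ m := by
    rw [pow_mul]
    congr 1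
    rw [Function.Periodic.qParam, Function.Periodic.qParam, ← Complex.exp_nat_mul, hτ']
    congr 1
    push_cast
    ring
  rw [e]

lemma V_one' (p : ℕ) (hp : p ≠ 0) : V p 1 = 1 := by
  ext n
  rw [coeff_V, PowerSeries.coeff_one, PowerSeries.coeff_one]
  by_cases h : n = 0
  · subst h; simp
  · by_cases hd : p ∣ n
    · obtain ⟨m, rfl⟩ := hd
      have : m ≠ 0 := by rintro rfl; simp at h
      rw [if_pos (dvd_mul_right _ _), Nat.mul_div_cancel_left _ (Nat.pos_of_ne_zero hp), if_neg this,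
        if_neg h]
    · rw [if_neg hd, if_neg h]

/-- The power series is in `S⟦q⟧`. -/
def InS (S : Subring ℂ) (s : PowerSeries ℂ) : Prop := ∀ n, s.coeff n ∈ S

namespace InS

variable {S : Subring ℂ} {s t : PowerSeries ℂ}

lemma add (hs : InS S s) (ht : InS S t) : InS S (s + t) := fun n => by
  rw [map_add]; exact S.add_mem (hs n) (ht n)

lemma neg (hs : InS S s) : InS S (-s) := fun n => by
  rw [map_neg]; exact S.neg_mem (hs n)

lemma sub (hs : InS S s) (ht : InS S t) : InS S (s - t) := fun n => by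
  rw [map_sub]; exact S.sub_mem (hs n) (ht n)

lemma mul (hs : InS S s) (ht : InS S t) : InS S (s * t) := fun n => by
  rw [PowerSeries.coeff_mul]
  exact S.sum_mem fun x _ => S.mul_mem (hs _) (ht _)

lemma one : InS S 1 := fun n => by
  rw [PowerSeries.coeff_one]; split_ifs
  · exact S.one_mem
  · exact S.zero_mem

lemma zero : InS S 0 := fun n => by rw [map_zero]; exact S.zero_mem

lemma pow (hs : InS S s) (n : ℕ) : InS S (s ^ n) := by
  induction n with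
  | zero => simpa using one
  | succ n ih => rw [pow_succ]; exact ih.mul hs

lemma smul {c : ℂ} (hc : c ∈ S) (hs : InS S s) : InS S (c • s) := fun n => by
  rw [map_smul]; exact S.mul_mem hc (hs n)

lemma V (hs : InS S s) (p : ℕ) : InS S (Op.V p s) := fun n => by
  rw [coeff_V]; split_ifs
  · exact hs _
  · exact S.zero_mem

lemma U (hs : InS S s) (p : ℕ) : InS S (Op.U p s) := fun n => by
  rw [coeff_U]; exact hs _


end InS

/-- Congruence modulo `2^j S⟦q⟧`. -/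
def Cg (S : Subring ℂ) (j : ℕ) (s t : PowerSeries ℂ) : Prop :=
  ∃ e, InS S e ∧ s = t + (2 : ℂ) ^ j • e

namespace Cg

variable {S : Subring ℂ} {s t u s' t' : PowerSeries ℂ} {j i : ℕ}

lemma two_mem (S : Subring ℂ) : (2 : ℂ) ∈ S := by
  have := intCast_mem S 2
  simpa using this

lemma refl (s : PowerSeries ℂ) : Cg S j s s := ⟨0, InS.zero, by simp⟩

lemma trans (h : Cg S j s t) (h' : Cg S j t u) : Cg S j s u := by
  obtain ⟨e, he, rfl⟩ := h
  obtain ⟨e', he', rfl⟩ := h'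
  exact ⟨e + e', he.add he', by rw [smul_add]; ring⟩

lemma mono (hij : i ≤ j) (h : Cg S j s t) : Cg S i s t := by
  obtain ⟨e, he, rfl⟩ := h
  refine ⟨(2 : ℂ) ^ (j - i) • e, he.smul (S.pow_mem (two_mem S) _), ?_⟩
  rw [smul_smul, ← pow_add]
  congr 3; omega

lemma add (h : Cg S j s t) (h' : Cg S j s' t') : Cg S j (s + s') (t + t') := by
  obtain ⟨e, he, rfl⟩ := h
  obtain ⟨e', he', rfl⟩ := h'
  exact ⟨e + e', he.add he', by rw [smul_add]; ring⟩

lemma sub (h : Cg S j s t) (h' : Cg S j s' t') : Cg S j (s - s') (t - t') := by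
  obtain ⟨e, he, rfl⟩ := h
  obtain ⟨e', he', rfl⟩ := h'
  exact ⟨e - e', he.sub he', by rw [smul_sub]; ring⟩

lemma mul_left (hs : InS S u) (h : Cg S j s t) : Cg S j (u * s) (u * t) := by
  obtain ⟨e, he, rfl⟩ := h
  exact ⟨u * e, hs.mul he, by rw [mul_add, mul_smul_comm]⟩

lemma mul_right (hs : InS S u) (h : Cg S j s t) : Cg S j (s * u) (t * u) := by
  rw [mul_comm s, mul_comm t]; exact h.mul_left hs

lemma smul {c : ℂ} (hc : c ∈ S) (h : Cg S j s t) : Cg S j (c • s) (c • t) := by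
  obtain ⟨e, he, rfl⟩ := h
  exact ⟨c • e, he.smul hc, by rw [smul_add, smul_comm]⟩

lemma inS (h : Cg S j s t) (ht : InS S t) : InS S s := by
  obtain ⟨e, he, rfl⟩ := h
  exact ht.add (he.smul (S.pow_mem (two_mem S) _))

lemma V (h : Cg S j s t) (p : ℕ) : Cg S j (Op.V p s) (Op.V p t) := by
  obtain ⟨e, he, rfl⟩ := h
  refine ⟨Op.V p e, he.V p, ?_⟩
  ext n
  simp only [coeff_V, map_add, map_smul]
  split_ifs <;> simp

/-- powers: `(1 + 2^j v)^{2^m} ≡ 1 mod 2^{j+m}` for `j ≥ 1`. -/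
lemma pow_two_pow (hj : 1 ≤ j) (h : Cg S j s 1) (m : ℕ) : Cg S (j + m) (s ^ (2 ^ m)) 1 := by
  induction m with
  | zero => simpa using h
  | succ m ih =>
    obtain ⟨e, he, h1⟩ := ih
    refine ⟨e + (2 : ℂ) ^ (j + m - 1) • (e * e),
      he.add ((he.mul he).smul (S.pow_mem (two_mem S) _)), ?_⟩
    rw [pow_succ, pow_mul, h1, sq]
    have e1 : (2 : ℂ) ^ (j + (m + 1)) = 2 * 2 ^ (j + m) := by rw [← pow_succ']; congr 1
    have e2 : (2 : ℂ) ^ (j + m) = 2 * 2 ^ (j + m - 1) := by rw [← pow_succ']; congr 1; omega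
    rw [e1, smul_add, smul_smul]
    have e3 : (2 : ℂ) * 2 ^ (j + m) * 2 ^ (j + m - 1) = 2 ^ (j + m) * 2 ^ (j + m) := by
      rw [mul_comm (2 : ℂ), mul_assoc, ← e2]
    rw [e3]
    have e4 : ((2 : ℂ) ^ (j + m) • e) * ((2 : ℂ) ^ (j + m) • e) =
        ((2 : ℂ) ^ (j + m) * (2 : ℂ) ^ (j + m)) • (e * e) := by
      rw [smul_mul_smul_comm]
    rw [← e4]
    have e5 : ((2 : ℂ) * 2 ^ (j + m)) • e = (2 : ℂ) ^ (j + m) • e + (2 : ℂ) ^ (j + m) • e := by
      rw [two_mul, add_smul]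
    rw [e5]
    ring

end Cg

/-! ### `E₄` -/

/-- the Eisenstein series of weight four as a function -/
noncomputable def e4 : ℍ → ℂ := ⇑(ModularForm.E₄)

/-- its q-series -/
noncomputable def e4s : PowerSeries ℂ := qExpansion 1 e4

lemma bernoulli_four' : bernoulli 4 = -1 / 30 := by
  rw [bernoulli_eq_bernoulli'_of_ne_one (by norm_num)]
  exact bernoulli'_four

lemma coeff_e4s (n : ℕ) : e4s.coeff n =
    if n = 0 then 1 else 240 * (ArithmeticFunction.sigma 3 n : ℂ) := by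
  have h := EisensteinSeries.E_qExpansion_coeff (k := 4) (by norm_num) ⟨2, rfl⟩ n
  have e : e4s.coeff n = (qExpansion 1 (ModularForm.E (k := 4) (by norm_num))).coeff n := rfl
  rw [e, h]
  split_ifs
  · rfl
  · rw [bernoulli_four']
    push_cast
    ring

lemma hasQ_e4 : HasQ e4 e4s := by
  intro τ
  have := ModularForm.hasSum_qExpansion (f := ModularForm.E₄) (h := 1) one_pos
    (by simp) τ
  exact this

lemma e4_slash (Y : SL(2, ℤ)) : e4 ∣[(4 : ℤ)] Y = e4 := by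
  rw [SL_slash]
  exact SlashInvariantForm.slash_action_eqn (Γ := 𝒮ℒ) (k := (4 : ℤ)) ModularForm.E₄
      (Matrix.SpecialLinearGroup.mapGL ℝ Y) ⟨Y, rfl⟩

/-- `E₄` as a form of level `Γ₁(N)`. -/
noncomputable def e4N (N : ℕ) [NeZero N] : MF N 4 where
  toFun := e4
  slash_action_eq' := by
    rintro _ ⟨Y, hY, rfl⟩
    exact e4_slash Y
  holo' := ModularFormClass.holo ModularForm.E₄
  bdd_at_cusps' := by
    intro c hc
    apply ModularFormClass.bdd_at_cusps ModularForm.E₄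
    rw [Subgroup.IsArithmetic.isCusp_iff_isCusp_SL2Z] at hc ⊢
    exact hc

@[simp] lemma e4N_coe (N : ℕ) [NeZero N] : ⇑(e4N N) = e4 := rfl

lemma e4_mdiff : MDiff e4 := ModularFormClass.holo ModularForm.E₄

end Crest.Agent.R007.Op
end

-- ▼ part R007/Frob2
section

/-! Row 7, node FROB, part 2: the Frobenius operator `Fr`. (helper668) -/

set_option autoImplicit false

namespace Crest.Agent.R007.Op

open Matrix UpperHalfPlane ModularForm CongruenceSubgroup Matrix.SpecialLinearGroup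
open scoped MatrixGroups ModularForm Manifold Pointwise
open Crest.NumberTheoryR.HeckeTwoAdic

local notation "𝕢" => Function.Periodic.qParam

lemma sub_slash' (k : ℤ) (γ : SL(2, ℤ)) (f g : ℍ → ℂ) : (f - g) ∣[k] γ = f ∣[k] γ - g ∣[k] γ := by
  rw [sub_eq_add_neg, SlashAction.add_slash, SlashAction.neg_slash, sub_eq_add_neg]

lemma pow_slash_SL (f : ℍ → ℂ) (n : ℕ) (k : ℤ) (γ : SL(2, ℤ)) :
    (f ^ n) ∣[(n : ℤ) * k] γ = (f ∣[k] γ) ^ n := by
  induction n with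
  | zero => simpa using is_invariant_one γ
  | succ n ih =>
    rw [pow_succ, pow_succ, ← ih, ← mul_slash_SL2]
    congr 1; push_cast; ring

/-- `E₄ - 2 E₄|M`. -/
noncomputable def Bx (M : IM) : ℍ → ℂ := e4 - (2 : ℂ) • isl 4 M e4

lemma isl_e4_left (Y : SL(2, ℤ)) {M : IM} (h : M.det ≠ 0) : isl 4 (Y.1 * M) e4 = isl 4 M e4 := by
  rw [isl_mul _ _ _ (SL_det_ne Y) h, isl_SL, e4_slash]

lemma Bx_left (Y : SL(2, ℤ)) {M : IM} (h : M.det ≠ 0) : Bx (Y.1 * M) = Bx M := by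
  unfold Bx; rw [isl_e4_left Y h]

lemma Bx_slash (M : IM) (h : M.det ≠ 0) (γ : SL(2, ℤ)) : (Bx M) ∣[(4 : ℤ)] γ = Bx (M * γ.1) := by
  unfold Bx
  rw [sub_slash', SL_smul_slash, e4_slash, isl_mul _ _ _ h (SL_det_ne γ), isl_SL]

lemma Bx_mdiff (M : IM) : MDiff (Bx M) := by
  unfold Bx
  exact e4_mdiff.sub ((isl_mdiff 4 M e4_mdiff).const_smul (2 : ℂ))

lemma bdd_mul {c : OnePoint ℝ} {F G : ℍ → ℂ} {k l : ℤ} (hF : c.IsBoundedAt F k)
    (hG : c.IsBoundedAt G l) : c.IsBoundedAt (F * G) (k + l) := by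
  intro g hg
  rw [mul_slash]
  exact ((hF g hg).mul (hG g hg)).smul _

lemma bdd_one (c : OnePoint ℝ) : c.IsBoundedAt (1 : ℍ → ℂ) 0 := by
  intro g hg
  simp only [slash_def]
  simpa using! atImInfty.const_boundedAtFilter _

lemma bdd_pow {c : OnePoint ℝ} {F : ℍ → ℂ} {k : ℤ} (hF : c.IsBoundedAt F k) (n : ℕ) :
    c.IsBoundedAt (F ^ n) ((n : ℤ) * k) := by
  induction n with
  | zero => simpa using bdd_one c
  | succ n ih =>
    rw [pow_succ, show (((n + 1 : ℕ) : ℤ)) * k = (n : ℤ) * k + k by push_cast; ring]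
    exact bdd_mul ih hF

lemma bdd_sub {c : OnePoint ℝ} {F G : ℍ → ℂ} {k : ℤ} (hF : c.IsBoundedAt F k)
    (hG : c.IsBoundedAt G k) : c.IsBoundedAt (F - G) k := by
  intro g hg
  rw [sub_eq_add_neg, SlashAction.add_slash, SlashAction.neg_slash]
  have h1 := hF g hg
  have h2 := (hG g hg).neg
  exact h1.add h2

lemma bdd_smul {c : OnePoint ℝ} {F : ℍ → ℂ} {k : ℤ} (a : ℂ) (hF : c.IsBoundedAt F k) :
    c.IsBoundedAt (a • F) k := by
  intro g hg
  rw [smul_slash]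
  exact (hF g hg).const_smul_left _

lemma Bx_bdd {N : ℕ} [NeZero N] (M : IM) (hM : M.det ≠ 0) {c : OnePoint ℝ}
    (hc : IsCusp c ((Gamma1 N : Subgroup SL(2, ℤ)) : Subgroup (GL (Fin 2) ℝ))) :
    c.IsBoundedAt (Bx M) 4 := by
  unfold Bx
  refine bdd_sub ((e4N N).bdd_at_cusps' hc) (bdd_smul _ ?_)
  have := bdd_isl (e4N N) M hM hc
  exact this

/-- the twisted `T₂` -/
noncomputable def Hfun (k : ℤ) (r : ℕ) (g : SL(2, ℤ)) (f : ℍ → ℂ) : ℍ → ℂ :=
  ∑ i : Option (Fin 2), isl k (Rep 2 g i) f * (Bx (Rep 2 g i)) ^ r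

lemma Hfun_slash {N : ℕ} {k : ℤ} {r : ℕ} (hN : ¬ 2 ∣ N) {g : SL(2, ℤ)}
    (hg : IsDiam N 2 g) {f : ℍ → ℂ} (hf : Inv1 N k f) {γ : SL(2, ℤ)} (hγ : γ ∈ Gamma0 N) :
    (Hfun k r g f) ∣[k + (r : ℤ) * 4] γ = Hfun k r g (f ∣[k] γ) := by
  have hg' : IsDiam N (2 : ℕ) g := hg
  obtain ⟨τ, hτ⟩ := exists_perm Nat.prime_two hN hg' hγ
  have h0 : ∀ i, (Rep 2 g i).det ≠ 0 := Rep_det hg' two_ne_zero
  unfold Hfun
  rw [SlashAction.sum_slash]
  have e1 : ∀ i, (isl k (Rep 2 g i) f * (Bx (Rep 2 g i)) ^ r) ∣[k + (r : ℤ) * 4] γ =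
      isl k (Rep 2 g (τ i)) (f ∣[k] γ) * (Bx (Rep 2 g (τ i))) ^ r := by
    intro i
    obtain ⟨Y, hY, hYi⟩ := hτ i
    have h1 : ((γ⁻¹).1 * Rep 2 g i * γ.1).det ≠ 0 := by
      rw [Matrix.det_mul, Matrix.det_mul, γ.2, (γ⁻¹).2]; simpa using h0 i
    have hmul : Rep 2 g i * γ.1 = γ.1 * ((γ⁻¹).1 * Rep 2 g i * γ.1) := by
      rw [← Matrix.mul_assoc, ← Matrix.mul_assoc, ← Matrix.SpecialLinearGroup.coe_mul]
      simp
    rw [mul_slash_SL2, pow_slash_SL, Bx_slash _ (h0 i)]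
    congr 1
    · calc (isl k (Rep 2 g i) f) ∣[k] γ = isl k (Rep 2 g i * γ.1) f := by
            rw [isl_mul _ _ _ (h0 i) (SL_det_ne γ), isl_SL]
        _ = isl k (γ.1 * ((γ⁻¹).1 * Rep 2 g i * γ.1)) f := by rw [hmul]
        _ = isl k ((γ⁻¹).1 * Rep 2 g i * γ.1) (f ∣[k] γ) := by
            rw [isl_mul _ _ _ (SL_det_ne γ) h1, isl_SL]
        _ = isl k (Rep 2 g (τ i)) (f ∣[k] γ) := by
            rw [hYi, isl_inv1 (inv1_diam hf hγ) hY (h0 _)]
    · congr 1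
      rw [hmul, Bx_left γ h1, hYi, Bx_left Y (h0 _)]
  rw [Finset.sum_congr rfl (fun i _ => e1 i)]
  exact Equiv.sum_comp τ (fun i => isl k (Rep 2 g i) (f ∣[k] γ) * (Bx (Rep 2 g i)) ^ r)

lemma Hfun_add (k : ℤ) (r : ℕ) (g : SL(2, ℤ)) (f f' : ℍ → ℂ) :
    Hfun k r g (f + f') = Hfun k r g f + Hfun k r g f' := by
  unfold Hfun
  rw [← Finset.sum_add_distrib]
  refine Finset.sum_congr rfl fun i _ => ?_
  rw [isl_add, add_mul]

lemma Hfun_smul {N : ℕ} (k : ℤ) (r : ℕ) {g : SL(2, ℤ)} (hg : IsDiam N 2 g) (c : ℂ) (f : ℍ → ℂ) :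
    Hfun k r g (c • f) = c • Hfun k r g f := by
  unfold Hfun
  rw [Finset.smul_sum]
  refine Finset.sum_congr rfl fun i _ => ?_
  rw [isl_smul _ _ (Rep_det_pos (ℓ := 2) hg two_ne_zero i), smul_mul_assoc]

lemma mdiff_pow {F : ℍ → ℂ} (hF : MDiff F) (n : ℕ) : MDiff (F ^ n) := by
  induction n with
  | zero => rw [pow_zero]; exact fun _ => mdifferentiableAt_const
  | succ n ih => rw [pow_succ]; exact ih.mul hF

/-- the twisted `T₂` as a linear map `M_k → M_{k+4r}` -/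
noncomputable def Hop (N : ℕ) [NeZero N] (hN : ¬ 2 ∣ N) (k r : ℕ) (g : SL(2, ℤ))
    (hg : IsDiam N 2 g) : MF N k →ₗ[ℂ] MF N (k + 4 * r) where
  toFun f :=
    { toFun := Hfun k r g f
      slash_action_eq' := by
        rintro _ ⟨Y, hY, rfl⟩
        have h := Hfun_slash (r := r) hN hg (inv1_mf f) (Gamma1_in_Gamma0 N hY)
        rw [inv1_mf f Y hY] at h
        have e : (((k + 4 * r : ℕ)) : ℤ) = (k : ℤ) + (r : ℤ) * 4 := by push_cast; ring
        rw [e]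
        exact h
      holo' := by
        change MDiff (Hfun k r g f)
        unfold Hfun
        have : ∀ s : Finset (Option (Fin 2)),
            MDiff (∑ i ∈ s, isl k (Rep 2 g i) (⇑f) * (Bx (Rep 2 g i)) ^ r) := by
          intro s
          classical
          induction s using Finset.induction_on with
          | empty => simp only [Finset.sum_empty]; exact fun _ => mdifferentiableAt_const
          | insert a s ha ih =>
            rw [Finset.sum_insert ha]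
            exact ((isl_mdiff (k : ℤ) _ (ModularFormClass.holo f)).mul
              (mdiff_pow (Bx_mdiff _) r)).add ih
        exact this _
      bdd_at_cusps' := by
        intro c hc
        change c.IsBoundedAt (Hfun k r g f) _
        have e : (((k + 4 * r : ℕ)) : ℤ) = (k : ℤ) + (r : ℤ) * 4 := by push_cast; ring
        rw [e]
        unfold Hfun
        have : ∀ s : Finset (Option (Fin 2)),
            c.IsBoundedAt (∑ i ∈ s, isl k (Rep 2 g i) (⇑f) * (Bx (Rep 2 g i)) ^ r)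
              ((k : ℤ) + (r : ℤ) * 4) := by
          intro s
          classical
          induction s using Finset.induction_on with
          | empty =>
            simp only [Finset.sum_empty]
            have := (0 : MF N (k + 4 * r)).bdd_at_cusps' hc
            rw [← e]
            exact this
          | insert a s ha ih =>
            rw [Finset.sum_insert ha]
            exact (bdd_mul (bdd_isl f _ (Rep_det (ℓ := 2) hg two_ne_zero a) hc)
              (bdd_pow (Bx_bdd (N := N) _ (Rep_det (ℓ := 2) hg two_ne_zero a) hc) r)).add ih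
        exact this _ }
  map_add' f f' := by
    ext z
    change Hfun k r g (⇑(f + f')) z = Hfun k r g f z + Hfun k r g f' z
    rw [FunLike.coe_add, Hfun_add]; rfl
  map_smul' c f := by
    ext z
    change Hfun k r g (⇑(c • f)) z = c • (Hfun k r g f z)
    rw [FunLike.coe_smul, Hfun_smul (N := N) _ _ hg]; rfl

@[simp] lemma Hop_coe (N : ℕ) [NeZero N] (hN : ¬ 2 ∣ N) (k r : ℕ) (g : SL(2, ℤ))
    (hg : IsDiam N 2 g) (f : MF N k) : ⇑(Hop N hN k r g hg f) = Hfun k r g f := rfl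

/-! ### the q-series of `Hop` -/

lemma HasQ.isl_delta {P : ℍ → ℂ} {s : PowerSeries ℂ} (hP : HasQ P s) (k : ℤ) :
    HasQ (isl k !![2, 0; 0, 1] P) ((2 : ℂ) ^ (k - 1) • Op.V 2 s) := by
  have h1 : HasQ (fun τ => ((2 : ℂ) ^ (k - 1))⁻¹ * isl k !![2, 0; 0, 1] P τ) (Op.V 2 s) := by
    refine hP.V two_ne_zero (fun τ τ' hτ' => ?_)
    obtain ⟨τ'', h2, h3⟩ := isl_upper k 2 0 1 two_pos one_pos P τ
    have : τ'' = τ' := by
      apply UpperHalfPlane.ext
      rw [h2, hτ']; push_cast; ring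
    rw [h3, this]
    push_cast
    have hne : ((2 : ℂ) ^ (k - 1)) ≠ 0 := zpow_ne_zero _ two_ne_zero
    simp only [mul_one, _root_.one_zpow]
    rw [← mul_assoc, inv_mul_cancel₀ hne, one_mul]
  have h2 := h1.smul ((2 : ℂ) ^ (k - 1))
  have e : (2 : ℂ) ^ (k - 1) • (fun τ => ((2 : ℂ) ^ (k - 1))⁻¹ * isl k !![2, 0; 0, 1] P τ) =
      isl k !![2, 0; 0, 1] P := by
    funext τ
    have hne : ((2 : ℂ) ^ (k - 1)) ≠ 0 := zpow_ne_zero _ two_ne_zero
    rw [Pi.smul_apply, smul_eq_mul, ← mul_assoc, mul_inv_cancel₀ hne, one_mul]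
  rwa [e] at h2

/-- the series `E₄(q) - 16 E₄(q²)` -/
noncomputable def aInf : PowerSeries ℂ := e4s - (16 : ℂ) • V 2 e4s

/-- the series `E₄(q²) - E₄(q)` -/
noncomputable def aZero : PowerSeries ℂ := V 2 e4s - e4s

lemma hasQ_Bx_inf : HasQ (Bx !![2, 0; 0, 1]) aInf := by
  unfold Bx aInf
  have h := (hasQ_e4.isl_delta 4).smul 2
  have e : (2 : ℂ) • (2 : ℂ) ^ ((4 : ℤ) - 1) • V 2 e4s = (16 : ℂ) • V 2 e4s := by
    rw [smul_smul]; norm_num
  rw [e] at h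
  exact hasQ_e4.sub h

/-- `E₄(2τ)` -/
noncomputable def e42 : ℍ → ℂ := (8 : ℂ)⁻¹ • isl 4 !![2, 0; 0, 1] e4

lemma hasQ_e42 : HasQ e42 (V 2 e4s) := by
  have h := (hasQ_e4.isl_delta 4).smul (8 : ℂ)⁻¹
  have e : (8 : ℂ)⁻¹ • (2 : ℂ) ^ ((4 : ℤ) - 1) • V 2 e4s = V 2 e4s := by
    rw [smul_smul]; norm_num
  rwa [e] at h

lemma HasQ.congr_q {P : ℍ → ℂ} {s : PowerSeries ℂ} (hP : HasQ P s) {τ τ' : ℍ}
    (h : 𝕢 1 (τ : ℂ) = 𝕢 1 (τ' : ℂ)) : P τ = P τ' := by
  have h1 := hP τ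
  rw [h] at h1
  exact h1.unique (hP τ')

lemma e42_apply (τ τ' : ℍ) (h : 𝕢 1 (τ' : ℂ) = 𝕢 1 (2 * (τ : ℂ))) : e42 τ = e4 τ' := by
  obtain ⟨τ'', h2, h3⟩ := isl_upper 4 2 0 1 two_pos one_pos e4 τ
  have h4 : e42 τ = e4 τ'' := by
    rw [e42, Pi.smul_apply, h3, smul_eq_mul]
    push_cast
    norm_num
    ring
  rw [h4]
  apply hasQ_e4.congr_q
  rw [h, h2]
  congr 1
  push_cast; ring

/-- the upper summands of `Hfun` -/
lemma upper_term (k : ℤ) (r : ℕ) (f : ℍ → ℂ) (j : ℕ) (τ : ℍ) :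
    (isl k !![1, (j : ℤ); 0, 2] f * (Bx !![1, (j : ℤ); 0, 2]) ^ r) τ =
      ((f * (e42 - e4) ^ r) ∣[k] upperMat 2 j two_ne_zero) τ := by
  have hdet : (!![1, (j : ℤ); 0, 2] : IM).det ≠ 0 := by
    rw [Matrix.det_fin_two_of]; norm_num
  obtain ⟨τ1, h1, h1'⟩ := isl_upper k 1 j 2 one_pos two_pos f τ
  obtain ⟨τ2, h2, h2'⟩ := isl_upper k 1 j 2 one_pos two_pos (f * (e42 - e4) ^ r) τ
  obtain ⟨τ3, h3, h3'⟩ := isl_upper 4 1 j 2 one_pos two_pos e4 τ
  have e21 : τ2 = τ1 := UpperHalfPlane.ext (by rw [h2, h1])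
  have e31 : τ3 = τ1 := UpperHalfPlane.ext (by rw [h3, h1])
  have hup : upperMat 2 j two_ne_zero = gl !![1, (j : ℤ); 0, 2] hdet := by
    have := upperMat_eq 2 j two_ne_zero (by rw [Matrix.det_fin_two_of]; norm_num)
    exact this
  rw [hup, ← isl_of k _ hdet, h2', e21, Pi.mul_apply, h1', Pi.mul_apply, Pi.pow_apply, Pi.pow_apply]
  have hB : Bx !![1, (j : ℤ); 0, 2] τ = (e42 - e4) τ1 := by
    rw [Bx, Pi.sub_apply, Pi.smul_apply, h3', e31, Pi.sub_apply, smul_eq_mul]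
    have : e42 τ1 = e4 τ := by
      apply e42_apply
      rw [h1]
      push_cast
      have : (2 : ℂ) * ((1 * (τ : ℂ) + j) / 2) = τ + j := by ring
      rw [this, Function.Periodic.qParam, Function.Periodic.qParam]
      have e : 2 * (Real.pi : ℂ) * Complex.I * ((τ : ℂ) + j) / (1 : ℝ) =
          2 * Real.pi * Complex.I * τ / (1 : ℝ) + j * (2 * Real.pi * Complex.I) := by
        push_cast; ring
      rw [e, Complex.exp_add, Complex.exp_nat_mul_two_pi_mul_I, mul_one]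
    rw [this]
    norm_num
    ring
  rw [hB]
  ring

/-- the q-series of a form -/
noncomputable def qs {N k : ℕ} (f : MF N k) : PowerSeries ℂ := PowerSeries.mk (an f)

@[simp] lemma coeff_qs {N k : ℕ} (f : MF N k) (n : ℕ) : (qs f).coeff n = an f n := by simp [qs]

lemma hasQ_mf {N : ℕ} [NeZero N] {k : ℕ} (f : MF N k) : HasQ f (qs f) := by
  intro τ
  simpa using hasSum_an f τ

lemma HasQ.an_eq {N : ℕ} [NeZero N] {k : ℕ} {f : MF N k} {s : PowerSeries ℂ} (h : HasQ f s)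
    (n : ℕ) : an f n = s.coeff n := an_unique f h n

lemma HasQ.qs_eq {N : ℕ} [NeZero N] {k : ℕ} {f : MF N k} {s : PowerSeries ℂ} (h : HasQ f s) :
    qs f = s := by
  ext n; rw [coeff_qs, h.an_eq]

theorem hasQ_Hop (N : ℕ) [NeZero N] (hN : ¬ 2 ∣ N) (k r : ℕ) (g : SL(2, ℤ))
    (hg : IsDiam N 2 g) (f : MF N k) :
    HasQ (Hop N hN k r g hg f)
      ((2 : ℂ) ^ ((k : ℤ) - 1) • (V 2 (qs (Dop N k g hg.1 f)) * aInf ^ r) +
        U 2 (qs f * aZero ^ r)) := by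
  rw [Hop_coe]
  have hdet : (!![2, 0; 0, 1] : IM).det ≠ 0 := by rw [Matrix.det_fin_two_of]; norm_num
  have hlow : HasQ (isl k (Rep 2 g none) f * (Bx (Rep 2 g none)) ^ r)
      ((2 : ℂ) ^ ((k : ℤ) - 1) • (V 2 (qs (Dop N k g hg.1 f)) * aInf ^ r)) := by
    have e1 : Rep 2 g none = g.1 * !![2, 0; 0, 1] := rfl
    rw [e1, Bx_left g hdet, isl_mul _ _ _ (SL_det_ne g) hdet, isl_SL, ← smul_mul_assoc]
    have h2 : HasQ ((⇑f) ∣[(k : ℤ)] g) (qs (Dop N k g hg.1 f)) := hasQ_mf (Dop N k g hg.1 f)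
    exact (h2.isl_delta k).mul (hasQ_Bx_inf.pow r)
  have hup : HasQ (∑ j : Fin 2, isl k (Rep 2 g (some j)) f * (Bx (Rep 2 g (some j))) ^ r)
      (U 2 (qs f * aZero ^ r)) := by
    have hP : HasQ (⇑f * (e42 - e4) ^ r) (qs f * aZero ^ r) :=
      (hasQ_mf f).mul ((hasQ_e42.sub hasQ_e4).pow r)
    intro τ
    have h1 := hasSum_upper (k : ℤ) (F := ⇑f * (e42 - e4) ^ r)
      (a := fun n => (qs f * aZero ^ r).coeff n) hP (ℓ := 2) two_ne_zero τ
    have e : (∑ j : Fin 2, isl k (Rep 2 g (some j)) f * (Bx (Rep 2 g (some j))) ^ r) τ =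
        (∑ j ∈ Finset.range 2, (⇑f * (e42 - e4) ^ r) ∣[(k : ℤ)] upperMat 2 j two_ne_zero) τ := by
      rw [Finset.sum_apply, Finset.sum_apply, Finset.sum_range]
      refine Finset.sum_congr rfl fun j _ => ?_
      rw [← upper_term]
      rfl
    rw [e]
    refine h1.congr_fun ?_ |> fun h => h
    intro n
    rw [coeff_U]
  have e : Hfun k r g f = isl k (Rep 2 g none) f * (Bx (Rep 2 g none)) ^ r +
      ∑ j : Fin 2, isl k (Rep 2 g (some j)) f * (Bx (Rep 2 g (some j))) ^ r := by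
    unfold Hfun; rw [Fintype.sum_option]
  rw [e]
  exact hlow.add hup

end Crest.Agent.R007.Op
end

-- ▼ part R007/Frob3

/-! Row 7, node FROB/DEP, part 3: `Fr`, congruences, 2-depletion. (helper668) -/

set_option autoImplicit false

namespace Crest.Agent.R007.Op

open Matrix UpperHalfPlane ModularForm CongruenceSubgroup Matrix.SpecialLinearGroup
open scoped MatrixGroups ModularForm Manifold Pointwise
open Crest.NumberTheoryR.HeckeTwoAdic

local notation "𝕢" => Function.Periodic.qParam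

/-! ### arithmetic of `E₄` -/

/-- `Σ_{n ≥ 1} σ₃(n) q^n` -/
noncomputable def sg : PowerSeries ℂ :=
  PowerSeries.mk fun n => if n = 0 then 0 else (ArithmeticFunction.sigma 3 n : ℂ)

lemma inS_sg (S : Subring ℂ) : InS S sg := by
  intro n
  rw [sg, PowerSeries.coeff_mk]
  split_ifs
  · exact S.zero_mem
  · exact natCast_mem S _

lemma e4s_eq : e4s = 1 + (240 : ℂ) • sg := by
  ext n
  rw [coeff_e4s, map_add, map_smul, PowerSeries.coeff_one, sg, PowerSeries.coeff_mk]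
  split_ifs <;> simp

lemma num_mem (S : Subring ℂ) (n : ℕ) : (n : ℂ) ∈ S := natCast_mem S n

lemma inS_e4s (S : Subring ℂ) : InS S e4s := by
  rw [e4s_eq]
  exact InS.one.add ((inS_sg S).smul (by exact_mod_cast num_mem S 240))

lemma V_add (p : ℕ) (s t : PowerSeries ℂ) : V p (s + t) = V p s + V p t := by
  ext n; simp only [coeff_V, map_add]; split_ifs <;> simp

lemma V_smul (p : ℕ) (c : ℂ) (s : PowerSeries ℂ) : V p (c • s) = c • V p s := by
  ext n; simp only [coeff_V, map_smul, smul_eq_mul]; split_ifs <;> simp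


lemma U_smul (p : ℕ) (c : ℂ) (s : PowerSeries ℂ) : U p (c • s) = c • U p s := by
  ext n; simp only [coeff_U, map_smul]

lemma cg_e4s (S : Subring ℂ) : Cg S 4 e4s 1 := by
  refine ⟨(15 : ℂ) • sg, (inS_sg S).smul (by exact_mod_cast num_mem S 15), ?_⟩
  rw [e4s_eq, smul_smul]; norm_num

lemma cg_aInf (S : Subring ℂ) : Cg S 4 aInf 1 := by
  refine ⟨(15 : ℂ) • sg - V 2 e4s, ((inS_sg S).smul (by exact_mod_cast num_mem S 15)).sub
    ((inS_e4s S).V 2), ?_⟩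
  have h : e4s = 1 + (240 : ℂ) • sg := e4s_eq
  have h2 : (2 : ℂ) ^ 4 • ((15 : ℂ) • sg - V 2 e4s) = (240 : ℂ) • sg - (16 : ℂ) • V 2 e4s := by
    rw [smul_sub, smul_smul]; norm_num
  rw [h2, aInf]
  calc e4s - (16 : ℂ) • V 2 e4s = (1 + (240 : ℂ) • sg) - (16 : ℂ) • V 2 e4s := by rw [← h]
    _ = _ := by ring

/-- `E₄(q²) - E₄(q) = 16 b` -/
noncomputable def bZero : PowerSeries ℂ := (15 : ℂ) • (V 2 sg - sg)

lemma inS_bZero (S : Subring ℂ) : InS S bZero :=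
  (((inS_sg S).V 2).sub (inS_sg S)).smul (by exact_mod_cast num_mem S 15)

lemma aZero_eq : aZero = (16 : ℂ) • bZero := by
  rw [aZero, bZero, e4s_eq, V_add, V_smul, V_one' 2 two_ne_zero, smul_smul, smul_sub]
  norm_num

lemma aZero_pow (r : ℕ) : aZero ^ r = (2 : ℂ) ^ (4 * r) • bZero ^ r := by
  rw [aZero_eq, smul_pow]
  congr 1
  rw [pow_mul]; norm_num

/-! ### multiplication by a power of `E₄` -/

/-- `f ↦ f E₄^r`. -/
noncomputable def mulE (N : ℕ) [NeZero N] (k r : ℕ) : MF N k →ₗ[ℂ] MF N (k + 4 * r) where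
  toFun f :=
    { toFun := ⇑f * e4 ^ r
      slash_action_eq' := by
        rintro _ ⟨Y, hY, rfl⟩
        have e : (((k + 4 * r : ℕ)) : ℤ) = (k : ℤ) + (r : ℤ) * 4 := by push_cast; ring
        rw [e]
        change (⇑f * e4 ^ r) ∣[(k : ℤ) + (r : ℤ) * 4] Y = _
        rw [mul_slash_SL2, pow_slash_SL, e4_slash, inv1_mf f Y hY]
      holo' := (ModularFormClass.holo f).mul (mdiff_pow e4_mdiff r)
      bdd_at_cusps' := by
        intro c hc
        have e : (((k + 4 * r : ℕ)) : ℤ) = (k : ℤ) + (r : ℤ) * 4 := by push_cast; ring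
        rw [e]
        exact bdd_mul (f.bdd_at_cusps' hc) (bdd_pow ((e4N N).bdd_at_cusps' hc) r) }
  map_add' f f' := by
    ext z
    change (⇑(f + f') * e4 ^ r) z = (⇑f * e4 ^ r) z + (⇑f' * e4 ^ r) z
    rw [FunLike.coe_add, add_mul]; rfl
  map_smul' c f := by
    ext z
    change (⇑(c • f) * e4 ^ r) z = c • ((⇑f * e4 ^ r) z)
    rw [FunLike.coe_smul, smul_mul_assoc]; rfl

@[simp] lemma mulE_coe (N : ℕ) [NeZero N] (k r : ℕ) (f : MF N k) : ⇑(mulE N k r f) = ⇑f * e4 ^ r := rfl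

lemma qs_mulE {N : ℕ} [NeZero N] (k r : ℕ) (f : MF N k) : qs (mulE N k r f) = qs f * e4s ^ r :=
  HasQ.qs_eq ((hasQ_mf f).mul (hasQ_e4.pow r))

lemma mulE_Dop {N : ℕ} [NeZero N] (k r : ℕ) {γ : SL(2, ℤ)} (hγ : γ ∈ Gamma0 N) (f : MF N k) :
    Dop N (k + 4 * r) γ hγ (mulE N k r f) = mulE N k r (Dop N k γ hγ f) := by
  apply DFunLike.coe_injective
  rw [Dop_coe, mulE_coe, mulE_coe, Dop_coe]
  have e : (((k + 4 * r : ℕ)) : ℤ) = (k : ℤ) + (r : ℤ) * 4 := by push_cast; ring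
  rw [e, mul_slash_SL2, pow_slash_SL, e4_slash]

/-! ### the operator `Fr` -/

lemma Gamma0_inv {N : ℕ} {g : SL(2, ℤ)} (hg : g ∈ Gamma0 N) : g⁻¹ ∈ Gamma0 N := inv_mem hg

lemma Dop_inv_cancel {N : ℕ} [NeZero N] {k : ℕ} {g : SL(2, ℤ)} (hg : g ∈ Gamma0 N) (f : MF N k) :
    Dop N k g hg (Dop N k g⁻¹ (Gamma0_inv hg) f) = f := by
  apply DFunLike.coe_injective
  rw [Dop_coe, Dop_coe, ← SlashAction.slash_mul, inv_mul_cancel, SlashAction.slash_one]

/-- The Frobenius operator `Fr f ≡ f(q²)`. -/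
noncomputable def Fr (N : ℕ) [NeZero N] (hN : ¬ 2 ∣ N) (k r : ℕ) (g : SL(2, ℤ))
    (hg : IsDiam N 2 g) : MF N k →ₗ[ℂ] MF N (k + 4 * r) :=
  (2 : ℂ) ^ (1 - (k : ℤ)) • (Hop N hN k r g hg ∘ₗ Dop N k g⁻¹ (Gamma0_inv hg.1))

lemma qs_smul {N : ℕ} [NeZero N] {k : ℕ} (c : ℂ) (f : MF N k) : qs (c • f) = c • qs f := by
  ext n; rw [coeff_qs, an_smul, map_smul, coeff_qs, smul_eq_mul]

lemma qs_add {N : ℕ} [NeZero N] {k : ℕ} (f f' : MF N k) : qs (f + f') = qs f + qs f' := by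
  ext n; rw [coeff_qs, an_add, map_add, coeff_qs, coeff_qs]

lemma qs_sub {N : ℕ} [NeZero N] {k : ℕ} (f f' : MF N k) : qs (f - f') = qs f - qs f' := by
  have : f - f' = f + (-1 : ℂ) • f' := by ext z; simp [sub_eq_add_neg]
  rw [this, qs_add, qs_smul]; simp [sub_eq_add_neg]

section

variable {N : ℕ} [NeZero N] (hN : ¬ 2 ∣ N) {g : SL(2, ℤ)} (hg : IsDiam N 2 g)

theorem qs_Fr (k r : ℕ) (f : MF N k) :
    qs (Fr N hN k r g hg f) = V 2 (qs f) * aInf ^ r +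
      (2 : ℂ) ^ (1 - (k : ℤ)) • U 2 (qs (Dop N k g⁻¹ (Gamma0_inv hg.1) f) * aZero ^ r) := by
  have h := (hasQ_Hop N hN k r g hg (Dop N k g⁻¹ (Gamma0_inv hg.1) f)).qs_eq
  rw [Fr, LinearMap.smul_apply, LinearMap.comp_apply, qs_smul, h, Dop_inv_cancel, smul_add, smul_smul,
    ← zpow_add₀ (two_ne_zero : (2 : ℂ) ≠ 0)]
  rw [show 1 - (k : ℤ) + ((k : ℤ) - 1) = 0 by ring, _root_.zpow_zero, one_smul]

lemma Fr_Dop (k r : ℕ) {γ : SL(2, ℤ)} (hγ : γ ∈ Gamma0 N) (f : MF N k) :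
    Dop N (k + 4 * r) γ hγ (Fr N hN k r g hg f) = Fr N hN k r g hg (Dop N k γ hγ f) := by
  have key : ∀ f : MF N k, Dop N (k + 4 * r) γ hγ (Hop N hN k r g hg f) =
      Hop N hN k r g hg (Dop N k γ hγ f) := by
    intro f
    apply DFunLike.coe_injective
    rw [Dop_coe, Hop_coe, Hop_coe, Dop_coe]
    have e : (((k + 4 * r : ℕ)) : ℤ) = (k : ℤ) + (r : ℤ) * 4 := by push_cast; ring
    rw [e]
    exact Hfun_slash hN hg (inv1_mf f) hγ
  rw [Fr, LinearMap.smul_apply, LinearMap.comp_apply, map_smul, key, LinearMap.smul_apply,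
    LinearMap.comp_apply, Dop_comm (Gamma0_inv hg.1) hγ]

/-- all diamond translates have `q`-series in `S`. -/
def AllS (S : Subring ℂ) {k : ℕ} (f : MF N k) : Prop :=
  ∀ (γ : SL(2, ℤ)) (hγ : γ ∈ Gamma0 N), InS S (qs (Dop N k γ hγ f))

lemma Dop_one {k : ℕ} (f : MF N k) : Dop N k 1 (one_mem _) f = f := by
  apply DFunLike.coe_injective
  rw [Dop_coe, SlashAction.slash_one]

lemma Dop_mul {k : ℕ} {γ γ' : SL(2, ℤ)} (hγ : γ ∈ Gamma0 N) (hγ' : γ' ∈ Gamma0 N) (f : MF N k) :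
    Dop N k γ' hγ' (Dop N k γ hγ f) = Dop N k (γ * γ') (mul_mem hγ hγ') f := by
  apply DFunLike.coe_injective
  rw [Dop_coe, Dop_coe, Dop_coe, SlashAction.slash_mul]

namespace AllS

variable {S : Subring ℂ} {k : ℕ} {f f' : MF N k}

lemma inS (h : AllS S f) : InS S (qs f) := by
  have := h 1 (one_mem _)
  rwa [Dop_one] at this

lemma dop (h : AllS S f) {γ : SL(2, ℤ)} (hγ : γ ∈ Gamma0 N) : AllS S (Dop N k γ hγ f) := by
  intro γ' hγ'
  rw [Dop_mul]
  exact h _ _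

lemma add (h : AllS S f) (h' : AllS S f') : AllS S (f + f') := by
  intro γ hγ
  rw [map_add, qs_add]; exact (h γ hγ).add (h' γ hγ)

lemma smul {c : ℂ} (hc : c ∈ S) (h : AllS S f) : AllS S (c • f) := by
  intro γ hγ
  rw [map_smul, qs_smul]; exact (h γ hγ).smul hc

end AllS

lemma qs_Top {k ℓ : ℕ} (hk : k ≠ 0) (hℓ : ℓ.Prime) (hN : ¬ ℓ ∣ N) {g : SL(2, ℤ)} (hg : IsDiam N ℓ g)
    (f : MF N k) : qs (Top N k ℓ hℓ hN g hg f) =
      U ℓ (qs f) + (ℓ : ℂ) ^ (k - 1) • V ℓ (qs (Dop N k g hg.1 f)) := by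
  ext n
  rw [coeff_qs, an_Top, map_add, coeff_U, coeff_qs, map_smul, coeff_V, coeff_qs, smul_eq_mul]
  have e : (ℓ : ℂ) ^ ((k : ℤ) - 1) = (ℓ : ℂ) ^ (k - 1) := by
    rw [← zpow_natCast]; congr 1; omega
  rw [e]
  split_ifs <;> simp

lemma AllS.top {S : Subring ℂ} {k ℓ : ℕ} (hk : k ≠ 0) {f : MF N k} (h : AllS S f) (hℓ : ℓ.Prime)
    (hN : ¬ ℓ ∣ N) {g : SL(2, ℤ)} (hg : IsDiam N ℓ g) : AllS S (Top N k ℓ hℓ hN g hg f) := by
  intro γ hγ
  rw [Top_Dop, qs_Top hk]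
  refine ((h γ hγ).U ℓ).add (InS.smul (S.pow_mem (num_mem S ℓ) _) (InS.V ?_ ℓ))
  rw [Dop_mul]; exact h _ _



/-- variant with a separate exponent for the second application -/
theorem Fr_congr' {k m r : ℕ} {S : Subring ℂ} (j : ℕ) (hr : r = 2 ^ j) (hj : m ≤ j)
    (hm : k + m ≤ 4 * r) {f : MF N k}
    (h : AllS S f) : Cg S (m + 1) (qs (Fr N hN k r g hg f)) (V 2 (qs f)) := by
  subst hr
  rw [qs_Fr]
  have h1 : ∃ e, InS S e ∧ (2 : ℂ) ^ (1 - (k : ℤ)) • U 2 (qs (Dop N k g⁻¹ (Gamma0_inv hg.1) f) *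
      aZero ^ (2 ^ j)) = (2 : ℂ) ^ (m + 1) • e := by
    refine ⟨(2 : ℂ) ^ (4 * 2 ^ j - k - m) • U 2 (qs (Dop N k g⁻¹ (Gamma0_inv hg.1) f) * bZero ^ (2 ^ j)),
      (((h g⁻¹ (Gamma0_inv hg.1)).mul ((inS_bZero S).pow _)).U 2).smul
        (S.pow_mem (Cg.two_mem S) _), ?_⟩
    rw [aZero_pow, mul_smul_comm, U_smul, smul_smul, smul_smul]
    congr 1
    rw [← zpow_natCast, ← zpow_natCast, ← zpow_natCast, ← zpow_add₀ (two_ne_zero : (2 : ℂ) ≠ 0),
      ← zpow_add₀ (two_ne_zero : (2 : ℂ) ≠ 0)]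
    congr 1
    push_cast [Nat.cast_sub (show k ≤ 4 * 2 ^ j by omega), Nat.cast_sub (show m ≤ 4 * 2 ^ j - k by omega)]
    ring
  obtain ⟨e, he, h1⟩ := h1
  rw [h1]
  have h2 : Cg S (m + 1) (V 2 (qs f) * aInf ^ (2 ^ j)) (V 2 (qs f) * 1) :=
    (((cg_aInf S).pow_two_pow (by norm_num) j).mono (by omega)).mul_left (h.inS.V 2)
  rw [mul_one] at h2
  obtain ⟨e', he', h3⟩ := h2
  exact ⟨e' + e, he'.add he, by rw [h3, smul_add]; ring⟩

/-- integrality of `Fr f` -/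
lemma AllS.Fr {S : Subring ℂ} {k m r : ℕ} (j : ℕ) (hr : r = 2 ^ j) (hj : m ≤ j)
    (hm : k + m ≤ 4 * r) {f : MF N k} (h : AllS S f) : AllS S (Op.Fr N hN k r g hg f) := by
  intro γ hγ
  rw [Fr_Dop]
  exact (Fr_congr' hN hg j hr hj hm (h.dop hγ)).inS ((h.dop hγ).inS.V 2)

/-- rationality of `Fr f`: if `1/2 ∈ S`. -/
lemma AllS.Fr_half {S : Subring ℂ} (hS : (2 : ℂ)⁻¹ ∈ S) {k r : ℕ} {f : MF N k} (h : AllS S f) :
    AllS S (Op.Fr N hN k r g hg f) := by
  intro γ hγ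
  rw [Fr_Dop, qs_Fr]
  have h' := h.dop hγ
  have haInf : InS S aInf := (inS_e4s S).sub (((inS_e4s S).V 2).smul (by exact_mod_cast num_mem S 16))
  have haZero : InS S aZero := ((inS_e4s S).V 2).sub (inS_e4s S)
  refine ((h'.inS.V 2).mul (haInf.pow r)).add (InS.smul ?_ (((h' _ _).mul (haZero.pow r)).U 2))
  have : (2 : ℂ) ^ (1 - (k : ℤ)) = 2 * (2 : ℂ)⁻¹ ^ k := by
    rw [zpow_sub₀ two_ne_zero, _root_.zpow_one, zpow_natCast, inv_pow]; rfl
  rw [this]
  exact S.mul_mem (Cg.two_mem S) (S.pow_mem hS _)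

lemma AllS.mulE {S : Subring ℂ} {k r : ℕ} {f : MF N k} (h : AllS S f) :
    AllS S (Op.mulE N k r f) := by
  intro γ hγ
  rw [mulE_Dop, qs_mulE]
  exact (h γ hγ).mul ((inS_e4s S).pow r)

/-- **The 2-depletion operator** `M_k(Γ₁(N)) → M_{k+12r}(Γ₁(N))`. -/
noncomputable def Dep2 (N : ℕ) [NeZero N] (hN : ¬ 2 ∣ N) (k r : ℕ) (g : SL(2, ℤ))
    (hg : IsDiam N 2 g) : MF N k →ₗ[ℂ] MF N (k + 4 * r + 4 * (2 * r)) :=
  (mulE N (k + 4 * r) (2 * r)) ∘ₗ (mulE N k r)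
    - (mulE N (k + 4 * r) (2 * r)) ∘ₗ (Fr N hN k r g hg) ∘ₗ (Top N k 2 Nat.prime_two hN g hg)
    + (2 : ℂ) ^ (k - 1) • ((Fr N hN (k + 4 * r) (2 * r) g hg) ∘ₗ (Fr N hN k r g hg) ∘ₗ
        (Dop N k g hg.1))

lemma Dep2_Dop (k r : ℕ) {γ : SL(2, ℤ)} (hγ : γ ∈ Gamma0 N) (f : MF N k) :
    Dop N _ γ hγ (Dep2 N hN k r g hg f) = Dep2 N hN k r g hg (Dop N k γ hγ f) := by
  simp only [Dep2, LinearMap.add_apply, LinearMap.sub_apply, LinearMap.smul_apply,
    LinearMap.comp_apply, map_add, map_sub, map_smul]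
  rw [mulE_Dop, mulE_Dop, mulE_Dop, Fr_Dop, Fr_Dop, Fr_Dop, Top_Dop, Dop_comm hg.1 hγ]

/-- the odd part of a series -/
noncomputable def odd (s : PowerSeries ℂ) : PowerSeries ℂ :=
  PowerSeries.mk fun n => if 2 ∣ n then 0 else s.coeff n

lemma odd_eq (s : PowerSeries ℂ) : odd s = s - V 2 (U 2 s) := by
  ext n
  rw [odd, PowerSeries.coeff_mk, map_sub, coeff_V, coeff_U]
  split_ifs with h
  · rw [Nat.mul_div_cancel' h, sub_self]
  · rw [sub_zero]

/-- **DEP2**: `Dep2 f ≡ odd part of f mod 2^{m+1}`. -/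
theorem Dep2_congr {k m : ℕ} {S : Subring ℂ} (hk : k ≠ 0) (hm : k + m ≤ 4 * 2 ^ m) {f : MF N k}
    (h : AllS S f) :
    Cg S (m + 1) (qs (Dep2 N hN k (2 ^ m) g hg f)) (odd (qs f)) := by
  set r := 2 ^ m with hr
  have h2r : 2 * r = 2 ^ (m + 1) := by rw [hr, pow_succ]; ring
  have hT : AllS S (Top N k 2 Nat.prime_two hN g hg f) := h.top hk Nat.prime_two hN hg
  have hD : AllS S (Dop N k g hg.1 f) := h.dop hg.1
  have hFD : AllS S (Op.Fr N hN k r g hg (Dop N k g hg.1 f)) := hD.Fr hN hg m hr le_rfl hm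
  -- first term
  have c1 : Cg S (m + 1) (qs (mulE N (k + 4 * r) (2 * r) (mulE N k r f))) (qs f) := by
    rw [qs_mulE, qs_mulE, mul_assoc]
    have : Cg S (m + 1) (e4s ^ r * e4s ^ (2 * r)) 1 := by
      have a1 : Cg S (m + 1) (e4s ^ r) 1 := ((cg_e4s S).pow_two_pow (by norm_num) m).mono (by omega)
      have a2 : Cg S (m + 1) (e4s ^ (2 * r)) 1 := by
        rw [h2r]; exact ((cg_e4s S).pow_two_pow (by norm_num) (m + 1)).mono (by omega)
      have a3 := a2.mul_left ((inS_e4s S).pow r)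
      rw [mul_one] at a3
      exact a3.trans a1
    have := this.mul_left h.inS
    rwa [mul_one] at this
  have c2 : Cg S (m + 1) (qs (mulE N (k + 4 * r) (2 * r) (Op.Fr N hN k r g hg
      (Top N k 2 Nat.prime_two hN g hg f)))) (V 2 (qs (Top N k 2 Nat.prime_two hN g hg f))) := by
    rw [qs_mulE]
    have a1 := Fr_congr' hN hg m hr le_rfl hm hT
    have a2 : Cg S (m + 1) (e4s ^ (2 * r)) 1 := by
      rw [h2r]; exact ((cg_e4s S).pow_two_pow (by norm_num) (m + 1)).mono (by omega)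
    have a3 := a2.mul_left (a1.inS (hT.inS.V 2))
    rw [mul_one] at a3
    exact a3.trans a1
  have c3 : Cg S (m + 1) (qs (Op.Fr N hN (k + 4 * r) (2 * r) g hg (Op.Fr N hN k r g hg
      (Dop N k g hg.1 f)))) (V 2 (V 2 (qs (Dop N k g hg.1 f)))) := by
    have a1 := Fr_congr' hN hg (k := k + 4 * r) (m := m) (m + 1) h2r (by omega) (by omega) hFD
    have a2 := (Fr_congr' hN hg m hr le_rfl hm hD).V 2
    exact a1.trans a2
  have e : qs (Dep2 N hN k r g hg f) =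
      qs (mulE N (k + 4 * r) (2 * r) (mulE N k r f)) -
      qs (mulE N (k + 4 * r) (2 * r) (Op.Fr N hN k r g hg (Top N k 2 Nat.prime_two hN g hg f))) +
      (2 : ℂ) ^ (k - 1) • qs (Op.Fr N hN (k + 4 * r) (2 * r) g hg (Op.Fr N hN k r g hg
        (Dop N k g hg.1 f))) := by
    simp only [Dep2, LinearMap.add_apply, LinearMap.sub_apply, LinearMap.smul_apply,
      LinearMap.comp_apply, qs_add, qs_sub, qs_smul]
  rw [e]
  have hodd : odd (qs f) = qs f - V 2 (qs (Top N k 2 Nat.prime_two hN g hg f)) +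
      (2 : ℂ) ^ (k - 1) • V 2 (V 2 (qs (Dop N k g hg.1 f))) := by
    rw [odd_eq, qs_Top hk, V_add, V_smul]
    push_cast
    ring
  rw [hodd]
  exact (c1.sub c2).add (c3.smul (S.pow_mem (Cg.two_mem S) _))

/-- rationality of `Dep2 f` -/
lemma AllS.dep2 {S : Subring ℂ} (hS : (2 : ℂ)⁻¹ ∈ S) {k r : ℕ} (hk : k ≠ 0) {f : MF N k}
    (h : AllS S f) : AllS S (Dep2 N hN k r g hg f) := by
  have hT : AllS S (Top N k 2 Nat.prime_two hN g hg f) := h.top hk Nat.prime_two hN hg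
  have hD : AllS S (Dop N k g hg.1 f) := h.dop hg.1
  have h1 : AllS S (Op.mulE N (k + 4 * r) (2 * r) (Op.mulE N k r f)) := h.mulE.mulE
  have h2 : AllS S (Op.mulE N (k + 4 * r) (2 * r) (Op.Fr N hN k r g hg
    (Top N k 2 Nat.prime_two hN g hg f))) := (hT.Fr_half hN hg hS).mulE
  have h3 : AllS S (Op.Fr N hN (k + 4 * r) (2 * r) g hg (Op.Fr N hN k r g hg
        (Dop N k g hg.1 f))) := (hD.Fr_half hN hg hS).Fr_half hN hg hS
  have e : Dep2 N hN k r g hg f = Op.mulE N (k + 4 * r) (2 * r) (Op.mulE N k r f) +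
      (-1 : ℂ) • Op.mulE N (k + 4 * r) (2 * r) (Op.Fr N hN k r g hg
        (Top N k 2 Nat.prime_two hN g hg f)) +
      (2 : ℂ) ^ (k - 1) • Op.Fr N hN (k + 4 * r) (2 * r) g hg (Op.Fr N hN k r g hg
        (Dop N k g hg.1 f)) := by
    rw [neg_one_smul, ← sub_eq_add_neg]
    simp only [Dep2, LinearMap.add_apply, LinearMap.sub_apply, LinearMap.smul_apply,
      LinearMap.comp_apply]
  rw [e]
  have hm1 : (-1 : ℂ) ∈ S := S.neg_mem S.one_mem
  exact (h1.add (h2.smul hm1)).add (h3.smul (S.pow_mem (Cg.two_mem S) _))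

end

end Crest.Agent.R007.Op
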