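import Crest.Agent.R007.RatSep
import Crest.Prelude.Def_HeckeTwo
import Mathlib
import Crest.Agent.R007.OpQ

-- ▼ part R007/RatFin
section

/-!
Row 7 (S0007), section A: finite-dimensionality of spaces of modular forms of level `Γ(M)`, `Γ₁(N)`.
-/

set_option autoImplicit false

noncomputable section

namespace Crest.Agent.R007.Rat

open UpperHalfPlane ModularForm CongruenceSubgroup Matrix.SpecialLinearGroup
open scoped MatrixGroups Manifold

/-- The space of forms of level `Γ(M)` and weight `k`, inside functions. -/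
def FS (M : ℕ) (k : ℤ) : Submodule ℂ (ℍ → ℂ) where
  carrier := {f | IsF M k f}
  add_mem' hf hg := hf.add hg
  zero_mem' := IsF.zero
  smul_mem' c _ hf := hf.smul c

variable {M : ℕ} {k l k₀ : ℤ}


/-- level one forms, as the bundled space. -/
instance finite_FS_one (k : ℤ) : FiniteDimensional ℂ (FS 1 k) := by
  let φ : FS 1 k →ₗ[ℂ] ModularForm 𝒮ℒ k :=
    { toFun := fun f => (isMF_of_isF f.2).toSL
      map_add' := fun f g => by ext τ; rfl
      map_smul' := fun c f => by ext τ; rfl }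
  refine FiniteDimensional.of_injective φ ?_
  intro f g h
  ext τ
  exact congrArg (fun F : ModularForm 𝒮ℒ k => F τ) h

/-- multiplication by a fixed function -/
def mulL (u : ℍ → ℂ) : (ℍ → ℂ) →ₗ[ℂ] (ℍ → ℂ) := LinearMap.mulLeft ℂ u

theorem finite_FS_of_three_le [NeZero M] (hM : 3 ≤ M) (k : ℤ) : FiniteDimensional ℂ (FS M k) := by
  classical
  obtain ⟨θ, hθ, hsep⟩ := exists_theta hM ⊤ (by trivial)
  set D := del M 3 θ with hD
  have hD0 : D ≠ 0 := del_ne_zero hθ.isF hsep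
  have hDF : IsF M (wdel M 3) D := hθ.isF.del
  let W : Submodule ℂ (ℍ → ℂ) := ⨆ t : (nt M).powerset,
    (FS 1 (k + ((t : Finset (GM M)).card : ℤ) * 3)).map
      (mulL (θ ^ ((nt M).card - (t : Finset (GM M)).card)))
  have hWfin : FiniteDimensional ℂ W := by
    have : ∀ t : (nt M).powerset, FiniteDimensional ℂ ((FS 1 (k + ((t : Finset (GM M)).card : ℤ) * 3)).map
      (mulL (θ ^ ((nt M).card - (t : Finset (GM M)).card)))) := fun t => inferInstance
    exact Submodule.finiteDimensional_iSup _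
  have hmem : ∀ f ∈ FS M k, D * f ∈ W := by
    intro f hf
    rw [mul_comm, interp hθ.isF hf]
    refine Submodule.sum_mem _ fun t ht => Submodule.smul_mem _ _ ?_
    refine Submodule.mem_iSup_of_mem ⟨t, ht⟩ ?_
    refine ⟨_, ?_, rfl⟩
    exact (hf.mul (IsF.prod t _ fun a _ => hθ.isF.tr a)).Tr
  let φ : FS M k →ₗ[ℂ] W :=
    { toFun := fun f => ⟨D * f.1, hmem f.1 f.2⟩
      map_add' := fun f g => by
        ext τ
        simp [mul_add]
      map_smul' := fun c f => by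
        ext τ
        simp [mul_left_comm] }
  refine FiniteDimensional.of_injective φ ?_
  rw [injective_iff_map_eq_zero]
  intro f hf
  have h1 : (f : ℍ → ℂ) * D = 0 := by
    have := congrArg Subtype.val hf
    rw [mul_comm]
    exact this
  have h2 := eq_zero_of_mul (IsF.holo f.2) hDF.holo hD0 h1
  exact Subtype.ext h2

instance finite_FS [NeZero M] (k : ℤ) : FiniteDimensional ℂ (FS M k) := by
  have h3 : NeZero (M * 3) := ⟨mul_ne_zero (NeZero.ne M) (by norm_num)⟩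
  have hM : 3 ≤ M * 3 := by have := Nat.pos_of_ne_zero (NeZero.ne M); omega
  have := finite_FS_of_three_le hM k
  have hle : FS M k ≤ FS (M * 3) k := fun f hf => IsF.mono (Dvd.intro 3 rfl) hf
  exact Submodule.finiteDimensional_of_le hle

/-! ### level `Γ₁(N)` -/

open Crest.NumberTheoryR.HeckeTwoAdic

lemma Gamma_le_Gamma1 (N : ℕ) : Gamma N ≤ Gamma1 N := by
  intro γ hγ
  rw [Gamma_mem] at hγ
  rw [Gamma1_mem]
  exact ⟨hγ.1, hγ.2.2.2, hγ.2.2.1⟩

lemma isF_of_MF {N i : ℕ} [NeZero N] (f : MF N i) : IsF N (i : ℤ) f where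
  slash γ hγ := by
    exact SlashInvariantFormClass.slash_action_eq f (mapGL ℝ γ)
      (Subgroup.mem_map_of_mem _ (Gamma_le_Gamma1 N hγ))
  holo := ModularFormClass.holo f
  bdd g := ModularFormClass.bdd_at_infty_slash f g

/-- A form on `Γ(N)` which is invariant under `Γ₁(N)` is in `MF N i`. -/
def IsF.toMF {N i : ℕ} [NeZero N] {f : ℍ → ℂ} (hf : IsF N (i : ℤ) f)
    (h : ∀ γ ∈ Gamma1 N, f ∣[(i : ℤ)] γ = f) : MF N i where
  toFun := f
  slash_action_eq' γ hγ := by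
    obtain ⟨g, hg, rfl⟩ := hγ
    exact h g hg
  holo' := hf.holo
  bdd_at_cusps' {c} hc := by
    rw [Subgroup.IsArithmetic.isCusp_iff_isCusp_SL2Z] at hc
    rw [OnePoint.isBoundedAt_iff_forall_SL2Z hc]
    intro g _
    exact hf.bdd g

instance finite_MF (N i : ℕ) [NeZero N] : FiniteDimensional ℂ (MF N i) := by
  let φ : MF N i →ₗ[ℂ] FS N (i : ℤ) :=
    { toFun := fun f => ⟨f, isF_of_MF f⟩
      map_add' := fun f g => by ext τ; rfl
      map_smul' := fun c f => by ext τ; rfl }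
  refine FiniteDimensional.of_injective φ ?_
  intro f g h
  ext τ
  exact congrFun (congrArg Subtype.val h) τ

end Crest.Agent.R007.Rat
end
end

-- ▼ part R007/RatGal
section

/-!
Row 7 (S0007), section A, node GAL: the action of `Aut(ℂ)` on forms of level `Γ(M)`.
-/

set_option autoImplicit false

noncomputable section

namespace Crest.Agent.R007.Rat

open UpperHalfPlane ModularForm CongruenceSubgroup Matrix.SpecialLinearGroup
open scoped MatrixGroups Manifold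

/-- `g' = diag(1,s)⁻¹ g diag(1,s)` modulo `M`. -/
def Tw (s : ℤ) (M : ℕ) (g g' : SL(2, ℤ)) : Prop :=
  ((g' 0 0 : ℤ) : ZMod M) = (g 0 0 : ℤ) ∧ ((g' 0 1 : ℤ) : ZMod M) = (s : ZMod M) * (g 0 1 : ℤ) ∧
    (s : ZMod M) * ((g' 1 0 : ℤ) : ZMod M) = (g 1 0 : ℤ) ∧ ((g' 1 1 : ℤ) : ZMod M) = (g 1 1 : ℤ)

lemma Tw.one (s : ℤ) (M : ℕ) : Tw s M 1 1 := by
  simp [Tw]

/-- `f'` is the `σ`-conjugate of `f`, where `σ (ζ_M) = ζ_M ^ s`. -/
structure CjT (σ : ℂ →+* ℂ) (s : ℤ) (M : ℕ) (k : ℤ) (f f' : ℍ → ℂ) : Prop where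
  left : IsF M k f
  right : IsF M k f'
  eq : ∀ g g' : SL(2, ℤ), Tw s M g g' → qe M (f' ∣[k] g') = PowerSeries.map σ (qe M (f ∣[k] g))

section

variable {σ : ℂ →+* ℂ} {s : ℤ} {M : ℕ} [NeZero M] {k l : ℤ} {f f' h h' : ℍ → ℂ}

omit [NeZero M] in
lemma CjT.cast {k k' : ℤ} (hk : k = k') (hf : CjT σ s M k f f') : CjT σ s M k' f f' := hk ▸ hf

omit [NeZero M] in
lemma CjT.zero : CjT σ s M k 0 0 := ⟨IsF.zero, IsF.zero, fun g g' _ => by
  rw [SlashAction.zero_slash, SlashAction.zero_slash, qe_zero, map_zero]⟩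

omit [NeZero M] in
lemma CjT.one : CjT σ s M 0 1 1 := ⟨IsF.one, IsF.one, fun g g' _ => by
  rw [one_slash, one_slash, qe_one, map_one]⟩

lemma CjT.add (hf : CjT σ s M k f f') (hh : CjT σ s M k h h') : CjT σ s M k (f + h) (f' + h') :=
  ⟨hf.left.add hh.left, hf.right.add hh.right, fun g g' hg => by
    rw [SlashAction.add_slash, SlashAction.add_slash, qe_add (hf.left.slash_SL g) (hh.left.slash_SL g),
      qe_add (hf.right.slash_SL g') (hh.right.slash_SL g'), map_add, hf.eq g g' hg, hh.eq g g' hg]⟩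

lemma CjT.smul (c : ℂ) (hf : CjT σ s M k f f') : CjT σ s M k (c • f) (σ c • f') :=
  ⟨hf.left.smul c, hf.right.smul _, fun g g' hg => by
    rw [SL_smul_slash, SL_smul_slash, qe_smul (hf.left.slash_SL g), qe_smul (hf.right.slash_SL g'),
      map_smul_ps, hf.eq g g' hg]⟩

lemma CjT.neg (hf : CjT σ s M k f f') : CjT σ s M k (-f) (-f') := by
  simpa using hf.smul (-1)

lemma CjT.sub (hf : CjT σ s M k f f') (hh : CjT σ s M k h h') : CjT σ s M k (f - h) (f' - h') := by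
  simpa [sub_eq_add_neg] using hf.add hh.neg

lemma CjT.mul (hf : CjT σ s M k f f') (hh : CjT σ s M l h h') :
    CjT σ s M (k + l) (f * h) (f' * h') :=
  ⟨hf.left.mul hh.left, hf.right.mul hh.right, fun g g' hg => by
    rw [mul_slash_SL2, mul_slash_SL2, qe_mul (hf.left.slash_SL g) (hh.left.slash_SL g),
      qe_mul (hf.right.slash_SL g') (hh.right.slash_SL g'), map_mul, hf.eq g g' hg, hh.eq g g' hg]⟩

lemma CjT.sum {ι : Type*} (t : Finset ι) (F F' : ι → ℍ → ℂ)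
    (hF : ∀ i ∈ t, CjT σ s M k (F i) (F' i)) : CjT σ s M k (∑ i ∈ t, F i) (∑ i ∈ t, F' i) := by
  classical
  induction t using Finset.induction_on with
  | empty => simpa using CjT.zero
  | insert a t ha ih =>
    rw [Finset.sum_insert ha, Finset.sum_insert ha]
    exact (hF a (by simp)).add (ih fun i hi => hF i (by simp [hi]))

lemma CjT.prod {ι : Type*} (t : Finset ι) (F F' : ι → ℍ → ℂ)
    (hF : ∀ i ∈ t, CjT σ s M k (F i) (F' i)) :
    CjT σ s M ((t.card : ℤ) * k) (∏ i ∈ t, F i) (∏ i ∈ t, F' i) := by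
  classical
  induction t using Finset.induction_on with
  | empty => simpa using CjT.one
  | insert a t ha ih =>
    rw [Finset.prod_insert ha, Finset.prod_insert ha, Finset.card_insert_of_notMem ha]
    exact ((hF a (by simp)).mul (ih fun i hi => hF i (by simp [hi]))).cast (by push_cast; ring)

lemma CjT.pow (hf : CjT σ s M k f f') (n : ℕ) : CjT σ s M ((n : ℤ) * k) (f ^ n) (f' ^ n) := by
  induction n with
  | zero => simpa using CjT.one
  | succ n ih => rw [pow_succ, pow_succ]; exact (ih.mul hf).cast (by push_cast; ring)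

/-- Uniqueness of conjugates. -/
lemma CjT.unique (h1 : CjT σ s M k f f') (h2 : CjT σ s M k f h') : f' = h' := by
  refine qe_inj h1.right h2.right ?_
  have e1 := h1.eq 1 1 (Tw.one s M)
  have e2 := h2.eq 1 1 (Tw.one s M)
  simp only [SlashAction.slash_one] at e1 e2
  rw [e1, e2]

omit [NeZero M] in
lemma CjT.qe_eq (h1 : CjT σ s M k f f') : qe M f' = PowerSeries.map σ (qe M f) := by
  have e1 := h1.eq 1 1 (Tw.one s M)
  simpa only [SlashAction.slash_one] using e1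

lemma map_ps_eq_zero {p : PowerSeries ℂ} (h : PowerSeries.map σ p = 0) : p = 0 := by
  ext n
  have := congrArg (PowerSeries.coeff n) h
  rw [PowerSeries.coeff_map, map_zero] at this
  rw [map_zero]
  exact (map_eq_zero σ).mp this

lemma CjT.ne_zero (h1 : CjT σ s M k f f') (hf : f ≠ 0) : f' ≠ 0 := by
  intro h0
  apply hf
  refine (qe_eq_zero_iff h1.left).mp (map_ps_eq_zero (σ := σ) ?_)
  rw [← h1.qe_eq, h0, qe_zero]

/-- conjugate of a quotient -/
lemma CjT.of_mul {F F' D D' : ℍ → ℂ} (hF : IsF M k F) (hF' : IsF M k F') (hD : CjT σ s M l D D')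
    (hD0 : D ≠ 0) (h : CjT σ s M (k + l) (F * D) (F' * D')) : CjT σ s M k F F' := by
  refine ⟨hF, hF', fun g g' hg => ?_⟩
  have h1 := h.eq g g' hg
  rw [mul_slash_SL2, mul_slash_SL2, qe_mul (hF.slash_SL g) (hD.left.slash_SL g),
    qe_mul (hF'.slash_SL g') (hD.right.slash_SL g'), map_mul, hD.eq g g' hg] at h1
  have h2 : PowerSeries.map σ (qe M (D ∣[l] g)) ≠ 0 := by
    intro h0
    have h3 := (qe_eq_zero_iff (hD.left.slash_SL g)).mp (map_ps_eq_zero h0)
    exact hD0 ((SlashAction.slash_eq_zero_iff _ _ _).mp h3)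
  exact mul_right_cancel₀ h2 h1

lemma CjT.of_rational_level_one {S : Subring ℂ} (hσ : ∀ c ∈ S, σ c = c) (hf : IsR S 1 k f) :
    CjT σ s M k f f := by
  have h1 : IsR S M k f := hf.mono_level (one_dvd M)
  refine ⟨h1.isF, h1.isF, fun g g' _ => ?_⟩
  rw [slash_one_level hf.isF, slash_one_level hf.isF]
  ext n
  rw [PowerSeries.coeff_map, hσ]
  have := h1.coeff 1 n
  simpa using this

lemma ringHom_fixes_bot (σ : ℂ →+* ℂ) : ∀ c ∈ (⊥ : Subfield ℂ).toSubring, σ c = c := by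
  intro c hc
  have h1 : (⊥ : Subfield ℂ) ≤ RingHom.eqLocusField σ (RingHom.id ℂ) := bot_le
  exact h1 hc

/-- Level one forms have conjugates. -/
lemma exists_cjT_level_one (σ : ℂ →+* ℂ) (s : ℤ) (hf : IsF 1 k f) : ∃ f', CjT σ s M k f f' := by
  have h1 : f ∈ Sp (⊥ : Subfield ℂ).toSubring 1 k := levelOneSpan_field ⊥ k f hf
  induction h1 using Submodule.span_induction with
  | mem x hx => exact ⟨x, CjT.of_rational_level_one (ringHom_fixes_bot σ) hx⟩
  | zero => exact ⟨0, CjT.zero⟩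
  | add x y hx hy ihx ihy =>
    obtain ⟨x', hx'⟩ := ihx (Sp.isF hx)
    obtain ⟨y', hy'⟩ := ihy (Sp.isF hy)
    exact ⟨_, hx'.add hy'⟩
  | smul c x hx ihx =>
    obtain ⟨x', hx'⟩ := ihx (Sp.isF hx)
    exact ⟨_, hx'.smul c⟩

end

/-! ### the division values -/

section Wp

variable {σ : ℂ →+* ℂ} {s : ℤ} {M : ℕ} [NeZero M]

/-- `v · diag(1,s)` -/
def twv (s : ℤ) (v : Fin 2 → ℤ) : Fin 2 → ℤ := ![v 0, s * v 1]

omit [NeZero M] in
lemma map_chi (hs : σ (Wp.zeta M) = Wp.zeta M ^ s) (j : ℕ) (a b : ℤ) (d e : ℕ) :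
    σ (Wp.chi M j a b d e) = Wp.chi M j a (s * b) d e := by
  unfold Wp.chi
  have h1 : ∀ b : ℤ, σ ((Wp.zeta M ^ b) ^ d) = (Wp.zeta M ^ (s * b)) ^ d := fun b => by
    rw [map_pow, map_zpow₀, hs, ← zpow_mul]
  simp only [map_add, map_mul, map_pow, map_neg, map_one, apply_ite σ, map_zero, map_natCast]
  have h2 : (σ (Wp.zeta M ^ b)) ^ d = (Wp.zeta M ^ (s * b)) ^ d := by rw [← map_pow]; exact h1 b
  have h3 : (σ (Wp.zeta M ^ (-b))) ^ d = (Wp.zeta M ^ (-(s * b))) ^ d := by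
    rw [← map_pow, h1 (-b), mul_neg]
  rw [h2, h3]

lemma map_cQ (hs : σ (Wp.zeta M) = Wp.zeta M ^ s) (hcop : IsUnit (s : ZMod M)) {v : Fin 2 → ℤ}
    (hv : (v 0 : ZMod M) ≠ 0 ∨ (v 1 : ZMod M) ≠ 0) (n : ℕ) :
    σ (Wp.cQ M v n) = Wp.cQ M (twv s v) n := by
  have hM : M ≠ 0 := NeZero.ne M
  have hv' : ((twv s v) 0 : ZMod M) ≠ 0 ∨ (((twv s v) 1 : ℤ) : ZMod M) ≠ 0 := by
    rcases hv with hv | hv
    · left; simpa [twv] using hv
    · right
      simp only [twv, Matrix.cons_val_one, Matrix.cons_val_fin_one, Int.cast_mul]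
      intro h0
      exact hv ((hcop.mul_right_eq_zero).mp h0)
  unfold Wp.cQ
  rw [map_add, map_sum]
  congr 1
  · split_ifs
    · rw [Wp.cQ0_eq hM hv, Wp.cQ0_eq hM hv']
      have e0 : (twv s v) 0 = v 0 := rfl
      have e1 : (twv s v) 1 = s * v 1 := rfl
      rw [e0, e1, apply_ite σ, map_zero]
      have h1 : σ (Wp.zeta M ^ (v 1)) = Wp.zeta M ^ (s * v 1) := by
        rw [map_zpow₀, hs, ← zpow_mul]
      simp only [map_div₀, map_mul, map_add, map_one, map_pow, map_sub, h1]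
    · exact map_zero σ
  · refine Finset.sum_congr rfl fun p _ => ?_
    rw [map_chi hs]
    rfl

/-- conjugates of `Q_v`. -/
lemma cjT_Q (hs : σ (Wp.zeta M) = Wp.zeta M ^ s) (hcop : IsUnit (s : ZMod M)) {v : Fin 2 → ℤ}
    (hv : (v 0 : ZMod M) ≠ 0 ∨ (v 1 : ZMod M) ≠ 0) :
    CjT σ s M 3 (Wp.Q M v) (Wp.Q M (twv s v)) := by
  have hM : M ≠ 0 := NeZero.ne M
  refine ⟨Wp.isF_Q hM _, Wp.isF_Q hM _, fun g g' hg => ?_⟩
  rw [Wp.Q_slash, Wp.Q_slash]
  have h1 : Wp.Q M (Matrix.vecMul (twv s v) (g' : Matrix (Fin 2) (Fin 2) ℤ)) =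
      Wp.Q M (twv s (Matrix.vecMul v (g : Matrix (Fin 2) (Fin 2) ℤ))) := by
    refine Wp.Q_congr hM fun i => ?_
    obtain ⟨h00, h01, h10, h11⟩ := hg
    fin_cases i
    · simp only [twv, Matrix.vecMul, dotProduct, Fin.sum_univ_two, Fin.zero_eta, Matrix.cons_val_zero,
        Matrix.cons_val_one, Matrix.cons_val_fin_one]
      push_cast
      rw [h00]
      linear_combination (v 1 : ZMod M) * h10
    · simp only [twv, Matrix.vecMul, dotProduct, Fin.sum_univ_two, Fin.mk_one, Matrix.cons_val_zero,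
        Matrix.cons_val_one, Matrix.cons_val_fin_one]
      push_cast
      rw [h01, h11]
      ring
  rw [h1, Wp.qe_Q, Wp.qe_Q]
  ext n
  rw [PowerSeries.coeff_map, PowerSeries.coeff_mk, PowerSeries.coeff_mk,
    map_cQ hs hcop (Wp.vecMul_ne hv g)]

end Wp

end Crest.Agent.R007.Rat
end
end

-- ▼ part R007/RatGal2
section

/-!
Row 7 (S0007), section A, node GAL: every automorphism of `ℂ` acts on forms of level `Γ(M)`.
-/

set_option autoImplicit false

noncomputable section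

namespace Crest.Agent.R007.Rat

open UpperHalfPlane ModularForm CongruenceSubgroup Matrix.SpecialLinearGroup
open scoped MatrixGroups Manifold

variable {σ : ℂ →+* ℂ} {s : ℤ} {M : ℕ} [NeZero M] {k l k₀ : ℤ} {F θ : ℍ → ℂ}

/-- all translates have conjugates -/
def Good (σ : ℂ →+* ℂ) (s : ℤ) (M : ℕ) (k : ℤ) (f : ℍ → ℂ) : Prop :=
  ∀ g : SL(2, ℤ), ∃ f', CjT σ s M k (f ∣[k] g) f'

lemma Good.add {f h : ℍ → ℂ} (hf : Good σ s M k f) (hh : Good σ s M k h) : Good σ s M k (f + h) := by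
  intro g
  obtain ⟨f', hf'⟩ := hf g
  obtain ⟨h', hh'⟩ := hh g
  exact ⟨_, by rw [SlashAction.add_slash]; exact hf'.add hh'⟩

lemma Good.smul {f : ℍ → ℂ} (c : ℂ) (hf : Good σ s M k f) : Good σ s M k (c • f) := by
  intro g
  obtain ⟨f', hf'⟩ := hf g
  exact ⟨_, by rw [SL_smul_slash]; exact hf'.smul c⟩

lemma good_Q (hs : σ (Wp.zeta M) = Wp.zeta M ^ s) (hcop : IsUnit (s : ZMod M)) {v : Fin 2 → ℤ}
    (hv : (v 0 : ZMod M) ≠ 0 ∨ (v 1 : ZMod M) ≠ 0) : Good σ s M 3 (Wp.Q M v) := by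
  intro g
  rw [Wp.Q_slash]
  exact ⟨_, cjT_Q hs hcop (Wp.vecMul_ne hv g)⟩

omit [NeZero M] in
lemma Good.tr {f : ℍ → ℂ} (hf : Good σ s M k f) (a : GM M) : ∃ f', CjT σ s M k (tr k f a) f' := hf _

/-- Conjugation of forms, general `σ`. -/
theorem exists_gal_of_sep (hθF : IsF M k₀ θ) (hθ : Good σ s M k₀ θ)
    (hD0 : del M k₀ θ ≠ 0) (hF : IsF M k F) : ∃ F', CjT σ s M k F F' := by
  classical
  set D := del M k₀ θ with hD
  set n := Fintype.card (GM M) with hn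
  have hnpos : 0 < n := Fintype.card_pos
  have hDF : IsF M (wdel M k₀) D := hθF.del
  obtain ⟨θ', hθ'⟩ := hθ 1
  rw [SlashAction.slash_one] at hθ'
  have htr : ∀ a : GM M, ∃ f', CjT σ s M k₀ (tr k₀ θ a) f' := fun a => hθ.tr a
  choose θa hθa using htr
  -- conjugate of D
  obtain ⟨D', hDD'⟩ : ∃ D', CjT σ s M (wdel M k₀) D D' :=
    ⟨_, CjT.prod (nt M) (fun a => θ - tr k₀ θ a) (fun a => θ' - θa a) fun a _ => hθ'.sub (hθa a)⟩
  have hD'0 : D' ≠ 0 := hDD'.ne_zero hD0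
  have hD'F : IsF M (wdel M k₀) D' := hDD'.right
  -- conjugate of F D
  obtain ⟨H', hH'⟩ : ∃ H', CjT σ s M (k + wdel M k₀) (F * D) H' := by
    rw [interp hθF hF]
    have hterm : ∀ t ∈ (nt M).powerset, ∃ u, CjT σ s M (k + wdel M k₀) (((-1 : ℂ) ^ t.card) •
        (θ ^ ((nt M).card - t.card) * Tr M (k + (t.card : ℤ) * k₀) (F * ∏ a ∈ t, tr k₀ θ a))) u := by
      intro t ht
      rw [Finset.mem_powerset] at ht
      have hc : t.card ≤ (nt M).card := Finset.card_le_card ht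
      have h2 : IsF M (k + (t.card : ℤ) * k₀) (F * ∏ a ∈ t, tr k₀ θ a) :=
        hF.mul (IsF.prod t _ fun a _ => hθF.tr a)
      obtain ⟨u, hu⟩ := exists_cjT_level_one (M := M) σ s h2.Tr
      refine ⟨_, CjT.smul _ (((hθ'.pow ((nt M).card - t.card)).mul hu).cast ?_)⟩
      rw [wdel, Nat.cast_sub hc]
      ring
    choose! u hu using hterm
    exact ⟨_, CjT.sum _ _ u hu⟩
  -- conjugates of the symmetric functions
  have hE : ∀ i : ℕ, ∃ e, CjT σ s M ((i : ℤ) * k) (esy M k F i) e := fun i =>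
    exists_cjT_level_one σ s (hF.esy i)
  choose E' hE' using hE
  have hE0 : E' 0 = 1 := by
    have h1 := hE' 0
    rw [esy_zero] at h1
    refine CjT.unique h1 (CjT.one.cast (by simp))
  -- the equation for H = F D
  have eq1 : ∑ i ∈ Finset.range (n + 1), ((-1 : ℂ) ^ i) •
      (esy M k F i * (D ^ i * (F * D) ^ (n - i))) = 0 := by
    have h1 := norm_root hF
    have h2 : ∑ i ∈ Finset.range (n + 1), ((-1 : ℂ) ^ i) •
      (esy M k F i * (D ^ i * (F * D) ^ (n - i))) =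
      (∑ i ∈ Finset.range (n + 1), ((-1 : ℂ) ^ i) • (esy M k F i * F ^ (n - i))) * D ^ n := by
      rw [Finset.sum_mul]
      refine Finset.sum_congr rfl fun i hi => ?_
      rw [Finset.mem_range] at hi
      rw [mul_pow, smul_mul_assoc]
      congr 1
      have : D ^ n = D ^ i * D ^ (n - i) := by rw [← pow_add]; congr 1; omega
      rw [this]; ring
    rw [h2, h1, zero_mul]
  -- conjugate
  have hwt : ∀ i ∈ Finset.range (n + 1), ((i : ℤ) * k + ((i : ℤ) * wdel M k₀ +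
      (((n - i : ℕ) : ℤ) * (k + wdel M k₀)))) = (n : ℤ) * (k + wdel M k₀) := by
    intro i hi
    rw [Finset.mem_range] at hi
    rw [Nat.cast_sub (by omega)]
    ring
  have cj1 : CjT σ s M ((n : ℤ) * (k + wdel M k₀))
      (∑ i ∈ Finset.range (n + 1), ((-1 : ℂ) ^ i) • (esy M k F i * (D ^ i * (F * D) ^ (n - i))))
      (∑ i ∈ Finset.range (n + 1), (σ ((-1 : ℂ) ^ i)) • (E' i * (D' ^ i * H' ^ (n - i)))) := by
    refine CjT.sum _ _ _ fun i hi => ?_
    refine CjT.smul _ ?_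
    refine ((hE' i).mul ((hDD'.pow i).mul (hH'.pow (n - i)))).cast (hwt i hi)
  rw [eq1] at cj1
  have eq2 := cj1.unique CjT.zero
  have eq3 : ∀ τ : ℍ, ∑ i ∈ Finset.range (n + 1), (((-1 : ℂ) ^ i) * E' i τ) * D' τ ^ i * H' τ ^ (n - i) = 0 := by
    intro τ
    have := congrFun eq2 τ
    simp only [Finset.sum_apply, Pi.smul_apply, Pi.mul_apply, Pi.pow_apply, smul_eq_mul, Pi.zero_apply,
      map_pow, map_neg, map_one] at this
    rw [← this]
    refine Finset.sum_congr rfl fun i _ => by ring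
  -- bound
  have bound : ∀ τ : ℍ, ‖H' τ‖ ≤ (1 + ∑ i ∈ Finset.range (n + 1), ‖((-1 : ℂ) ^ i) * E' i τ‖) * ‖D' τ‖ := by
    intro τ
    exact root_bound n hnpos (fun i => ((-1 : ℂ) ^ i) * E' i τ) (by simp [hE0]) _ _ (eq3 τ)
  have hcont : Continuous fun τ : ℍ => (1 + ∑ i ∈ Finset.range (n + 1), ‖((-1 : ℂ) ^ i) * E' i τ‖) := by
    refine continuous_const.add (continuous_finsetSum _ fun i _ => ?_)
    exact (continuous_const.mul (hE' i).right.continuous).norm
  obtain ⟨F', hF'd, hF'⟩ := exists_div hH'.right.holo hD'F.holo hD'0 hcont bound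
  -- F' is slash invariant and bounded
  have slash_F' : ∀ g : SL(2, ℤ), H' ∣[k + wdel M k₀] g = (F' ∣[k] g) * (D' ∣[wdel M k₀] g) := by
    intro g
    rw [hF', mul_slash_SL2]
  have holoS : ∀ g : SL(2, ℤ), MDiff (F' ∣[k] g) := fun g => by
    rw [SL_slash]; exact hF'd.slash k _
  have hF'F : IsF M k F' := by
    refine ⟨?_, hF'd, ?_⟩
    · intro γ hγ
      have h1 := slash_F' γ
      rw [hH'.right.slash γ hγ, hD'F.slash γ hγ, hF'] at h1
      have h2 : (F' ∣[k] γ - F') * D' = 0 := by rw [sub_mul, ← h1, sub_self]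
      exact sub_eq_zero.mp (eq_zero_of_mul ((holoS γ).sub hF'd) hD'F.holo hD'0 h2)
    · intro g
      -- F' satisfies the conjugated norm equation
      have h1 : (∑ i ∈ Finset.range (n + 1), ((-1 : ℂ) ^ i) • (E' i * F' ^ (n - i))) * D' ^ n = 0 := by
        rw [Finset.sum_mul]
        have h2 := eq2
        rw [← h2]
        refine Finset.sum_congr rfl fun i hi => ?_
        rw [Finset.mem_range] at hi
        simp only [map_pow, map_neg, map_one]
        rw [hF', mul_pow, smul_mul_assoc]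
        congr 1
        have : D' ^ n = D' ^ i * D' ^ (n - i) := by rw [← pow_add]; congr 1; omega
        rw [this]; ring
      have hholo : MDiff (∑ i ∈ Finset.range (n + 1), ((-1 : ℂ) ^ i) • (E' i * F' ^ (n - i))) := by
        refine MDifferentiable.sum fun i _ => ?_
        exact ((hE' i).right.holo.mul (hF'd.pow _)).const_smul _
      have hDn : D' ^ n ≠ 0 := by
        intro h0
        have h3 : qe M D' ^ n = 0 := by rw [← qe_pow hD'F, h0, qe_zero]
        exact hD'0 ((qe_eq_zero_iff hD'F).mp ((pow_eq_zero_iff hnpos.ne').mp h3))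
      have h4 := eq_zero_of_mul hholo (hD'F.pow n).holo hDn h1
      -- slash by g
      have h5 : ∑ i ∈ Finset.range (n + 1), ((-1 : ℂ) ^ i) •
          ((E' i ∣[(i : ℤ) * k] g) * (F' ∣[k] g) ^ (n - i)) = 0 := by
        have h6 : (∑ i ∈ Finset.range (n + 1), ((-1 : ℂ) ^ i) • (E' i * F' ^ (n - i))) ∣[(n : ℤ) * k] g = 0 := by
          rw [h4, SlashAction.zero_slash]
        rw [← h6, SlashAction.sum_slash]
        refine Finset.sum_congr rfl fun i hi => ?_
        rw [Finset.mem_range] at hi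
        rw [SL_smul_slash, show (n : ℤ) * k = (i : ℤ) * k + ((n - i : ℕ) : ℤ) * k by
          rw [Nat.cast_sub (by omega)]; ring, mul_slash_SL2, pow_slash']
      have h7 : ∀ τ : ℍ, ‖(F' ∣[k] g) τ‖ ≤
          (1 + ∑ i ∈ Finset.range (n + 1), ‖((-1 : ℂ) ^ i) * (E' i ∣[(i : ℤ) * k] g) τ‖) * ‖(1 : ℂ)‖ := by
        intro τ
        refine root_bound n hnpos (fun i => ((-1 : ℂ) ^ i) * (E' i ∣[(i : ℤ) * k] g) τ) ?_ _ 1 ?_
        · simp [hE0, one_slash]
        · have := congrFun h5 τ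
          simp only [Finset.sum_apply, Pi.smul_apply, Pi.mul_apply, Pi.pow_apply, smul_eq_mul,
            Pi.zero_apply] at this
          rw [← this]
          refine Finset.sum_congr rfl fun i _ => by ring
      have h8 : ∀ i : ℕ, IsBoundedAtImInfty (E' i ∣[(i : ℤ) * k] g) := fun i => (hE' i).right.bdd g
      rw [isBoundedAtImInfty_iff]
      simp_rw [isBoundedAtImInfty_iff] at h8
      choose Mi Ai hMi using h8
      refine ⟨1 + ∑ i ∈ Finset.range (n + 1), |Mi i|, ∑ i ∈ Finset.range (n + 1), |Ai i|, fun z hz => ?_⟩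
      refine (h7 z).trans ?_
      rw [norm_one, mul_one]
      refine add_le_add le_rfl (Finset.sum_le_sum fun i hi => ?_)
      rw [norm_mul, norm_pow, norm_neg, norm_one, one_pow, one_mul]
      refine (hMi i z ?_).trans (le_abs_self _)
      refine le_trans ?_ hz
      refine (le_abs_self _).trans ?_
      exact Finset.single_le_sum (f := fun i => |Ai i|) (fun j _ => abs_nonneg _) hi
  refine ⟨F', CjT.of_mul hF hF'F hDD' hD0 ?_⟩
  rw [← hF']
  exact hH'

/-- explicit version of `exists_sep`. -/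
theorem exists_sep_nat {f₁ f₂ : ℍ → ℂ} (h1 : IsF M k₀ f₁) (h2 : IsF M k₀ f₂)
    (hsep : ∀ g : SL(2, ℤ), f₁ ∣[k₀] g = f₁ → f₂ ∣[k₀] g = f₂ → g ∈ Gamma M) :
    ∃ n : ℕ, ∀ g : SL(2, ℤ), g ∉ Gamma M → (f₁ + (n : ℂ) • f₂) ∣[k₀] g ≠ f₁ + (n : ℂ) • f₂ := by
  classical
  let B : GM M → Set ℕ := fun a => {n | a ≠ 1 ∧ tr k₀ (f₁ + (n : ℂ) • f₂) a = f₁ + (n : ℂ) • f₂}
  have hB : ∀ a, (B a).Finite := by
    intro a
    refine Set.Subsingleton.finite ?_
    rintro n ⟨ha, hn⟩ m ⟨-, hm⟩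
    induction a using QuotientGroup.induction_on with
    | H g =>
      have hgM : g ∉ Gamma M := fun hg => ha ((QuotientGroup.eq_one_iff g).mpr hg)
      rw [tr_mk (h1.add (h2.smul _)), SlashAction.add_slash, SL_smul_slash] at hn hm
      by_contra hnm
      have hnm' : (n : ℂ) - m ≠ 0 := sub_ne_zero.mpr (by exact_mod_cast hnm)
      have e1 : ((n : ℂ) - m) • (f₂ ∣[k₀] g - f₂) = 0 := by
        have h3 : ((n : ℂ) - m) • (f₂ ∣[k₀] g - f₂) =
            (f₁ ∣[k₀] g + (n : ℂ) • f₂ ∣[k₀] g) - (f₁ ∣[k₀] g + (m : ℂ) • f₂ ∣[k₀] g)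
            - (f₁ + (n : ℂ) • f₂) + (f₁ + (m : ℂ) • f₂) := by
          ext τ
          simp
          ring
        rw [h3, hn, hm]
        abel
      have e2 : f₂ ∣[k₀] g = f₂ := sub_eq_zero.mp ((smul_eq_zero.mp e1).resolve_left hnm')
      rw [e2] at hn
      exact hgM (hsep g (add_right_cancel hn) e2)
  have hfin : (⋃ a, B a).Finite := Set.finite_iUnion hB
  obtain ⟨n, hn⟩ := hfin.infinite_compl.nonempty
  refine ⟨n, fun g hg heq => ?_⟩
  apply hn
  refine Set.mem_iUnion.mpr ⟨(g : GM M), fun h => hg ((QuotientGroup.eq_one_iff g).mp h), ?_⟩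
  rw [tr_mk (h1.add (h2.smul _))]
  exact heq

/-- `σ(ζ) = ζ^s` forces `s` to be a unit mod `M`. -/
lemma isUnit_of_map_zeta (hs : σ (Wp.zeta M) = Wp.zeta M ^ s) : IsUnit (s : ZMod M) := by
  have hM : M ≠ 0 := NeZero.ne M
  have hp := Wp.isPrimitiveRoot_zeta hM
  have hp' : IsPrimitiveRoot (Wp.zeta M ^ s) M := by
    rw [← hs]
    exact hp.map_of_injective σ.injective
  have h1 : IsCoprime s (M : ℤ) := by
    rw [Int.isCoprime_iff_gcd_eq_one]
    by_contra hne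
    set d := Int.gcd s M with hd
    have hdpos : 0 < d := Int.gcd_pos_of_ne_zero_right _ (by exact_mod_cast hM)
    have hd1 : (d : ℤ) ∣ s := Int.gcd_dvd_left _ _
    have hd2 : (d : ℤ) ∣ M := Int.gcd_dvd_right _ _
    obtain ⟨a, ha⟩ := hd1
    obtain ⟨b, hb⟩ := hd2
    have hd2' : d ∣ M := Int.natCast_dvd_natCast.mp ⟨b, hb⟩
    have h2 : (Wp.zeta M ^ s) ^ (M / d) = 1 := by
      rw [← zpow_natCast, ← zpow_mul]
      have h3 : s * ((M / d : ℕ) : ℤ) = (M : ℤ) * a := by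
        have h4 : ((M / d : ℕ) : ℤ) * d = M := by exact_mod_cast Nat.div_mul_cancel hd2'
        rw [ha, ← h4]; ring
      rw [h3, zpow_mul, zpow_natCast, Wp.zeta_pow M hM, one_zpow]
    have h5 := hp'.dvd_of_pow_eq_one _ h2
    have h6 : M / d < M := Nat.div_lt_self (Nat.pos_of_ne_zero hM) (by
      rcases Nat.lt_or_ge 1 d with h | h
      · exact h
      · exfalso; apply hne; omega)
    have h7 : 0 < M / d := Nat.div_pos (Nat.le_of_dvd (Nat.pos_of_ne_zero hM) hd2') hdpos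
    exact absurd (Nat.le_of_dvd h7 h5) (by omega)
  obtain ⟨a, b, hab⟩ := h1
  refine IsUnit.of_mul_eq_one (a : ZMod M) ?_
  have := congrArg (Int.cast : ℤ → ZMod M) hab
  push_cast at this
  rw [ZMod.natCast_self, mul_zero, add_zero] at this
  rw [mul_comm]
  exact this

/-- **GAL**: every endomorphism `σ` of `ℂ` with `σ(ζ_M) = ζ_M^s` acts on the forms of level `Γ(M)`. -/
theorem exists_gal (hM : 3 ≤ M) (hs : σ (Wp.zeta M) = Wp.zeta M ^ s) (hF : IsF M k F) :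
    ∃ F', CjT σ s M k F F' := by
  have hM0 : M ≠ 0 := NeZero.ne M
  have h1M : (1 : ZMod M) ≠ 0 := by
    have : Fact (1 < M) := ⟨by omega⟩
    exact one_ne_zero
  have hcop := isUnit_of_map_zeta hs
  obtain ⟨n, hn⟩ := exists_sep_nat (M := M) (k₀ := 3) (f₁ := Wp.Q M ![1, 0]) (f₂ := Wp.Q M ![0, 1])
    (Wp.isF_Q hM0 _) (Wp.isF_Q hM0 _) (fun g h0 h1 => Wp.mem_Gamma_of_Q_fixed hM h0 h1)
  have hgood : Good σ s M 3 (Wp.Q M ![1, 0] + (n : ℂ) • Wp.Q M ![0, 1]) :=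
    (good_Q hs hcop (by left; simpa using h1M)).add
      ((good_Q hs hcop (by right; simpa using h1M)).smul _)
  have hIsF : IsF M 3 (Wp.Q M ![1, 0] + (n : ℂ) • Wp.Q M ![0, 1]) :=
    (Wp.isF_Q hM0 _).add ((Wp.isF_Q hM0 _).smul _)
  exact exists_gal_of_sep hIsF hgood (del_ne_zero hIsF hn) hF

/-- every ring endomorphism of `ℂ` acts on `ζ_M` by a power. -/
lemma exists_zpow_zeta (σ : ℂ →+* ℂ) (M : ℕ) [NeZero M] : ∃ s : ℤ, σ (Wp.zeta M) = Wp.zeta M ^ s := by
  have hM : M ≠ 0 := NeZero.ne M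
  have hp := Wp.isPrimitiveRoot_zeta hM
  have h1 : (σ (Wp.zeta M)) ^ M = 1 := by rw [← map_pow, Wp.zeta_pow M hM, map_one]
  obtain ⟨i, -, hi⟩ := hp.eq_pow_of_pow_eq_one h1
  exact ⟨i, by rw [zpow_natCast, hi]⟩

end Crest.Agent.R007.Rat
end
end

-- ▼ part R007/RatSurj
section

/-!
Row 7 (S0007): surjectivity of `SL₂(ℤ) → SL₂(ℤ/M)`.
-/

set_option autoImplicit false

namespace Crest.Agent.R007.Rat

open Matrix
open scoped MatrixGroups

lemma exists_coprime_add (c d M : ℤ) (hc : c ≠ 0)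
    (h : ∀ p : ℕ, p.Prime → (p : ℤ) ∣ c → (p : ℤ) ∣ d → ¬ (p : ℤ) ∣ M) :
    ∃ t : ℤ, IsCoprime c (d + t * M) := by
  classical
  let ps : Finset ℕ := c.natAbs.primeFactors.filter fun p => ¬ (p : ℤ) ∣ d
  refine ⟨((ps.prod id : ℕ) : ℤ), ?_⟩
  rw [Int.isCoprime_iff_gcd_eq_one, Int.gcd_eq_natAbs]
  refine Nat.coprime_of_dvd fun p hp hpc hpd => ?_
  have hpc' : (p : ℤ) ∣ c := Int.natCast_dvd.mpr hpc
  have hpd' : (p : ℤ) ∣ d + ((ps.prod id : ℕ) : ℤ) * M := Int.natCast_dvd.mpr hpd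
  by_cases hd : (p : ℤ) ∣ d
  · have h1 : (p : ℤ) ∣ ((ps.prod id : ℕ) : ℤ) * M := (Int.dvd_add_right hd).mp hpd'
    rcases (Nat.prime_iff_prime_int.mp hp).dvd_or_dvd h1 with h2 | h2
    · have h3 : p ∣ ps.prod id := Int.natCast_dvd_natCast.mp h2
      obtain ⟨q, hq, hq'⟩ := (hp.prime.dvd_finsetProd_iff id).mp h3
      rw [Finset.mem_filter, Nat.mem_primeFactors] at hq
      have h4 := (Nat.prime_dvd_prime_iff_eq hp hq.1.1).mp hq'
      rw [← h4] at hq
      exact hq.2 hd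
    · exact h p hp hpc' hd h2
  · have hps : p ∈ ps := Finset.mem_filter.mpr ⟨Nat.mem_primeFactors.mpr ⟨hp, hpc, by simpa using hc⟩, hd⟩
    have h1 : (p : ℤ) ∣ ((ps.prod id : ℕ) : ℤ) * M :=
      Dvd.dvd.mul_right (Int.natCast_dvd_natCast.mpr (Finset.dvd_prod_of_mem id hps)) M
    exact hd ((Int.dvd_add_left h1).mp hpd')

/-- `SL₂(ℤ) → SL₂(ℤ/M)` is surjective (entrywise form). -/
theorem exists_SL_lift (M : ℕ) [NeZero M] (a b c d : ℤ)
    (h : ((a * d - b * c : ℤ) : ZMod M) = 1) :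
    ∃ g : SL(2, ℤ), ((g 0 0 : ℤ) : ZMod M) = a ∧ ((g 0 1 : ℤ) : ZMod M) = b ∧
      ((g 1 0 : ℤ) : ZMod M) = c ∧ ((g 1 1 : ℤ) : ZMod M) = d := by
  have hM : (M : ℤ) ≠ 0 := by exact_mod_cast NeZero.ne M
  obtain ⟨c', hc', hcc⟩ : ∃ c' : ℤ, c' ≠ 0 ∧ ((c' : ℤ) : ZMod M) = c := by
    by_cases hc : c = 0
    · exact ⟨M, hM, by simp [hc]⟩
    · exact ⟨c, hc, rfl⟩
  have h' : ((a * d - b * c' : ℤ) : ZMod M) = 1 := by
    push_cast at h ⊢
    rw [hcc]; exact h
  have hdvd : (M : ℤ) ∣ (a * d - b * c') - 1 := by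
    rw [← ZMod.intCast_zmod_eq_zero_iff_dvd]
    push_cast at h' ⊢
    rw [h', sub_self]
  obtain ⟨t, ht⟩ := exists_coprime_add c' d M hc' (by
    intro p hp hpc hpd hpM
    have h1 : (p : ℤ) ∣ (a * d - b * c') - 1 := hpM.trans hdvd
    have h2 : (p : ℤ) ∣ a * d - b * c' := Int.dvd_sub (hpd.mul_left a) (hpc.mul_left b)
    have h3 : (p : ℤ) ∣ 1 := by
      have := Int.dvd_sub h2 h1
      simpa using this
    have h4 : p ∣ 1 := Int.natCast_dvd_natCast.mp (by simpa using h3)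
    exact hp.one_lt.ne' (Nat.dvd_one.mp h4))
  obtain ⟨u, v, huv⟩ := ht
  set d' := d + t * M with hd'
  obtain ⟨k, hk⟩ : (M : ℤ) ∣ (a * d' - b * c') - 1 := by
    have : (a * d' - b * c') - 1 = ((a * d - b * c') - 1) + M * (a * t) := by rw [hd']; ring
    rw [this]
    exact Int.dvd_add hdvd (dvd_mul_right _ _)
  refine ⟨⟨!![a - M * (k * v), b + M * (k * u); c', d'], ?_⟩, ?_, ?_, ?_, ?_⟩
  · rw [Matrix.det_fin_two_of]
    linear_combination hk - (M : ℤ) * k * huv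
  · simp
  · simp
  · simpa using hcc
  · simp [hd']

end Crest.Agent.R007.Rat
end

-- ▼ part R007/RatG1

/-!
Row 7 (S0007), section A: `Aut(ℂ)` acts on `MF N i`, commuting with the diamond operators;
rational bases.
-/

set_option autoImplicit false

noncomputable section

namespace Crest.Agent.R007.Rat

open UpperHalfPlane ModularForm CongruenceSubgroup Matrix.SpecialLinearGroup
open scoped MatrixGroups Manifold
open Crest.NumberTheoryR.HeckeTwoAdic

/-- existence of twists -/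
lemma exists_tw {s : ℤ} {M : ℕ} [NeZero M] (hs : IsUnit (s : ZMod M)) (g' : SL(2, ℤ)) :
    ∃ g, Tw s M g g' := by
  obtain ⟨u, hu⟩ := hs
  obtain ⟨r, hr⟩ := ZMod.intCast_surjective ((u⁻¹ : (ZMod M)ˣ) : ZMod M)
  have hrs : (s : ZMod M) * (r : ZMod M) = 1 := by
    rw [hr, ← hu]; exact u.mul_inv
  have hdet : ((g' 0 0 : ℤ) : ZMod M) * (g' 1 1 : ℤ) - ((g' 0 1 : ℤ) : ZMod M) * (g' 1 0 : ℤ) = 1 := by
    have hd := g'.det_coe
    rw [Matrix.det_fin_two] at hd
    exact_mod_cast congrArg (Int.cast : ℤ → ZMod M) hd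
  obtain ⟨g, h1, h2, h3, h4⟩ := exists_SL_lift M (g' 0 0) (r * g' 0 1) (s * g' 1 0) (g' 1 1) (by
    push_cast
    linear_combination hdet - ((g' 0 1 : ℤ) : ZMod M) * ((g' 1 0 : ℤ) : ZMod M) * hrs)
  refine ⟨g, h1.symm, ?_, ?_, h4.symm⟩
  · rw [h2]
    push_cast
    linear_combination (-((g' 0 1 : ℤ) : ZMod M)) * hrs
  · rw [h3]
    push_cast
    rfl


variable {N i : ℕ} [NeZero N]

/-- q-expansion with period `M` of a form on `Γ₁(N)`. -/
lemma coeff_qe_MF (f : MF N i) (M : ℕ) [NeZero M] (hf : IsF M (i : ℤ) (f : ℍ → ℂ)) (n : ℕ) :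
    (qe M (f : ℍ → ℂ)).coeff n = if M ∣ n then Op.an f (n / M) else 0 := by
  refine Wp.coeff_qe_of_hasSum hf (c := fun n => if M ∣ n then Op.an f (n / M) else 0)
    (fun τ => ?_) n
  have h1 := Op.hasSum_an f τ
  have hq : Function.Periodic.qParam (1 : ℝ) (τ : ℂ) =
      Function.Periodic.qParam (M : ℝ) (τ : ℂ) ^ M := by
    rw [Function.Periodic.qParam, Function.Periodic.qParam, ← Complex.exp_nat_mul]
    congr 1
    have h2 : (M : ℂ) ≠ 0 := by exact_mod_cast NeZero.ne M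
    push_cast
    field_simp
  rw [hq] at h1
  exact RatAlg.hasSum_dvd (a := fun m => Op.an f m) (Nat.pos_of_ne_zero (NeZero.ne M)) h1

/-- **SIGMA(N)** -/
theorem exists_sigma_MF (σ : ℂ →+* ℂ) (f : MF N i) :
    ∃ f' : MF N i, ∀ (g : SL(2, ℤ)) (hg : g ∈ Gamma0 N) (n : ℕ),
      Op.an (Op.Dop N i g hg f') n = σ (Op.an (Op.Dop N i g hg f) n) := by
  have hN0 := NeZero.ne N
  have h3 : NeZero (N * 3) := ⟨mul_ne_zero hN0 (by norm_num)⟩
  have hM : 3 ≤ N * 3 := by have := Nat.pos_of_ne_zero hN0; omega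
  obtain ⟨s, hs⟩ := exists_zpow_zeta σ (N * 3)
  have hu := isUnit_of_map_zeta hs
  have hF : IsF (N * 3) (i : ℤ) (f : ℍ → ℂ) := (isF_of_MF f).mono (Dvd.intro 3 rfl)
  obtain ⟨F', hF'⟩ := exists_gal hM hs hF
  have hcast : ∀ {a b : ℤ}, (a : ZMod (N * 3)) = b → (a : ZMod N) = b := by
    intro a b hab
    rw [ZMod.intCast_eq_intCast_iff_dvd_sub] at hab ⊢
    exact (Int.natCast_dvd_natCast.mpr (Dvd.intro 3 rfl)).trans hab
  have hinv : ∀ γ ∈ Gamma1 N, F' ∣[(i : ℤ)] γ = F' := by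
    intro γ hγ
    obtain ⟨g, hg⟩ := exists_tw hu γ
    have hg1 : g ∈ Gamma1 N := by
      rw [Gamma1_mem] at hγ ⊢
      obtain ⟨h00, h01, h10, h11⟩ := hg
      refine ⟨?_, ?_, ?_⟩
      · rw [← hcast h00]; exact hγ.1
      · rw [← hcast h11]; exact hγ.2.1
      · have h10' : ((s * γ 1 0 : ℤ) : ZMod (N * 3)) = (g 1 0 : ℤ) := by push_cast; exact h10
        rw [← hcast h10']
        push_cast
        rw [hγ.2.2, mul_zero]
    refine qe_inj (hF'.right.slash_SL γ) hF'.right ?_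
    rw [hF'.eq g γ hg, hF'.qe_eq]
    congr 2
    exact Op.inv1_mf f g hg1
  have hF'N : IsF N (i : ℤ) F' :=
    ⟨fun γ hγ => hinv γ (Gamma_le_Gamma1 N hγ), hF'.right.holo, hF'.right.bdd⟩
  refine ⟨hF'N.toMF hinv, fun g hg n => ?_⟩
  obtain ⟨g₀, hg₀⟩ := exists_tw hu g
  have hg0N : g₀ ∈ Gamma0 N := by
    rw [Gamma0_mem] at hg ⊢
    obtain ⟨h00, h01, h10, h11⟩ := hg₀
    have h10' : ((s * g 1 0 : ℤ) : ZMod (N * 3)) = (g₀ 1 0 : ℤ) := by push_cast; exact h10
    rw [← hcast h10']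
    push_cast
    rw [hg, mul_zero]
  have hdi : (f : ℍ → ℂ) ∣[(i : ℤ)] g₀ = (f : ℍ → ℂ) ∣[(i : ℤ)] g := by
    have hd1 : ((g.1 1 1 : ℤ) : ZMod N) = (((g.1 1 1 : ℤ) : ZMod N).val : ℕ) := by
      rw [ZMod.natCast_zmod_val]
    refine Op.diam_indep (Op.inv1_mf f) (d := ((g.1 1 1 : ℤ) : ZMod N).val) ⟨hg0N, ?_⟩ ⟨hg, hd1⟩
    rw [← hd1]
    exact (hcast hg₀.2.2.2).symm
  have hL : IsF (N * 3) (i : ℤ) (Op.Dop N i g hg (hF'N.toMF hinv) : ℍ → ℂ) := by
    rw [Op.Dop_coe]; exact hF'.right.slash_SL g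
  have hR : IsF (N * 3) (i : ℤ) (Op.Dop N i g hg f : ℍ → ℂ) := by
    rw [Op.Dop_coe]; exact hF.slash_SL g
  have e1 := coeff_qe_MF (Op.Dop N i g hg (hF'N.toMF hinv)) (N * 3) hL (N * 3 * n)
  have e2 := coeff_qe_MF (Op.Dop N i g hg f) (N * 3) hR (N * 3 * n)
  rw [if_pos (dvd_mul_right _ _), Nat.mul_div_cancel_left _ (Nat.pos_of_ne_zero (NeZero.ne _))] at e1 e2
  rw [← e1, ← e2, Op.Dop_coe, Op.Dop_coe, ← PowerSeries.coeff_map, ← hdi, ← hF'.eq g₀ g hg₀]
  rfl

/-- finitely many coefficients determine a form -/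
theorem exists_coeff_bound (N i : ℕ) [NeZero N] :
    ∃ n₀ : ℕ, ∀ f : MF N i, (∀ n < n₀, Op.an f n = 0) → f = 0 := by
  classical
  let W : ℕ → Submodule ℂ (MF N i) := fun m => ⨅ n : Fin m, LinearMap.ker (Op.anL N i n)
  have hmemW : ∀ m f, f ∈ W m ↔ ∀ n < m, Op.an f n = 0 := by
    intro m f
    simp only [W, Submodule.mem_iInf, LinearMap.mem_ker]
    exact ⟨fun h n hn => h ⟨n, hn⟩, fun h n => h n n.2⟩
  have hanti : Antitone W := by
    intro a b hab f hf
    rw [hmemW] at hf ⊢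
    exact fun n hn => hf n (lt_of_lt_of_le hn hab)
  obtain ⟨m, hm⟩ := IsArtinian.monotone_stabilizes (R := ℂ) (M := MF N i)
    ⟨fun m => OrderDual.toDual (W m), fun a b hab => hanti hab⟩
  refine ⟨m, fun f hf => ?_⟩
  refine Op.eq_zero_of_an f fun n => ?_
  have h1 : f ∈ W m := (hmemW m f).mpr hf
  have h2 : W m = W (max m (n + 1)) := OrderDual.toDual_inj.mp (hm _ (le_max_left _ _))
  rw [h2, hmemW] at h1
  exact h1 n (lt_of_lt_of_le (Nat.lt_succ_self n) (le_max_right _ _))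

/-- rational forms span `MF N i`. -/
theorem span_rat (N : ℕ) [NeZero N] (i : ℕ) :
    Submodule.span ℂ {f : MF N i | ∀ (g : SL(2, ℤ)) (hg : g ∈ Gamma0 N) (n : ℕ),
      Op.an (Op.Dop N i g hg f) n ∈ (⊥ : Subfield ℂ)} = ⊤ := by
  classical
  rw [eq_top_iff]
  rintro f -
  obtain ⟨n₀, hn₀⟩ := exists_coeff_bound N i
  let ev : MF N i →ₗ[ℂ] (Fin n₀ → ℂ) := LinearMap.pi fun n => Op.anL N i n
  have hev : Function.Injective ev := by
    rw [injective_iff_map_eq_zero]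
    intro f hf
    exact hn₀ f fun n hn => congrFun hf ⟨n, hn⟩
  have h1N : (1 : SL(2, ℤ)) ∈ Gamma0 N := Subgroup.one_mem _
  have hD1 : ∀ f : MF N i, Op.Dop N i 1 h1N f = f := by
    intro f
    ext τ
    rw [Op.Dop_coe, SlashAction.slash_one]
  let V := LinearMap.range ev
  have hV : ∀ σ : ℂ ≃+* ℂ, (∀ y ∈ (⊥ : Subfield ℂ), σ y = y) → ∀ v ∈ V, (fun i => σ (v i)) ∈ V := by
    rintro σ - _ ⟨f, rfl⟩
    obtain ⟨f', hf'⟩ := exists_sigma_MF (σ : ℂ →+* ℂ) f
    refine ⟨f', funext fun n => ?_⟩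
    have := hf' 1 h1N n
    rw [hD1, hD1] at this
    exact this
  have hdes := RatAlg.descent ⊥ V hV
  have hf : ev f ∈ V := ⟨f, rfl⟩
  rw [hdes] at hf
  have key : ∀ v ∈ Submodule.span ℂ {v | v ∈ V ∧ ∀ i, v i ∈ (⊥ : Subfield ℂ)},
      ∃ h ∈ Submodule.span ℂ {f : MF N i | ∀ (g : SL(2, ℤ)) (hg : g ∈ Gamma0 N) (n : ℕ),
        Op.an (Op.Dop N i g hg f) n ∈ (⊥ : Subfield ℂ)}, ev h = v := by
    intro v hv
    induction hv using Submodule.span_induction with
    | mem v hv =>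
      obtain ⟨⟨h, rfl⟩, hK⟩ := hv
      refine ⟨h, Submodule.subset_span ?_, rfl⟩
      intro g hg n
      refine RatAlg.mem_of_fixed _ _ fun σ hσ => ?_
      obtain ⟨h', hh'⟩ := exists_sigma_MF (σ : ℂ →+* ℂ) h
      have heq : h' = h := by
        apply hev
        ext n
        have := hh' 1 h1N n
        rw [hD1, hD1] at this
        change Op.an h' n = Op.an h n
        rw [this]
        exact hσ _ (hK n)
      have := hh' g hg n
      rw [heq] at this
      exact this.symm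
    | zero => exact ⟨0, Submodule.zero_mem _, map_zero _⟩
    | add v w _ _ h1 h2 =>
      obtain ⟨a, ha, ha'⟩ := h1
      obtain ⟨b, hb, hb'⟩ := h2
      exact ⟨a + b, Submodule.add_mem _ ha hb, by rw [map_add, ha', hb']⟩
    | smul c v _ h1 =>
      obtain ⟨a, ha, ha'⟩ := h1
      exact ⟨c • a, Submodule.smul_mem _ _ ha, by rw [map_smul, ha']⟩
  obtain ⟨h, hh, hh'⟩ := key _ hf
  rw [hev hh'] at hh
  exact hh

end Crest.Agent.R007.Rat
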