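import Mathlib
import Crest.Prelude.Def_HeckeTwo
import Crest.Agent.R007.OpU

-- ▼ part R007/OpNd
section

/-! Row 7: left nondegeneracy of the `a₁`-pairing `stage × mixed forms → ℂ`. (helper668) -/

set_option autoImplicit false

namespace Crest.Agent.R007.Op

open Matrix UpperHalfPlane ModularForm CongruenceSubgroup Matrix.SpecialLinearGroup
open scoped MatrixGroups ModularForm Manifold Pointwise
open Crest.NumberTheoryR.HeckeTwoAdic

local notation "𝕢" => Function.Periodic.qParam

/-- A form of positive weight whose positive coefficients vanish is zero. -/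
lemma eq_zero_of_an_pos {N : ℕ} [NeZero N] {k : ℕ} (hk : k ≠ 0) (f : MF N k)
    (h : ∀ n, n ≠ 0 → an f n = 0) : f = 0 := by
  -- f is constant
  have hconst : ∀ τ : ℍ, f τ = an f 0 := by
    intro τ
    have h1 := hasSum_an f τ
    have h2 : HasSum (fun n => an f n * 𝕢 1 τ ^ n) (an f 0) := by
      have := hasSum_single (f := fun n => an f n * 𝕢 1 (τ : ℂ) ^ n) 0 (by
        intro n hn; rw [h n hn, zero_mul])
      simpa using this
    exact h1.unique h2
  have hN : (N : ℤ) ≠ 0 := by exact_mod_cast NeZero.ne N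
  let γ : SL(2, ℤ) := ⟨!![1, 0; (N : ℤ), 1], by rw [Matrix.det_fin_two_of]; ring⟩
  have hγ : γ ∈ Gamma1 N := by
    rw [Gamma1_mem]
    refine ⟨?_, ?_, ?_⟩
    · change (((1 : ℤ)) : ZMod N) = 1; simp
    · change (((1 : ℤ)) : ZMod N) = 1; simp
    · change (((N : ℤ)) : ZMod N) = 0; simp
  have h3 := inv1_mf f γ hγ
  have h4 := congrFun h3 I
  rw [SL_slash_apply, hconst, hconst] at h4
  by_cases hc : an f 0 = 0
  · ext τ
    rw [hconst τ, hc]; rfl
  · exfalso
    have h5 : denom (γ : GL (Fin 2) ℝ) I ^ (-(k : ℤ)) = 1 := by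
      have := mul_left_cancel₀ hc (h4.trans (mul_one _).symm)
      exact this
    have hden : denom (γ : GL (Fin 2) ℝ) I = (N : ℂ) * Complex.I + 1 := by
      simp [denom, γ]
    rw [hden, _root_.zpow_neg, inv_eq_one, zpow_natCast] at h5
    have h6 : ‖(N : ℂ) * Complex.I + 1‖ ^ k = 1 := by
      rw [← norm_pow, h5, norm_one]
    have h7 : 1 < ‖(N : ℂ) * Complex.I + 1‖ := by
      have hN' : (0 : ℝ) < N := by exact_mod_cast Nat.pos_of_ne_zero (NeZero.ne N)
      have h8 : ‖(N : ℂ) * Complex.I + 1‖ ^ 2 = (N : ℝ) ^ 2 + 1 := by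
        rw [← Complex.normSq_eq_norm_sq, Complex.normSq_apply]
        simp; ring
      nlinarith [norm_nonneg ((N : ℂ) * Complex.I + 1), sq_nonneg (N : ℝ)]
    exact absurd h6 (one_lt_pow₀ h7 hk).ne'

/-- The endomorphisms commuting with all Hecke operators (also at `2` and at the primes of `N`) and
all diamond operators. -/
structure HeckeComm (N : ℕ) [NeZero N] (k : ℕ) (t : Module.End ℂ (MF N k)) : Prop where
  top : ∀ (ℓ : ℕ) (hℓ : ℓ.Prime) (hN : ¬ ℓ ∣ N) (g : SL(2, ℤ)) (hg : IsDiam N ℓ g) (f : MF N k),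
    t (Top N k ℓ hℓ hN g hg f) = Top N k ℓ hℓ hN g hg (t f)
  dop : ∀ (g : SL(2, ℤ)) (hg : g ∈ Gamma0 N) (f : MF N k), t (Dop N k g hg f) = Dop N k g hg (t f)
  up : ∀ (p : ℕ) (hp : p.Prime) (hN : p ∣ N) (f : MF N k),
    t (Up N k p hp hN f) = Up N k p hp hN (t f)

/-- If `a₁(t f) = 0` for all `f` and `t` commutes with everything, then `t = 0`. -/
theorem HeckeComm.eq_zero {N : ℕ} [NeZero N] {k : ℕ} (hk : k ≠ 0) {t : Module.End ℂ (MF N k)}
    (ht : HeckeComm N k t) (h1 : ∀ f, an (t f) 1 = 0) : t = 0 := by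
  have key : ∀ n, n ≠ 0 → ∀ f, an (t f) n = 0 := by
    intro n
    induction n using Nat.strong_induction_on with
    | _ n ih =>
      intro hn f
      by_cases hn1 : n = 1
      · rw [hn1]; exact h1 f
      · obtain ⟨p, hp, m, rfl⟩ := Nat.exists_prime_and_dvd hn1
        have hm0 : m ≠ 0 := by rintro rfl; simp at hn
        have hmlt : m < p * m := by
          have := hp.two_le
          nlinarith [Nat.pos_of_ne_zero hm0]
        by_cases hpN : p ∣ N
        · have e := an_Up hp hpN (t f) m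
          rw [← ht.up p hp hpN f, ih m hmlt hm0] at e
          exact e.symm
        · obtain ⟨g, hg⟩ := exists_isDiam ((Nat.Prime.coprime_iff_not_dvd hp).mpr hpN)
          have e := an_Top hp hpN hg (t f) m
          rw [← ht.top p hp hpN g hg f, ih m hmlt hm0, ← ht.dop g hg.1 f] at e
          by_cases hpm : p ∣ m
          · have hmp : m / p ≠ 0 := by
              obtain ⟨r, rfl⟩ := hpm
              rw [Nat.mul_div_cancel_left _ hp.pos]
              rintro rfl; simp at hm0
            have hlt : m / p < p * m := lt_of_le_of_lt (Nat.div_le_self _ _) hmlt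
            rw [if_pos hpm, ih _ hlt hmp, mul_zero, add_zero] at e
            exact e.symm
          · rw [if_neg hpm, add_zero] at e
            exact e.symm
  ext1 f
  exact eq_zero_of_an_pos hk (t f) (fun n hn => key n hn f)

section stage

variable {N : ℕ} [NeZero N] {T D : ℕ → (i : ℕ) → (MF N i →ₗ[ℂ] MF N i)}

/-- The submodule (over `ℂ`) of tuples commuting componentwise with everything. -/
def commSub (N : ℕ) [NeZero N] (k : ℕ) : Submodule ℂ (EndProd N k) where
  carrier := {t | ∀ i : Fin k, HeckeComm N ((i : ℕ) + 1) (t i)}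
  add_mem' {a b} ha hb := fun i =>
    { top := fun ℓ hℓ hN g hg f => by
        change (a i + b i) _ = _
        rw [LinearMap.add_apply, (ha i).top, (hb i).top, ← map_add]; rfl
      dop := fun g hg f => by
        change (a i + b i) _ = _
        rw [LinearMap.add_apply, (ha i).dop, (hb i).dop, ← map_add]; rfl
      up := fun p hp hN f => by
        change (a i + b i) _ = _
        rw [LinearMap.add_apply, (ha i).up, (hb i).up, ← map_add]; rfl }
  zero_mem' := fun i =>
    { top := fun ℓ hℓ hN g hg f => by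
        change (0 : Module.End ℂ (MF N ((i : ℕ) + 1))) _ = Top N _ ℓ hℓ hN g hg ((0 : Module.End ℂ _) f)
        simp
      dop := fun g hg f => by
        change (0 : Module.End ℂ (MF N ((i : ℕ) + 1))) _ = Dop N _ g hg ((0 : Module.End ℂ _) f)
        simp
      up := fun p hp hN f => by
        change (0 : Module.End ℂ (MF N ((i : ℕ) + 1))) _ = Up N _ p hp hN ((0 : Module.End ℂ _) f)
        simp }
  smul_mem' c a ha := fun i =>
    { top := fun ℓ hℓ hN g hg f => by
        change (c • a i) _ = _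
        rw [LinearMap.smul_apply, (ha i).top, ← map_smul]; rfl
      dop := fun g hg f => by
        change (c • a i) _ = _
        rw [LinearMap.smul_apply, (ha i).dop, ← map_smul]; rfl
      up := fun p hp hN f => by
        change (c • a i) _ = _
        rw [LinearMap.smul_apply, (ha i).up, ← map_smul]; rfl }

lemma commSub_mul {k : ℕ} {a b : EndProd N k} (ha : a ∈ commSub N k) (hb : b ∈ commSub N k) :
    a * b ∈ commSub N k := fun i =>
  { top := fun ℓ hℓ hN g hg f => by
      change (a i) ((b i) _) = _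
      rw [(hb i).top, (ha i).top]; rfl
    dop := fun g hg f => by
      change (a i) ((b i) _) = _
      rw [(hb i).dop, (ha i).dop]; rfl
    up := fun p hp hN f => by
      change (a i) ((b i) _) = _
      rw [(hb i).up, (ha i).up]; rfl }

lemma commSub_one (k : ℕ) : (1 : EndProd N k) ∈ commSub N k := fun i =>
  { top := fun ℓ hℓ hN g hg f => rfl
    dop := fun g hg f => rfl
    up := fun p hp hN f => rfl }

lemma heckeComm_Dop {k : ℕ} {g : SL(2, ℤ)} (hg : g ∈ Gamma0 N) : HeckeComm N k (Dop N k g hg) :=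
  { top := fun m hm hmN g' hg' f => Top_Dop hm hmN hg' hg f
    dop := fun g' hg' f => Dop_comm hg' hg f
    up := fun p hp hpN f => Up_Dop hp hpN hg f }

lemma heckeComm_Top {k : ℕ} {ℓ : ℕ} (hℓ : ℓ.Prime) (hN : ¬ ℓ ∣ N) {g : SL(2, ℤ)}
    (hg : IsDiam N ℓ g) : HeckeComm N k (Top N k ℓ hℓ hN g hg) :=
  { top := fun m hm hmN g' hg' f => Top_Top hℓ hN hg hm hmN hg' f
    dop := fun g' hg' f => (Top_Dop hℓ hN hg hg' f).symm
    up := fun p hp hpN f => Up_Top hℓ hN hg hp hpN f }

lemma HeckeComm.smul {k : ℕ} {t : Module.End ℂ (MF N k)} (ht : HeckeComm N k t) (c : ℂ) :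
    HeckeComm N k (c • t) :=
  { top := fun ℓ hℓ hN g hg f => by
      rw [LinearMap.smul_apply, ht.top, ← map_smul]; rfl
    dop := fun g hg f => by
      rw [LinearMap.smul_apply, ht.dop, ← map_smul]; rfl
    up := fun p hp hN f => by
      rw [LinearMap.smul_apply, ht.up, ← map_smul]; rfl }

/-- The generators commute with everything. -/
lemma gens_mem_commSub (hD : IsDiamondFamily N D) (hT : IsHeckeFamily N T D) {k : ℕ}
    {a : EndProd N k} (ha : a ∈ heckeGens N T D k) : a ∈ commSub N k := by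
  obtain ⟨ℓ, hℓ, h2, ha⟩ := ha
  have hN : ¬ ℓ ∣ N := fun h => h2 (h.mul_left 2)
  obtain ⟨g, hg⟩ := exists_isDiam ((Nat.Prime.coprime_iff_not_dvd hℓ).mpr hN)
  rcases ha with rfl | rfl
  · intro i
    change HeckeComm N ((i : ℕ) + 1) (T ℓ ((i : ℕ) + 1))
    rw [T_eq_Top hD hT hℓ h2 hN hg]
    exact heckeComm_Top hℓ hN hg
  · intro i
    change HeckeComm N ((i : ℕ) + 1) (((ℓ : ℂ) ^ (i : ℕ)) • D ℓ ((i : ℕ) + 1))
    rw [D_eq_Dop hD hg]
    exact (heckeComm_Dop hg.1).smul _

lemma stage_le_commSub (hD : IsDiamondFamily N D) (hT : IsHeckeFamily N T D) {k : ℕ}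
    {a : EndProd N k} (ha : a ∈ stage N T D k) : a ∈ commSub N k := by
  unfold stage at ha
  induction ha using Subring.closure_induction with
  | mem x hx => exact gens_mem_commSub hD hT hx
  | zero => exact (commSub N k).zero_mem
  | one => exact commSub_one k
  | add x y _ _ hx hy => exact (commSub N k).add_mem hx hy
  | neg x _ hx => exact (commSub N k).neg_mem hx
  | mul x y _ _ hx hy => exact commSub_mul hx hy

/-- The `a₁`-pairing. -/
noncomputable def pair (N : ℕ) [NeZero N] (k : ℕ) (t : EndProd N k)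
    (F : (i : Fin k) → MF N ((i : ℕ) + 1)) : ℂ := ∑ i : Fin k, an (t i (F i)) 1

lemma an_zero' {k : ℕ} (n : ℕ) : an (0 : MF N k) n = 0 := by
  have := an_smul (N := N) (0 : ℂ) (0 : MF N k) n
  simpa using this

lemma commSub_eq_zero {k : ℕ} {t : EndProd N k} (ht : t ∈ commSub N k)
    (h : ∀ F, pair N k t F = 0) : t = 0 := by
  funext i
  apply (ht i).eq_zero (Nat.succ_ne_zero _)
  intro f
  classical
  have h1 := h (Pi.single i f)
  unfold pair at h1
  rw [Finset.sum_eq_single i] at h1
  · rwa [Pi.single_eq_same] at h1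
  · intro j _ hj
    rw [Pi.single_eq_of_ne hj, map_zero, an_zero']
  · intro hi; exact absurd (Finset.mem_univ i) hi

/-- **Left nondegeneracy** of the `a₁`-pairing on the complex span of the Hecke algebra. -/
theorem left_nondeg (hD : IsDiamondFamily N D) (hT : IsHeckeFamily N T D) {k : ℕ}
    {t : EndProd N k} (ht : t ∈ Submodule.span ℂ (stage N T D k : Set (EndProd N k)))
    (h : ∀ F : (i : Fin k) → MF N ((i : ℕ) + 1), ∑ i : Fin k, an (t i (F i)) 1 = 0) : t = 0 := by
  apply commSub_eq_zero (N := N) (k := k) _ h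
  have : Submodule.span ℂ (stage N T D k : Set (EndProd N k)) ≤ commSub N k :=
    Submodule.span_le.mpr fun a ha => stage_le_commSub hD hT ha
  exact this ht

/-- The pairing as a bilinear map. -/
noncomputable def pairL (N : ℕ) [NeZero N] (k : ℕ) :
    EndProd N k →ₗ[ℂ] ((i : Fin k) → MF N ((i : ℕ) + 1)) →ₗ[ℂ] ℂ :=
  LinearMap.mk₂ ℂ (fun t F => ∑ i : Fin k, an (t i (F i)) 1)
    (fun t t' F => by
      simp only [Pi.add_apply, LinearMap.add_apply, an_add, Finset.sum_add_distrib])
    (fun c t F => by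
      simp only [Pi.smul_apply, LinearMap.smul_apply, an_smul, Finset.mul_sum, smul_eq_mul])
    (fun t F F' => by
      simp only [Pi.add_apply, map_add, an_add, Finset.sum_add_distrib])
    (fun c t F => by
      simp only [Pi.smul_apply, map_smul, an_smul, Finset.mul_sum, smul_eq_mul])

@[simp] lemma pairL_apply (k : ℕ) (t : EndProd N k) (F) :
    pairL N k t F = ∑ i : Fin k, an (t i (F i)) 1 := rfl


end stage

end Crest.Agent.R007.Op
end

-- ▼ part R007/Realise

/-! Row 7: realisation of additive functionals on the Hecke algebra by forms with coefficients in a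
given subfield (node (I1)/(VPHI), first half). -/

set_option autoImplicit false

namespace Crest.Agent.R007.Realise

open Matrix UpperHalfPlane ModularForm CongruenceSubgroup Matrix.SpecialLinearGroup
open scoped MatrixGroups ModularForm Manifold Pointwise
open Crest.NumberTheoryR.HeckeTwoAdic
open Crest.Agent.R007.Op

variable {N : ℕ} [NeZero N] {k : ℕ}

/-- all coefficients of `f` and of its diamond translates lie in `K` -/
def IsK (K : Subfield ℂ) (f : MF N k) : Prop :=
  ∀ (g : SL(2, ℤ)) (hg : g ∈ Gamma0 N) (n : ℕ), an (Dop N k g hg f) n ∈ K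

theorem IsK.mono {K K' : Subfield ℂ} (h : K ≤ K') {f : MF N k} (hf : IsK K f) : IsK K' f :=
  fun g hg n => h (hf g hg n)

theorem Dop_one (h1 : (1 : SL(2, ℤ)) ∈ Gamma0 N) (f : MF N k) : Dop N k 1 h1 f = f := by
  apply DFunLike.coe_injective
  rw [Dop_coe, SlashAction.slash_one]

theorem Dop_mul {g h : SL(2, ℤ)} (hg : g ∈ Gamma0 N) (hh : h ∈ Gamma0 N)
    (hgh : g * h ∈ Gamma0 N) (f : MF N k) : Dop N k h hh (Dop N k g hg f) = Dop N k (g * h) hgh f := by
  apply DFunLike.coe_injective
  rw [Dop_coe, Dop_coe, Dop_coe, SlashAction.slash_mul]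

theorem IsK.an {K : Subfield ℂ} {f : MF N k} (hf : IsK K f) (n : ℕ) : an f n ∈ K := by
  have h := hf 1 (Gamma0 N).one_mem n
  rwa [Dop_one] at h

theorem IsK.zero (K : Subfield ℂ) : IsK K (0 : MF N k) := fun g hg n => by
  rw [map_zero, an_zero']; exact K.zero_mem

theorem IsK.add {K : Subfield ℂ} {f f' : MF N k} (hf : IsK K f) (hf' : IsK K f') :
    IsK K (f + f') := fun g hg n => by
  rw [map_add, an_add]; exact K.add_mem (hf g hg n) (hf' g hg n)

theorem IsK.smul {K : Subfield ℂ} {c : ℂ} (hc : c ∈ K) {f : MF N k} (hf : IsK K f) :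
    IsK K (c • f) := fun g hg n => by
  rw [map_smul, an_smul]; exact K.mul_mem hc (hf g hg n)

theorem IsK.neg {K : Subfield ℂ} {f : MF N k} (hf : IsK K f) : IsK K (-f) := by
  have := hf.smul (K.neg_mem K.one_mem)
  simpa using this

theorem IsK.sum {K : Subfield ℂ} {ι : Type*} (s : Finset ι) (f : ι → MF N k)
    (h : ∀ i ∈ s, IsK K (f i)) : IsK K (∑ i ∈ s, f i) := by
  classical
  induction s using Finset.induction_on with
  | empty => simpa using IsK.zero K
  | insert i s hi ih =>
    rw [Finset.sum_insert hi]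
    exact (h i (Finset.mem_insert_self _ _)).add (ih fun j hj => h j (Finset.mem_insert_of_mem hj))

theorem IsK.dop {K : Subfield ℂ} {f : MF N k} (hf : IsK K f) {g : SL(2, ℤ)} (hg : g ∈ Gamma0 N) :
    IsK K (Dop N k g hg f) := fun g' hg' n => by
  rw [Dop_mul hg hg' ((Gamma0 N).mul_mem hg hg')]
  exact hf _ _ n

theorem natCast_zpow_mem (K : Subfield ℂ) (l : ℕ) (m : ℤ) : ((l : ℂ)) ^ m ∈ K :=
  zpow_mem (natCast_mem K l) m

theorem IsK.top {K : Subfield ℂ} {f : MF N k} (hf : IsK K f) {l : ℕ} (hl : l.Prime)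
    (hN : ¬ l ∣ N) {g : SL(2, ℤ)} (hg : IsDiam N l g) : IsK K (Top N k l hl hN g hg f) :=
  fun g' hg' n => by
    rw [Top_Dop hl hN hg hg', an_Top]
    refine K.add_mem (hf _ _ _) ?_
    split_ifs
    · refine K.mul_mem (natCast_zpow_mem K l _) ?_
      exact (hf.dop hg').dop hg.1 |>.an _
    · exact K.zero_mem

section stage

variable {T D : ℕ → (i : ℕ) → (MF N i →ₗ[ℂ] MF N i)}

theorem stage_isK (K : Subfield ℂ) (hD : IsDiamondFamily N D) (hT : IsHeckeFamily N T D) {k : ℕ}
    {a : EndProd N k} (ha : a ∈ stage N T D k) :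
    ∀ (i : Fin k) (f : MF N ((i : ℕ) + 1)), IsK K f → IsK K (a i f) := by
  unfold stage at ha
  induction ha using Subring.closure_induction with
  | mem x hx =>
    obtain ⟨l, hl, h2, hx⟩ := hx
    have hN : ¬ l ∣ N := fun h => h2 (h.mul_left 2)
    obtain ⟨g, hg⟩ := exists_isDiam ((Nat.Prime.coprime_iff_not_dvd hl).mpr hN)
    rcases hx with rfl | rfl
    · intro i f hf
      change IsK K (T l ((i : ℕ) + 1) f)
      rw [T_eq_Top hD hT hl h2 hN hg]
      exact hf.top hl hN hg
    · intro i f hf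
      change IsK K (((l : ℂ) ^ (i : ℕ)) • D l ((i : ℕ) + 1) f)
      rw [D_eq_Dop hD hg]
      exact (hf.dop hg.1).smul (pow_mem (natCast_mem K l) _)
  | zero => exact fun i f _ => IsK.zero K
  | one => exact fun i f hf => hf
  | add x y _ _ hx hy => exact fun i f hf => (hx i f hf).add (hy i f hf)
  | neg x _ hx => exact fun i f hf => (hx i f hf).neg
  | mul x y _ _ hx hy => exact fun i f hf => hx i _ (hy i f hf)

theorem mem_bot_iff (x : ℂ) : x ∈ (⊥ : Subfield ℂ) ↔ ∃ q : ℚ, (q : ℂ) = x := by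
  constructor
  · intro hx
    let S : Subfield ℂ := (algebraMap ℚ ℂ).fieldRange
    have h1 : (⊥ : Subfield ℂ) ≤ S := bot_le
    obtain ⟨q, hq⟩ := h1 hx
    exact ⟨q, by rw [← hq]; rfl⟩
  · rintro ⟨q, rfl⟩
    exact SubfieldClass.ratCast_mem _ q

/-- **Realisation of additive functionals.** -/
theorem realise (hfin : ∀ i, FiniteDimensional ℂ (MF N i))
    (hD : IsDiamondFamily N D) (hT : IsHeckeFamily N T D) {k : ℕ}
    (hspan : ∀ i : Fin k, Submodule.span ℂ {f : MF N ((i : ℕ) + 1) | IsK ⊥ f} = ⊤)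
    (K : Subfield ℂ) (φ : stage N T D k →+ ℂ) (hφ : ∀ s, φ s ∈ K) :
    ∃ F : (i : Fin k) → MF N ((i : ℕ) + 1), (∀ i, IsK K (F i)) ∧
      ∀ s : stage N T D k, φ s = ∑ i : Fin k, an ((s : EndProd N k) i (F i)) 1 := by
  classical
  -- finite rational spanning families
  have hfg : ∀ i : Fin k, ∃ S : Finset (MF N ((i : ℕ) + 1)),
      (↑S ⊆ {f : MF N ((i : ℕ) + 1) | IsK ⊥ f}) ∧ Submodule.span ℂ (S : Set (MF N ((i : ℕ) + 1))) = ⊤ := by
    intro i
    have := hfin ((i : ℕ) + 1)
    have h1 : (Submodule.span ℂ {f : MF N ((i : ℕ) + 1) | IsK ⊥ f}).FG := by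
      rw [hspan i]; exact Module.Finite.fg_top
    rw [Submodule.fg_span_iff_fg_span_finset_subset] at h1
    obtain ⟨S, hS, hS2⟩ := h1
    exact ⟨S, hS, by rw [← hS2, hspan i]⟩
  choose S hS hS2 using hfg
  let J := Σ i : Fin k, {x // x ∈ S i}
  let a1 : EndProd N k → J → ℂ := fun t j => an (t j.1 (j.2 : MF N ((j.1 : ℕ) + 1))) 1
  let Θ : stage N T D k →+ (J → ℂ) :=
    { toFun := fun s => a1 s
      map_zero' := by
        funext j
        change an ((0 : Module.End ℂ (MF N ((j.1 : ℕ) + 1))) _) 1 = 0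
        rw [LinearMap.zero_apply, an_zero']
      map_add' := by
        intro s t
        funext j
        change an (((s : EndProd N k) j.1 + (t : EndProd N k) j.1) _) 1 = _
        rw [LinearMap.add_apply, an_add]; rfl }
  have hΘ : Function.Injective Θ := by
    rw [injective_iff_map_eq_zero]
    intro s hs
    apply Subtype.ext
    apply left_nondeg hD hT (Submodule.subset_span s.2)
    intro F
    refine Finset.sum_eq_zero fun i _ => ?_
    have h1 : ∀ f : MF N ((i : ℕ) + 1), an ((s : EndProd N k) i f) 1 = 0 := by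
      intro f
      have hf : f ∈ Submodule.span ℂ (S i : Set (MF N ((i : ℕ) + 1))) := by
        rw [hS2]; trivial
      induction hf using Submodule.span_induction with
      | mem x hx => exact congrFun hs ⟨i, x, hx⟩
      | zero => rw [map_zero, an_zero']
      | add x y _ _ hx hy => rw [map_add, an_add, hx, hy, add_zero]
      | smul c x _ hx => rw [map_smul, an_smul, hx, mul_zero]
    exact h1 _
  let φ' : stage N T D k →+ K :=
    { toFun := fun s => ⟨φ s, hφ s⟩
      map_zero' := Subtype.ext (map_zero φ)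
      map_add' := fun s t => Subtype.ext (map_add φ s t) }
  obtain ⟨h, hh⟩ := (Module.Baer.of_divisible (A := K)).extension_property_addMonoidHom Θ hΘ φ'
  have hh' : ∀ s, (h (Θ s) : ℂ) = φ s := fun s =>
    congrArg Subtype.val (DFunLike.congr_fun hh s)
  let c : J → K := fun j => h (Pi.single j 1)
  refine ⟨fun i => ∑ x : {x // x ∈ S i}, (c ⟨i, x⟩ : ℂ) • (x : MF N ((i : ℕ) + 1)), ?_, ?_⟩
  · intro i
    exact IsK.sum _ _ fun x _ => (IsK.mono bot_le (hS i x.2)).smul (c ⟨i, x⟩).2
  · intro s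
    rw [← hh' s]
    -- rationality of the coordinates
    have hq : ∀ j : J, ∃ q : ℚ, (q : ℂ) = Θ s j := by
      intro j
      rw [← mem_bot_iff]
      exact (stage_isK ⊥ hD hT s.2 j.1 _ (hS j.1 j.2.2)).an 1
    choose q hq using hq
    have e1 : Θ s = ∑ j : J, q j • (Pi.single j (1 : ℂ) : J → ℂ) := by
      funext j
      rw [Finset.sum_apply, Finset.sum_eq_single j]
      · rw [Pi.smul_apply, Pi.single_eq_same, ← hq j, Rat.smul_one_eq_cast]
      · intro j' _ hj'
        rw [Pi.smul_apply, Pi.single_eq_of_ne hj'.symm, smul_zero]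
      · intro hj; exact absurd (Finset.mem_univ j) hj
    have e2 : h (Θ s) = ∑ j : J, q j • c j := by
      rw [e1, map_sum]
      exact Finset.sum_congr rfl fun j _ => map_rat_smul h (q j) _
    rw [e2]
    have e3 : ((∑ j : J, q j • c j : K) : ℂ) = ∑ j : J, (c j : ℂ) * Θ s j := by
      rw [AddSubmonoidClass.coe_finsetSum]
      refine Finset.sum_congr rfl fun j _ => ?_
      rw [← hq j, Rat.smul_def]
      push_cast
      ring
    rw [e3, Fintype.sum_sigma]
    refine Finset.sum_congr rfl fun i _ => ?_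
    have e4 : an ((s : EndProd N k) i (∑ x : {x // x ∈ S i}, (c ⟨i, x⟩ : ℂ) • (x : MF N ((i : ℕ) + 1)))) 1
        = anL N ((i : ℕ) + 1) 1 ((s : EndProd N k) i
          (∑ x : {x // x ∈ S i}, (c ⟨i, x⟩ : ℂ) • (x : MF N ((i : ℕ) + 1)))) := rfl
    rw [e4, map_sum, map_sum]
    refine Finset.sum_congr rfl fun x _ => ?_
    rw [map_smul, map_smul, smul_eq_mul]
    rfl

end stage

end Crest.Agent.R007.Realise
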