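import Crest.Prelude.Def_HeckeTwo
import Crest.Agent.R007.OpQ
import Crest.Agent.R007.Base5
import Crest.Agent.R007.OpU
import Crest.Agent.R007.RatG1
import Mathlib
import Crest.Agent.R007.Realise

-- ▼ part R007/Fin1
section

/-!
Row 7 (S0007), section B, node FIN, abstract part: finite generation of the finite stages
"up to odd multiples", hence finiteness of `ℤ₂ ⊗ stage` over `ℤ₂`.
-/

set_option autoImplicit false

namespace Crest.Agent.R007.Fin

open Crest.NumberTheoryR.HeckeTwoAdic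
open scoped TensorProduct

/-- `M` is finitely generated up to odd multiples. -/
def TwoFG (M : Type*) [AddCommGroup M] : Prop :=
  ∃ G : Finset M, ∀ x : M, ∃ m : ℤ, Odd m ∧ m • x ∈ Submodule.span ℤ (G : Set M)


theorem TwoFG.of_submodule {M : Type*} [AddCommGroup M] (S : Submodule ℤ M) (hS : S.FG)
    (h : ∀ x : M, ∃ m : ℤ, Odd m ∧ m • x ∈ S) : TwoFG M := by
  obtain ⟨G, hG⟩ := hS
  exact ⟨G, fun x => by rw [hG]; exact h x⟩

theorem TwoFG.of_injective {M M' : Type*} [AddCommGroup M] [AddCommGroup M'] (f : M →+ M')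
    (hf : Function.Injective f) (h : TwoFG M') : TwoFG M := by
  obtain ⟨G, hG⟩ := h
  let S' : Submodule ℤ M' := Submodule.span ℤ (G : Set M')
  let fl : M →ₗ[ℤ] M' := f.toIntLinearMap
  let S : Submodule ℤ M := S'.comap fl
  have hS' : Module.Finite ℤ S' := Module.Finite.iff_fg.mpr ⟨G, rfl⟩
  have hN : IsNoetherian ℤ S' := isNoetherian_of_isNoetherianRing_of_finite ℤ S'
  let g : S →ₗ[ℤ] S' := fl.restrict (p := S) (q := S') (fun x hx => hx)
  have hg : Function.Injective g := by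
    intro a b hab
    apply Subtype.ext
    apply hf
    exact congrArg Subtype.val hab
  have hSf : Module.Finite ℤ S := Module.Finite.of_injective g hg
  refine TwoFG.of_submodule S (Module.Finite.iff_fg.mp hSf) ?_
  intro x
  obtain ⟨m, hm, hmx⟩ := hG (f x)
  refine ⟨m, hm, ?_⟩
  change fl (m • x) ∈ S'
  rw [map_zsmul]
  exact hmx

theorem exists_odd_of_finite {ι : Type*} [Fintype ι] {M : ι → Type*} [∀ i, AddCommGroup (M i)]
    (S : ∀ i, Submodule ℤ (M i)) (x : ∀ i, M i) (h : ∀ i, ∃ m : ℤ, Odd m ∧ m • x i ∈ S i) :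
    ∃ m : ℤ, Odd m ∧ ∀ i, m • x i ∈ S i := by
  classical
  choose m hm hmx using h
  refine ⟨∏ i, m i, ?_, ?_⟩
  · exact Finset.prod_induction m (fun z => Odd z) (fun a b => Odd.mul) odd_one (fun i _ => hm i)
  · intro i
    rw [← Finset.mul_prod_erase Finset.univ m (Finset.mem_univ i), mul_comm, mul_smul]
    exact Submodule.smul_mem _ _ (hmx i)

theorem TwoFG.pi {ι : Type*} [Finite ι] {M : ι → Type*} [∀ i, AddCommGroup (M i)]
    (h : ∀ i, TwoFG (M i)) : TwoFG (∀ i, M i) := by
  classical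
  have : Fintype ι := Fintype.ofFinite ι
  choose G hG using h
  refine TwoFG.of_submodule (Submodule.pi Set.univ fun i => Submodule.span ℤ (G i : Set (M i)))
    ?_ ?_
  · exact Submodule.fg_pi fun i => ⟨G i, rfl⟩
  · intro x
    obtain ⟨m, hm, hmx⟩ := exists_odd_of_finite (fun i => Submodule.span ℤ (G i : Set (M i))) x
      (fun i => hG i (x i))
    exact ⟨m, hm, by rw [Submodule.mem_pi]; exact fun i _ => hmx i⟩

/-- odd integers are units in `ℤ₂` -/
theorem isUnit_odd_padic (m : ℤ) (hm : Odd m) : IsUnit ((m : ℤ_[2])) := by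
  rw [PadicInt.isUnit_iff]
  have h1 : ‖((m : ℤ_[2]))‖ ≤ 1 := PadicInt.norm_le_one _
  rcases lt_or_eq_of_le h1 with h | h
  · exfalso
    rw [PadicInt.norm_int_lt_one_iff_dvd] at h
    exact (Int.not_even_iff_odd.mpr hm) (even_iff_two_dvd.mpr (by exact_mod_cast h))
  · exact h

/-- **`ℤ₂ ⊗ M` is finite over `ℤ₂`** -/
theorem TwoFG.finite_tensor {M : Type*} [AddCommGroup M] (h : TwoFG M) :
    Module.Finite ℤ_[2] (ℤ_[2] ⊗[ℤ] M) := by
  classical
  obtain ⟨G, hG⟩ := h
  let S : Submodule ℤ_[2] (ℤ_[2] ⊗[ℤ] M) :=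
    Submodule.span ℤ_[2] ((fun g : M => (1 : ℤ_[2]) ⊗ₜ[ℤ] g) '' (G : Set M))
  have hS : ∀ x ∈ Submodule.span ℤ (G : Set M), (1 : ℤ_[2]) ⊗ₜ[ℤ] x ∈ S := by
    intro x hx
    induction hx using Submodule.span_induction with
    | mem x hx => exact Submodule.subset_span ⟨x, hx, rfl⟩
    | zero => rw [TensorProduct.tmul_zero]; exact zero_mem _
    | add x y _ _ hx hy => rw [TensorProduct.tmul_add]; exact add_mem hx hy
    | smul a x _ hx =>
      rw [TensorProduct.tmul_smul]
      exact zsmul_mem hx a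
  have htop : S = ⊤ := by
    rw [eq_top_iff]
    rintro t -
    induction t using TensorProduct.induction_on with
    | zero => exact zero_mem _
    | add x y hx hy => exact add_mem hx hy
    | tmul a x =>
      obtain ⟨m, hm, hmx⟩ := hG x
      obtain ⟨u, hu⟩ := isUnit_odd_padic m hm
      have h1 : a ⊗ₜ[ℤ] x = (a * (↑u⁻¹ : ℤ_[2])) • ((1 : ℤ_[2]) ⊗ₜ[ℤ] (m • x)) := by
        rw [TensorProduct.tmul_smul, TensorProduct.smul_tmul', TensorProduct.smul_tmul',
          zsmul_eq_mul, mul_one, smul_eq_mul, ← hu, mul_assoc, Units.inv_mul, mul_one]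
      rw [h1]
      exact Submodule.smul_mem _ _ (hS _ hmx)
  exact ⟨⟨G.image (fun g : M => (1 : ℤ_[2]) ⊗ₜ[ℤ] g), by rw [Finset.coe_image]; exact htop⟩⟩

section stage

variable {N k : ℕ} {T D : ℕ → (i : ℕ) → (MF N i →ₗ[ℂ] MF N i)}

/-- the stage preserves every family of subgroups preserved by the generators -/
theorem stage_stable (Λ : ∀ i : Fin k, AddSubgroup (MF N (i + 1)))
    (hstab : ∀ a ∈ heckeGens N T D k, ∀ i, ∀ f ∈ Λ i, a i f ∈ Λ i) (s : EndProd N k)
    (hs : s ∈ stage N T D k) : ∀ i, ∀ f ∈ Λ i, s i f ∈ Λ i := by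
  unfold stage at hs
  induction hs using Subring.closure_induction with
  | mem a ha => exact hstab a ha
  | zero => intro i f _; exact zero_mem _
  | one => intro i f hf; exact hf
  | add a b _ _ ha hb => intro i f hf; exact add_mem (ha i f hf) (hb i f hf)
  | neg a _ ha => intro i f hf; exact neg_mem (ha i f hf)
  | mul a b _ _ ha hb => intro i f hf; exact ha i _ (hb i f hf)

/-- **FIN, abstract form**: the stage is finitely generated up to odd multiples. -/
theorem stage_twoFG (Λ : ∀ i : Fin k, AddSubgroup (MF N (i + 1))) (hΛ : ∀ i, TwoFG (Λ i))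
    (hspan : ∀ i : Fin k, Submodule.span ℂ ((Λ i : AddSubgroup _) : Set (MF N (i + 1))) = ⊤)
    (hstab : ∀ a ∈ heckeGens N T D k, ∀ i, ∀ f ∈ Λ i, a i f ∈ Λ i) :
    TwoFG (stage N T D k) := by
  classical
  have hΛ' := hΛ
  choose G hG using hΛ
  let φ : stage N T D k →+ (∀ i : Fin k, ∀ _ : G i, Λ i) :=
    { toFun := fun s i g => ⟨s.1 i g.1.1, stage_stable Λ hstab s.1 s.2 i g.1.1 g.1.2⟩
      map_zero' := by
        funext i g
        rfl
      map_add' := by
        intro a b
        funext i g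
        rfl }
  have hφ : Function.Injective φ := by
    rw [injective_iff_map_eq_zero]
    intro s hs
    apply Subtype.ext
    funext i
    -- s i vanishes on the generators
    have h1 : ∀ g ∈ G i, s.1 i (g : MF N (i + 1)) = 0 := by
      intro g hg
      have := congrFun (congrFun hs i) ⟨g, hg⟩
      exact congrArg Subtype.val this
    have h2 : ∀ x ∈ Submodule.span ℤ (G i : Set (Λ i)), s.1 i (x : MF N (i + 1)) = 0 := by
      intro x hx
      induction hx using Submodule.span_induction with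
      | mem x hx => exact h1 x hx
      | zero => exact map_zero _
      | add x y _ _ hx hy =>
        rw [AddSubgroup.coe_add, map_add, hx, hy, add_zero]
      | smul a x _ hx =>
        rw [AddSubgroup.coe_zsmul, map_zsmul, hx, smul_zero]
    have h3 : ∀ x ∈ Λ i, s.1 i x = 0 := by
      intro x hx
      obtain ⟨m, hm, hmx⟩ := hG i ⟨x, hx⟩
      have h4 := h2 _ hmx
      rw [AddSubgroup.coe_zsmul, map_zsmul] at h4
      have hm0 : m ≠ 0 := by
        rintro rfl
        exact (Int.not_odd_iff_even.mpr (by decide)) hm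
      rw [← Int.cast_smul_eq_zsmul ℂ, smul_eq_zero] at h4
      rcases h4 with h4 | h4
      · exact absurd (by exact_mod_cast h4) hm0
      · exact h4
    have h5 : (⊤ : Submodule ℂ (MF N (i + 1))) ≤ LinearMap.ker (s.1 i) := by
      rw [← hspan i, Submodule.span_le]
      intro x hx
      exact h3 x hx
    exact LinearMap.ker_eq_top.mp (top_le_iff.mp h5)
  exact TwoFG.of_injective φ hφ (TwoFG.pi fun i => TwoFG.pi fun _ => hΛ' i)


end stage

end Crest.Agent.R007.Fin
end

-- ▼ part R007/Fin2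
section

/-!
Row 7 (S0007), section B, node FIN: the lattice of forms all of whose diamond translates have
coefficients (at infinity) in a coefficient ring `O`.
-/

set_option autoImplicit false

namespace Crest.Agent.R007.Fin

open Crest.NumberTheoryR.HeckeTwoAdic Crest.Agent.R007.Op Crest.Agent.R007.Base
open scoped TensorProduct

variable {N : ℕ} [NeZero N] {T D : ℕ → (i : ℕ) → (MF N i →ₗ[ℂ] MF N i)}

/-- forms of weight `i` all of whose diamond translates have coefficients in `O` -/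
def Lam (O : Subring ℂ) (D : ℕ → (i : ℕ) → (MF N i →ₗ[ℂ] MF N i)) (i : ℕ) :
    AddSubgroup (MF N i) where
  carrier := {f | ∀ d : ℕ, d.Coprime N → ∀ n, an (D d i f) n ∈ O}
  zero_mem' := by
    intro d _ n
    rw [map_zero]
    have : an (0 : MF N i) n = 0 := by
      have := an_smul (0 : ℂ) (0 : MF N i) n
      simpa using this
    rw [this]; exact zero_mem _
  add_mem' := by
    intro f g hf hg d hd n
    rw [map_add, an_add]
    exact add_mem (hf d hd n) (hg d hd n)
  neg_mem' := by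
    intro f hf d hd n
    have h1 : an (D d i (-f)) n = - an (D d i f) n := by
      rw [← neg_one_smul ℂ f, map_smul, an_smul]; ring
    rw [h1]
    exact neg_mem (hf d hd n)


theorem D_one (hD : IsDiamondFamily N D) (i : ℕ) (f : MF N i) : D 1 i f = f := by
  apply DFunLike.coe_injective
  have h := hD 1 i 1 (one_mem _) (by simp) f
  rw [h]
  simp

theorem an_mem_of_mem_Lam (hD : IsDiamondFamily N D) {O : Subring ℂ} {i : ℕ} {f : MF N i}
    (hf : f ∈ Lam O D i) (n : ℕ) : an f n ∈ O := by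
  have := hf 1 (Nat.coprime_one_left N) n
  rwa [D_one hD] at this

/-- finitely many coefficients separate the forms -/
theorem exists_sep_coeff (i : ℕ) [FiniteDimensional ℂ (MF N i)] :
    ∃ J : Finset ℕ, ∀ f : MF N i, (∀ n ∈ J, an f n = 0) → f = 0 := by
  classical
  have hfg : (Submodule.span ℂ (Set.range fun n => anL N i n)).FG := IsNoetherian.noetherian _
  rw [Submodule.fg_span_iff_fg_span_finset_subset] at hfg
  obtain ⟨s, hs, hspan⟩ := hfg
  have hch : ∀ φ : s, ∃ n, anL N i n = φ.1 := fun φ => hs φ.2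
  choose c hc using hch
  refine ⟨Finset.univ.image c, fun f hf => eq_zero_of_an f fun n => ?_⟩
  have h1 : anL N i n ∈ Submodule.span ℂ (s : Set _) := by
    rw [← hspan]; exact Submodule.subset_span ⟨n, rfl⟩
  have h2 : ∀ φ ∈ Submodule.span ℂ (s : Set (MF N i →ₗ[ℂ] ℂ)), φ f = 0 := by
    intro φ hφ
    induction hφ using Submodule.span_induction with
    | mem φ hφ =>
      have h3 := hf (c ⟨φ, hφ⟩) (Finset.mem_image_of_mem c (Finset.mem_univ _))
      have h4 := hc ⟨φ, hφ⟩
      have h5 : φ = anL N i (c ⟨φ, hφ⟩) := h4.symm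
      rw [h5]
      exact h3
    | zero => rfl
    | add a b _ _ ha hb => rw [LinearMap.add_apply, ha, hb, add_zero]
    | smul a b _ hb => rw [LinearMap.smul_apply, hb, smul_zero]
  exact h2 _ h1

/-- the lattice is finitely generated up to odd multiples -/
theorem Lam_twoFG (hD : IsDiamondFamily N D) (O : Subring ℂ) (hO : TwoFG O) (i : ℕ)
    [FiniteDimensional ℂ (MF N i)] : TwoFG (Lam O D i) := by
  obtain ⟨J, hJ⟩ := exists_sep_coeff (N := N) i
  let φ : Lam O D i →+ (J → O) :=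
    { toFun := fun f n => ⟨an f.1 n.1, an_mem_of_mem_Lam hD f.2 n.1⟩
      map_zero' := by
        funext n
        apply Subtype.ext
        have := an_smul (0 : ℂ) (0 : MF N i) n.1
        simpa using this
      map_add' := by
        intro f g
        funext n
        apply Subtype.ext
        exact an_add f.1 g.1 n.1 }
  have hφ : Function.Injective φ := by
    rw [injective_iff_map_eq_zero]
    intro f hf
    apply Subtype.ext
    apply hJ
    intro n hn
    have := congrFun hf ⟨n, hn⟩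
    exact congrArg Subtype.val this
  exact TwoFG.of_injective φ hφ (TwoFG.pi fun _ => hO)

theorem D_D_mem (hD : IsDiamondFamily N D) {O : Subring ℂ} {i : ℕ} {f : MF N i}
    (hf : f ∈ Lam O D i) {d e : ℕ} (hd : d.Coprime N) (he : e.Coprime N) (n : ℕ) :
    an (D e i (D d i f)) n ∈ O := by
  have h1 : D e i (D d i f) = D (d * e) i f := D_mul hD hd he (by push_cast; ring) i f
  rw [h1]
  exact hf _ (Nat.Coprime.mul_left hd he) n

/-- stability under the generators -/
theorem Lam_stable (hD : IsDiamondFamily N D) (hT : IsHeckeFamily N T D) (O : Subring ℂ) {k : ℕ} :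
    ∀ a ∈ heckeGens N T D k, ∀ i : Fin k, ∀ f ∈ Lam O D ((i : ℕ) + 1), a i f ∈ Lam O D ((i : ℕ) + 1) := by
  rintro a ⟨ℓ, hℓ, hℓN, ha | ha⟩ i f hf d hd n
  · subst ha
    have hℓc : ℓ.Coprime N := by
      rw [Nat.Prime.coprime_iff_not_dvd hℓ]
      exact fun h => hℓN (dvd_mul_of_dvd_right h 2)
    have h1 : D d ((i : ℕ) + 1) (T ℓ ((i : ℕ) + 1) f) = T ℓ ((i : ℕ) + 1) (D d ((i : ℕ) + 1) f) :=
      (T_D_comm hD hT hℓ hℓN hd ((i : ℕ) + 1) f).symm
    rw [h1, an_hecke hT hℓ hℓN]
    apply add_mem (hf d hd _)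
    split_ifs with hdiv
    · apply mul_mem
      · have : (ℓ : ℂ) ^ (((((i : ℕ) + 1 : ℕ)) : ℤ) - 1) = ((ℓ ^ (i : ℕ) : ℕ) : ℂ) := by
          rw [Nat.cast_add, Nat.cast_one, add_sub_cancel_right, zpow_natCast, Nat.cast_pow]
        rw [this]
        exact natCast_mem O _
      · exact D_D_mem hD hf hd hℓc _
    · exact zero_mem _
  · subst ha
    have hℓc : ℓ.Coprime N := by
      rw [Nat.Prime.coprime_iff_not_dvd hℓ]
      exact fun h => hℓN (dvd_mul_of_dvd_right h 2)
    rw [LinearMap.smul_apply, map_smul, an_smul]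
    apply mul_mem
    · have : (ℓ : ℂ) ^ (i : ℕ) = ((ℓ ^ (i : ℕ) : ℕ) : ℂ) := by rw [Nat.cast_pow]
      rw [this]
      exact natCast_mem O _
    · exact D_D_mem hD hf hℓc hd _


end Crest.Agent.R007.Fin
end

-- ▼ part R007/Fin3
section

/-!
Row 7 (S0007), section B, node FIN: from the rational structure and bounded denominators.
-/

set_option autoImplicit false

namespace Crest.Agent.R007.Fin

open Crest.NumberTheoryR.HeckeTwoAdic Crest.Agent.R007.Op
open scoped TensorProduct MatrixGroups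
open CongruenceSubgroup

/-- the rational numbers with odd denominator, in `ℂ` -/
def Z2C : Subring ℂ where
  carrier := {z | ∃ a b : ℤ, Odd b ∧ (b : ℂ) * z = a}
  zero_mem' := ⟨0, 1, odd_one, by simp⟩
  one_mem' := ⟨1, 1, odd_one, by simp⟩
  add_mem' := by
    rintro x y ⟨a, b, hb, h⟩ ⟨c, d, hd, h'⟩
    refine ⟨a * d + c * b, b * d, hb.mul hd, ?_⟩
    push_cast
    linear_combination (d : ℂ) * h + (b : ℂ) * h'
  mul_mem' := by
    rintro x y ⟨a, b, hb, h⟩ ⟨c, d, hd, h'⟩
    refine ⟨a * c, b * d, hb.mul hd, ?_⟩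
    push_cast
    linear_combination (d : ℂ) * y * h + (a : ℂ) * h'
  neg_mem' := by
    rintro x ⟨a, b, hb, h⟩
    refine ⟨-a, b, hb, ?_⟩
    push_cast
    linear_combination (-1 : ℂ) * h

theorem mem_Z2C {z : ℂ} : z ∈ Z2C ↔ ∃ a b : ℤ, Odd b ∧ (b : ℂ) * z = a := Iff.rfl

theorem Z2C_twoFG : TwoFG Z2C := by
  refine ⟨{1}, fun x => ?_⟩
  obtain ⟨a, b, hb, h⟩ := x.2
  refine ⟨b, hb, ?_⟩
  have h1 : b • x = a • (1 : Z2C) := by
    apply Subtype.ext
    rw [AddSubgroupClass.coe_zsmul, AddSubgroupClass.coe_zsmul, zsmul_eq_mul, zsmul_eq_mul, h]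
    simp
  rw [h1]
  exact Submodule.smul_mem _ _ (Submodule.subset_span (by simp))

/-- bounded denominators (at 2) of rational forms, at all diamond translates -/
def BddDen (N : ℕ) [NeZero N] : Prop :=
  ∀ (i : ℕ) (f : MF N i),
    (∀ (g : SL(2, ℤ)) (hg : g ∈ Gamma0 N) (n : ℕ), an (Dop N i g hg f) n ∈ (⊥ : Subfield ℂ)) →
    ∃ r : ℕ, ∀ (g : SL(2, ℤ)) (hg : g ∈ Gamma0 N) (n : ℕ),
      (2 : ℂ) ^ r * an (Dop N i g hg f) n ∈ Z2C

variable {N : ℕ} [NeZero N] {T D : ℕ → (i : ℕ) → (MF N i →ₗ[ℂ] MF N i)}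

theorem span_Lam (hD : IsDiamondFamily N D) (hbd : BddDen N) (i : ℕ) :
    Submodule.span ℂ ((Lam Z2C D i : AddSubgroup _) : Set (MF N i)) = ⊤ := by
  rw [eq_top_iff, ← Rat.span_rat N i, Submodule.span_le]
  intro f hf
  obtain ⟨r, hr⟩ := hbd i f hf
  have h1 : ((2 : ℂ) ^ r) • f ∈ Lam Z2C D i := by
    intro d hd n
    obtain ⟨g, hg⟩ := exists_isDiam hd
    have h2 : D d i (((2 : ℂ) ^ r) • f) = Dop N i g hg.1 (((2 : ℂ) ^ r) • f) := by
      apply DFunLike.coe_injective
      exact hD d i g hg.1 hg.2 _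
    rw [h2, map_smul, an_smul]
    exact hr g hg.1 n
  have h3 : f = ((2 : ℂ) ^ r)⁻¹ • (((2 : ℂ) ^ r) • f) := by
    rw [smul_smul, inv_mul_cancel₀ (pow_ne_zero _ two_ne_zero), one_smul]
  rw [h3]
  exact Submodule.smul_mem _ _ (Submodule.subset_span h1)

/-- the stage is finitely generated up to odd multiples -/
theorem stage_twoFG_of_bdd (hD : IsDiamondFamily N D) (hT : IsHeckeFamily N T D)
    (hbd : BddDen N) (k : ℕ) : TwoFG (stage N T D k) := by
  have : ∀ i, FiniteDimensional ℂ (MF N i) := fun i => Rat.finite_MF N i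
  exact stage_twoFG (fun i => Lam Z2C D ((i : ℕ) + 1)) (fun i => Lam_twoFG hD Z2C Z2C_twoFG _)
    (fun i => span_Lam hD hbd _) (Lam_stable hD hT Z2C)

/-- **FIN**: `ℤ₂ ⊗ stage` is finite over `ℤ₂`. -/
theorem finite_stage (hD : IsDiamondFamily N D) (hT : IsHeckeFamily N T D)
    (hbd : BddDen N) (k : ℕ) : Module.Finite ℤ_[2] (ℤ_[2] ⊗[ℤ] (stage N T D k)) :=
  (stage_twoFG_of_bdd hD hT hbd k).finite_tensor

end Crest.Agent.R007.Fin
end

-- ▼ part R007/LiftTwo
section

/-! Row 7: lifting additive maps `A → ZMod 2` to `ℤ_(2)`-valued additive maps, for `A` embedded in a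
lattice `ℤ_(2)^J`. -/

set_option autoImplicit false

namespace Crest.Agent.R007.LiftTwo

open Module

/-- the prime `(2)` of `ℤ` -/
abbrev P2 : Ideal ℤ := Ideal.span {(2 : ℤ)}

instance P2_prime : P2.IsPrime :=
  (Ideal.span_singleton_prime (by norm_num)).2 Int.prime_two

/-- `ℤ_(2)` -/
abbrev R2 : Type := Localization.AtPrime P2

theorem mem_compl {b : ℤ} : b ∈ P2.primeCompl ↔ Odd b := by
  change ¬ (b ∈ P2) ↔ _
  rw [Ideal.mem_span_singleton, ← even_iff_two_dvd, Int.not_even_iff_odd]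

instance : IsDiscreteValuationRing R2 :=
  IsLocalization.AtPrime.isDiscreteValuationRing_of_dedekind_domain ℤ
    (P := P2) (by simp) R2

/-- embedding in `ℂ` -/
noncomputable def toC : R2 →+* ℂ :=
  IsLocalization.lift (M := P2.primeCompl) (g := Int.castRingHom ℂ) (by
    rintro ⟨b, hb⟩
    rw [mem_compl] at hb
    have : (b : ℂ) ≠ 0 := by
      rintro h
      rw [Int.cast_eq_zero] at h
      subst h
      exact absurd hb (by decide)
    exact IsUnit.mk0 _ this)

/-- reduction mod 2 -/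
noncomputable def red : R2 →+* ZMod 2 :=
  IsLocalization.lift (M := P2.primeCompl) (g := Int.castRingHom (ZMod 2)) (by
    rintro ⟨b, hb⟩
    rw [mem_compl] at hb
    have : (b : ZMod 2) ≠ 0 := by
      rw [Ne, ZMod.intCast_zmod_eq_zero_iff_dvd]
      intro h
      exact (Int.not_even_iff_odd.2 hb) (even_iff_two_dvd.2 (by exact_mod_cast h))
    exact IsUnit.mk0 _ this)

theorem exists_frac (r : R2) : ∃ a b : ℤ, Odd b ∧ r * (b : R2) = (a : R2) := by
  obtain ⟨⟨a, b⟩, h⟩ := IsLocalization.surj P2.primeCompl r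
  refine ⟨a, b, mem_compl.1 b.2, ?_⟩
  simpa using h

theorem odd_cast {b : ℤ} (hb : Odd b) : ((b : ℤ) : ZMod 2) = 1 := by
  obtain ⟨c, rfl⟩ := hb
  push_cast
  have : (2 : ZMod 2) = 0 := by decide
  rw [this, zero_mul, zero_add]

theorem toC_frac (r : R2) : ∃ a b : ℤ, Odd b ∧ (b : ℂ) * toC r = a ∧ ((a : ℤ) : ZMod 2) = red r := by
  obtain ⟨a, b, hb, h⟩ := exists_frac r
  refine ⟨a, b, hb, ?_, ?_⟩
  · have h1 := congrArg toC h
    rw [map_mul, map_intCast, map_intCast, mul_comm] at h1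
    exact h1
  · have h1 := congrArg red h
    rw [map_mul, map_intCast, map_intCast, odd_cast hb, mul_one] at h1
    exact h1.symm

theorem toC_injective : Function.Injective toC := by
  rw [injective_iff_map_eq_zero]
  intro r hr
  obtain ⟨a, b, hb, h⟩ := exists_frac r
  have h1 := congrArg toC h
  rw [map_mul, hr, zero_mul, map_intCast] at h1
  have ha : a = 0 := by exact_mod_cast h1.symm
  rw [ha, Int.cast_zero] at h
  rcases mul_eq_zero.1 h with h2 | h2
  · exact h2
  · exfalso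
    have h3 := congrArg toC h2
    rw [map_intCast, map_zero, Int.cast_eq_zero] at h3
    subst h3
    exact absurd hb (by decide)

theorem exists_toC {x : ℂ} (hx : ∃ a b : ℤ, Odd b ∧ (b : ℂ) * x = a) : ∃ r, toC r = x := by
  obtain ⟨a, b, hb, h⟩ := hx
  have hb0 : (b : ℂ) ≠ 0 := by
    intro h0
    rw [Int.cast_eq_zero] at h0
    subst h0
    exact absurd hb (by decide)
  refine ⟨IsLocalization.mk' R2 a (⟨b, mem_compl.2 hb⟩ : P2.primeCompl), ?_⟩
  have h1 := IsLocalization.mk'_spec R2 a (⟨b, mem_compl.2 hb⟩ : P2.primeCompl)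
  have h2 := congrArg toC h1
  rw [map_mul] at h2
  have h3 : ∀ n : ℤ, toC (algebraMap ℤ R2 n) = n := fun n => by simp
  rw [h3, h3] at h2
  apply mul_left_cancel₀ hb0
  rw [h, ← h2, mul_comm]

theorem red_eq_zero {r : R2} (hr : red r = 0) : ∃ r', r = 2 * r' := by
  obtain ⟨a, b, hb, h⟩ := exists_frac r
  have h1 := congrArg red h
  rw [map_mul, hr, zero_mul, map_intCast] at h1
  have h2 : (2 : ℤ) ∣ a := by
    have := (ZMod.intCast_zmod_eq_zero_iff_dvd a 2).1 h1.symm
    exact_mod_cast this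
  obtain ⟨a', rfl⟩ := h2
  refine ⟨IsLocalization.mk' R2 a' (⟨b, mem_compl.2 hb⟩ : P2.primeCompl), ?_⟩
  have h3 := IsLocalization.mk'_spec R2 a' (⟨b, mem_compl.2 hb⟩ : P2.primeCompl)
  have h4 : r * (b : R2) = (2 * IsLocalization.mk' R2 a' (⟨b, mem_compl.2 hb⟩ : P2.primeCompl)) * (b : R2) := by
    rw [h, mul_assoc]
    have : (IsLocalization.mk' R2 a' (⟨b, mem_compl.2 hb⟩ : P2.primeCompl)) * (b : R2) = (a' : R2) := by
      simpa using h3
    rw [this]
    push_cast
    ring
  have hb0 : (b : R2) ≠ 0 := by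
    intro h0
    have h5 := congrArg toC h0
    rw [map_intCast, map_zero, Int.cast_eq_zero] at h5
    subst h5
    exact absurd hb (by decide)
  exact mul_right_cancel₀ hb0 h4

/-- **Lifting.** -/
theorem exists_lift {A J : Type*} [AddCommGroup A] [Finite J] (Θ : A →+ (J → ℂ))
    (hinj : Function.Injective Θ)
    (hint : ∀ s j, ∃ a b : ℤ, Odd b ∧ (b : ℂ) * Θ s j = a) (φ : A →+ ZMod 2) :
    ∃ ψ : A →+ ℂ, ∀ s, ∃ a b : ℤ, Odd b ∧ (b : ℂ) * ψ s = a ∧ ((a : ℤ) : ZMod 2) = φ s := by
  classical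
  choose θ hθ using fun s j => exists_toC (hint s j)
  let Θ' : A →+ (J → R2) :=
    { toFun := θ
      map_zero' := by
        funext j
        apply toC_injective
        rw [hθ, map_zero]; simp
      map_add' := fun s t => by
        funext j
        apply toC_injective
        rw [Pi.add_apply, map_add, hθ, hθ, hθ, map_add]; rfl }
  have hinj' : Function.Injective Θ' := by
    intro s t hst
    apply hinj
    funext j
    rw [← hθ, ← hθ]
    exact congrArg toC (congrFun hst j)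
  let M : Submodule R2 (J → R2) := Submodule.span R2 (Set.range Θ')
  obtain ⟨n, ⟨e⟩⟩ := Submodule.nonempty_basis_of_pid (Pi.basisFun R2 J) M
  let m : A →+ M :=
    { toFun := fun s => ⟨Θ' s, Submodule.subset_span ⟨s, rfl⟩⟩
      map_zero' := Subtype.ext (map_zero Θ')
      map_add' := fun s t => Subtype.ext (map_add Θ' s t) }
  have hz : ∀ (c : ℤ) (a : A), Θ' (c • a) = (c : R2) • Θ' a := fun c a => by
    rw [map_zsmul]
    exact (Int.cast_smul_eq_zsmul R2 c (Θ' a)).symm
  -- odd multiples of elements of `M` come from `A`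
  have hM : ∀ x ∈ M, ∃ c : ℤ, Odd c ∧ ∃ a : A, (c : R2) • x = Θ' a := by
    intro x hx
    induction hx using Submodule.span_induction with
    | mem x hx =>
      obtain ⟨a, rfl⟩ := hx
      exact ⟨1, odd_one, a, by rw [Int.cast_one, one_smul]⟩
    | zero => exact ⟨1, odd_one, 0, by simp⟩
    | add x y _ _ hx hy =>
      obtain ⟨c, hc, a, ha⟩ := hx
      obtain ⟨d, hd, b, hb⟩ := hy
      refine ⟨c * d, hc.mul hd, d • a + c • b, ?_⟩
      rw [map_add, hz, hz, ← ha, ← hb, smul_add, smul_smul, smul_smul, ← Int.cast_mul,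
        ← Int.cast_mul, mul_comm d c]
    | smul r x _ hx =>
      obtain ⟨c, hc, a, ha⟩ := hx
      obtain ⟨p, q, hq, hpq⟩ := exists_frac r
      refine ⟨c * q, hc.mul hq, p • a, ?_⟩
      rw [hz, ← ha, smul_smul, smul_smul, ← hpq]
      congr 1
      push_cast
      ring
  -- reduced coordinates
  let ρ : A →+ (Fin n → ZMod 2) :=
    { toFun := fun s j => red (e.repr (m s) j)
      map_zero' := by funext j; simp
      map_add' := fun s t => by funext j; simp }
  have hρ : ∀ s, ρ s = 0 → φ s = 0 := by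
    intro s hs
    have h1 : ∀ j, ∃ r', e.repr (m s) j = 2 * r' := fun j => red_eq_zero (congrFun hs j)
    choose r' hr' using h1
    have h2 : m s = (2 : R2) • (∑ j, r' j • e j) := by
      rw [Finset.smul_sum]
      conv_lhs => rw [← e.sum_repr (m s)]
      refine Finset.sum_congr rfl fun j _ => ?_
      rw [hr' j, smul_smul]
    obtain ⟨c, hc, a, ha⟩ := hM _ (∑ j, r' j • e j : M).2
    have h3 : Θ' (c • s) = Θ' (a + a) := by
      rw [hz, map_add, ← ha]
      have h4 := congrArg Subtype.val h2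
      change Θ' s = (2 : R2) • ((∑ j, r' j • e j : M) : J → R2) at h4
      rw [h4, smul_smul, ← two_smul R2, smul_smul, mul_comm]
    have h5 := congrArg φ (hinj' h3)
    rw [map_zsmul, map_add, zsmul_eq_mul, odd_cast hc, one_mul] at h5
    rw [h5, ← two_mul]
    have : (2 : ZMod 2) = 0 := by decide
    rw [this, zero_mul]
  -- the functional
  let G : Submodule (ZMod 2) ((Fin n → ZMod 2) × ZMod 2) :=
    AddSubgroup.toZModSubmodule 2 (ρ.prod φ).range
  have hG : ((0, 1) : (Fin n → ZMod 2) × ZMod 2) ∉ G := by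
    rintro ⟨s, hs⟩
    have h1 : ρ s = 0 := congrArg Prod.fst hs
    have h2 : φ s = 1 := congrArg Prod.snd hs
    rw [hρ s h1] at h2
    exact absurd h2 (by decide)
  obtain ⟨f, hf1, hf2⟩ := Submodule.exists_le_ker_of_notMem hG
  have hf3 : f (0, 1) = 1 := by
    have : ∀ z : ZMod 2, z ≠ 0 → z = 1 := by decide
    exact this _ hf1
  have hf4 : ∀ s, φ s = f (ρ s, 0) := by
    intro s
    have h1 : f (ρ s, φ s) = 0 := hf2 (show (ρ s, φ s) ∈ G from ⟨s, rfl⟩)
    have h2 : ((ρ s, φ s) : (Fin n → ZMod 2) × ZMod 2) = (ρ s, 0) + φ s • ((0, 1) : (Fin n → ZMod 2) × ZMod 2) := by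
      ext <;> simp
    rw [h2, map_add, map_smul, hf3, smul_eq_mul, mul_one] at h1
    have : ∀ x y : ZMod 2, x + y = 0 → y = x := by decide
    exact this _ _ h1
  let ℓ : Fin n → ℕ := fun j => (f (Pi.single j 1, 0)).val
  have hf5 : ∀ w : Fin n → ZMod 2, f (w, 0) = ∑ j, w j * (ℓ j : ZMod 2) := by
    intro w
    have h1 : ((w, 0) : (Fin n → ZMod 2) × ZMod 2) = ∑ j, w j • ((Pi.single j 1, 0) : (Fin n → ZMod 2) × ZMod 2) := by
      ext i
      · simp [Prod.fst_sum, Finset.sum_apply, Pi.single_apply]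
      · simp [Prod.snd_sum]
    rw [h1, map_sum]
    refine Finset.sum_congr rfl fun j _ => ?_
    rw [map_smul, smul_eq_mul, ZMod.natCast_zmod_val]
  let ψ : A →+ R2 :=
    { toFun := fun s => ∑ j, e.repr (m s) j * (ℓ j : R2)
      map_zero' := by simp
      map_add' := fun s t => by
        rw [← Finset.sum_add_distrib]
        refine Finset.sum_congr rfl fun j _ => ?_
        rw [map_add, map_add, Finsupp.add_apply]
        ring }
  refine ⟨toC.toAddMonoidHom.comp ψ, fun s => ?_⟩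
  obtain ⟨a, b, hb, h1, h2⟩ := toC_frac (ψ s)
  refine ⟨a, b, hb, h1, ?_⟩
  rw [h2, hf4, hf5]
  change red (∑ j, e.repr (m s) j * (ℓ j : R2)) = _
  rw [map_sum]
  refine Finset.sum_congr rfl fun j _ => ?_
  rw [map_mul, map_natCast]
  rfl

end Crest.Agent.R007.LiftTwo
end

-- ▼ part R007/I1

/-! Row 7, node (I1): every additive map `stage → ZMod 2` is the reduction of
`s ↦ a₁(s F)` with `F` a tuple of forms with rational coefficients and `a₁(s F) ∈ ℤ_(2)`. -/

set_option autoImplicit false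

namespace Crest.Agent.R007.Realise

open Matrix UpperHalfPlane ModularForm CongruenceSubgroup Matrix.SpecialLinearGroup
open scoped MatrixGroups ModularForm Manifold Pointwise
open Crest.NumberTheoryR.HeckeTwoAdic
open Crest.Agent.R007.Op

variable {N : ℕ} [NeZero N] {k : ℕ}

/-- all coefficients of `f` and of its diamond translates lie in the subring `S` -/
def IsS (S : Subring ℂ) (f : MF N k) : Prop :=
  ∀ (g : SL(2, ℤ)) (hg : g ∈ Gamma0 N) (n : ℕ), Op.an (Dop N k g hg f) n ∈ S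

theorem IsS.an {S : Subring ℂ} {f : MF N k} (hf : IsS S f) (n : ℕ) : Op.an f n ∈ S := by
  have h := hf 1 (Gamma0 N).one_mem n
  rwa [Dop_one] at h

theorem IsS.zero (S : Subring ℂ) : IsS S (0 : MF N k) := fun g hg n => by
  rw [map_zero, an_zero']; exact S.zero_mem

theorem IsS.add {S : Subring ℂ} {f f' : MF N k} (hf : IsS S f) (hf' : IsS S f') :
    IsS S (f + f') := fun g hg n => by
  rw [map_add, an_add]; exact S.add_mem (hf g hg n) (hf' g hg n)

theorem IsS.smul {S : Subring ℂ} {c : ℂ} (hc : c ∈ S) {f : MF N k} (hf : IsS S f) :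
    IsS S (c • f) := fun g hg n => by
  rw [map_smul, an_smul]; exact S.mul_mem hc (hf g hg n)

theorem IsS.neg {S : Subring ℂ} {f : MF N k} (hf : IsS S f) : IsS S (-f) := by
  have := hf.smul (S.neg_mem S.one_mem)
  simpa using this

theorem IsS.sum {S : Subring ℂ} {ι : Type*} (s : Finset ι) (f : ι → MF N k)
    (h : ∀ i ∈ s, IsS S (f i)) : IsS S (∑ i ∈ s, f i) := by
  classical
  induction s using Finset.induction_on with
  | empty => simpa using IsS.zero S
  | insert i s hi ih =>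
    rw [Finset.sum_insert hi]
    exact (h i (Finset.mem_insert_self _ _)).add (ih fun j hj => h j (Finset.mem_insert_of_mem hj))

theorem IsS.dop {S : Subring ℂ} {f : MF N k} (hf : IsS S f) {g : SL(2, ℤ)} (hg : g ∈ Gamma0 N) :
    IsS S (Dop N k g hg f) := fun g' hg' n => by
  rw [Dop_mul hg hg' ((Gamma0 N).mul_mem hg hg')]
  exact hf _ _ n

theorem IsS.top {S : Subring ℂ} {i : ℕ} {f : MF N (i + 1)} (hf : IsS S f) {l : ℕ} (hl : l.Prime)
    (hN : ¬ l ∣ N) {g : SL(2, ℤ)} (hg : IsDiam N l g) : IsS S (Top N (i + 1) l hl hN g hg f) :=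
  fun g' hg' n => by
    rw [Top_Dop hl hN hg hg', an_Top]
    refine S.add_mem (hf _ _ _) ?_
    split_ifs
    · refine S.mul_mem ?_ ?_
      · have : ((l : ℂ)) ^ (((i + 1 : ℕ) : ℤ) - 1) = (l : ℂ) ^ i := by
          rw [show (((i + 1 : ℕ) : ℤ) - 1) = (i : ℤ) by push_cast; ring, zpow_natCast]
        rw [this]
        exact pow_mem (natCast_mem S l) _
      · exact (hf.dop hg').dop hg.1 |>.an _
    · exact S.zero_mem

section stage

variable {T D : ℕ → (i : ℕ) → (MF N i →ₗ[ℂ] MF N i)}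

theorem stage_isS (S : Subring ℂ) (hD : IsDiamondFamily N D) (hT : IsHeckeFamily N T D) {k : ℕ}
    {a : EndProd N k} (ha : a ∈ stage N T D k) :
    ∀ (i : Fin k) (f : MF N ((i : ℕ) + 1)), IsS S f → IsS S (a i f) := by
  unfold stage at ha
  induction ha using Subring.closure_induction with
  | mem x hx =>
    obtain ⟨l, hl, h2, hx⟩ := hx
    have hN : ¬ l ∣ N := fun h => h2 (h.mul_left 2)
    obtain ⟨g, hg⟩ := exists_isDiam ((Nat.Prime.coprime_iff_not_dvd hl).mpr hN)
    rcases hx with rfl | rfl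
    · intro i f hf
      change IsS S (T l ((i : ℕ) + 1) f)
      rw [T_eq_Top hD hT hl h2 hN hg]
      exact hf.top hl hN hg
    · intro i f hf
      change IsS S (((l : ℂ) ^ (i : ℕ)) • D l ((i : ℕ) + 1) f)
      rw [D_eq_Dop hD hg]
      exact (hf.dop hg.1).smul (pow_mem (natCast_mem S l) _)
  | zero => exact fun i f _ => IsS.zero S
  | one => exact fun i f hf => hf
  | add x y _ _ hx hy => exact fun i f hf => (hx i f hf).add (hy i f hf)
  | neg x _ hx => exact fun i f hf => (hx i f hf).neg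
  | mul x y _ _ hx hy => exact fun i f hf => hx i _ (hy i f hf)

/-- `ℤ_(2)` inside `ℂ` -/
def Z2 : Subring ℂ where
  carrier := {x | ∃ a b : ℤ, Odd b ∧ (b : ℂ) * x = a}
  zero_mem' := ⟨0, 1, odd_one, by simp⟩
  one_mem' := ⟨1, 1, odd_one, by simp⟩
  add_mem' := by
    rintro x y ⟨a, b, hb, h⟩ ⟨c, d, hd, h'⟩
    refine ⟨a * d + c * b, b * d, hb.mul hd, ?_⟩
    push_cast
    linear_combination (d : ℂ) * h + (b : ℂ) * h'
  mul_mem' := by
    rintro x y ⟨a, b, hb, h⟩ ⟨c, d, hd, h'⟩
    refine ⟨a * c, b * d, hb.mul hd, ?_⟩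
    push_cast
    linear_combination ((d : ℂ) * y) * h + (a : ℂ) * h'
  neg_mem' := by
    rintro x ⟨a, b, hb, h⟩
    refine ⟨-a, b, hb, ?_⟩
    push_cast
    linear_combination -h


/-- bounded denominators at `2` of rational forms of level `Γ₁(N)` -/
def BDen (N : ℕ) [NeZero N] : Prop :=
  ∀ (i : ℕ) (f : MF N i), IsK ⊥ f → ∃ r : ℕ, ∀ (g : SL(2, ℤ)) (hg : g ∈ Gamma0 N) (n : ℕ),
    ∃ a b : ℤ, Odd b ∧ (b : ℂ) * (2 ^ r * Op.an (Dop N i g hg f) n) = a

/-- a lattice containing the Hecke algebra: an embedding of `stage` in `ℤ_(2)^J`, `J` finite,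
given by `a₁(s f)` for finitely many forms `f` with rational coefficients. -/
theorem exists_embedding (hfin : ∀ i, FiniteDimensional ℂ (MF N i))
    (hD : IsDiamondFamily N D) (hT : IsHeckeFamily N T D)
    (hspan : ∀ i, Submodule.span ℂ {f : MF N i | IsK ⊥ f} = ⊤) (hbd : BDen N) (k : ℕ) :
    ∃ (J : Type) (_ : Finite J) (Θ : stage N T D k →+ (J → ℂ)), Function.Injective Θ ∧
      ∀ s j, Θ s j ∈ Z2 := by
  classical
  have hfg : ∀ i : Fin k, ∃ S : Finset (MF N ((i : ℕ) + 1)),
      (↑S ⊆ {f : MF N ((i : ℕ) + 1) | IsK ⊥ f}) ∧ Submodule.span ℂ (S : Set (MF N ((i : ℕ) + 1))) = ⊤ := by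
    intro i
    have := hfin ((i : ℕ) + 1)
    have h1 : (Submodule.span ℂ {f : MF N ((i : ℕ) + 1) | IsK ⊥ f}).FG := by
      rw [hspan _]; exact Module.Finite.fg_top
    rw [Submodule.fg_span_iff_fg_span_finset_subset] at h1
    obtain ⟨S, hS, hS2⟩ := h1
    exact ⟨S, hS, by rw [← hS2, hspan _]⟩
  choose S hS hS2 using hfg
  choose r hr using fun (i : Fin k) (x : {x // x ∈ S i}) => hbd ((i : ℕ) + 1) x.1 (hS i x.2)
  let J := Σ i : Fin k, {x // x ∈ S i}
  let fj : ∀ j : J, MF N ((j.1 : ℕ) + 1) := fun j => ((2 : ℂ) ^ r j.1 j.2) • (j.2 : MF N ((j.1 : ℕ) + 1))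
  have hfj : ∀ j : J, IsS Z2 (fj j) := by
    intro j g hg n
    rw [map_smul, an_smul]
    exact hr j.1 j.2 g hg n
  let Θ : stage N T D k →+ (J → ℂ) :=
    { toFun := fun s j => Op.an ((s : EndProd N k) j.1 (fj j)) 1
      map_zero' := by
        funext j
        change Op.an ((0 : Module.End ℂ (MF N ((j.1 : ℕ) + 1))) _) 1 = 0
        rw [LinearMap.zero_apply, an_zero']
      map_add' := by
        intro s t
        funext j
        change Op.an (((s : EndProd N k) j.1 + (t : EndProd N k) j.1) _) 1 = _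
        rw [LinearMap.add_apply, an_add]; rfl }
  refine ⟨J, inferInstance, Θ, ?_, ?_⟩
  · rw [injective_iff_map_eq_zero]
    intro s hs
    apply Subtype.ext
    apply left_nondeg hD hT (Submodule.subset_span s.2)
    intro F
    refine Finset.sum_eq_zero fun i _ => ?_
    have h1 : ∀ f : MF N ((i : ℕ) + 1), Op.an ((s : EndProd N k) i f) 1 = 0 := by
      intro f
      have hf : f ∈ Submodule.span ℂ (S i : Set (MF N ((i : ℕ) + 1))) := by
        rw [hS2]; trivial
      induction hf using Submodule.span_induction with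
      | mem x hx =>
        have h2 : Op.an ((s : EndProd N k) i (((2 : ℂ) ^ r i ⟨x, hx⟩) • x)) 1 = 0 :=
          congrFun hs ⟨i, x, hx⟩
        rw [map_smul, an_smul] at h2
        rcases mul_eq_zero.1 h2 with h3 | h3
        · exact absurd h3 (pow_ne_zero _ two_ne_zero)
        · exact h3
      | zero => rw [map_zero, an_zero']
      | add x y _ _ hx hy => rw [map_add, an_add, hx, hy, add_zero]
      | smul c x _ hx => rw [map_smul, an_smul, hx, mul_zero]
    exact h1 _
  · intro s j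
    exact (stage_isS Z2 hD hT s.2 j.1 _ (hfj j)).an 1

/-- **(I1)** -/
theorem exists_I1 (hfin : ∀ i, FiniteDimensional ℂ (MF N i))
    (hD : IsDiamondFamily N D) (hT : IsHeckeFamily N T D)
    (hspan : ∀ i, Submodule.span ℂ {f : MF N i | IsK ⊥ f} = ⊤) (hbd : BDen N) {k : ℕ}
    (φ : stage N T D k →+ ZMod 2) :
    ∃ F : (i : Fin k) → MF N ((i : ℕ) + 1), (∀ i, IsK ⊥ (F i)) ∧
      ∀ s : stage N T D k, ∃ a b : ℤ, Odd b ∧
        (b : ℂ) * ∑ i : Fin k, Op.an ((s : EndProd N k) i (F i)) 1 = a ∧ ((a : ℤ) : ZMod 2) = φ s := by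
  obtain ⟨J, hJ, Θ, hΘ, hint⟩ := exists_embedding hfin hD hT hspan hbd k
  obtain ⟨ψ, hψ⟩ := LiftTwo.exists_lift Θ hΘ hint φ
  obtain ⟨F, hF, hFψ⟩ := realise hfin hD hT (fun i => hspan _) ⊥ ψ (by
    intro s
    obtain ⟨a, b, hb, h, _⟩ := hψ s
    rw [mem_bot_iff]
    refine ⟨a / b, ?_⟩
    have hb0 : (b : ℂ) ≠ 0 := by
      intro h0
      rw [Int.cast_eq_zero] at h0
      subst h0
      exact absurd hb (by decide)
    push_cast
    rw [← h]
    field_simp)
  refine ⟨F, hF, fun s => ?_⟩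
  obtain ⟨a, b, hb, h1, h2⟩ := hψ s
  exact ⟨a, b, hb, by rw [← hFψ s]; exact h1, h2⟩

end stage

end Crest.Agent.R007.Realise
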