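import Mathlib
import Crest.Agent.R007.RatRing
import Crest.Agent.R007.RatDesc

-- ▼ part R007/RatDiv
section

/-!
Row 7 (S0007), section A: division of holomorphic functions on the upper half plane
and the bound for roots of monic polynomials.
-/

set_option autoImplicit false

noncomputable section

namespace Crest.Agent.R007.Rat

open UpperHalfPlane Filter Topology
open scoped Manifold

/-- If `|u| ≤ B |v|` with `B` continuous, `v ≠ 0`, then `u = w v` with `w` holomorphic. -/
theorem exists_div {u v : ℍ → ℂ} (hu : MDiff u) (hv : MDiff v) (hv0 : v ≠ 0) {B : ℍ → ℝ}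
    (hB : Continuous B) (h : ∀ τ, ‖u τ‖ ≤ B τ * ‖v τ‖) :
    ∃ w : ℍ → ℂ, MDiff w ∧ u = w * v := by
  classical
  have hu' := UpperHalfPlane.mdifferentiable_iff.mp hu
  have hv' := UpperHalfPlane.mdifferentiable_iff.mp hv
  have hopen : IsOpen {z : ℂ | 0 < z.im} := isOpen_upperHalfPlaneSet
  set f : ℂ → ℂ := fun z => (u ∘ ofComplex) z / (v ∘ ofComplex) z with hf
  set W : ℂ → ℂ := fun z => limUnder (𝓝[≠] z) f with hW
  -- differentiability of f away from zeros of v
  have hfd : ∀ z : ℂ, 0 < z.im → (v ∘ ofComplex) z ≠ 0 → DifferentiableAt ℂ f z := by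
    intro z hz hvz
    exact ((hu' z hz).differentiableAt (hopen.mem_nhds hz)).div
      ((hv' z hz).differentiableAt (hopen.mem_nhds hz)) hvz
  have hWf : ∀ z : ℂ, 0 < z.im → (v ∘ ofComplex) z ≠ 0 → W z = f z := by
    intro z hz hvz
    have hc : Tendsto f (𝓝[≠] z) (𝓝 (f z)) :=
      (hfd z hz hvz).continuousAt.tendsto.mono_left nhdsWithin_le_nhds
    exact hc.limUnder_eq
  have hWd : ∀ z : ℂ, 0 < z.im → DifferentiableAt ℂ W z := by
    intro z hz
    -- v is nonzero in a punctured neighbourhood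
    have h1 : ∀ᶠ y in 𝓝[≠] (⟨z, hz⟩ : ℍ), v y ≠ 0 := by
      by_contra hcon
      rw [Filter.not_eventually] at hcon
      exact hv0 (eq_zero_of_frequently hv (hcon.mono fun y hy => not_not.mp hy))
    have h2 : ∀ᶠ y in 𝓝[≠] z, (v ∘ ofComplex) y ≠ 0 := by
      rw [eventually_nhdsWithin_iff] at h1 ⊢
      have h3 : ∀ᶠ y in 𝓝 z, y ∈ {y : ℂ | 0 < y.im} := hopen.mem_nhds hz
      have h4 : Tendsto ofComplex (𝓝 z) (𝓝 (⟨z, hz⟩ : ℍ)) := by
        have := (contMDiffAt_ofComplex (n := 0) hz).continuousAt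
        have h5 : ofComplex z = ⟨z, hz⟩ := ofComplex_apply_of_im_pos hz
        rw [ContinuousAt, h5] at this
        exact this
      filter_upwards [h3, h4.eventually h1] with y hy1 hy2 hy3
      apply hy2
      intro h6
      apply hy3
      rw [ofComplex_apply_of_im_pos hy1] at h6
      have := congrArg (fun τ : ℍ => (τ : ℂ)) h6
      simpa using this
    -- bound for B
    have h3 : ∀ᶠ y in 𝓝 z, y ∈ {y : ℂ | 0 < y.im} := hopen.mem_nhds hz
    have h4 : ContinuousAt (B ∘ ofComplex) z :=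
      hB.continuousAt.comp (contMDiffAt_ofComplex (n := 0) hz).continuousAt
    have h5 : ∀ᶠ y in 𝓝 z, (B ∘ ofComplex) y < (B ∘ ofComplex) z + 1 :=
      h4.eventually_lt continuousAt_const (by linarith)
    have h6 := eventually_nhdsWithin_iff.mp h2
    obtain ⟨s, hs, hsz⟩ := Filter.eventually_iff_exists_mem.mp (h3.and (h5.and h6))
    have hd : DifferentiableOn ℂ f (s \ {z}) := by
      intro y hy
      exact (hfd y (hsz y hy.1).1 ((hsz y hy.1).2.2 hy.2)).differentiableWithinAt
    have hb : BddAbove (norm ∘ f '' (s \ {z})) := by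
      refine ⟨(B ∘ ofComplex) z + 1, ?_⟩
      rintro _ ⟨y, hy, rfl⟩
      obtain ⟨hy1, hy2, hy3⟩ := hsz y hy.1
      have hvy := hy3 hy.2
      simp only [Function.comp_apply, hf, norm_div]
      have hpos : 0 < ‖v (ofComplex y)‖ := norm_pos_iff.mpr hvy
      rw [div_le_iff₀ hpos]
      refine (h _).trans ?_
      exact mul_le_mul_of_nonneg_right hy2.le (norm_nonneg _)
    have hg := Complex.differentiableOn_update_limUnder_of_bddAbove hs hd hb
    have hg' : DifferentiableAt ℂ (Function.update f z (limUnder (𝓝[≠] z) f)) z :=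
      hg.differentiableAt hs
    refine hg'.congr_of_eventuallyEq ?_
    filter_upwards [hs] with y hy
    by_cases hyz : y = z
    · subst hyz
      simp [hW]
    · rw [Function.update_of_ne hyz]
      exact hWf y (hsz y hy).1 ((hsz y hy).2.2 hyz)
  refine ⟨fun τ => W τ, ?_, ?_⟩
  · rw [UpperHalfPlane.mdifferentiable_iff]
    intro z hz
    refine (DifferentiableAt.congr_of_eventuallyEq (hWd z hz) ?_).differentiableWithinAt
    filter_upwards [hopen.mem_nhds hz] with y hy
    simp only [Function.comp_apply]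
    rw [ofComplex_apply_of_im_pos hy]
  · ext τ
    by_cases hvt : v τ = 0
    · have := h τ
      rw [hvt] at this
      simp only [norm_zero, mul_zero, norm_le_zero_iff] at this
      simp [this, hvt]
    · have h1 : (v ∘ ofComplex) (τ : ℂ) ≠ 0 := by simpa using hvt
      have := hWf τ τ.im_pos h1
      simp only [Pi.mul_apply]
      rw [this]
      simp only [hf, Function.comp_apply, ofComplex_apply]
      field_simp

/-- root bound -/
lemma root_bound (n : ℕ) (hn : 0 < n) (e : ℕ → ℂ) (he : e 0 = 1) (x d : ℂ)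
    (h : ∑ i ∈ Finset.range (n + 1), e i * d ^ i * x ^ (n - i) = 0) :
    ‖x‖ ≤ (1 + ∑ i ∈ Finset.range (n + 1), ‖e i‖) * ‖d‖ := by
  set S := ∑ i ∈ Finset.range (n + 1), ‖e i‖ with hS
  have hSnn : 0 ≤ S := Finset.sum_nonneg fun _ _ => norm_nonneg _
  by_contra hcon
  push Not at hcon
  have hxpos : 0 < ‖x‖ := lt_of_le_of_lt (by positivity) hcon
  have hdx : ‖d‖ ≤ ‖x‖ := by
    refine le_trans ?_ hcon.le
    nlinarith [norm_nonneg d]
  rw [Finset.sum_range_succ'] at h
  simp only [pow_zero, mul_one, he, Nat.sub_zero, one_mul] at h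
  have h1 : x ^ n = - ∑ i ∈ Finset.range n, e (i + 1) * d ^ (i + 1) * x ^ (n - (i + 1)) := by
    linear_combination h
  have h2 : ‖x‖ ^ n ≤ ∑ i ∈ Finset.range n, ‖e (i + 1)‖ * (‖d‖ * ‖x‖ ^ (n - 1)) := by
    rw [← norm_pow, h1, norm_neg]
    refine (norm_sum_le _ _).trans (Finset.sum_le_sum fun i hi => ?_)
    rw [Finset.mem_range] at hi
    rw [norm_mul, norm_mul, norm_pow, norm_pow, mul_assoc]
    refine mul_le_mul_of_nonneg_left ?_ (norm_nonneg _)
    rw [pow_succ' ‖d‖ i, mul_assoc]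
    refine mul_le_mul_of_nonneg_left ?_ (norm_nonneg _)
    calc ‖d‖ ^ i * ‖x‖ ^ (n - (i + 1)) ≤ ‖x‖ ^ i * ‖x‖ ^ (n - (i + 1)) :=
          mul_le_mul_of_nonneg_right (pow_le_pow_left₀ (norm_nonneg _) hdx i) (by positivity)
      _ = ‖x‖ ^ (n - 1) := by rw [← pow_add]; congr 1; omega
  rw [← Finset.sum_mul] at h2
  have h3 : ∑ i ∈ Finset.range n, ‖e (i + 1)‖ ≤ S := by
    rw [hS, Finset.sum_range_succ']
    linarith [norm_nonneg (e 0)]
  have h4 : ‖x‖ ^ n = ‖x‖ * ‖x‖ ^ (n - 1) := by
    rw [← pow_succ']; congr 1; omega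
  rw [h4] at h2
  have hp : 0 < ‖x‖ ^ (n - 1) := by positivity
  have h5 : ‖x‖ * ‖x‖ ^ (n - 1) ≤ (S * ‖d‖) * ‖x‖ ^ (n - 1) := by
    refine h2.trans ?_
    rw [mul_assoc]
    exact mul_le_mul_of_nonneg_right h3 (by positivity)
  have h6 : ‖x‖ ≤ S * ‖d‖ := le_of_mul_le_mul_right h5 hp
  nlinarith [norm_nonneg d]

end Crest.Agent.R007.Rat
end
end

-- ▼ part R007/RatConj
section

/-!
Row 7 (S0007), section A: conjugates of forms are forms.
-/

set_option autoImplicit false

noncomputable section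

namespace Crest.Agent.R007.Rat

open UpperHalfPlane ModularForm CongruenceSubgroup Matrix.SpecialLinearGroup
open scoped MatrixGroups Manifold

variable {S : Subring ℂ} {M : ℕ} [NeZero M] {k l k₀ : ℤ} {θ F : ℍ → ℂ}

/-- level one forms are spanned by forms with coefficients in `S` -/
def LevelOneSpan (S : Subring ℂ) (M : ℕ) : Prop := ∀ (k : ℤ) (f : ℍ → ℂ), IsF 1 k f → f ∈ Sp S M k

omit [NeZero M] in
lemma Sp.cast {k k' : ℤ} (hk : k = k') {f : ℍ → ℂ} (hf : f ∈ Sp S M k) : f ∈ Sp S M k' := hk ▸ hf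

/-- `F δ` is a combination of forms with coefficients in `S`. -/
theorem mul_del_mem (hLO : LevelOneSpan S M) (hθ : IsR S M k₀ θ) (hF : IsF M k F) :
    F * del M k₀ θ ∈ Sp S M (k + wdel M k₀) := by
  rw [interp hθ.isF hF]
  refine Submodule.sum_mem _ fun t ht => Submodule.smul_mem _ _ ?_
  rw [Finset.mem_powerset] at ht
  have hc : t.card ≤ (nt M).card := Finset.card_le_card ht
  have h1 : θ ^ ((nt M).card - t.card) ∈ Sp S M ((((nt M).card - t.card : ℕ) : ℤ) * k₀) :=
    Submodule.subset_span (hθ.pow _)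
  have h2 : IsF M (k + (t.card : ℤ) * k₀) (F * ∏ a ∈ t, tr k₀ θ a) :=
    hF.mul (IsF.prod t _ fun a _ => hθ.isF.tr a)
  have h3 := hLO _ _ h2.Tr
  refine Sp.cast ?_ (Sp.mul h1 h3)
  rw [wdel, Nat.cast_sub hc]
  ring

/-- zero from nonvanishing factor -/
lemma eq_zero_of_mul {u v : ℍ → ℂ} (hu : MDiff u) (hv : MDiff v) (hv0 : v ≠ 0) (h : u * v = 0) : u = 0 :=
  ((UpperHalfPlane.mul_eq_zero_iff hu hv).mp h).resolve_right hv0

omit [NeZero M] in
lemma IsF.continuous {f : ℍ → ℂ} (hf : IsF M k f) : Continuous f := hf.holo.continuous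

/-- Conjugation of forms. -/
theorem exists_conj {σ : ℂ →+* ℂ} (hσ : ∀ c ∈ S, σ c = c) (hLO : LevelOneSpan S M)
    (hθ : IsR S M k₀ θ) (hD0 : del M k₀ θ ≠ 0) (hF : IsF M k F) :
    ∃ F', IsF M k F' ∧ Cj σ M (k + wdel M k₀) (F * del M k₀ θ) (F' * del M k₀ θ) := by
  classical
  set D := del M k₀ θ with hD
  set n := Fintype.card (GM M) with hn
  have hnpos : 0 < n := Fintype.card_pos
  have hDR : IsR S M (wdel M k₀) D := hθ.del
  have hDF : IsF M (wdel M k₀) D := hDR.isF
  obtain ⟨H', hH'⟩ := Sp.exists_cj hσ (mul_del_mem hLO hθ hF)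
  rw [← hD] at hH'
  -- conjugates of the symmetric functions
  have hE : ∀ i : ℕ, ∃ e, Cj σ M ((i : ℤ) * k) (esy M k F i) e := fun i =>
    Sp.exists_cj hσ (hLO _ _ (hF.esy i))
  choose E' hE' using hE
  have hE0 : E' 0 = 1 := by
    have h1 := hE' 0
    rw [esy_zero] at h1
    refine Cj.unique h1 (Cj.one.cast (by simp))
  -- the equation for H = F D
  have eq1 : ∑ i ∈ Finset.range (n + 1), ((-1 : ℂ) ^ i) •
      (esy M k F i * (D ^ i * (F * D) ^ (n - i))) = 0 := by
    have h1 := norm_root hF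
    have h2 : ∑ i ∈ Finset.range (n + 1), ((-1 : ℂ) ^ i) •
      (esy M k F i * (D ^ i * (F * D) ^ (n - i))) =
      (∑ i ∈ Finset.range (n + 1), ((-1 : ℂ) ^ i) • (esy M k F i * F ^ (n - i))) * D ^ n := by
      rw [Finset.sum_mul]
      refine Finset.sum_congr rfl fun i hi => ?_
      rw [Finset.mem_range] at hi
      rw [mul_pow, smul_mul_assoc]
      congr 1
      have : D ^ n = D ^ i * D ^ (n - i) := by rw [← pow_add]; congr 1; omega
      rw [this]; ring
    rw [h2, h1, zero_mul]
  -- conjugate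
  have hwt : ∀ i ∈ Finset.range (n + 1), ((i : ℤ) * k + ((i : ℤ) * wdel M k₀ +
      (((n - i : ℕ) : ℤ) * (k + wdel M k₀)))) = (n : ℤ) * (k + wdel M k₀) := by
    intro i hi
    rw [Finset.mem_range] at hi
    rw [Nat.cast_sub (by omega)]
    ring
  have cj1 : Cj σ M ((n : ℤ) * (k + wdel M k₀))
      (∑ i ∈ Finset.range (n + 1), ((-1 : ℂ) ^ i) • (esy M k F i * (D ^ i * (F * D) ^ (n - i))))
      (∑ i ∈ Finset.range (n + 1), (σ ((-1 : ℂ) ^ i)) • (E' i * (D ^ i * H' ^ (n - i)))) := by
    refine Cj.sum _ _ _ fun i hi => ?_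
    refine Cj.smul _ ?_
    refine ((hE' i).mul (((Cj.of_isR hσ hDR).pow i).mul (hH'.pow (n - i)))).cast (hwt i hi)
  rw [eq1] at cj1
  have eq2 := cj1.unique Cj.zero
  have eq3 : ∀ τ : ℍ, ∑ i ∈ Finset.range (n + 1), (((-1 : ℂ) ^ i) * E' i τ) * D τ ^ i * H' τ ^ (n - i) = 0 := by
    intro τ
    have := congrFun eq2 τ
    simp only [Finset.sum_apply, Pi.smul_apply, Pi.mul_apply, Pi.pow_apply, smul_eq_mul, Pi.zero_apply,
      map_pow, map_neg, map_one] at this
    rw [← this]
    refine Finset.sum_congr rfl fun i _ => by ring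
  -- bound
  have bound : ∀ τ : ℍ, ‖H' τ‖ ≤ (1 + ∑ i ∈ Finset.range (n + 1), ‖((-1 : ℂ) ^ i) * E' i τ‖) * ‖D τ‖ := by
    intro τ
    exact root_bound n hnpos (fun i => ((-1 : ℂ) ^ i) * E' i τ) (by simp [hE0]) _ _ (eq3 τ)
  have hcont : Continuous fun τ : ℍ => (1 + ∑ i ∈ Finset.range (n + 1), ‖((-1 : ℂ) ^ i) * E' i τ‖) := by
    refine continuous_const.add (continuous_finsetSum _ fun i _ => ?_)
    exact (continuous_const.mul (hE' i).right.continuous).norm
  obtain ⟨F', hF'd, hF'⟩ := exists_div hH'.right.holo hDF.holo hD0 hcont bound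
  -- F' is slash invariant and bounded
  have slash_F' : ∀ g : SL(2, ℤ), H' ∣[k + wdel M k₀] g = (F' ∣[k] g) * (D ∣[wdel M k₀] g) := by
    intro g
    rw [hF', mul_slash_SL2]
  have holoS : ∀ g : SL(2, ℤ), MDiff (F' ∣[k] g) := fun g => by
    rw [SL_slash]; exact hF'd.slash k _
  refine ⟨F', ⟨?_, hF'd, ?_⟩, ?_⟩
  · intro γ hγ
    have h1 := slash_F' γ
    rw [hH'.right.slash γ hγ, hDF.slash γ hγ, hF'] at h1
    have h2 : (F' ∣[k] γ - F') * D = 0 := by rw [sub_mul, ← h1, sub_self]
    exact sub_eq_zero.mp (eq_zero_of_mul ((holoS γ).sub hF'd) hDF.holo hD0 h2)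
  · intro g
    -- F' satisfies the conjugated norm equation
    have h1 : (∑ i ∈ Finset.range (n + 1), ((-1 : ℂ) ^ i) • (E' i * F' ^ (n - i))) * D ^ n = 0 := by
      rw [Finset.sum_mul]
      have h2 := eq2
      rw [← h2]
      refine Finset.sum_congr rfl fun i hi => ?_
      rw [Finset.mem_range] at hi
      simp only [map_pow, map_neg, map_one]
      rw [hF', mul_pow, smul_mul_assoc]
      congr 1
      have : D ^ n = D ^ i * D ^ (n - i) := by rw [← pow_add]; congr 1; omega
      rw [this]; ring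
    have hholo : MDiff (∑ i ∈ Finset.range (n + 1), ((-1 : ℂ) ^ i) • (E' i * F' ^ (n - i))) := by
      refine MDifferentiable.sum fun i _ => ?_
      exact ((hE' i).right.holo.mul (hF'd.pow _)).const_smul _
    have hDn : D ^ n ≠ 0 := by
      intro h0
      have h3 : qe M D ^ n = 0 := by rw [← qe_pow hDF, h0, qe_zero]
      exact hD0 ((qe_eq_zero_iff hDF).mp ((pow_eq_zero_iff hnpos.ne').mp h3))
    have h4 := eq_zero_of_mul hholo (hDF.pow n).holo hDn h1
    -- slash by g
    have h5 : ∑ i ∈ Finset.range (n + 1), ((-1 : ℂ) ^ i) •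
        ((E' i ∣[(i : ℤ) * k] g) * (F' ∣[k] g) ^ (n - i)) = 0 := by
      have h6 : (∑ i ∈ Finset.range (n + 1), ((-1 : ℂ) ^ i) • (E' i * F' ^ (n - i))) ∣[(n : ℤ) * k] g = 0 := by
        rw [h4, SlashAction.zero_slash]
      rw [← h6, SlashAction.sum_slash]
      refine Finset.sum_congr rfl fun i hi => ?_
      rw [Finset.mem_range] at hi
      rw [SL_smul_slash, show (n : ℤ) * k = (i : ℤ) * k + ((n - i : ℕ) : ℤ) * k by
        rw [Nat.cast_sub (by omega)]; ring, mul_slash_SL2, pow_slash']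
    have h7 : ∀ τ : ℍ, ‖(F' ∣[k] g) τ‖ ≤
        (1 + ∑ i ∈ Finset.range (n + 1), ‖((-1 : ℂ) ^ i) * (E' i ∣[(i : ℤ) * k] g) τ‖) * ‖(1 : ℂ)‖ := by
      intro τ
      refine root_bound n hnpos (fun i => ((-1 : ℂ) ^ i) * (E' i ∣[(i : ℤ) * k] g) τ) ?_ _ 1 ?_
      · simp [hE0, one_slash]
      · have := congrFun h5 τ
        simp only [Finset.sum_apply, Pi.smul_apply, Pi.mul_apply, Pi.pow_apply, smul_eq_mul,
          Pi.zero_apply] at this
        rw [← this]
        refine Finset.sum_congr rfl fun i _ => by ring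
    have h8 : ∀ i : ℕ, IsBoundedAtImInfty (E' i ∣[(i : ℤ) * k] g) := fun i => (hE' i).right.bdd g
    rw [isBoundedAtImInfty_iff]
    simp_rw [isBoundedAtImInfty_iff] at h8
    choose Mi Ai hMi using h8
    refine ⟨1 + ∑ i ∈ Finset.range (n + 1), |Mi i|, ∑ i ∈ Finset.range (n + 1), |Ai i|, fun z hz => ?_⟩
    refine (h7 z).trans ?_
    rw [norm_one, mul_one]
    refine add_le_add le_rfl (Finset.sum_le_sum fun i hi => ?_)
    rw [norm_mul, norm_pow, norm_neg, norm_one, one_pow, one_mul]
    refine (hMi i z ?_).trans (le_abs_self _)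
    refine le_trans ?_ hz
    refine (le_abs_self _).trans ?_
    exact Finset.single_le_sum (f := fun i => |Ai i|) (fun j _ => abs_nonneg _) hi
  · rw [← hF']
    exact hH'

end Crest.Agent.R007.Rat
end
end

-- ▼ part R007/RatFun
section

/-!
# Function-level modular forms for `Γ(M)` (row 7, section A)
-/

set_option autoImplicit false

namespace Crest.Agent.R007.RatAlg

open UpperHalfPlane ModularForm CongruenceSubgroup Matrix
open scoped MatrixGroups ModularForm Manifold

noncomputable section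

/-- `F : ℍ → ℂ` is a modular form of weight `k` for `Γ(M)` (holomorphic at all cusps). -/
structure IsMF (M : ℕ) (k : ℤ) (F : ℍ → ℂ) : Prop where
  holo : MDiff F
  inv : ∀ γ : SL(2, ℤ), γ ∈ Gamma M → F ∣[k] γ = F
  bdd : ∀ γ : SL(2, ℤ), IsBoundedAtImInfty (F ∣[k] γ)

variable {M : ℕ} {k k₁ k₂ : ℤ} {F G : ℍ → ℂ}

/-- the bundled modular form. -/
def IsMF.toMF [NeZero M] (h : IsMF M k F) :
    ModularForm ((Gamma M : Subgroup SL(2, ℤ)) : Subgroup (GL (Fin 2) ℝ)) k where
  toFun := F
  slash_action_eq' := by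
    rintro _ ⟨γ, hγ, rfl⟩
    exact h.inv γ hγ
  holo' := h.holo
  bdd_at_cusps' := by
    intro c hc
    rw [Subgroup.IsArithmetic.isCusp_iff_isCusp_SL2Z] at hc
    rw [OnePoint.isBoundedAt_iff_forall_SL2Z hc]
    intro γ _
    exact h.bdd γ

@[simp] theorem IsMF.coe_toMF [NeZero M] (h : IsMF M k F) : (h.toMF : ℍ → ℂ) = F := rfl


theorem mem_strictPeriods_Gamma (M : ℕ) :
    (M : ℝ) ∈ ((Gamma M : Subgroup SL(2, ℤ)) : Subgroup (GL (Fin 2) ℝ)).strictPeriods := by
  rw [Subgroup.mem_strictPeriods_iff]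
  refine ⟨ModularGroup.T ^ (M : ℤ), ?_, ?_⟩
  · simpa using ModularGroup_T_pow_mem_Gamma M M (dvd_refl _)
  · ext i j
    rw [Matrix.SpecialLinearGroup.mapGL_coe_matrix]
    simp only [Matrix.SpecialLinearGroup.map_apply_coe, RingHom.mapMatrix_apply,
      ModularGroup.coe_T_zpow]
    fin_cases i <;> fin_cases j <;> simp

theorem M_pos [NeZero M] : (0 : ℝ) < (M : ℝ) := by
  have := NeZero.pos M
  exact_mod_cast this

theorem IsMF.periodic [NeZero M] (h : IsMF M k F) : Function.Periodic (F ∘ ofComplex) (M : ℝ) :=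
  SlashInvariantFormClass.periodic_comp_ofComplex h.toMF (mem_strictPeriods_Gamma M)

theorem IsMF.bdd_infty (h : IsMF M k F) : IsBoundedAtImInfty F := by
  simpa using h.bdd 1

theorem IsMF.analyticAt [NeZero M] (h : IsMF M k F) :
    AnalyticAt ℂ (cuspFunction (M : ℝ) F) 0 :=
  analyticAt_cuspFunction_zero M_pos h.periodic h.holo h.bdd_infty

theorem IsMF.zero : IsMF M k (0 : ℍ → ℂ) where
  holo := mdifferentiable_const
  inv γ _ := by simp
  bdd γ := by
    simp only [SlashAction.zero_slash]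
    exact Filter.const_boundedAtFilter _ (0 : ℂ)

theorem IsMF.add (hF : IsMF M k F) (hG : IsMF M k G) : IsMF M k (F + G) where
  holo := hF.holo.add hG.holo
  inv γ hγ := by rw [SlashAction.add_slash, hF.inv γ hγ, hG.inv γ hγ]
  bdd γ := by
    rw [SlashAction.add_slash]
    exact (hF.bdd γ).add (hG.bdd γ)

theorem IsMF.smul (hF : IsMF M k F) (c : ℂ) : IsMF M k (c • F) where
  holo := hF.holo.const_smul c
  inv γ hγ := by rw [SL_smul_slash, hF.inv γ hγ]
  bdd γ := by
    rw [SL_smul_slash]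
    exact (hF.bdd γ).smul c

theorem IsMF.neg (hF : IsMF M k F) : IsMF M k (-F) := by
  simpa using hF.smul (-1)

theorem IsMF.sub (hF : IsMF M k F) (hG : IsMF M k G) : IsMF M k (F - G) := by
  rw [sub_eq_add_neg]
  exact hF.add hG.neg

theorem IsMF.mul (hF : IsMF M k₁ F) (hG : IsMF M k₂ G) : IsMF M (k₁ + k₂) (F * G) where
  holo := hF.holo.mul hG.holo
  inv γ hγ := by rw [mul_slash_SL2, hF.inv γ hγ, hG.inv γ hγ]
  bdd γ := by
    rw [mul_slash_SL2]
    exact (hF.bdd γ).mul (hG.bdd γ)

theorem IsMF.cast (hF : IsMF M k₁ F) (h : k₁ = k₂) : IsMF M k₂ F := h ▸ hF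

theorem IsMF.one : IsMF M 0 (1 : ℍ → ℂ) where
  holo := mdifferentiable_const
  inv γ _ := is_invariant_one γ
  bdd γ := by
    rw [is_invariant_one γ]
    exact Filter.const_boundedAtFilter _ (1 : ℂ)

theorem IsMF.pow (hF : IsMF M k F) (n : ℕ) : IsMF M (n * k) (F ^ n) := by
  induction n with
  | zero => simpa using IsMF.one
  | succ n ih =>
    rw [pow_succ]
    exact (ih.mul hF).cast (by push_cast; ring)

theorem IsMF.sum {ι : Type*} {s : Finset ι} {f : ι → ℍ → ℂ} (h : ∀ i ∈ s, IsMF M k (f i)) :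
    IsMF M k (∑ i ∈ s, f i) := by
  classical
  induction s using Finset.induction_on with
  | empty => simpa using IsMF.zero
  | insert i s hi ih =>
    rw [Finset.sum_insert hi]
    exact (h i (Finset.mem_insert_self i s)).add
      (ih fun j hj => h j (Finset.mem_insert_of_mem hj))

theorem IsMF.prod {ι : Type*} {s : Finset ι} {f : ι → ℍ → ℂ} (h : ∀ i ∈ s, IsMF M k (f i)) :
    IsMF M (s.card * k) (∏ i ∈ s, f i) := by
  classical
  induction s using Finset.induction_on with
  | empty => simpa using IsMF.one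
  | insert i s hi ih =>
    rw [Finset.prod_insert hi, Finset.card_insert_of_notMem hi]
    exact ((h i (Finset.mem_insert_self i s)).mul
      (ih fun j hj => h j (Finset.mem_insert_of_mem hj))).cast (by push_cast; ring)



theorem IsMF.slash (hF : IsMF M k F) (δ : SL(2, ℤ)) : IsMF M k (F ∣[k] δ) where
  holo := hF.holo.slash k _
  inv γ hγ := by
    have hn := Gamma_normal M
    have h1 : δ * γ * δ⁻¹ ∈ Gamma M := hn.conj_mem γ hγ δ
    rw [← SlashAction.slash_mul]
    have h2 : δ * γ = (δ * γ * δ⁻¹) * δ := by group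
    rw [h2, SlashAction.slash_mul, hF.inv _ h1]
  bdd γ := by
    rw [← SlashAction.slash_mul]
    exact hF.bdd _

theorem IsMF.of_one {N : ℕ} (hF : IsMF 1 k F) : IsMF N k F where
  holo := hF.holo
  inv γ _ := hF.inv γ (by rw [Gamma_one_top]; trivial)
  bdd := hF.bdd


theorem slash_eq_one (hF : IsMF 1 k F) (γ : SL(2, ℤ)) : F ∣[k] γ = F :=
  hF.inv γ (by rw [Gamma_one_top]; trivial)

/-! ### q-expansions -/

/-- `M`-periodic, holomorphic, bounded at infinity. -/
structure QF (M : ℕ) (F : ℍ → ℂ) : Prop where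
  holo : MDiff F
  per : Function.Periodic (F ∘ ofComplex) (M : ℝ)
  bdd : IsBoundedAtImInfty F

theorem IsMF.qf [NeZero M] (h : IsMF M k F) : QF M F := ⟨h.holo, h.periodic, h.bdd_infty⟩

/-- q-expansion with respect to the width `M`. -/
abbrev qe (M : ℕ) (F : ℍ → ℂ) : PowerSeries ℂ := qExpansion (M : ℝ) F

theorem QF.analyticAt [NeZero M] (h : QF M F) :
    AnalyticAt ℂ (cuspFunction (M : ℝ) F) 0 :=
  analyticAt_cuspFunction_zero M_pos h.per h.holo h.bdd

theorem QF.add (hF : QF M F) (hG : QF M G) : QF M (F + G) where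
  holo := hF.holo.add hG.holo
  per := hF.per.add hG.per
  bdd := Filter.BoundedAtFilter.add hF.bdd hG.bdd

theorem QF.smul (hF : QF M F) (c : ℂ) : QF M (c • F) where
  holo := hF.holo.const_smul c
  per := by
    intro x
    have := hF.per x
    simp only [Function.comp_apply, Pi.smul_apply] at this ⊢
    rw [this]
  bdd := Filter.BoundedAtFilter.smul c hF.bdd

theorem QF.mul (hF : QF M F) (hG : QF M G) : QF M (F * G) where
  holo := hF.holo.mul hG.holo
  per := hF.per.mul hG.per
  bdd := Filter.BoundedAtFilter.mul hF.bdd hG.bdd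

theorem QF.one : QF M (1 : ℍ → ℂ) where
  holo := mdifferentiable_const
  per := fun x => rfl
  bdd := Filter.const_boundedAtFilter _ (1 : ℂ)

theorem QF.zero : QF M (0 : ℍ → ℂ) where
  holo := mdifferentiable_const
  per := fun x => rfl
  bdd := Filter.const_boundedAtFilter _ (0 : ℂ)

theorem QF.pow (hF : QF M F) (n : ℕ) : QF M (F ^ n) := by
  induction n with
  | zero => simpa using QF.one
  | succ n ih => rw [pow_succ]; exact ih.mul hF

theorem QF.sum {ι : Type*} {s : Finset ι} {f : ι → ℍ → ℂ} (h : ∀ i ∈ s, QF M (f i)) :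
    QF M (∑ i ∈ s, f i) := by
  classical
  induction s using Finset.induction_on with
  | empty => simpa using QF.zero
  | insert i s hi ih =>
    rw [Finset.sum_insert hi]
    exact (h i (Finset.mem_insert_self i s)).add
      (ih fun j hj => h j (Finset.mem_insert_of_mem hj))

theorem QF.prod {ι : Type*} {s : Finset ι} {f : ι → ℍ → ℂ} (h : ∀ i ∈ s, QF M (f i)) :
    QF M (∏ i ∈ s, f i) := by
  classical
  induction s using Finset.induction_on with
  | empty => simpa using QF.one
  | insert i s hi ih =>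
    rw [Finset.prod_insert hi]
    exact (h i (Finset.mem_insert_self i s)).mul
      (ih fun j hj => h j (Finset.mem_insert_of_mem hj))

theorem qe_add [NeZero M] (hF : QF M F) (hG : QF M G) : qe M (F + G) = qe M F + qe M G :=
  qExpansion_add hF.analyticAt hG.analyticAt

theorem qe_smul [NeZero M] (hF : QF M F) (c : ℂ) : qe M (c • F) = c • qe M F :=
  qExpansion_smul hF.analyticAt c

theorem qe_mul [NeZero M] (hF : QF M F) (hG : QF M G) : qe M (F * G) = qe M F * qe M G :=
  qExpansion_mul hF.analyticAt hG.analyticAt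

theorem qe_zero : qe M (0 : ℍ → ℂ) = 0 := qExpansion_zero _

theorem qe_one : qe M (1 : ℍ → ℂ) = 1 := qExpansion_one _

theorem qe_pow [NeZero M] (hF : QF M F) (n : ℕ) : qe M (F ^ n) = qe M F ^ n := by
  induction n with
  | zero => simpa using qe_one
  | succ n ih => rw [pow_succ, pow_succ, qe_mul (hF.pow n) hF, ih]

theorem qe_sum [NeZero M] {ι : Type*} {s : Finset ι} {f : ι → ℍ → ℂ} (h : ∀ i ∈ s, QF M (f i)) :
    qe M (∑ i ∈ s, f i) = ∑ i ∈ s, qe M (f i) := by
  classical
  induction s using Finset.induction_on with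
  | empty => simpa using qe_zero
  | insert i s hi ih =>
    rw [Finset.sum_insert hi, Finset.sum_insert hi,
      qe_add (h i (Finset.mem_insert_self i s)) (QF.sum fun j hj => h j (Finset.mem_insert_of_mem hj)),
      ih fun j hj => h j (Finset.mem_insert_of_mem hj)]

theorem qe_eq_zero_iff [NeZero M] (hF : QF M F) : qe M F = 0 ↔ F = 0 :=
  qExpansion_eq_zero_iff M_pos hF.per hF.holo hF.bdd

theorem QF.mul_eq_zero [NeZero M] (hF : QF M F) (hG : QF M G) : F * G = 0 ↔ F = 0 ∨ G = 0 := by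
  rw [← qe_eq_zero_iff (hF.mul hG), qe_mul hF hG, _root_.mul_eq_zero, qe_eq_zero_iff hF,
    qe_eq_zero_iff hG]


end

end Crest.Agent.R007.RatAlg
end

-- ▼ part R007/RatLevel1
section

/-!
# Rational structure in level one (row 7, section A)
-/

set_option autoImplicit false

namespace Crest.Agent.R007.RatAlg

open UpperHalfPlane ModularForm CongruenceSubgroup Matrix
open scoped MatrixGroups ModularForm Manifold

noncomputable section

variable {M : ℕ} {k k₁ k₂ : ℤ} {F G : ℍ → ℂ} {K : Subfield ℂ}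

/-- all coefficients of the power series lie in `K`. -/
def PSK (K : Subfield ℂ) (f : PowerSeries ℂ) : Prop := ∀ n, f.coeff n ∈ K

theorem PSK.add {f g : PowerSeries ℂ} (hf : PSK K f) (hg : PSK K g) : PSK K (f + g) := by
  intro n
  rw [map_add]
  exact K.add_mem (hf n) (hg n)

theorem PSK.neg {f : PowerSeries ℂ} (hf : PSK K f) : PSK K (-f) := by
  intro n
  rw [map_neg]
  exact K.neg_mem (hf n)

theorem PSK.sub {f g : PowerSeries ℂ} (hf : PSK K f) (hg : PSK K g) : PSK K (f - g) := by
  rw [sub_eq_add_neg]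
  exact hf.add hg.neg

theorem PSK.mul {f g : PowerSeries ℂ} (hf : PSK K f) (hg : PSK K g) : PSK K (f * g) := by
  intro n
  rw [PowerSeries.coeff_mul]
  exact K.sum_mem fun x _ => K.mul_mem (hf _) (hg _)

theorem PSK.one : PSK K (1 : PowerSeries ℂ) := by
  intro n
  rw [PowerSeries.coeff_one]
  split_ifs
  · exact K.one_mem
  · exact K.zero_mem

theorem PSK.zero : PSK K (0 : PowerSeries ℂ) := by
  intro n
  simpa using K.zero_mem

theorem PSK.smul {f : PowerSeries ℂ} (hf : PSK K f) {c : ℂ} (hc : c ∈ K) : PSK K (c • f) := by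
  intro n
  rw [map_smul]
  exact K.mul_mem hc (hf n)

theorem PSK.pow {f : PowerSeries ℂ} (hf : PSK K f) (n : ℕ) : PSK K (f ^ n) := by
  induction n with
  | zero => simpa using PSK.one
  | succ n ih => rw [pow_succ]; exact ih.mul hf

theorem PSK.sum {ι : Type*} {s : Finset ι} {f : ι → PowerSeries ℂ} (h : ∀ i ∈ s, PSK K (f i)) :
    PSK K (∑ i ∈ s, f i) := by
  intro n
  rw [map_sum]
  exact K.sum_mem fun i hi => h i hi n

theorem PSK.prod {ι : Type*} {s : Finset ι} {f : ι → PowerSeries ℂ} (h : ∀ i ∈ s, PSK K (f i)) :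
    PSK K (∏ i ∈ s, f i) := by
  classical
  induction s using Finset.induction_on with
  | empty => simpa using PSK.one
  | insert i s hi ih =>
    rw [Finset.prod_insert hi]
    exact (h i (Finset.mem_insert_self i s)).mul
      (ih fun j hj => h j (Finset.mem_insert_of_mem hj))

/-! ### level one forms as bundled forms -/

def IsMF.toSL (h : IsMF 1 k F) : ModularForm 𝒮ℒ k where
  toFun := F
  slash_action_eq' := by
    rintro _ ⟨γ, rfl⟩
    exact slash_eq_one h γ
  holo' := h.holo
  bdd_at_cusps' := by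
    intro c hc
    rw [Subgroup.IsArithmetic.isCusp_iff_isCusp_SL2Z] at hc
    rw [OnePoint.isBoundedAt_iff_forall_SL2Z hc]
    intro γ _
    exact h.bdd γ

@[simp] theorem IsMF.coe_toSL (h : IsMF 1 k F) : (h.toSL : ℍ → ℂ) = F := rfl

theorem isMF_of_SL (f : ModularForm 𝒮ℒ k) : IsMF 1 k f where
  holo := ModularFormClass.holo f
  inv γ _ := SlashInvariantForm.slash_action_eqn f _ ⟨γ, rfl⟩
  bdd γ := ModularFormClass.bdd_at_infty_slash f γ

theorem isMF_of_cuspSL (f : CuspForm 𝒮ℒ k) : IsMF 1 k f where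
  holo := CuspFormClass.holo f
  inv γ _ := SlashInvariantForm.slash_action_eqn f _ ⟨γ, rfl⟩
  bdd γ := ModularFormClass.bdd_at_infty_slash f γ

/-- `K`-rational level one forms. -/
def Rat1 (K : Subfield ℂ) (k : ℤ) (F : ℍ → ℂ) : Prop := IsMF 1 k F ∧ PSK K (qe 1 F)

theorem Rat1.mul (hF : Rat1 K k₁ F) (hG : Rat1 K k₂ G) : Rat1 K (k₁ + k₂) (F * G) := by
  refine ⟨hF.1.mul hG.1, ?_⟩
  rw [qe_mul hF.1.qf hG.1.qf]
  exact hF.2.mul hG.2

theorem rat1_E {k : ℕ} (hk : 3 ≤ k) (hk2 : Even k) :
    Rat1 K k (ModularForm.E hk : ℍ → ℂ) := by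
  refine ⟨isMF_of_SL _, ?_⟩
  intro n
  have h1 : (qe 1 (ModularForm.E hk : ℍ → ℂ)).coeff n =
      (if n = 0 then 1 else -(2 * k / bernoulli k : ℂ) * (ArithmeticFunction.sigma (k - 1) n)) := by
    have := EisensteinSeries.E_qExpansion_coeff hk hk2 n
    simpa [qe] using this
  rw [h1]
  split_ifs
  · exact K.one_mem
  · have h2 : (-(2 * k / bernoulli k : ℂ) * ((ArithmeticFunction.sigma (k - 1) n : ℕ) : ℂ))
        = (((-(2 * k / bernoulli k) * (ArithmeticFunction.sigma (k - 1) n : ℕ) : ℚ)) : ℂ) := by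
      push_cast
      ring
    rw [h2]
    exact SubfieldClass.ratCast_mem K _

theorem rat1_Delta : Rat1 K 12 (ModularForm.discriminant) := by
  have hE4 := rat1_E (K := K) (k := 4) (by norm_num) ⟨2, rfl⟩
  have hE6 := rat1_E (K := K) (k := 6) (by norm_num) ⟨3, rfl⟩
  refine ⟨isMF_of_cuspSL CuspForm.discriminant, ?_⟩
  have h1 : (ModularForm.discriminant : ℍ → ℂ) = (1 / 1728 : ℂ) •
      (((ModularForm.E (k := 4) (by norm_num) : ℍ → ℂ) ^ 3) +
        (-1 : ℂ) • ((ModularForm.E (k := 6) (by norm_num) : ℍ → ℂ) ^ 2)) := by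
    funext z
    have := ModularForm.discriminant_eq_E₄_cube_sub_E₆_sq z
    rw [this]
    simp only [Pi.smul_apply, Pi.add_apply, Pi.pow_apply, smul_eq_mul]
    ring
  rw [h1, qe_smul ((hE4.1.qf.pow 3).add ((hE6.1.qf.pow 2).smul _)),
    qe_add (hE4.1.qf.pow 3) ((hE6.1.qf.pow 2).smul _), qe_smul (hE6.1.qf.pow 2),
    qe_pow hE4.1.qf, qe_pow hE6.1.qf]
  refine PSK.smul (PSK.add (hE4.2.pow 3) (PSK.smul (hE6.2.pow 2) ?_)) ?_
  · exact K.neg_mem K.one_mem
  · have : (1 / 1728 : ℂ) = ((1 / 1728 : ℚ) : ℂ) := by push_cast; ring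
    rw [this]
    exact SubfieldClass.ratCast_mem K _

/-- a finite `K`-rational spanning family of the space of level one forms of weight `k`. -/
theorem levelOne_family (K : Subfield ℂ) : ∀ (m : ℕ) (k : ℤ), k < m →
    ∃ (n : ℕ) (e : Fin n → ℍ → ℂ), (∀ i, Rat1 K k (e i)) ∧
      ∀ F, IsMF 1 k F → ∃ c : Fin n → ℂ, F = ∑ i, c i • e i := by
  intro m
  induction m using Nat.strong_induction_on with
  | _ m ih =>
    intro k hkm
    rcases lt_or_ge k 0 with hneg | hnn
    · refine ⟨0, Fin.elim0, fun i => i.elim0, fun F hF => ⟨Fin.elim0, ?_⟩⟩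
      have := ModularFormClass.levelOne_neg_weight_eq_zero hneg hF.toSL
      simpa using this
    rcases Int.even_or_odd k with hev | hodd
    swap
    · refine ⟨0, Fin.elim0, fun i => i.elim0, fun F hF => ⟨Fin.elim0, ?_⟩⟩
      have := ModularForm.levelOne_odd_weight_eq_zero hodd hF.toSL
      have h2 : (hF.toSL : ℍ → ℂ) = 0 := by rw [this]; rfl
      simpa using h2
    lift k to ℕ using hnn
    rcases Nat.lt_or_ge k 3 with hk3 | hk3
    · interval_cases k
      · -- weight 0
        refine ⟨1, fun _ => 1, fun i => ⟨IsMF.one, ?_⟩, fun F hF => ?_⟩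
        · rw [qe_one]; exact PSK.one
        · have hF' : IsMF 1 0 F := by simpa using hF
          obtain ⟨c, hc⟩ := ModularFormClass.levelOne_weight_zero_const hF'.toSL
          refine ⟨fun _ => c, ?_⟩
          have : F = Function.const _ c := hc
          rw [this]
          funext z
          simp
      · exact absurd hev (by decide)
      · refine ⟨0, Fin.elim0, fun i => i.elim0, fun F hF => ⟨Fin.elim0, ?_⟩⟩
        have hF' : IsMF 1 2 F := by simpa using hF
        have := rank_zero_iff_forall_zero.mp ModularForm.levelOne_weight_two_rank_zero hF'.toSL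
        have h2 : (hF'.toSL : ℍ → ℂ) = 0 := by rw [this]; rfl
        simpa using h2
    have hevk : Even k := by exact_mod_cast hev
    obtain ⟨n, e, he, hspan⟩ := ih (k + 1 - 12) (by omega) ((k : ℤ) - 12) (by omega)
    refine ⟨n + 1, Fin.cons (ModularForm.E hk3 : ℍ → ℂ)
      (fun i => ModularForm.discriminant * e i), ?_, ?_⟩
    · intro i
      refine Fin.cases ?_ (fun i => ?_) i
      · exact rat1_E hk3 hevk
      · have := (rat1_Delta (K := K)).mul (he i)
        simp only [Fin.cons_succ]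
        have h12 : (12 : ℤ) + ((k : ℤ) - 12) = k := by ring
        rw [h12] at this
        exact this
    · intro F hF
      set a : ℂ := (qExpansion 1 F).coeff 0 with ha
      have hE : IsMF 1 k (ModularForm.E hk3 : ℍ → ℂ) := (rat1_E (K := K) hk3 hevk).1
      have hG : IsMF 1 k (F - a • (ModularForm.E hk3 : ℍ → ℂ)) := hF.sub (hE.smul a)
      have hG0 : (qExpansion 1 (hG.toSL : ℍ → ℂ)).coeff 0 = 0 := by
        rw [IsMF.coe_toSL]
        have h3 : qe 1 (F - a • (ModularForm.E hk3 : ℍ → ℂ)) =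
            qe 1 F + qe 1 ((-a) • (ModularForm.E hk3 : ℍ → ℂ)) := by
          rw [sub_eq_add_neg, ← _root_.neg_smul, qe_add hF.qf (hE.qf.smul _)]
        rw [qe_smul hE.qf] at h3
        have h4 : qExpansion 1 (F - a • (ModularForm.E hk3 : ℍ → ℂ)) =
            qExpansion 1 F + (-a) • qExpansion 1 (ModularForm.E hk3 : ℍ → ℂ) := by
          simpa [qe] using h3
        rw [h4, map_add, map_smul, EisensteinSeries.E_qExpansion_coeff_zero hk3 hevk, ← ha]
        simp
      let g := CuspForm.discriminantEquiv (ModularForm.toCuspForm hG.toSL hG0)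
      have hg : IsMF 1 ((k : ℤ) - 12) g := isMF_of_SL g
      obtain ⟨c, hc⟩ := hspan g hg
      refine ⟨Fin.cons a c, ?_⟩
      rw [Fin.sum_univ_succ]
      simp only [Fin.cons_zero, Fin.cons_succ]
      have h5 : F - a • (ModularForm.E hk3 : ℍ → ℂ) = ModularForm.discriminant * (g : ℍ → ℂ) := by
        have := ModularForm.discriminant_mul_discriminantEquiv (ModularForm.toCuspForm hG.toSL hG0)
        rw [this]
        funext z
        simp
      rw [hc] at h5
      have h6 : F = a • (ModularForm.E hk3 : ℍ → ℂ) +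
          ModularForm.discriminant * ∑ i, c i • e i := by
        rw [← h5]; ring
      conv_lhs => rw [h6]
      congr 1
      rw [Finset.mul_sum]
      refine Finset.sum_congr rfl fun i _ => ?_
      rw [mul_smul_comm]

theorem hasSum_dvd {a : ℕ → ℂ} {q x : ℂ} (hM : 0 < M)
    (h : HasSum (fun m => a m • (q ^ M) ^ m) x) :
    HasSum (fun n => (if M ∣ n then a (n / M) else 0) • q ^ n) x := by
  have hinj : Function.Injective (fun m : ℕ => M * m) := by
    intro a b hab
    exact Nat.eq_of_mul_eq_mul_left hM hab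
  rw [← hinj.hasSum_iff]
  · convert h using 1
    funext m
    simp only [Function.comp_apply, dvd_mul_right, if_true, Nat.mul_div_cancel_left _ hM]
    rw [pow_mul]
  · intro n hn
    have : ¬ M ∣ n := by
      rintro ⟨m, rfl⟩
      exact hn ⟨m, rfl⟩
    simp [this]

/-- q-expansions with respect to the width `M` of `1`-periodic functions. -/
theorem PSK_width [NeZero M] (hF : IsMF 1 k F) (h : PSK K (qe 1 F)) : PSK K (qe M F) := by
  have hM := NeZero.pos M
  have hQ : IsMF M k F := hF.of_one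
  have hsum : ∀ τ : ℍ, HasSum (fun n : ℕ ↦ (if M ∣ n then (qe 1 F).coeff (n / M) else 0) •
      Function.Periodic.qParam (M : ℝ) τ ^ n) (F τ) := by
    intro τ
    have h1 := UpperHalfPlane.hasSum_qExpansion (h := ((1 : ℕ) : ℝ)) (by norm_num) hF.periodic
      hF.holo hF.bdd_infty τ
    have h2 : Function.Periodic.qParam ((1 : ℕ) : ℝ) (τ : ℂ) =
        Function.Periodic.qParam (M : ℝ) (τ : ℂ) ^ M := by
      unfold Function.Periodic.qParam
      rw [← Complex.exp_nat_mul]
      congr 1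
      have : (M : ℂ) ≠ 0 := by exact_mod_cast hM.ne'
      push_cast
      field_simp
    rw [h2] at h1
    exact hasSum_dvd (a := fun m => (qe 1 F).coeff m) hM h1
  intro n
  have key := qExpansion_coeff_unique
    (c := fun n => if M ∣ n then (qe 1 F).coeff (n / M) else 0) hQ.toMF M_pos hQ.analyticAt hsum n
  change (qExpansion (M : ℝ) (hQ.toMF : ℍ → ℂ)).coeff n ∈ K
  rw [← key]
  split_ifs
  · exact h _
  · exact K.zero_mem

end

end Crest.Agent.R007.RatAlg
end

-- ▼ part R007/RatMain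

/-!
Row 7 (S0007), section A: **Theorem A**: every form on `Γ(M)` is a combination of forms
all of whose q-expansions have coefficients in the subfield `K`.
-/

set_option autoImplicit false

noncomputable section

namespace Crest.Agent.R007.Rat

open UpperHalfPlane ModularForm CongruenceSubgroup Matrix.SpecialLinearGroup
open scoped MatrixGroups Manifold

variable {M : ℕ} [NeZero M] {k l k₀ : ℤ} {θ F : ℍ → ℂ}

/-- Division in `K⟦X⟧`. -/
lemma coeffIn_of_mul {K : Subfield ℂ} {p q : PowerSeries ℂ} (hq0 : q ≠ 0)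
    (hq : CoeffIn K.toSubring q) (hpq : CoeffIn K.toSubring (p * q)) : CoeffIn K.toSubring p := by
  classical
  -- the first nonzero coefficient
  have hex : ∃ m, PowerSeries.coeff m q ≠ 0 := by
    by_contra hcon
    push Not at hcon
    exact hq0 (PowerSeries.ext fun n => by simpa using hcon n)
  set m := Nat.find hex with hm
  have hm0 : PowerSeries.coeff m q ≠ 0 := Nat.find_spec hex
  have hlt : ∀ j < m, PowerSeries.coeff j q = 0 := fun j hj => by
    by_contra h; exact Nat.find_min hex hj h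
  intro n
  induction n using Nat.strong_induction_on with
  | _ n ih =>
    have h1 := hpq (n + m)
    rw [PowerSeries.coeff_mul, Finset.Nat.sum_antidiagonal_eq_sum_range_succ_mk] at h1
    have h2 : ∑ i ∈ Finset.range (n + m).succ, PowerSeries.coeff i p * PowerSeries.coeff (n + m - i) q =
        (∑ i ∈ Finset.range n, PowerSeries.coeff i p * PowerSeries.coeff (n + m - i) q) +
          PowerSeries.coeff n p * PowerSeries.coeff m q := by
      rw [show (n + m).succ = (n + 1) + m by omega, Finset.sum_range_add, Finset.sum_range_succ]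
      have h3 : ∑ x ∈ Finset.range m, PowerSeries.coeff (n + 1 + x) p *
          PowerSeries.coeff (n + m - (n + 1 + x)) q = 0 := by
        refine Finset.sum_eq_zero fun x hx => ?_
        rw [Finset.mem_range] at hx
        rw [hlt _ (by omega), mul_zero]
      rw [h3, add_zero, show n + m - n = m by omega]
    simp only at h1
    rw [h2] at h1
    have h4 : ∑ i ∈ Finset.range n, PowerSeries.coeff i p * PowerSeries.coeff (n + m - i) q ∈ K.toSubring :=
      Subring.sum_mem _ fun i hi => Subring.mul_mem _ (ih i (Finset.mem_range.mp hi)) (hq _)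
    have h5 : PowerSeries.coeff n p * PowerSeries.coeff m q ∈ K.toSubring := by
      have := Subring.sub_mem _ h1 h4
      rwa [add_sub_cancel_left] at this
    have h6 : PowerSeries.coeff n p = (PowerSeries.coeff n p * PowerSeries.coeff m q) *
        (PowerSeries.coeff m q)⁻¹ := by
      field_simp
    rw [h6]
    exact Subring.mul_mem _ h5 (K.inv_mem (hq m))

/-- division for forms -/
lemma IsR.of_mul {K : Subfield ℂ} {D : ℍ → ℂ} (hF : IsF M k F) (hD : IsR K.toSubring M l D)
    (hD0 : D ≠ 0) (h : IsR K.toSubring M (k + l) (F * D)) : IsR K.toSubring M k F := by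
  refine ⟨hF, fun g => ?_⟩
  have h1 := h.coeff g
  rw [mul_slash_SL2, qe_mul (hF.slash_SL g) (hD.isF.slash_SL g)] at h1
  refine coeffIn_of_mul ?_ (hD.coeff g) h1
  intro h0
  have h2 := (qe_eq_zero_iff (hD.isF.slash_SL g)).mp h0
  exact hD0 ((SlashAction.slash_eq_zero_iff _ _ _).mp h2)

omit [NeZero M] in
lemma isF_of_isMF {f : ℍ → ℂ} (h : RatAlg.IsMF M k f) : IsF M k f := ⟨h.inv, h.holo, h.bdd⟩

omit [NeZero M] in
lemma isMF_of_isF {f : ℍ → ℂ} (h : IsF M k f) : RatAlg.IsMF M k f := ⟨h.holo, h.slash, h.bdd⟩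

lemma slash_one_level {f : ℍ → ℂ} (h : IsF 1 k f) (g : SL(2, ℤ)) : f ∣[k] g = f :=
  h.slash g (by rw [Gamma_one_top]; trivial)

/-- Level one over a field. -/
theorem levelOneSpan_field (K : Subfield ℂ) : LevelOneSpan K.toSubring M := by
  intro k f hf
  obtain ⟨n, e, he, hspan⟩ := RatAlg.levelOne_family K (k.toNat + 1) k (by omega)
  obtain ⟨c, hc⟩ := hspan f (isMF_of_isF hf)
  rw [hc]
  refine Submodule.sum_mem _ fun i _ => Submodule.smul_mem _ _ (Submodule.subset_span ?_)
  have h1 : IsF 1 k (e i) := isF_of_isMF (he i).1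
  refine ⟨h1.mono (one_dvd _), fun g => ?_⟩
  rw [slash_one_level h1]
  have := RatAlg.PSK_width (M := M) (he i).1 (he i).2
  exact this


end Crest.Agent.R007.Rat
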