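import Crest.Agent.R007.RatL1
import Crest.Agent.R007.RatMain
import Crest.Agent.R007.RatSep
import Crest.Agent.R007.CoefO
import Crest.Agent.R007.RatDesc
import Crest.Agent.R007.RatG1
import Crest.Agent.R007.Realise

-- ▼ part R007/RatBD
section

/-!
Row 7 (S0007), node BD: bounded denominators.
`O ⊆ ℂ` a subring which is completely integrally closed, `K` its fraction field, every element of
`K` becomes an element of `O` after multiplication by a power of `2`. If `θ` is an `O`-integral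
separating form of level `M` then every `K`-rational form `F` on `Γ(M)` has `2^r F` `O`-integral
(at all cusps) for some `r`.
-/

set_option autoImplicit false

noncomputable section

namespace Crest.Agent.R007.Rat

open UpperHalfPlane ModularForm CongruenceSubgroup Matrix.SpecialLinearGroup
open scoped MatrixGroups Manifold

/-- hypotheses on the pair `(O, K)` -/
structure Cic (O : Subring ℂ) (K : Subfield ℂ) : Prop where
  le : O ≤ K.toSubring
  frac : ∀ x ∈ K, ∃ r : ℕ, (2 : ℂ) ^ r * x ∈ O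
  cic : ∀ a ∈ O, a ≠ 0 → ∀ x : ℂ, (∀ j : ℕ, a * x ^ j ∈ O) → x ∈ O

section PS

variable {O : Subring ℂ} {p q : PowerSeries ℂ}

lemma CoeffIn.sum {ι : Type*} {s : Finset ι} {f : ι → PowerSeries ℂ}
    (h : ∀ i ∈ s, CoeffIn O (f i)) : CoeffIn O (∑ i ∈ s, f i) := by
  intro n
  rw [map_sum]
  exact O.sum_mem fun i hi => h i hi n

lemma CoeffIn.pow (hp : CoeffIn O p) (n : ℕ) : CoeffIn O (p ^ n) := by
  induction n with
  | zero => simpa using CoeffIn.one
  | succ n ih => rw [pow_succ]; exact ih.mul hp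

lemma CoeffIn.natCast_mul (hp : CoeffIn O p) (n : ℕ) : CoeffIn O ((n : PowerSeries ℂ) * p) := by
  have : (n : PowerSeries ℂ) * p = (n : ℂ) • p := by
    rw [PowerSeries.smul_eq_C_mul, map_natCast]
  rw [this]
  exact hp.smul (natCast_mem O n)

/-- complete integral closedness of power series. -/
theorem coeffIn_of_almost (hO : ∀ a ∈ O, a ≠ 0 → ∀ x : ℂ, (∀ j : ℕ, a * x ^ j ∈ O) → x ∈ O)
    {e f : PowerSeries ℂ} (he : e ≠ 0) (h : ∀ j : ℕ, CoeffIn O (e * f ^ j)) : CoeffIn O f := by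
  classical
  have heO : CoeffIn O e := by simpa using h 0
  obtain ⟨r, e', hee', he'⟩ : ∃ (r : ℕ) (e' : PowerSeries ℂ), e = PowerSeries.X ^ r * e' ∧
      PowerSeries.coeff 0 e' ≠ 0 := by
    obtain ⟨e', he'⟩ := PowerSeries.X_pow_order_dvd (φ := e)
    refine ⟨e.order.toNat, e', he', ?_⟩
    have h1 := PowerSeries.coeff_order he
    rw [he'] at h1
    have h2 := PowerSeries.coeff_X_pow_mul e' (e.order.toNat) 0
    rw [zero_add] at h2
    rw [← he'] at h1 h2
    rw [← h2]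
    exact h1
  intro m
  induction m using Nat.strong_induction_on with
  | _ m ih =>
    set y : PowerSeries ℂ := ((PowerSeries.trunc m f : Polynomial ℂ) : PowerSeries ℂ) with hy
    have hyO : CoeffIn O y := by
      intro n
      rw [hy, Polynomial.coeff_coe, PowerSeries.coeff_trunc]
      split_ifs with hn
      · exact ih n hn
      · exact O.zero_mem
    obtain ⟨g, hg⟩ : ∃ g, f - y = PowerSeries.X ^ m * g := by
      have : (PowerSeries.X : PowerSeries ℂ) ^ m ∣ f - y := by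
        rw [PowerSeries.X_pow_dvd_iff]
        intro n hn
        rw [map_sub, hy, Polynomial.coeff_coe, PowerSeries.coeff_trunc, if_pos hn, sub_self]
      exact this
    have hg0 : PowerSeries.coeff 0 g = PowerSeries.coeff m f := by
      have h1 := PowerSeries.coeff_X_pow_mul g m 0
      rw [zero_add, ← hg, map_sub, hy, Polynomial.coeff_coe, PowerSeries.coeff_trunc,
        if_neg (lt_irrefl m), sub_zero] at h1
      exact h1.symm
    refine hO (PowerSeries.coeff 0 e') ?_ he' _ fun j => ?_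
    · have h1 := heO r
      rw [hee'] at h1
      have h2 := PowerSeries.coeff_X_pow_mul e' r 0
      rw [zero_add] at h2
      rwa [h2] at h1
    · have h3 : CoeffIn O (e * (f - y) ^ j) := by
        rw [sub_eq_add_neg, add_pow, Finset.mul_sum]
        refine CoeffIn.sum fun i _ => ?_
        have : e * (f ^ i * (-y) ^ (j - i) * ((j.choose i : ℕ) : PowerSeries ℂ)) =
            ((j.choose i : ℕ) : PowerSeries ℂ) * ((e * f ^ i) * (-y) ^ (j - i)) := by ring
        rw [this]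
        exact ((h i).mul (hyO.neg.pow _)).natCast_mul _
      have h4 : e * (f - y) ^ j = PowerSeries.X ^ (r + m * j) * (e' * g ^ j) := by
        rw [hg, hee', mul_pow, ← pow_mul, pow_add]
        ring
      have h5 := h3 (r + m * j)
      rw [h4] at h5
      have h6 := PowerSeries.coeff_X_pow_mul (e' * g ^ j) (r + m * j) 0
      rw [zero_add] at h6
      rw [h6, PowerSeries.coeff_zero_eq_constantCoeff_apply, map_mul, map_pow,
        ← PowerSeries.coeff_zero_eq_constantCoeff_apply,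
        ← PowerSeries.coeff_zero_eq_constantCoeff_apply, hg0] at h5
      exact h5

/-- an element of the fraction field of `O⟦X⟧` integral over `O⟦X⟧` lies in `O⟦X⟧`. -/
theorem coeffIn_of_integral
    (hO : ∀ a ∈ O, a ≠ 0 → ∀ x : ℂ, (∀ j : ℕ, a * x ^ j ∈ O) → x ∈ O)
    {d f : PowerSeries ℂ} (hd0 : d ≠ 0) (hd : CoeffIn O d) (hdf : CoeffIn O (d * f))
    {n : ℕ} {b : ℕ → PowerSeries ℂ} (hb : ∀ i, CoeffIn O (b i))
    (hrel : f ^ n = ∑ i ∈ Finset.range n, b i * f ^ i) : CoeffIn O f := by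
  refine coeffIn_of_almost hO (e := d ^ n) (pow_ne_zero n hd0) ?_
  intro j
  induction j using Nat.strong_induction_on with
  | _ j ih =>
    rcases le_or_gt j n with hj | hj
    · have : d ^ n * f ^ j = d ^ (n - j) * (d * f) ^ j := by
        rw [mul_pow, ← mul_assoc, ← pow_add, Nat.sub_add_cancel hj]
      rw [this]
      exact (hd.pow _).mul (hdf.pow _)
    · have h1 : f ^ j = f ^ (j - n) * f ^ n := by rw [← pow_add, Nat.sub_add_cancel hj.le]
      rw [h1, hrel, Finset.mul_sum, Finset.mul_sum]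
      refine CoeffIn.sum fun i hi => ?_
      have hi' := Finset.mem_range.mp hi
      have : d ^ n * (f ^ (j - n) * (b i * f ^ i)) = b i * (d ^ n * f ^ (j - n + i)) := by
        rw [pow_add]; ring
      rw [this]
      exact (hb i).mul (ih _ (by omega))

end PS

variable {O : Subring ℂ} {K : Subfield ℂ} {M : ℕ} [NeZero M] {k l k₀ : ℤ} {θ F f : ℍ → ℂ}

/-- (step 1) level one forms have bounded denominators. -/
theorem Cic.levelOne (h : Cic O K) (hf : IsF 1 k f) (hK : CoeffIn K.toSubring (qe 1 f)) :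
    ∃ r : ℕ, IsR O 1 k ((2 : ℂ) ^ r • f) := by
  have h1 := levelOne_mem_span K.toSubring hf hK
  clear hf hK
  induction h1 using Submodule.span_induction with
  | mem x hx => exact ⟨0, by simpa using isR_of_mem_Mon hx⟩
  | zero => exact ⟨0, by simpa using IsR.zero⟩
  | add x y _ _ hx hy =>
    obtain ⟨r, hr⟩ := hx
    obtain ⟨s, hs⟩ := hy
    refine ⟨r + s, ?_⟩
    have h2 : (2 : ℂ) ^ (r + s) • (x + y) = (2 : ℂ) ^ s • ((2 : ℂ) ^ r • x) +
        (2 : ℂ) ^ r • ((2 : ℂ) ^ s • y) := by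
      rw [smul_add, smul_smul, smul_smul, pow_add, mul_comm ((2 : ℂ) ^ s)]
    rw [h2]
    exact (hr.smul (O.pow_mem (by exact_mod_cast natCast_mem O 2) _)).add
      (hs.smul (O.pow_mem (by exact_mod_cast natCast_mem O 2) _))
  | smul c x _ hx =>
    obtain ⟨s, hs⟩ := hx
    obtain ⟨r, hr⟩ := h.frac c c.2
    refine ⟨r + s, ?_⟩
    have h2 : (2 : ℂ) ^ (r + s) • (c • x) = ((2 : ℂ) ^ r * (c : ℂ)) • ((2 : ℂ) ^ s • x) := by
      have : c • x = (c : ℂ) • x := rfl
      rw [this, smul_smul, smul_smul, pow_add]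
      congr 1
      ring
    rw [h2]
    exact hs.smul hr

theorem coeffIn_one_of_level {S : Subring ℂ} (hf : IsF 1 k f) (h : CoeffIn S (qe M f)) :
    CoeffIn S (qe 1 f) := by
  intro n
  have h1 := qe_mul_level (M := 1) hf M (M * n)
  rw [one_mul, if_pos (dvd_mul_right M n),
    Nat.mul_div_cancel_left _ (Nat.pos_of_ne_zero (NeZero.ne M))] at h1
  rw [← h1]
  exact h _

theorem two_pow_mem (O : Subring ℂ) (r : ℕ) : (2 : ℂ) ^ r ∈ O :=
  O.pow_mem (by exact_mod_cast natCast_mem O 2) _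

/-- (step 2) level one forms, `K`-rational at level `M`. -/
theorem Cic.levelOne' (h : Cic O K) (hf : IsF 1 k f) (hK : IsR K.toSubring M k f) :
    ∃ r : ℕ, IsR O M k ((2 : ℂ) ^ r • f) := by
  have h1 : CoeffIn K.toSubring (qe M f) := by
    have := hK.coeff 1
    simpa using this
  obtain ⟨r, hr⟩ := h.levelOne hf (coeffIn_one_of_level hf h1)
  exact ⟨r, hr.mono_level (one_dvd M)⟩

/-- `f` has bounded denominators. -/
def BDn (O : Subring ℂ) (M : ℕ) (k : ℤ) (f : ℍ → ℂ) : Prop := ∃ r : ℕ, IsR O M k ((2 : ℂ) ^ r • f)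

lemma BDn.add {f f' : ℍ → ℂ} (h : BDn O M k f) (h' : BDn O M k f') : BDn O M k (f + f') := by
  obtain ⟨r, hr⟩ := h
  obtain ⟨s, hs⟩ := h'
  refine ⟨r + s, ?_⟩
  have h2 : (2 : ℂ) ^ (r + s) • (f + f') = (2 : ℂ) ^ s • ((2 : ℂ) ^ r • f) +
      (2 : ℂ) ^ r • ((2 : ℂ) ^ s • f') := by
    rw [smul_add, smul_smul, smul_smul, pow_add, mul_comm ((2 : ℂ) ^ s)]
  rw [h2]
  exact (hr.smul (two_pow_mem O _)).add (hs.smul (two_pow_mem O _))

lemma BDn.smul {f : ℍ → ℂ} (h : BDn O M k f) {c : ℂ} (hc : c ∈ O) : BDn O M k (c • f) := by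
  obtain ⟨r, hr⟩ := h
  exact ⟨r, by rw [smul_comm]; exact hr.smul hc⟩

lemma BDn.sum {ι : Type*} (s : Finset ι) (g : ι → ℍ → ℂ) (h : ∀ i ∈ s, BDn O M k (g i)) :
    BDn O M k (∑ i ∈ s, g i) := by
  classical
  induction s using Finset.induction_on with
  | empty => exact ⟨0, by simpa using IsR.zero⟩
  | insert i s hi ih =>
    rw [Finset.sum_insert hi]
    exact (h i (Finset.mem_insert_self i s)).add (ih fun j hj => h j (Finset.mem_insert_of_mem hj))

lemma BDn.mul {f f' : ℍ → ℂ} (h : IsR O M k f) (h' : BDn O M l f') : BDn O M (k + l) (f * f') := by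
  obtain ⟨r, hr⟩ := h'
  exact ⟨r, by rw [← mul_smul_comm]; exact h.mul hr⟩

/-- (step 3) `F · δ` has bounded denominators. -/
theorem Cic.mul_del (h : Cic O K) (hθ : IsR O M k₀ θ) (hF : IsR K.toSubring M k F) :
    BDn O M (k + wdel M k₀) (F * del M k₀ θ) := by
  classical
  have hθK : IsR K.toSubring M k₀ θ := hθ.mono_ring h.le
  rw [interp hθ.isF hF.isF]
  refine BDn.sum _ _ fun t ht => ?_
  refine BDn.smul ?_ (O.pow_mem (O.neg_mem O.one_mem) _)
  have ht' : t.card ≤ (nt M).card := Finset.card_le_card (Finset.mem_powerset.mp ht)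
  have h1 : IsR K.toSubring M (k + (t.card : ℤ) * k₀) (F * ∏ a ∈ t, tr k₀ θ a) :=
    hF.mul (IsR.prod t _ fun a _ => hθK.tr a)
  have h2 : IsF 1 (k + (t.card : ℤ) * k₀) (Tr M (k + (t.card : ℤ) * k₀) (F * ∏ a ∈ t, tr k₀ θ a)) :=
    h1.isF.Tr
  have h3 : IsR K.toSubring M (k + (t.card : ℤ) * k₀)
      (Tr M (k + (t.card : ℤ) * k₀) (F * ∏ a ∈ t, tr k₀ θ a)) :=
    IsR.sum _ _ fun a _ => h1.tr a
  have h4 : BDn O M (k + (t.card : ℤ) * k₀)
      (Tr M (k + (t.card : ℤ) * k₀) (F * ∏ a ∈ t, tr k₀ θ a)) := h.levelOne' h2 h3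
  have h5 := BDn.mul (hθ.pow ((nt M).card - t.card)) h4
  have h6 : (((nt M).card - t.card : ℕ) : ℤ) * k₀ + (k + (t.card : ℤ) * k₀) = k + wdel M k₀ := by
    rw [wdel, Nat.cast_sub ht']
    ring
  rw [h6] at h5
  exact h5

omit [NeZero M] in
lemma tr_smul (c : ℂ) (f : ℍ → ℂ) (a : GM M) : tr k (c • f) a = c • tr k f a := by
  rw [tr, tr, SL_smul_slash]

lemma esy_smul (c : ℂ) (f : ℍ → ℂ) (i : ℕ) : esy M k (c • f) i = c ^ i • esy M k f i := by
  rw [esy, esy, Finset.smul_sum]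
  refine Finset.sum_congr rfl fun t ht => ?_
  rw [Finset.mem_powersetCard] at ht
  simp_rw [tr_smul]
  rw [Finset.prod_smul, Finset.prod_const, ht.2]

/-- (steps 4, 5) bounded denominators at infinity. -/
theorem Cic.bd_infty (h : Cic O K) (hθ : IsR O M k₀ θ)
    (hsep : ∀ g : SL(2, ℤ), g ∉ Gamma M → θ ∣[k₀] g ≠ θ) (hF : IsR K.toSubring M k F) :
    ∃ r : ℕ, CoeffIn O (qe M ((2 : ℂ) ^ r • F)) := by
  classical
  set n := Fintype.card (GM M) with hn
  have hesyR : ∀ i : ℕ, IsR K.toSubring M ((i : ℤ) * k) (esy M k F i) := by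
    intro i
    refine IsR.sum _ _ fun t ht => ?_
    rw [Finset.mem_powersetCard] at ht
    have := IsR.prod t (fun a => tr k F a) (fun a _ => hF.tr a)
    rwa [ht.2] at this
  have hesy : ∀ i : ℕ, ∃ r : ℕ, IsR O M ((i : ℤ) * k) ((2 : ℂ) ^ r • esy M k F i) :=
    fun i => h.levelOne' (hF.isF.esy i) (hesyR i)
  choose r hr using hesy
  set R := ∑ i ∈ Finset.range (n + 1), r i with hR
  have hrR : ∀ i ∈ Finset.range (n + 1), r i ≤ R := fun i hi =>
    Finset.single_le_sum (f := r) (fun _ _ => Nat.zero_le _) hi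
  refine ⟨R, ?_⟩
  set F' : ℍ → ℂ := (2 : ℂ) ^ R • F with hF'
  have hF'R : IsR K.toSubring M k F' := hF.smul (two_pow_mem _ _)
  -- integrality of the coefficients of the norm polynomial
  have hcoef : ∀ i ∈ Finset.range (n + 1), IsR O M ((i : ℤ) * k) (esy M k F' i) := by
    intro i hi
    rw [hF', esy_smul]
    rcases Nat.eq_zero_or_pos i with rfl | hi0
    · rw [pow_zero, one_smul, esy_zero]
      exact IsR.one.cast (by simp)
    · have h1 : ((2 : ℂ) ^ R) ^ i = (2 : ℂ) ^ (R * i - r i) * (2 : ℂ) ^ r i := by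
        rw [← pow_mul, ← pow_add, Nat.sub_add_cancel ((hrR i hi).trans (Nat.le_mul_of_pos_right R hi0))]
      rw [h1, mul_smul]
      exact (hr i).smul (two_pow_mem _ _)
  -- multiplication by a denominator
  obtain ⟨s, hs⟩ := h.mul_del hθ hF'R
  have hdel : IsR O M (wdel M k₀) (del M k₀ θ) := hθ.del
  have hdel0 : del M k₀ θ ≠ 0 := del_ne_zero hθ.isF hsep
  have hdR : IsR O M (wdel M k₀) ((2 : ℂ) ^ s • del M k₀ θ) := hdel.smul (two_pow_mem _ _)
  set d := qe M ((2 : ℂ) ^ s • del M k₀ θ) with hd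
  have hd0 : d ≠ 0 := by
    intro h0
    have h1 := (qe_eq_zero_iff hdR.isF).mp h0
    exact hdel0 ((smul_eq_zero.mp h1).resolve_left (pow_ne_zero _ two_ne_zero))
  have hdO : CoeffIn O d := by
    have := hdR.coeff 1
    simpa using this
  have hdf : CoeffIn O (d * qe M F') := by
    rw [hd, ← qe_mul hdR.isF hF'R.isF]
    have h1 : ((2 : ℂ) ^ s • del M k₀ θ) * F' = (2 : ℂ) ^ s • (F' * del M k₀ θ) := by
      rw [smul_mul_assoc, mul_comm]
    rw [h1]
    have := hs.coeff 1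
    simpa using this
  -- the monic relation
  have hrel := norm_root hF'R.isF
  set b : ℕ → PowerSeries ℂ := fun i =>
    if i < n then - ((-1 : ℂ) ^ (n - i) • qe M (esy M k F' (n - i))) else 0 with hb
  refine coeffIn_of_integral h.cic hd0 hdO hdf (n := n) (b := b) ?_ ?_
  · intro i
    simp only [hb]
    split_ifs with hi
    · refine CoeffIn.neg (CoeffIn.smul (O.pow_mem (O.neg_mem O.one_mem) _) ?_)
      have := (hcoef (n - i) (Finset.mem_range.mpr (by omega))).coeff 1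
      simpa using this
    · exact CoeffIn.zero
  · have hqrel : ∑ i ∈ Finset.range (n + 1), ((-1 : ℂ) ^ i) •
        (qe M (esy M k F' i) * qe M F' ^ (n - i)) = 0 := by
      have h1 := congrArg (qe M) hrel
      rw [qe_zero] at h1
      rw [← h1]
      have hterm : ∀ i ∈ Finset.range (n + 1), IsF M ((n : ℤ) * k)
          (((-1 : ℂ) ^ i) • (esy M k F' i * F' ^ (n - i))) := by
        intro i hi
        have hi' := Finset.mem_range.mp hi
        refine IsF.smul _ ?_
        refine ((hcoef i hi).isF.mul (hF'R.isF.pow (n - i))).cast ?_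
        rw [Nat.cast_sub (by omega)]
        ring
      rw [qe_sum _ _ hterm]
      refine Finset.sum_congr rfl fun i hi => ?_
      have hi' := Finset.mem_range.mp hi
      rw [qe_smul ((hcoef i hi).isF.mul (hF'R.isF.pow (n - i))),
        qe_mul (hcoef i hi).isF (hF'R.isF.pow (n - i)), qe_pow hF'R.isF]
    rw [Finset.sum_range_succ'] at hqrel
    have h0 : qe M (esy M k F' 0) = 1 := by rw [esy_zero, qe_one]
    rw [pow_zero, one_smul, h0, one_mul, Nat.sub_zero] at hqrel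
    have h2 : qe M F' ^ n = - ∑ i ∈ Finset.range n, ((-1 : ℂ) ^ (i + 1)) •
        (qe M (esy M k F' (i + 1)) * qe M F' ^ (n - (i + 1))) := by
      rw [add_comm] at hqrel
      exact eq_neg_of_add_eq_zero_left hqrel
    rw [h2, ← Finset.sum_neg_distrib, ← Finset.sum_range_reflect]
    refine Finset.sum_congr rfl fun i hi => ?_
    have hi' := Finset.mem_range.mp hi
    simp only [hb, if_pos hi']
    have e1 : n - 1 - i + 1 = n - i := by omega
    have e2 : n - (n - i) = i := by omega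
    rw [e1, e2, neg_mul, smul_mul_assoc]

/-- **bounded denominators.** -/
theorem Cic.bd (h : Cic O K) (hθ : IsR O M k₀ θ)
    (hsep : ∀ g : SL(2, ℤ), g ∉ Gamma M → θ ∣[k₀] g ≠ θ) (hF : IsR K.toSubring M k F) :
    ∃ r : ℕ, IsR O M k ((2 : ℂ) ^ r • F) := by
  classical
  have h1 : ∀ a : GM M, ∃ r : ℕ, CoeffIn O (qe M ((2 : ℂ) ^ r • tr k F a)) :=
    fun a => h.bd_infty hθ hsep (hF.tr a)
  choose r hr using h1
  set R := ∑ a : GM M, r a with hR
  refine ⟨R, hF.isF.smul _, fun g => ?_⟩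
  have hle : r (g : GM M) ≤ R :=
    Finset.single_le_sum (f := r) (fun _ _ => Nat.zero_le _) (Finset.mem_univ _)
  have h2 : ((2 : ℂ) ^ R • F) ∣[k] g = (2 : ℂ) ^ (R - r (g : GM M)) •
      ((2 : ℂ) ^ r (g : GM M) • tr k F (g : GM M)) := by
    rw [SL_smul_slash, tr_mk hF.isF, smul_smul, ← pow_add, Nat.sub_add_cancel hle]
  rw [h2, qe_smul ((hF.isF.tr _).smul _)]
  exact (hr _).smul (two_pow_mem _ _)

end Crest.Agent.R007.Rat
end
end

-- ▼ part R007/RatBDO
section

/-!
Row 7 (S0007), section A, node (BD): bounded denominators for the concrete ring `Coef.OO` and its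
fraction field `Coef.K0` (generated by the roots of unity of odd order), and all odd levels.
-/

set_option autoImplicit false

noncomputable section

namespace Crest.Agent.R007.Rat

open UpperHalfPlane ModularForm CongruenceSubgroup Matrix.SpecialLinearGroup
open scoped MatrixGroups Manifold

/-- `Coef.OO` is completely integrally closed with fraction field `Coef.K0`, and denominators are
powers of `2`. -/
theorem cic_OO : Cic Coef.OO Coef.K0 where
  le := fun _ hx => Coef.OO_le_K0 hx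
  frac := fun _ hx => Coef.two_pow_mul_mem hx
  cic := by
    intro a ha ha0 x hx
    by_cases hx0 : x = 0
    · rw [hx0]; exact Coef.OO.zero_mem
    have hxK : x ∈ Coef.K0 := by
      have h1 : a * x ∈ Coef.OO := by simpa using hx 1
      have h2 : x = (a * x) / a := by field_simp
      rw [h2]
      exact div_mem (Coef.OO_le_K0 h1) (Coef.OO_le_K0 ha)
    obtain ⟨m, hm⟩ := Coef.two_pow_mul_mem hxK
    obtain ⟨s, w, hw⟩ := Coef.exists_eq_two_pow_mul_unit (z := ⟨a, ha⟩)
      (fun h => ha0 (congrArg (Subtype.val : Coef.OO → ℂ) h))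
    obtain ⟨n, u, hu⟩ := Coef.exists_eq_two_pow_mul_unit (z := ⟨(2 : ℂ) ^ m * x, hm⟩)
      (fun h => (mul_ne_zero (pow_ne_zero _ two_ne_zero) hx0)
        (congrArg (Subtype.val : Coef.OO → ℂ) h))
    have hw' : a = (2 : ℂ) ^ s * ((w : Coef.OO) : ℂ) := congrArg (Subtype.val : Coef.OO → ℂ) hw
    have hu' : (2 : ℂ) ^ m * x = (2 : ℂ) ^ n * ((u : Coef.OO) : ℂ) :=
      congrArg (Subtype.val : Coef.OO → ℂ) hu
    rcases le_or_gt m n with hmn | hmn
    · obtain ⟨d, rfl⟩ := Nat.exists_eq_add_of_le hmn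
      have h3 : x = (2 : ℂ) ^ d * ((u : Coef.OO) : ℂ) := by
        have h4 : (2 : ℂ) ^ m ≠ 0 := pow_ne_zero _ two_ne_zero
        apply mul_left_cancel₀ h4
        rw [hu', pow_add]; ring
      rw [h3]
      exact Coef.OO.mul_mem (pow_mem (by exact_mod_cast natCast_mem Coef.OO 2) _)
        (u : Coef.OO).2
    · exfalso
      have hb := hx (s + 1)
      have h5 : (2 : Coef.OO) ^ (m * (s + 1)) ∣ (2 : Coef.OO) ^ (s + n * (s + 1)) := by
        have h6 : (2 : Coef.OO) ^ (m * (s + 1)) ∣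
            (2 : Coef.OO) ^ (s + n * (s + 1)) * ((w * u ^ (s + 1) : Coef.OOˣ) : Coef.OO) := by
          refine ⟨⟨a * x ^ (s + 1), hb⟩, ?_⟩
          apply Subtype.ext
          have h7 : ((2 : ℂ) ^ m * x) ^ (s + 1) = ((2 : ℂ) ^ n * ((u : Coef.OO) : ℂ)) ^ (s + 1) := by
            rw [hu']
          push_cast
          have h8 : (2 : ℂ) ^ (m * (s + 1)) * (a * x ^ (s + 1)) =
              a * ((2 : ℂ) ^ m * x) ^ (s + 1) := by
            rw [mul_pow, ← pow_mul]; ring
          have h9 : (2 : ℂ) ^ (s + n * (s + 1)) * (((w : Coef.OO) : ℂ) * ((u : Coef.OO) : ℂ) ^ (s + 1)) =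
              ((2 : ℂ) ^ s * ((w : Coef.OO) : ℂ)) * ((2 : ℂ) ^ n * ((u : Coef.OO) : ℂ)) ^ (s + 1) := by
            rw [mul_pow, ← pow_mul, pow_add]; ring
          rw [← hw', ← h7, ← h8] at h9
          exact h9
        exact (Units.dvd_mul_right).mp h6
      rw [pow_dvd_pow_iff Coef.two_ne_zero_OO Coef.two_not_isUnit] at h5
      have h10 : (n + 1) * (s + 1) ≤ m * (s + 1) := Nat.mul_le_mul_right _ hmn
      nlinarith

/-! ### `ζ_M`, `M` odd -/

variable {M : ℕ} [NeZero M] {k : ℤ}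

omit [NeZero M] in
lemma zeta_zpow_pow (hM : M ≠ 0) (b : ℤ) : (Wp.zeta M ^ b) ^ M = 1 := by
  rw [← zpow_natCast, ← zpow_mul, mul_comm, zpow_mul, zpow_natCast, Wp.zeta_pow M hM, one_zpow]

omit [NeZero M] in
lemma zeta_zpow_mem_OO (hM : Odd M) (b : ℤ) : Wp.zeta M ^ b ∈ Coef.OO :=
  Coef.root_mem hM (zeta_zpow_pow hM.pos.ne' b)

omit [NeZero M] in
lemma zeta_mem_K0 (hM : Odd M) : Wp.zeta M ∈ Coef.K0 := by
  simpa using Coef.OO_le_K0 (zeta_zpow_mem_OO hM 1)

omit [NeZero M] in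
lemma chi_mem_OO (hM : Odd M) (s : ℕ) (a b : ℤ) (d e : ℕ) : Wp.chi M s a b d e ∈ Coef.OO := by
  unfold Wp.chi
  refine add_mem ?_ (mul_mem (pow_mem (neg_mem (one_mem _)) _) ?_)
  · split_ifs
    · exact mul_mem (pow_mem (natCast_mem _ _) _) (pow_mem (zeta_zpow_mem_OO hM _) _)
    · exact zero_mem _
  · split_ifs
    · exact mul_mem (pow_mem (natCast_mem _ _) _) (pow_mem (zeta_zpow_mem_OO hM _) _)
    · exact zero_mem _

omit [NeZero M] in
theorem cQ_mem_OO (hM : Odd M) {v : Fin 2 → ℤ}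
    (hv : (v 0 : ZMod M) ≠ 0 ∨ (v 1 : ZMod M) ≠ 0) (n : ℕ) : Wp.cQ M v n ∈ Coef.OO := by
  have hM0 : M ≠ 0 := hM.pos.ne'
  refine add_mem ?_ (sum_mem fun p _ => chi_mem_OO hM _ _ _ _ _)
  split_ifs
  · rw [Wp.cQ0_eq hM0 hv]
    split_ifs with h0
    · have hb : (v 1 : ZMod M) ≠ 0 := by tauto
      have h1 := Wp.zeta_zpow_ne_one hM0 hb
      rw [div_eq_mul_inv, ← inv_pow]
      refine mul_mem (mul_mem (zeta_zpow_mem_OO hM _) (add_mem (one_mem _) (zeta_zpow_mem_OO hM _)))
        (pow_mem (Coef.inv_one_sub_mem hM (zeta_zpow_pow hM0 _) ?_) _)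
      intro h2
      apply h1
      rw [h2, sub_self]
    · exact zero_mem _
  · exact zero_mem _

/-- The weight 3 division values `Q M v` have coefficients in `Coef.OO` at all cusps (`M` odd). -/
theorem isR_Q (hM : Odd M) {v : Fin 2 → ℤ} (hv : (v 0 : ZMod M) ≠ 0 ∨ (v 1 : ZMod M) ≠ 0) :
    IsR Coef.OO M 3 (Wp.Q M v) where
  isF := Wp.isF_Q (NeZero.ne M) v
  coeff := fun g n => by
    rw [Wp.Q_slash, Wp.qe_Q, PowerSeries.coeff_mk]
    exact cQ_mem_OO hM (Wp.vecMul_ne hv g) n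

/-- A separating form with coefficients in `Coef.OO`, `M ≥ 3` odd. -/
theorem exists_theta_OO (hM : Odd M) (h3 : 3 ≤ M) :
    ∃ θ, IsR Coef.OO M 3 θ ∧ ∀ g : SL(2, ℤ), g ∉ Gamma M → θ ∣[(3 : ℤ)] g ≠ θ := by
  have h1M : (1 : ZMod M) ≠ 0 := by
    have : Fact (1 < M) := ⟨by omega⟩
    exact one_ne_zero
  exact exists_sep (isR_Q hM (by left; simpa using h1M)) (isR_Q hM (by right; simpa using h1M))
    (fun g h0 h1 => Wp.mem_Gamma_of_Q_fixed h3 h0 h1)

/-- **(BD) bounded denominators**: a form of odd level `M` whose q-expansions at all cusps have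
coefficients in `Coef.K0` becomes `Coef.OO`-integral at all cusps after multiplication by a power
of `2`. -/
theorem bd_OO (hM : Odd M) {F : ℍ → ℂ} (hF : IsR Coef.K0.toSubring M k F) :
    ∃ r : ℕ, IsR Coef.OO M k ((2 : ℂ) ^ r • F) := by
  rcases Nat.lt_or_ge M 3 with h3 | h3
  · obtain rfl : M = 1 := by
      obtain ⟨c, hc⟩ := hM
      omega
    exact cic_OO.levelOne' (M := 1) hF.isF hF
  · obtain ⟨θ, hθ, hsep⟩ := exists_theta_OO hM h3
    exact cic_OO.bd hθ hsep hF



end Crest.Agent.R007.Rat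
end
end

-- ▼ part R007/RatBDN

/-!
Row 7 (S0007), section A, node (BD) on `Γ₁(N)`, `N` odd: a form whose q-expansion at infinity has
coefficients in `Coef.K0` is `Coef.OO`-integral at all cusps after multiplication by a power of `2`.
-/

set_option autoImplicit false

noncomputable section

namespace Crest.Agent.R007.Rat

open UpperHalfPlane ModularForm CongruenceSubgroup Matrix.SpecialLinearGroup
open scoped MatrixGroups Manifold
open Crest.NumberTheoryR.HeckeTwoAdic

variable {M : ℕ} [NeZero M] {k : ℤ}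

/-- `K`-rational at infinity implies `K`-rational at all cusps (`ζ_M ∈ K`). -/
theorem isR_of_infty (hM : 3 ≤ M) (K : Subfield ℂ) (hz : Wp.zeta M ∈ K) {F : ℍ → ℂ}
    (hF : IsF M k F) (h : CoeffIn K.toSubring (qe M F)) : IsR K.toSubring M k F := by
  refine ⟨hF, fun g n => ?_⟩
  refine RatAlg.mem_of_fixed _ _ fun σ hσ => ?_
  have hs : (σ : ℂ →+* ℂ) (Wp.zeta M) = Wp.zeta M ^ (1 : ℤ) := by
    rw [zpow_one]
    exact hσ _ hz
  obtain ⟨F', hF'⟩ := exists_gal hM hs hF
  have htw : ∀ g : SL(2, ℤ), Tw 1 M g g := fun g => by simp [Tw]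
  have e1 : F' = F := by
    refine qe_inj hF'.right hF ?_
    have h1 := hF'.eq 1 1 (htw 1)
    rw [SlashAction.slash_one, SlashAction.slash_one] at h1
    rw [h1]
    ext n
    rw [PowerSeries.coeff_map]
    exact hσ _ (h n)
  have h2 := congrArg (PowerSeries.coeff n) (hF'.eq g g (htw g))
  rw [PowerSeries.coeff_map, e1] at h2
  exact h2.symm

/-- odd level: `K0`-rational at infinity implies `K0`-rational at all cusps. -/
theorem isR_K0_of_infty (hM : Odd M) {F : ℍ → ℂ}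
    (hF : IsF M k F) (h : CoeffIn Coef.K0.toSubring (qe M F)) : IsR Coef.K0.toSubring M k F := by
  rcases Nat.lt_or_ge M 3 with h3 | h3
  · obtain rfl : M = 1 := by
      obtain ⟨c, hc⟩ := hM
      omega
    exact ⟨hF, fun g => by rw [slash_one_level hF]; exact h⟩
  · exact isR_of_infty h3 _ (zeta_mem_K0 hM) hF h

/-- **(BD)**, odd level, hypothesis only at infinity. -/
theorem bd_infty_OO (hM : Odd M) {F : ℍ → ℂ} (hF : IsF M k F)
    (h : CoeffIn Coef.K0.toSubring (qe M F)) : ∃ r : ℕ, IsR Coef.OO M k ((2 : ℂ) ^ r • F) :=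
  bd_OO hM (isR_K0_of_infty hM hF h)

variable {N i : ℕ} [NeZero N]

/-- **(BD)** for forms on `Γ₁(N)`, `N` odd; at all cusps. -/
theorem bd_MF_isR (hN : Odd N) (f : MF N i) (hf : ∀ n, Op.an f n ∈ Coef.K0) :
    ∃ r : ℕ, IsR Coef.OO N (i : ℤ) ((2 : ℂ) ^ r • (f : ℍ → ℂ)) := by
  refine bd_infty_OO hN (isF_of_MF f) fun n => ?_
  rw [coeff_qe_MF f N (isF_of_MF f)]
  split_ifs
  · exact hf _
  · exact Subring.zero_mem _

/-- **(BD)** for forms on `Γ₁(N)`, `N` odd: diamond translates. -/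
theorem bd_MF (hN : Odd N) (f : MF N i) (hf : ∀ n, Op.an f n ∈ Coef.K0) :
    ∃ r : ℕ, ∀ (g : SL(2, ℤ)) (hg : g ∈ Gamma0 N) (n : ℕ),
      (2 : ℂ) ^ r * Op.an (Op.Dop N i g hg f) n ∈ Coef.OO := by
  obtain ⟨r, hr⟩ := bd_MF_isR hN f hf
  refine ⟨r, fun g hg n => ?_⟩
  have h1 := hr.coeff g (N * n)
  rw [SL_smul_slash] at h1
  have hL : IsF N (i : ℤ) (Op.Dop N i g hg f : ℍ → ℂ) := isF_of_MF _
  have e1 := coeff_qe_MF (Op.Dop N i g hg f) N hL (N * n)
  rw [if_pos (dvd_mul_right _ _), Nat.mul_div_cancel_left _ (Nat.pos_of_ne_zero (NeZero.ne N))] at e1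
  rw [Op.Dop_coe] at hL e1
  rw [qe_smul hL, PowerSeries.coeff_smul, e1, smul_eq_mul] at h1
  exact h1

/-- an element of `Coef.OO` which is rational has odd denominator -/
lemma exists_odd_of_mem {x : ℂ} (hx : x ∈ Coef.OO) (hq : x ∈ (⊥ : Subfield ℂ)) :
    ∃ a b : ℤ, Odd b ∧ (b : ℂ) * x = a := by
  obtain ⟨q, rfl⟩ := (Realise.mem_bot_iff x).1 hq
  have h1 := Coef.ratCast_mem_iff.1 hx
  refine ⟨q.num, q.den, by exact_mod_cast h1, ?_⟩
  have h2 : (q : ℂ) = (q.num : ℂ) / (q.den : ℂ) := by exact_mod_cast (Rat.num_div_den q).symm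
  have h3 : (q.den : ℂ) ≠ 0 := by exact_mod_cast q.den_nz
  rw [h2]
  push_cast
  field_simp

/-- **(BD)** for rational forms on `Γ₁(N)`, `N` odd (helper425's `hbd`). -/
theorem bd_MF_rat (hN : Odd N) (f : MF N i) (hf : Realise.IsK ⊥ f) :
    ∃ r : ℕ, ∀ (g : SL(2, ℤ)) (hg : g ∈ Gamma0 N) (n : ℕ),
      ∃ a b : ℤ, Odd b ∧ (b : ℂ) * ((2 : ℂ) ^ r * Op.an (Op.Dop N i g hg f) n) = a := by
  obtain ⟨r, hr⟩ := bd_MF hN f (fun n => bot_le (a := Coef.K0) (hf.an n))
  refine ⟨r, fun g hg n => exists_odd_of_mem (hr g hg n) ?_⟩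
  exact mul_mem (pow_mem (ofNat_mem _ 2) _) (hf g hg n)

end Crest.Agent.R007.Rat
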