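/-
Row 7 (S0007), section E-FG: power series with coefficients in a subring (integrality of
substitution, of multiplicative and compositional inverses, of the d-th root of 1+T)  (helper377).
-/
import Mathlib

set_option autoImplicit false

noncomputable section

namespace Crest.Agent.R007.PsInt

open PowerSeries

section CIn

variable {K : Type*} [CommRing K] (S : Subring K)

/-- all coefficients lie in `S` -/
def CIn (p : PowerSeries K) : Prop := ∀ n, coeff n p ∈ S

variable {S}

theorem CIn_iff {p : PowerSeries K} : CIn S p ↔ ∃ p' : PowerSeries S, PowerSeries.map S.subtype p' = p := by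
  constructor
  · intro h
    refine ⟨PowerSeries.mk fun n => ⟨coeff n p, h n⟩, ?_⟩
    ext n
    simp
  · rintro ⟨p', rfl⟩ n
    rw [coeff_map]
    exact (coeff n p').2

theorem CIn_map (p' : PowerSeries S) : CIn S (PowerSeries.map S.subtype p') := CIn_iff.2 ⟨p', rfl⟩

theorem CIn.zero : CIn S (0 : PowerSeries K) := fun n => by simp [S.zero_mem]
theorem CIn.one : CIn S (1 : PowerSeries K) := CIn_iff.2 ⟨1, by simp⟩
theorem CIn_X : CIn S (PowerSeries.X : PowerSeries K) := CIn_iff.2 ⟨PowerSeries.X, by simp⟩
theorem CIn_C {c : K} (hc : c ∈ S) : CIn S (PowerSeries.C c) :=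
  CIn_iff.2 ⟨PowerSeries.C ⟨c, hc⟩, by simp⟩
theorem CIn.add {p q : PowerSeries K} (hp : CIn S p) (hq : CIn S q) : CIn S (p + q) := fun n => by
  rw [map_add]; exact S.add_mem (hp n) (hq n)
theorem CIn.neg {p : PowerSeries K} (hp : CIn S p) : CIn S (-p) := fun n => by
  rw [map_neg]; exact S.neg_mem (hp n)
theorem CIn.sub {p q : PowerSeries K} (hp : CIn S p) (hq : CIn S q) : CIn S (p - q) := fun n => by
  rw [map_sub]; exact S.sub_mem (hp n) (hq n)
theorem CIn.mul {p q : PowerSeries K} (hp : CIn S p) (hq : CIn S q) : CIn S (p * q) := fun n => by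
  rw [coeff_mul]; exact S.sum_mem fun i _ => S.mul_mem (hp _) (hq _)
theorem CIn.pow {p : PowerSeries K} (hp : CIn S p) (k : ℕ) : CIn S (p ^ k) := by
  induction k with
  | zero => simpa using CIn.one
  | succ k ih => rw [pow_succ]; exact ih.mul hp
theorem CIn.smul {p : PowerSeries K} (hp : CIn S p) {c : K} (hc : c ∈ S) : CIn S (c • p) := fun n => by
  rw [coeff_smul]; exact S.mul_mem hc (hp n)
theorem CIn.sum {ι : Type*} {s : Finset ι} {p : ι → PowerSeries K} (hp : ∀ i ∈ s, CIn S (p i)) :
    CIn S (∑ i ∈ s, p i) := fun n => by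
  rw [map_sum]; exact S.sum_mem fun i hi => hp i hi n
theorem CIn.prod {ι : Type*} {s : Finset ι} {p : ι → PowerSeries K} (hp : ∀ i ∈ s, CIn S (p i)) :
    CIn S (∏ i ∈ s, p i) := by
  classical
  induction s using Finset.induction_on with
  | empty => simpa using CIn.one
  | insert a s ha ih =>
    rw [Finset.prod_insert ha]
    exact (hp a (Finset.mem_insert_self _ _)).mul
      (ih fun i hi => hp i (Finset.mem_insert_of_mem hi))
theorem CIn.mono {S' : Subring K} (h : S ≤ S') {p : PowerSeries K} (hp : CIn S p) : CIn S' p :=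
  fun n => h (hp n)

/-- twisting the coefficients by a ring homomorphism preserving `S` -/
theorem CIn.map {L : Type*} [CommRing L] {S' : Subring L} (σ : K →+* L) (hσ : ∀ c ∈ S, σ c ∈ S')
    {p : PowerSeries K} (hp : CIn S p) : CIn S' (PowerSeries.map σ p) := fun n => by
  rw [coeff_map]; exact hσ _ (hp n)

theorem CIn.rescale {p : PowerSeries K} (hp : CIn S p) {c : K} (hc : c ∈ S) :
    CIn S (PowerSeries.rescale c p) := fun n => by
  rw [coeff_rescale]; exact S.mul_mem (S.pow_mem hc n) (hp n)

theorem CIn.subst {p a : PowerSeries K} (hp : CIn S p) (ha : CIn S a)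
    (ha0 : constantCoeff a = 0) : CIn S (PowerSeries.subst a p) := by
  obtain ⟨p', rfl⟩ := CIn_iff.1 hp
  obtain ⟨a', rfl⟩ := CIn_iff.1 ha
  have ha0' : constantCoeff a' = 0 := by
    apply Subtype.val_injective
    have := ha0
    rw [← coeff_zero_eq_constantCoeff_apply, coeff_map, coeff_zero_eq_constantCoeff_apply] at this
    simpa using this
  have hs : HasSubst a' := HasSubst.of_constantCoeff_zero' ha0'
  have h := PowerSeries.map_subst (h := S.subtype) hs p'
  have h2 : (MvPowerSeries.map S.subtype a' : MvPowerSeries Unit K) = PowerSeries.map S.subtype a' := rfl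
  rw [h2] at h
  rw [← h]
  exact CIn_map _

/-- coefficients of a multiplicative inverse -/
theorem CIn.of_mul_eq_one {p q : PowerSeries K} (hp : CIn S p)
    (hu : ∃ u ∈ S, u * constantCoeff p = 1) (h : p * q = 1) : CIn S q := by
  obtain ⟨u, hu, hu1⟩ := hu
  obtain ⟨p', rfl⟩ := CIn_iff.1 hp
  have h0 : constantCoeff (PowerSeries.map S.subtype p') = (constantCoeff p' : S) := by
    rw [← coeff_zero_eq_constantCoeff_apply, coeff_map, coeff_zero_eq_constantCoeff_apply]; rfl
  have hunit : IsUnit (constantCoeff p') := by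
    refine IsUnit.of_mul_eq_one ⟨u, hu⟩ ?_
    apply Subtype.val_injective
    change ((constantCoeff p' : S) : K) * u = 1
    rw [← h0, mul_comm]; exact hu1
  obtain ⟨q', hq'⟩ := (PowerSeries.isUnit_iff_constantCoeff.2 hunit).exists_right_inv
  have : PowerSeries.map S.subtype q' = q := by
    have e : PowerSeries.map S.subtype p' * PowerSeries.map S.subtype q' = 1 := by
      rw [← map_mul, hq', map_one]
    calc PowerSeries.map S.subtype q' = (PowerSeries.map S.subtype p' * q) *
          PowerSeries.map S.subtype q' := by rw [h, one_mul]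
      _ = q * (PowerSeries.map S.subtype p' * PowerSeries.map S.subtype q') := by ring
      _ = q := by rw [e, mul_one]
  rw [← this]
  exact CIn_map _


/-- an integral compositional inverse -/
theorem CIn.exists_substInv {p : PowerSeries K} (hp : CIn S p) (hp0 : constantCoeff p = 0)
    (hu : ∃ u ∈ S, u * coeff 1 p = 1) : ∃ r : PowerSeries K, CIn S r ∧ constantCoeff r = 0 ∧
      PowerSeries.subst r p = X ∧ PowerSeries.subst p r = X := by
  obtain ⟨u, hu, hu1⟩ := hu
  obtain ⟨p', rfl⟩ := CIn_iff.1 hp
  have hp0' : constantCoeff p' = 0 := by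
    apply Subtype.val_injective
    have := hp0
    rw [← coeff_zero_eq_constantCoeff_apply, coeff_map, coeff_zero_eq_constantCoeff_apply] at this
    simpa using this
  have hunit : IsUnit (coeff 1 p') := by
    refine IsUnit.of_mul_eq_one ⟨u, hu⟩ ?_
    apply Subtype.val_injective
    change ((coeff 1 p' : S) : K) * u = 1
    rw [coeff_map] at hu1
    rw [mul_comm]; exact hu1
  have h1 := p'.subst_substInvOfIsUnit_right hp0' hunit
  have h2 := p'.subst_substInvOfIsUnit_left hp0' hunit
  set r' := p'.substInvOfIsUnit hunit with hr'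
  have hr0 : constantCoeff r' = 0 := p'.constantCoeff_substInvOfIsUnit hunit
  refine ⟨PowerSeries.map S.subtype r', CIn_map _, ?_, ?_, ?_⟩
  · rw [← coeff_zero_eq_constantCoeff_apply, coeff_map, coeff_zero_eq_constantCoeff_apply, hr0]
    simp
  · have h := PowerSeries.map_subst (h := S.subtype) (HasSubst.of_constantCoeff_zero' hr0) p'
    have e : (MvPowerSeries.map S.subtype r' : MvPowerSeries Unit K) = PowerSeries.map S.subtype r' := rfl
    rw [e, h1] at h
    rw [← h]
    exact PowerSeries.map_X _
  · have h := PowerSeries.map_subst (h := S.subtype) (HasSubst.of_constantCoeff_zero' hp0') r'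
    have e : (MvPowerSeries.map S.subtype p' : MvPowerSeries Unit K) = PowerSeries.map S.subtype p' := rfl
    rw [e, h2] at h
    rw [← h]
    exact PowerSeries.map_X _

lemma subst_X_self (f : PowerSeries K) : PowerSeries.subst (X : PowerSeries K) f = f := X_subst f

lemma subst_comp {a b f : PowerSeries K} (ha : constantCoeff a = 0) (hb : constantCoeff b = 0) :
    PowerSeries.subst b (PowerSeries.subst a f) = PowerSeries.subst (PowerSeries.subst b a) f :=
  subst_comp_subst_apply (HasSubst.of_constantCoeff_zero' ha) (HasSubst.of_constantCoeff_zero' hb) f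

lemma subst_X_left {b : PowerSeries K} (hb : constantCoeff b = 0) :
    PowerSeries.subst b (X : PowerSeries K) = b :=
  PowerSeries.subst_X (HasSubst.of_constantCoeff_zero' hb)

/-- uniqueness of compositional inverses -/
lemma substInv_unique {p q r : PowerSeries K} (hp : constantCoeff p = 0) (hq : constantCoeff q = 0)
    (hr : constantCoeff r = 0) (h1 : PowerSeries.subst q p = X) (h2 : PowerSeries.subst p r = X) :
    q = r := by
  -- r(p(q)) = q and = r
  have e1 : PowerSeries.subst q (PowerSeries.subst p r) = q := by rw [h2, subst_X_left hq]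
  have e2 : PowerSeries.subst q (PowerSeries.subst p r) = r := by
    rw [subst_comp hp hq, h1, subst_X_self]
  rw [← e1, e2]



/-- **The integrality principle for `H = Z₂ ∘ Z₁⁻¹`**: if `Z_i = P_i(E)` with the same `E` and
`P_1, P_2` integral, `P_1` with unit linear coefficient, then `Z₂ ∘ Z₁⁻¹ = P₂ ∘ P₁⁻¹` is integral. -/
theorem CIn.comp_inv {P₁ P₂ E Z₁ Z₂ L : PowerSeries K} (h1 : CIn S P₁) (h2 : CIn S P₂)
    (h10 : constantCoeff P₁ = 0) (hu : ∃ u ∈ S, u * coeff 1 P₁ = 1) (hE : constantCoeff E = 0)
    (hZ1 : Z₁ = PowerSeries.subst E P₁) (hZ2 : Z₂ = PowerSeries.subst E P₂)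
    (hL0 : constantCoeff L = 0) (hL : PowerSeries.subst L Z₁ = X) :
    CIn S (PowerSeries.subst L Z₂) := by
  obtain ⟨r, hr, hr0, e1, e2⟩ := h1.exists_substInv h10 hu
  -- E(L) = r
  have hEL0 : constantCoeff (PowerSeries.subst L E) = 0 := by
    exact PowerSeries.constantCoeff_subst_eq_zero hL0 E hE
  have e3 : PowerSeries.subst L E = r := by
    have : PowerSeries.subst (PowerSeries.subst L E) P₁ = X := by
      rw [← subst_comp hE hL0, ← hZ1, hL]
    exact substInv_unique h10 hEL0 hr0 this e2
  rw [hZ2, subst_comp hE hL0, e3]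
  exact h2.subst hr hr0

end CIn

/-! ### the `d`-th root of `1 + T` -/

section root

variable (A : Type*) [CommRing A] (d : ℕ)

/-- `(1+T)^d - 1` -/
def powSer : PowerSeries A := (1 + X) ^ d - 1

lemma constantCoeff_powSer : constantCoeff (powSer A d) = 0 := by
  simp [powSer]

lemma coeff_one_powSer : coeff 1 (powSer A d) = (d : A) := by
  have h : (powSer A d) = (((1 + Polynomial.X) ^ d - 1 : Polynomial A) : PowerSeries A) := by
    rw [powSer]; push_cast; rfl
  rw [h, Polynomial.coeff_coe, Polynomial.coeff_sub, Polynomial.coeff_one_add_X_pow]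
  simp [Polynomial.coeff_one]

variable {A d}

/-- `(1+T)^(1/d) - 1` -/
def rootSer (h : IsUnit (d : A)) : PowerSeries A :=
  (powSer A d).substInvOfIsUnit (by rw [coeff_one_powSer]; exact h)

lemma constantCoeff_rootSer (h : IsUnit (d : A)) : constantCoeff (rootSer h) = 0 :=
  (powSer A d).constantCoeff_substInvOfIsUnit _

lemma subst_rootSer_powSer (h : IsUnit (d : A)) : PowerSeries.subst (rootSer h) (powSer A d) = X :=
  (powSer A d).subst_substInvOfIsUnit_right (constantCoeff_powSer A d) _

lemma subst_powSer_rootSer (h : IsUnit (d : A)) : PowerSeries.subst (powSer A d) (rootSer h) = X :=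
  (powSer A d).subst_substInvOfIsUnit_left (constantCoeff_powSer A d) _

lemma subst_powSer {b : PowerSeries A} (hb : constantCoeff b = 0) :
    PowerSeries.subst b (powSer A d) = (1 + b) ^ d - 1 := by
  have hs : HasSubst b := HasSubst.of_constantCoeff_zero' hb
  have h1 : PowerSeries.subst b (1 : PowerSeries A) = 1 := by
    rw [← coe_substAlgHom hs, map_one]
  rw [powSer, subst_sub hs, subst_pow hs, subst_add hs, h1, PowerSeries.subst_X hs]

lemma one_add_rootSer_pow (h : IsUnit (d : A)) : (1 + rootSer h) ^ d = 1 + X := by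
  have := subst_rootSer_powSer h
  rw [subst_powSer (constantCoeff_rootSer h)] at this
  rw [← this]; ring

lemma rootSer_unique (h : IsUnit (d : A)) {b : PowerSeries A} (hb : constantCoeff b = 0)
    (hbd : (1 + b) ^ d = 1 + X) : b = rootSer h := by
  refine substInv_unique (constantCoeff_powSer A d) hb (constantCoeff_rootSer h) ?_
    (subst_powSer_rootSer h)
  rw [subst_powSer hb, hbd]; ring

lemma map_rootSer {B : Type*} [CommRing B] (f : A →+* B) (h : IsUnit (d : A)) (h' : IsUnit (d : B)) :
    PowerSeries.map f (rootSer h) = rootSer h' := by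
  apply rootSer_unique
  · rw [← coeff_zero_eq_constantCoeff_apply, coeff_map, coeff_zero_eq_constantCoeff_apply,
      constantCoeff_rootSer, map_zero]
  · have := congrArg (PowerSeries.map f) (one_add_rootSer_pow h)
    rw [map_pow, map_add, map_add, map_one, PowerSeries.map_X] at this
    exact this

lemma CIn_rootSer {K : Type*} [CommRing K] {S : Subring K} {d : ℕ} (h : IsUnit (d : K))
    (hS : ∃ u ∈ S, u * (d : K) = 1) : CIn S (rootSer h) := by
  obtain ⟨u, hu, hu1⟩ := hS
  have h' : IsUnit ((d : ℕ) : S) := by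
    refine IsUnit.of_mul_eq_one ⟨u, hu⟩ ?_
    apply Subtype.val_injective
    change ((d : S) : K) * u = 1
    rw [mul_comm]
    simpa using hu1
  rw [← map_rootSer S.subtype h' h]
  exact CIn_map _


end root

/-! ### exponentials -/

section expo

variable (K : Type*) [CommRing K] [Algebra ℚ K]

/-- `e^T - 1` -/
def expm : PowerSeries K := exp K - 1

lemma constantCoeff_expm : constantCoeff (expm K) = 0 := by simp [expm]

lemma coeff_one_expm : coeff 1 (expm K) = 1 := by
  simp [expm, coeff_one]


variable {K}

lemma constantCoeff_rescale (c : K) {f : PowerSeries K} (hf : constantCoeff f = 0) :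
    constantCoeff (rescale c f) = 0 := by
  rw [← coeff_zero_eq_constantCoeff_apply, coeff_rescale, coeff_zero_eq_constantCoeff_apply, hf,
    mul_zero]

/-- `(e^{T/d})^d = e^T`. -/
lemma subst_rescale_expm_powSer {d : ℕ} {u : K} (hu : u * (d : K) = 1) :
    PowerSeries.subst (rescale u (expm K)) (powSer K d) = expm K := by
  rw [subst_powSer (constantCoeff_rescale u (constantCoeff_expm K))]
  have h1 : 1 + rescale u (expm K) = rescale u (exp K) := by
    rw [expm, map_sub, map_one]; ring
  rw [h1, ← map_pow, exp_pow_eq_rescale_exp, rescale_rescale, mul_comm, hu, rescale_one]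
  rfl

/-- `(1+T)^(1/d) - 1` at `T = e^w - 1` is `e^{w/d} - 1`. -/
lemma subst_expm_rootSer {d : ℕ} {u : K} (h : IsUnit (d : K)) (hu : u * (d : K) = 1) :
    PowerSeries.subst (expm K) (rootSer h) = rescale u (expm K) := by
  have h0 := constantCoeff_rescale u (constantCoeff_expm K)
  conv_lhs => rw [← subst_rescale_expm_powSer hu]
  rw [← subst_comp (constantCoeff_powSer K d) h0, subst_powSer_rootSer, subst_X_left h0]


end expo

end Crest.Agent.R007.PsInt
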