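/-
Row 7 (S0007), section E-FG: the G2-cusp assembly (helper377).
`Good O a b` : over the function ring ℍ → ℂ, the series `zs a b` is `P(e^w - 1)` with `P` integral.
Input: `Good` at all `(A1 v, A3 v)`.  Output: `Good` for all expansions of `A1 v ∥ g, A3 v ∥ g`, `g ∈ G2`.
-/
import Mathlib
import Crest.Agent.R007.PsInt
import Crest.Agent.R007.Fg4
import Crest.Agent.R007.Mix1
import Crest.Agent.R007.Tc3
import Crest.Agent.R007.G2Gen

set_option autoImplicit false

noncomputable section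

namespace Crest.Agent.R007.Tw

open PowerSeries UpperHalfPlane ModularForm Matrix
open Crest.Agent.R007.PsInt Crest.Agent.R007.Lat Crest.Agent.R007.Mix Crest.Agent.R007.Tc
open Crest.Agent.R007.Fg (zs ss lg)
open scoped MatrixGroups

section general

variable {K : Type*} [CommRing K]

/-- the linear coefficient of a composite -/
lemma coeff_one_subst {P E : PowerSeries K} (hE : constantCoeff E = 0) :
    coeff 1 (PowerSeries.subst E P) = coeff 1 P * coeff 1 E ∧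
      constantCoeff (PowerSeries.subst E P) = constantCoeff P := by
  have hs : HasSubst E := HasSubst.of_constantCoeff_zero' hE
  have hcc : ∀ Q : PowerSeries K, constantCoeff (PowerSeries.subst E Q) = constantCoeff Q := by
    intro Q
    have h1 : PowerSeries.subst E (C (constantCoeff Q)) = C (constantCoeff Q) := by
      exact PowerSeries.subst_C (constantCoeff Q)
    have h2 : constantCoeff (PowerSeries.subst E (Q - C (constantCoeff Q))) = 0 :=
      PowerSeries.constantCoeff_subst_eq_zero hE _ (by simp)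
    rw [subst_sub hs, h1, map_sub, constantCoeff_C, sub_eq_zero] at h2
    exact h2
  refine ⟨?_, hcc P⟩
  have hP := PowerSeries.eq_X_mul_shift_add_const P
  set Q : PowerSeries K := PowerSeries.mk fun p => coeff (p + 1) P with hQ
  have h3 : PowerSeries.subst E P = E * PowerSeries.subst E Q + C (constantCoeff P) := by
    have h1 : PowerSeries.subst E (C (constantCoeff P)) = C (constantCoeff P) := by
      exact PowerSeries.subst_C (constantCoeff P)
    conv_lhs => rw [hP]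
    rw [subst_add hs, subst_mul hs, PowerSeries.subst_X hs, h1]
  rw [h3, map_add, coeff_mul]
  have h4 : constantCoeff (PowerSeries.subst E Q) = coeff 1 P := by
    rw [hcc Q, ← coeff_zero_eq_constantCoeff_apply, hQ, coeff_mk]
  rw [Finset.Nat.antidiagonal_succ]
  simp only [Finset.Nat.antidiagonal_zero, Finset.map_singleton, Finset.sum_cons,
    Finset.sum_singleton, coeff_zero_eq_constantCoeff_apply, hE]
  rw [coeff_C]
  simp [h4, mul_comm]

/-- the power map in `1 + T` composed with the root: `(1+T)^(n/d) - 1` -/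
lemma exists_ratPow [Algebra ℚ K] {S : Subring K} {n d : ℕ} {u : K} (hd : u * (d : K) = 1)
    (huS : u ∈ S) : ∃ R : PowerSeries K, CIn S R ∧ constantCoeff R = 0 ∧
      PowerSeries.subst (expm K) R = rescale ((n : K) * u) (expm K) := by
  have hun : IsUnit (d : K) := IsUnit.of_mul_eq_one u (by rw [mul_comm]; exact hd)
  have hr0 := constantCoeff_rootSer hun
  refine ⟨PowerSeries.subst (rootSer hun) (powSer K n), ?_, ?_, ?_⟩
  · refine CIn.subst ?_ (CIn_rootSer hun ⟨u, huS, hd⟩) hr0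
    rw [powSer]
    exact ((CIn.one.add CIn_X).pow n).sub CIn.one
  · exact PowerSeries.constantCoeff_subst_eq_zero hr0 _ (constantCoeff_powSer K n)
  · rw [subst_comp hr0 (constantCoeff_expm K), subst_expm_rootSer hun hd,
      subst_powSer (constantCoeff_rescale u (constantCoeff_expm K))]
    have h1 : 1 + rescale u (expm K) = rescale u (exp K) := by
      rw [expm, map_sub, map_one]; ring
    rw [h1, ← map_pow, exp_pow_eq_rescale_exp, rescale_rescale]
    rw [expm, map_sub, map_one, mul_comm]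

end general

/-- `zs a b` is an integral series in `e^w - 1` -/
def Good (O : Subring ℂ) (a b : ℍ → ℂ) : Prop :=
  ∃ P : PowerSeries (ℍ → ℂ), CIn (IntO O) P ∧ zs a b = PowerSeries.subst (expm (ℍ → ℂ)) P

lemma Good.spec {O : Subring ℂ} {a b : ℍ → ℂ} (h : Good O a b) :
    ∃ P : PowerSeries (ℍ → ℂ), CIn (IntO O) P ∧ constantCoeff P = 0 ∧ coeff 1 P = 1 ∧
      zs a b = PowerSeries.subst (expm (ℍ → ℂ)) P := by
  obtain ⟨P, hP, e⟩ := h
  have h0 := coeff_one_subst (P := P) (constantCoeff_expm (ℍ → ℂ))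
  refine ⟨P, hP, ?_, ?_, e⟩
  · rw [← h0.2, ← e, Fg.constantCoeff_zs]
  · have := h0.1
    rw [← e, Fg.coeff_one_zs, coeff_one_expm, mul_one] at this
    exact this.symm

/-- transport along a ring homomorphism preserving integrality -/
lemma Good.map {O : Subring ℂ} {a b : ℍ → ℂ} (h : Good O a b) (σ : (ℍ → ℂ) →+* (ℍ → ℂ))
    (hσ : ∀ f ∈ IntO O, σ f ∈ IntO O) : Good O (σ a) (σ b) := by
  obtain ⟨P, hP, e⟩ := h
  refine ⟨P.map σ, hP.map σ hσ, ?_⟩
  rw [← Fg.map_zs σ a b, e]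
  have hs : HasSubst (expm (ℍ → ℂ)) := HasSubst.of_constantCoeff_zero' (constantCoeff_expm _)
  have h := PowerSeries.map_subst (h := σ) hs P
  have e2 : (MvPowerSeries.map σ (expm (ℍ → ℂ)) : MvPowerSeries Unit (ℍ → ℂ)) =
      PowerSeries.map σ (expm (ℍ → ℂ)) := rfl
  have e3 : PowerSeries.map σ (expm (ℍ → ℂ)) = expm (ℍ → ℂ) := by
    rw [expm, map_sub, map_one, PowerSeries.map_exp]
  rw [e2, e3] at h
  exact h

local notation "KK" => (ℍ → ℂ)

/-- scaling by an odd rational `n / d` -/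
lemma Good.scale {O : Subring ℂ} (hodd : ∀ n : ℕ, Odd n → ((n : ℂ))⁻¹ ∈ O) {a b : ℍ → ℂ}
    (h : Good O a b) {n d : ℕ} (hn : Odd n) (hd : Odd d) :
    Good O (((n : ℂ) / d) • a) (((n : ℂ) / d) ^ 3 • b) := by
  obtain ⟨P, hP, e⟩ := h
  have hn0 : (n : ℂ) ≠ 0 := by exact_mod_cast hn.pos.ne'
  have hd0 : (d : ℂ) ≠ 0 := by exact_mod_cast hd.pos.ne'
  have hconst : ∀ x ∈ O, (algebraMap ℂ KK x) ∈ IntO O := by
    intro x hx
    rw [Algebra.algebraMap_eq_smul_one]
    exact IntO_smul hx (one_mem _)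
  set u : KK := algebraMap ℂ KK ((d : ℂ)⁻¹) with hu
  set w : KK := algebraMap ℂ KK ((n : ℂ)⁻¹) with hw
  have hnK : algebraMap ℂ KK (n : ℂ) = (n : KK) := map_natCast _ n
  have hdK : algebraMap ℂ KK (d : ℂ) = (d : KK) := map_natCast _ d
  have hud : u * (d : KK) = 1 := by
    rw [hu, ← hdK, ← map_mul, inv_mul_cancel₀ hd0, map_one]
  have hwn : w * (n : KK) = 1 := by
    rw [hw, ← hnK, ← map_mul, inv_mul_cancel₀ hn0, map_one]
  let c : KKˣ := ⟨(n : KK) * u, (d : KK) * w, by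
    calc (n : KK) * u * (d * w) = (u * d) * (w * n) := by ring
      _ = 1 := by rw [hud, hwn, one_mul], by
    calc (d : KK) * w * (n * u) = (u * d) * (w * n) := by ring
      _ = 1 := by rw [hud, hwn, one_mul]⟩
  have hc : (c : KK) = algebraMap ℂ KK ((n : ℂ) / d) := by
    change (n : KK) * u = _
    rw [hu, ← hnK, ← map_mul, div_eq_mul_inv]
  obtain ⟨R, hR, hR0, eR⟩ := exists_ratPow (K := KK) (S := IntO O) (n := n) hud
    (hconst _ (hodd d hd))
  refine ⟨C ((d : KK) * w) * PowerSeries.subst R P, ?_, ?_⟩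
  · refine CIn.mul (CIn_C ?_) (hP.subst hR hR0)
    refine mul_mem ?_ (hconst _ (hodd n hn))
    exact natCast_mem (IntO O) d
  · have h1 := (Fg.zs_scale c a b).1
    have ha : (c : KK) * a = ((n : ℂ) / d) • a := by
      rw [hc, Algebra.smul_def]
    have hb : (c : KK) ^ 3 * b = ((n : ℂ) / d) ^ 3 • b := by
      rw [hc, Algebra.smul_def, map_pow]
    rw [ha, hb] at h1
    rw [h1]
    have hs : HasSubst (expm KK) := HasSubst.of_constantCoeff_zero' (constantCoeff_expm _)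
    have hC : PowerSeries.subst (expm KK) (C ((d : KK) * w)) = C ((d : KK) * w) := by
      exact PowerSeries.subst_C _
    rw [subst_mul hs, hC, subst_comp hR0 (constantCoeff_expm KK), eR, e]
    have hci : ((c⁻¹ : KKˣ) : KK) = (d : KK) * w := rfl
    rw [hci]
    congr 1
    have hc2 : (c : KK) = (n : KK) * u := rfl
    rw [hc2, rescale_eq_subst, rescale_eq_subst, subst_comp (constantCoeff_expm KK)
      (by simp : constantCoeff (((n : KK) * u) • (X : PowerSeries KK)) = 0)]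

/-- precomposition by an upper triangular matrix, as a ring homomorphism -/
def sigU (m b d : ℕ) (h : 0 < (ut m b d).det) : (ℍ → ℂ) →+* (ℍ → ℂ) where
  toFun f := fun τ => f (iG (ut m b d) h • τ)
  map_one' := rfl
  map_mul' _ _ := rfl
  map_zero' := rfl
  map_add' _ _ := rfl

lemma sigU_int {O : Subring ℂ} (hroot : ∀ x : ℚ, Odd x.den → ee x ∈ O) {m b d : ℕ} (hm : Odd m)
    (hd : Odd d) (h : 0 < (ut m b d).det) {f : ℍ → ℂ} (hf : f ∈ IntO O) :
    sigU m b d h f ∈ IntO O := by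
  obtain ⟨hf1, hf2⟩ := hf
  have hm0 : (m : ℚ) ≠ 0 := by exact_mod_cast hm.pos.ne'
  have hd0 : (d : ℚ) ≠ 0 := by exact_mod_cast hd.pos.ne'
  refine ⟨?_, fun r => ?_⟩
  · obtain ⟨M, hM, hf⟩ := hf1
    have : NeZero M := ⟨hM.pos.ne'⟩
    exact ⟨M * d, hM.mul hd, by
      have := PB_comp_ut (a := m) (b := b) hf hd.pos h
      exact this⟩
  · have h1 := qf_comp_ut hf1 hm hd h (r * d / m)
    have h2 : r * d / m * m / d = r := by field_simp
    rw [h2] at h1
    change (qf fun τ => f (iG (ut m b d) h • τ)).coeff r ∈ O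
    rw [h1]
    by_cases h0 : (qf f).coeff (r * d / m) = 0
    · rw [h0, mul_zero]; exact O.zero_mem
    · refine O.mul_mem (hroot _ ?_) (hf2 _)
      -- the exponent has odd denominator
      obtain ⟨M, hM, hf⟩ := hf1
      have hex : ∃ k : ℕ, (k : ℚ) / M = r * d / m := by
        by_contra hcon
        push Not at hcon
        exact h0 (qf_coeff_of_notMem hM hf hcon)
      obtain ⟨k, hk⟩ := hex
      rw [← hk]
      have h3 : (k : ℚ) / M * b / d = ((k * b : ℕ) : ℚ) / ((M * d : ℕ) : ℚ) := by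
        push_cast; field_simp
      rw [h3]
      have h4 : (((k * b : ℕ) : ℚ) / ((M * d : ℕ) : ℚ)).den ∣ M * d := by
        have := Rat.den_dvd ((k * b : ℕ) : ℤ) ((M * d : ℕ) : ℤ)
        rw [Int.natCast_dvd_natCast, Rat.divInt_eq_div, Int.cast_natCast, Int.cast_natCast] at this
        exact this
      exact (hM.mul hd).of_dvd_nat h4

/-! ### the cusps -/

lemma exists_ut_nat {A : Matrix (Fin 2) (Fin 2) ℤ} (hA : 0 < A.det) (ho : Odd A.det) :
    ∃ (γ : SL(2, ℤ)) (m b d : ℕ) (h : 0 < (ut m b d).det), Odd m ∧ Odd d ∧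
      iG A hA = sG γ * iG (ut m b d) h := by
  obtain ⟨γ, a, b, d, ha, hd, had, hAe⟩ := exists_hermite A hA
  obtain ⟨m, rfl⟩ := Int.eq_ofNat_of_zero_le ha.le
  obtain ⟨d', rfl⟩ := Int.eq_ofNat_of_zero_le hd.le
  have hb : 0 ≤ b + |b| * d' := by nlinarith [neg_abs_le b, abs_nonneg b]
  obtain ⟨b', hb'⟩ := Int.eq_ofNat_of_zero_le hb
  have hT : (ModularGroup.T ^ (-|b|)).1 = !![1, -|b|; 0, 1] := ModularGroup.coe_T_zpow _
  have hm : A = (γ * ModularGroup.T ^ (-|b|)).1 * ut m b' d' := by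
    change A = (γ.1 * (ModularGroup.T ^ (-|b|)).1) * ut m b' d'
    rw [hT, Matrix.mul_assoc, hAe]
    congr 1
    ext i j
    fin_cases i <;> fin_cases j
    · simp [ut, Matrix.mul_apply, Fin.sum_univ_two]
    · simp only [ut, Matrix.mul_apply, Fin.sum_univ_two]
      simp
      linarith
    · simp [ut, Matrix.mul_apply, Fin.sum_univ_two]
    · simp [ut, Matrix.mul_apply, Fin.sum_univ_two]
  have hdet : 0 < (ut m b' d').det := by
    rw [ut_det]; exact mul_pos ha hd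
  have hod : Odd (m : ℤ) ∧ Odd (d' : ℤ) := Int.odd_mul.1 (had ▸ ho)
  refine ⟨γ * ModularGroup.T ^ (-|b|), m, b', d', hdet, by exact_mod_cast hod.1,
    by exact_mod_cast hod.2, ?_⟩
  have h1 : 0 < ((γ * ModularGroup.T ^ (-|b|)).1 * ut m b' d').det := by rw [← hm]; exact hA
  rw [sG, ← iG_mul _ _ _ _ h1]
  exact iG_congr hm hA

/-- every expansion `f ∥ g`, `g ∈ G2`, is a scaled translate of `f ∣ γ`, `γ ∈ SL₂(ℤ)` -/
lemma res_sl_G2 {g : GL(2, ℝ)⁺} (hg : g ∈ G2) :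
    ∃ (γ : SL(2, ℤ)) (n m b d : ℕ) (h : 0 < (ut m b d).det), Odd n ∧ Odd m ∧ Odd d ∧
      ∀ (k : ℕ) (f : ℍ → ℂ),
        res (sl (Lat.lift k f) g) = ((n : ℂ) / d) ^ k • sigU m b d h (f ∣[(k : ℤ)] γ) := by
  obtain ⟨n, A, hn, hA, h, h', e, -⟩ := G2_exists hg
  obtain ⟨γ, m, b, d, hut, hm, hd, eA⟩ := exists_ut_nat h hA
  refine ⟨γ, n, m, b, d, hut, hn, hm, hd, fun k f => ?_⟩
  have hn0 : (n : ℂ) ≠ 0 := by exact_mod_cast hn.pos.ne'
  have h1 : sl (Lat.lift k f) (iG (sc n) h' * g) = sl (Lat.lift k f) (sG γ * iG (ut m b d) hut) := by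
    rw [e, eA]
  rw [sl_mul_right, sl_mul_right, sl_scalar (lift_mem k f), sl_lift_SL, sl_smul] at h1
  have h2 : sl (Lat.lift k f) g =
      ((n : ℂ)) ^ k • sl (Lat.lift k (f ∣[(k : ℤ)] γ)) (iG (ut m b d) hut) := by
    rw [← h1, smul_smul, Int.cast_natCast, ← mul_pow, mul_inv_cancel₀ hn0, one_pow, one_smul]
  rw [h2]
  funext τ
  change (n : ℂ) ^ k • res (sl (Lat.lift k (f ∣[(k : ℤ)] γ)) (iG (ut m b d) hut)) τ = _
  rw [res_sl_ut (lift_mem k _) hut τ, res_lift]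
  simp only [Pi.smul_apply, smul_eq_mul, sigU, RingHom.coe_mk, MonoidHom.coe_mk, OneHom.coe_mk]
  rw [Int.cast_natCast, div_pow, ← mul_assoc]
  congr 1
  rw [inv_pow, div_eq_mul_inv]

/-- **The G2-cusp assembly.** -/
theorem good_G2 {O : Subring ℂ} (hodd : ∀ n : ℕ, Odd n → ((n : ℂ))⁻¹ ∈ O)
    (hroot : ∀ x : ℚ, Odd x.den → ee x ∈ O)
    (hinf : ∀ v : Fin 2 → ℤ, NZ 3 v → Good O (A1 v) (A3 v)) {v : Fin 2 → ℤ} (hv : NZ 3 v)
    {g : GL(2, ℝ)⁺} (hg : g ∈ G2) :
    Good O (res (sl (Lat.lift 1 (A1 v)) g)) (res (sl (Lat.lift 3 (A3 v)) g)) := by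
  obtain ⟨γ, n, m, b, d, h, hn, hm, hd, H⟩ := res_sl_G2 hg
  have h1 := H 1 (A1 v)
  have h3 := H 3 (A3 v)
  rw [Nat.cast_one, A1_slash hv γ, pow_one] at h1
  rw [Nat.cast_ofNat, A3_slash γ] at h3
  rw [h1, h3]
  exact ((hinf _ (hv.vecMul γ)).map (sigU m b d h) fun f hf => sigU_int hroot hm hd h hf).scale
    hodd hn hd


/-! ### the comparison isomorphisms -/

section HH

open Crest.Agent.R007.Fg (HH lg_zs zs_lg constantCoeff_lg constantCoeff_zs)

lemma map_lg {K L : Type*} [CommRing K] [CommRing L] [Algebra ℚ K] [Algebra ℚ L] (f : K →+* L)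
    (a b : K) : (lg a b).map f = lg (f a) (f b) := by
  have hz : HasSubst (zs a b) := HasSubst.of_constantCoeff_zero' (constantCoeff_zs a b)
  have h0 : constantCoeff ((lg a b).map f) = 0 := by
    rw [← coeff_zero_eq_constantCoeff_apply, coeff_map, coeff_zero_eq_constantCoeff_apply,
      constantCoeff_lg, map_zero]
  refine substInv_unique (constantCoeff_zs (f a) (f b)) h0 (constantCoeff_lg _ _) ?_ (lg_zs _ _)
  have hl : HasSubst (lg a b) := HasSubst.of_constantCoeff_zero' (constantCoeff_lg a b)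
  have h := congrArg (PowerSeries.map f) (zs_lg a b)
  have h2 := PowerSeries.map_subst (h := f) hl (zs a b)
  rw [Fg.map_zs] at h2
  rw [PowerSeries.map_X] at h
  exact h2.symm.trans h

lemma map_HH {K L : Type*} [CommRing K] [CommRing L] [Algebra ℚ K] [Algebra ℚ L] (f : K →+* L)
    (a' b' a b : K) : (HH a' b' a b).map f = HH (f a') (f b') (f a) (f b) := by
  have hl : HasSubst (lg a' b') := HasSubst.of_constantCoeff_zero' (constantCoeff_lg a' b')
  have h2 := PowerSeries.map_subst (h := f) hl (zs a b)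
  rw [Fg.map_zs] at h2
  have h3 : (MvPowerSeries.map f (lg a' b') : MvPowerSeries Unit L) = PowerSeries.map f (lg a' b') :=
    rfl
  rw [h3, map_lg] at h2
  exact h2

/-- comparison of two good pairs -/
theorem Good.HH {O : Subring ℂ} {a' b' a b : ℍ → ℂ} (h' : Good O a' b') (h : Good O a b) :
    CIn (IntO O) (HH a' b' a b) := by
  obtain ⟨P₁, h1, h10, h11, e1⟩ := h'.spec
  obtain ⟨P₂, h2, -, -, e2⟩ := h.spec
  exact h1.comp_inv h2 h10 ⟨1, one_mem _, by rw [h11, one_mul]⟩ (constantCoeff_expm _) e1 e2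
    (constantCoeff_lg _ _) (zs_lg _ _)

/-- the expansion homomorphism at `g` -/
def exG (g : GL(2, ℝ)⁺) : (X → ℂ) →+* (ℍ → ℂ) :=
  (resHom : (X → ℂ) →ₐ[ℂ] (ℍ → ℂ)).toRingHom.comp (slHom g).toRingHom

lemma exG_apply (g : GL(2, ℝ)⁺) (F : X → ℂ) : exG g F = res (sl F g) := rfl

lemma HH_MM {a' b' a b : X → ℂ} (ha' : a' ∈ MM) (hb' : b' ∈ MM) (ha : a ∈ MM) (hb : b ∈ MM)
    (n : ℕ) : coeff n (HH a' b' a b) ∈ MM := by
  have h := map_HH (MM.val : MM →ₐ[ℂ] (X → ℂ)).toRingHom ⟨a', ha'⟩ ⟨b', hb'⟩ ⟨a, ha⟩ ⟨b, hb⟩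
  have h2 := congrArg (coeff n) h
  rw [coeff_map] at h2
  change _ = coeff n (HH a' b' a b) at h2
  rw [← h2]
  exact (coeff n (HH (⟨a', ha'⟩ : MM) ⟨b', hb'⟩ ⟨a, ha⟩ ⟨b, hb⟩)).2

lemma lift_mem_MM {k : ℕ} {f : ℍ → ℂ} {M : ℕ} [NeZero M] (hM : Odd M)
    (hf : Crest.Agent.R007.Rat.IsF M (k : ℤ) f) : Lat.lift k f ∈ MM :=
  MO_le_MM ⟨M, hM, hf.toModularForm, rfl⟩

lemma A1_mem_MM {v : Fin 2 → ℤ} (hv : NZ 3 v) : Lat.lift 1 (A1 v) ∈ MM :=
  lift_mem_MM (M := 3) (by decide) (by simpa using isF_A1 hv)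

lemma A3_mem_MM (v : Fin 2 → ℤ) : Lat.lift 3 (A3 v) ∈ MM :=
  lift_mem_MM (M := 3) (by decide) (by simpa using isF_A3 v)

/-- **Integrality of the comparison isomorphisms at all `G2`-cusps.** -/
theorem H_int {O : Subring ℂ} (hodd : ∀ n : ℕ, Odd n → ((n : ℂ))⁻¹ ∈ O)
    (hroot : ∀ x : ℚ, Odd x.den → ee x ∈ O)
    (hinf : ∀ v : Fin 2 → ℤ, NZ 3 v → ∃ P : PowerSeries (ℍ → ℂ), CIn (IntO O) P ∧
      constantCoeff P = 0 ∧ coeff 1 P = 1 ∧
      zs (A1 v) (A3 v) = PowerSeries.subst (PowerSeries.exp (ℍ → ℂ) - 1) P)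
    {v : Fin 2 → ℤ} (hv : NZ 3 v) {δ : GL(2, ℝ)⁺} (hδ : δ ∈ G2) (n : ℕ) :
    coeff n (HH (sl (Lat.lift 1 (A1 v)) δ) (sl (Lat.lift 3 (A3 v)) δ)
      (Lat.lift 1 (A1 v)) (Lat.lift 3 (A3 v))) ∈ VV O := by
  have hinf' : ∀ v : Fin 2 → ℤ, NZ 3 v → Good O (A1 v) (A3 v) := fun v hv =>
    let ⟨P, h1, _, _, h4⟩ := hinf v hv; ⟨P, h1, h4⟩
  refine ⟨HH_MM (MM_sl (A1_mem_MM hv) hδ) (MM_sl (A3_mem_MM v) hδ) (A1_mem_MM hv) (A3_mem_MM v) n,
    fun g hg => ?_⟩
  have h1 := (good_G2 hodd hroot hinf' hv (mul_mem hδ hg)).HH (good_G2 hodd hroot hinf' hv hg) n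
  rw [sl_mul_right, sl_mul_right, ← exG_apply, ← exG_apply, ← exG_apply, ← exG_apply,
    ← map_HH, coeff_map, exG_apply] at h1
  exact h1

end HH

end Crest.Agent.R007.Tw
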