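import Crest.Agent.R007.Tc3
import Crest.Agent.R007.Fg1
import Crest.Agent.R007.PsInt
import Mathlib
import Crest.Agent.R007.Tw3
import Crest.Agent.R007.EHasse

-- ▼ part R007/Tate1
section

/-!
Row 7, section E (formal Tate curve), part 1: functions on the upper half plane represented by
power series in `y = q^{1/3}`.
-/

set_option autoImplicit false

namespace Crest.Agent.R007.Tate

open Crest.Agent.R007.Wp Crest.Agent.R007.Rat Crest.Agent.R007.WpId Crest.Agent.R007.Tc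
open UpperHalfPlane hiding I
open Complex PeriodPair ModularForm Matrix Function Filter
open scoped MatrixGroups Real PeriodPair Manifold Topology

local notation "𝕢" => Function.Periodic.qParam

noncomputable section

/-- `f(τ) = p(q^{1/3})`. -/
def Rep (p : PowerSeries ℂ) (f : ℍ → ℂ) : Prop :=
  ∀ τ : ℍ, HasSum (fun n => PowerSeries.coeff n p * 𝕢 (3 : ℝ) (τ : ℂ) ^ n) (f τ)

variable {p p' : PowerSeries ℂ} {f f' : ℍ → ℂ}

lemma Rep.add (h : Rep p f) (h' : Rep p' f') : Rep (p + p') (f + f') := fun τ => by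
  have := (h τ).add (h' τ)
  simpa [add_mul] using this

lemma Rep.sub (h : Rep p f) (h' : Rep p' f') : Rep (p - p') (f - f') := fun τ => by
  have := (h τ).sub (h' τ)
  simpa [sub_mul] using this

lemma Rep.C (c : ℂ) : Rep (PowerSeries.C c) (fun _ => c) := fun τ => by
  have := hasSum_single (f := fun n => PowerSeries.coeff n (PowerSeries.C c) *
    𝕢 (3 : ℝ) (τ : ℂ) ^ n) 0 (by
      intro n hn
      simp [PowerSeries.coeff_C, hn])
  simpa using this

lemma Rep.mul (h : Rep p f) (h' : Rep p' f') : Rep (p * p') (f * f') := fun τ => by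
  have h1 := (h τ).summable.norm
  have h2 := (h' τ).summable.norm
  have h3 := (summable_norm_sum_mul_antidiagonal_of_summable_norm h1 h2).of_norm.hasSum
  rw [← tsum_mul_tsum_eq_tsum_sum_antidiagonal_of_summable_norm h1 h2, (h τ).tsum_eq,
    (h' τ).tsum_eq] at h3
  refine HasSum.congr_fun' h3 fun n => ?_
  rw [PowerSeries.coeff_mul, Finset.sum_mul]
  refine Finset.sum_congr rfl fun x hx => ?_
  rw [← Finset.HasAntidiagonal.mem_antidiagonal.1 hx, pow_add]
  ring

lemma Rep.pow (h : Rep p f) (n : ℕ) : Rep (p ^ n) (f ^ n) := by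
  induction n with
  | zero =>
    rw [pow_zero, pow_zero]
    have := Rep.C 1
    rwa [map_one] at this
  | succ n ih => rw [pow_succ, pow_succ]; exact ih.mul h

lemma Rep.eq_zero (h : Rep p 0) : p = 0 := by
  have h1 := hasFPowerSeries_of_hasSum (h := 3) (by norm_num) h
  have h2 : ∀ᶠ q in 𝓝[≠] (0 : ℂ), (fun q : ℂ => ∑' n, PowerSeries.coeff n p * q ^ n) q = 0 := by
    rw [eventually_nhdsWithin_iff]
    filter_upwards [Metric.ball_mem_nhds (0 : ℂ) one_pos] with q hq hq0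
    rw [mem_ball_zero_iff] at hq
    have h3 := Periodic.im_invQParam_pos_of_norm_lt_one (h := 3) (by norm_num) hq hq0
    have h4 := (h ⟨Periodic.invQParam 3 q, h3⟩).tsum_eq
    simpa [Periodic.qParam_right_inv (h := 3) (by norm_num) hq0] using h4
  have h3 := h1.hasFPowerSeriesAt
  have h4 := h3.analyticAt.frequently_zero_iff_eventually_zero.1 h2.frequently
  have h5 := (h3.congr h4).eq_zero
  rw [FormalMultilinearSeries.ofScalars_series_eq_zero] at h5
  ext n
  have := congrFun h5 n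
  simpa using this

lemma Rep.unique (h : Rep p f) (h' : Rep p' f) : p = p' := by
  rw [← sub_eq_zero]
  apply Rep.eq_zero
  have := h.sub h'
  rwa [sub_self] at this

lemma rep_qe {k : ℤ} (hf : IsF 3 k f) : Rep (qe 3 f) f := fun τ => by
  have := UpperHalfPlane.hasSum_qExpansion (h := ((3 : ℕ) : ℝ)) (by norm_num) hf.periodic hf.holo
    hf.bdd_infty τ
  simpa using! this

lemma rep_sQ (v : Fin 2 → ℤ) : Rep (sQ 3 v) (Q 3 v) := fun τ => by
  have := hasSum_Q (M := 3) (by norm_num) v τ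
  simpa [sQ] using this

end

end Crest.Agent.R007.Tate
end

-- ▼ part R007/Tate2
section

/-!
Row 7, section E (formal Tate curve), part 2: the universal series and their values at the
roots of unity `exp(2πi/M)`.
-/

set_option autoImplicit false

namespace Crest.Agent.R007.Tate

open Crest.Agent.R007.Wp Crest.Agent.R007.Rat Crest.Agent.R007.WpId Crest.Agent.R007.Tc
open UpperHalfPlane hiding I
open Complex PeriodPair ModularForm Matrix Function Filter
open scoped MatrixGroups Real PeriodPair Manifold Topology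

local notation "𝕢" => Function.Periodic.qParam

noncomputable section

section ring

variable {R : Type*} [CommRing R]

/-- `∑_N y^{3N} ∑_{d ∣ N} d (u^d + u^{-d} - 2)` -/
def S1 (u : Rˣ) : PowerSeries R := PowerSeries.mk fun n =>
  if 3 ∣ n then ∑ d ∈ (n / 3).divisors,
    (d : R) * (((u ^ d : Rˣ) : R) + ((u⁻¹ ^ d : Rˣ) : R) - 2) else 0

/-- `∑_N y^{3N} ∑_{d ∣ N} d² (u^d - u^{-d})` -/
def S2 (u : Rˣ) : PowerSeries R := PowerSeries.mk fun n =>
  if 3 ∣ n then ∑ d ∈ (n / 3).divisors,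
    (d : R) ^ 2 * (((u ^ d : Rˣ) : R) - ((u⁻¹ ^ d : Rˣ) : R)) else 0

lemma map_S1 {R' : Type*} [CommRing R'] (φ : R →+* R') (u : Rˣ) :
    PowerSeries.map φ (S1 u) = S1 (Units.map φ u) := by
  ext n
  rw [PowerSeries.coeff_map, S1, S1, PowerSeries.coeff_mk, PowerSeries.coeff_mk]
  split_ifs
  · simp [map_sum, map_ofNat]
  · simp

lemma map_S2 {R' : Type*} [CommRing R'] (φ : R →+* R') (u : Rˣ) :
    PowerSeries.map φ (S2 u) = S2 (Units.map φ u) := by
  ext n
  rw [PowerSeries.coeff_map, S2, S2, PowerSeries.coeff_mk, PowerSeries.coeff_mk]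
  split_ifs
  · simp [map_sum]
  · simp

end ring

lemma sum_filter_dvd {M : ℕ} (hM : M ≠ 0) (N : ℕ) (F : ℕ → ℂ) :
    ∑ p ∈ (M * N).divisorsAntidiagonal, (if M ∣ p.1 then F p.2 else 0) = ∑ d ∈ N.divisors, F d := by
  rw [← Finset.sum_filter]
  refine Finset.sum_nbij' (fun p => p.2) (fun d => (M * (N / d), d)) ?_ ?_ ?_ ?_ ?_
  · intro p hp
    rw [Finset.mem_filter, Nat.mem_divisorsAntidiagonal] at hp
    obtain ⟨⟨h1, h2⟩, e, he⟩ := hp
    rw [Nat.mem_divisors]
    refine ⟨⟨e, ?_⟩, fun h => h2 (by rw [h, mul_zero])⟩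
    rw [he, mul_assoc] at h1
    rw [mul_comm, Nat.eq_of_mul_eq_mul_left (Nat.pos_of_ne_zero hM) h1]
  · intro d hd
    rw [Nat.mem_divisors] at hd
    rw [Finset.mem_filter, Nat.mem_divisorsAntidiagonal]
    refine ⟨⟨?_, mul_ne_zero hM hd.2⟩, dvd_mul_right _ _⟩
    simp only
    rw [mul_assoc, Nat.div_mul_cancel hd.1]
  · intro p hp
    rw [Finset.mem_filter, Nat.mem_divisorsAntidiagonal] at hp
    obtain ⟨⟨h1, h2⟩, e, he⟩ := hp
    rw [he, mul_assoc] at h1
    have h3 := Nat.eq_of_mul_eq_mul_left (Nat.pos_of_ne_zero hM) h1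
    have h4 : p.2 ≠ 0 := fun h => h2 (by rw [← h3, h]; simp)
    ext
    · simp only
      rw [← h3, Nat.mul_div_cancel _ (Nat.pos_of_ne_zero h4), he]
    · rfl
  · intro d hd
    rfl
  · intro p hp
    rfl

/-- the vector `(0, 1)` -/
def v01 : Fin 2 → ℤ := ![0, 1]

lemma chi_v01 {M : ℕ} (s : ℕ) (β : ℤ) (d e : ℕ) : chi M s 0 β d e =
    if M ∣ e then (d : ℂ) ^ s * ((zeta M ^ β) ^ d + (-1) ^ (s + 1) * (zeta M ^ (-β)) ^ d) else 0 := by
  unfold chi
  by_cases h : M ∣ e
  · have h1 : ((e : ℤ) : ZMod M) = ((0 : ℤ) : ZMod M) := by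
      rw [Int.cast_natCast, Int.cast_zero]; exact (ZMod.natCast_eq_zero_iff e M).2 h
    have h2 : ((-(e : ℤ) : ℤ) : ZMod M) = ((0 : ℤ) : ZMod M) := by
      rw [Int.cast_neg, h1]; simp
    rw [if_pos h1, if_pos h2, if_pos h]
    ring
  · have h1 : ¬ ((e : ℤ) : ZMod M) = ((0 : ℤ) : ZMod M) := by
      rw [Int.cast_natCast, Int.cast_zero]; exact fun h' => h ((ZMod.natCast_eq_zero_iff e M).1 h')
    have h2 : ¬ ((-(e : ℤ) : ℤ) : ZMod M) = ((0 : ℤ) : ZMod M) := by
      intro h'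
      apply h1
      rw [Int.cast_neg, Int.cast_zero, neg_eq_zero] at h'
      rw [h', Int.cast_zero]
    rw [if_neg h1, if_neg h2, if_neg h]
    ring

/-- `exp(2πi/M)` as a unit -/
def zu (M : ℕ) : ℂˣ := Units.mk0 (zeta M) (zeta_ne_zero M)

lemma zu_val (M : ℕ) : ((zu M : ℂˣ) : ℂ) = zeta M := rfl

lemma zu_inv_val (M : ℕ) : (((zu M)⁻¹ : ℂˣ) : ℂ) = (zeta M)⁻¹ := by simp [zu]

lemma zu_pow_val (M d : ℕ) : (((zu M) ^ d : ℂˣ) : ℂ) = zeta M ^ d := by
  rw [Units.val_pow_eq_pow_val, zu_val]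

lemma zu_inv_pow_val (M d : ℕ) : (((zu M)⁻¹ ^ d : ℂˣ) : ℂ) = (zeta M)⁻¹ ^ d := by
  rw [Units.val_pow_eq_pow_val, zu_inv_val]

lemma cQ_v01 {M : ℕ} (hM : M ≠ 0) (N : ℕ) : cQ M v01 (M * N) = (if N = 0 then cQ0 M v01 else 0) +
    ∑ d ∈ N.divisors, (d : ℂ) ^ 2 * (((zu M ^ d : ℂˣ) : ℂ) - (((zu M)⁻¹ ^ d : ℂˣ) : ℂ)) := by
  rw [cQ, ← sum_filter_dvd hM]
  congr 1
  · simp [hM]
  · refine Finset.sum_congr rfl fun p _ => ?_
    rw [show v01 0 = 0 from rfl, show v01 1 = 1 from rfl, chi_v01, zu_pow_val, zu_inv_pow_val]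
    split_ifs
    · rw [_root_.zpow_neg, _root_.zpow_one]
      ring
    · rfl

lemma cP_v01 {M : ℕ} (hM : M ≠ 0) (N : ℕ) : cP M v01 (M * N) = (if N = 0 then cP0 M v01 else 0) +
    ∑ d ∈ N.divisors, (d : ℂ) * (((zu M ^ d : ℂˣ) : ℂ) + (((zu M)⁻¹ ^ d : ℂˣ) : ℂ) - 2) := by
  rw [cP, ← sum_filter_dvd hM]
  congr 1
  · simp [hM]
  · refine Finset.sum_congr rfl fun p _ => ?_
    rw [show v01 0 = 0 from rfl, show v01 1 = 1 from rfl, chi_v01, chi_v01, zu_pow_val,
      zu_inv_pow_val]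
    split_ifs
    · rw [_root_.zpow_neg, _root_.zpow_one, neg_zero, _root_.zpow_zero, one_pow]
      ring
    · ring

lemma cQ_v01_of_not {M : ℕ} {n : ℕ} (hn : ¬ M ∣ n) : cQ M v01 n = 0 := by
  have h0 : n ≠ 0 := by rintro rfl; exact hn (dvd_zero M)
  rw [cQ, if_neg h0, zero_add]
  refine Finset.sum_eq_zero fun p hp => ?_
  rw [Nat.mem_divisorsAntidiagonal] at hp
  rw [show v01 0 = 0 from rfl, show v01 1 = 1 from rfl, chi_v01, if_neg]
  intro h
  exact hn (h.trans ⟨p.2, hp.1.symm⟩)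

lemma cP_v01_of_not {M : ℕ} {n : ℕ} (hn : ¬ M ∣ n) : cP M v01 n = 0 := by
  have h0 : n ≠ 0 := by rintro rfl; exact hn (dvd_zero M)
  rw [cP, if_neg h0, zero_add]
  refine Finset.sum_eq_zero fun p hp => ?_
  rw [Nat.mem_divisorsAntidiagonal] at hp
  have h1 : ¬ M ∣ p.1 := fun h => hn (h.trans ⟨p.2, hp.1.symm⟩)
  rw [show v01 0 = 0 from rfl, show v01 1 = 1 from rfl, chi_v01, chi_v01, if_neg h1, if_neg h1,
    sub_zero]

lemma qParam_pow {M : ℕ} (hM : M ≠ 0) (τ : ℍ) : 𝕢 (M : ℝ) (τ : ℂ) ^ M = 𝕢 1 (τ : ℂ) := by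
  have hM' : (M : ℂ) ≠ 0 := by exact_mod_cast hM
  rw [Periodic.qParam, Periodic.qParam, ← Complex.exp_nat_mul]
  congr 1
  push_cast
  field_simp

/-- transfer of a sum over multiples of `M` to a power series in `y³`. -/
lemma rep_of_hasSum {M : ℕ} (hM : M ≠ 0) {f : ℍ → ℂ} {c : ℕ → ℂ} (p : PowerSeries ℂ)
    (hs : ∀ τ : ℍ, HasSum (fun n : ℕ => c n * 𝕢 (M : ℝ) (τ : ℂ) ^ n) (f τ))
    (h0 : ∀ n, ¬ M ∣ n → c n = 0) (hp : ∀ n, ¬ 3 ∣ n → PowerSeries.coeff n p = 0)
    (h : ∀ N, PowerSeries.coeff (3 * N) p = c (M * N)) : Rep p f := fun τ => by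
  have i1 : Function.Injective fun N : ℕ => M * N := fun a b hab =>
    Nat.eq_of_mul_eq_mul_left (Nat.pos_of_ne_zero hM) hab
  have i2 : Function.Injective fun N : ℕ => 3 * N := fun a b hab =>
    Nat.eq_of_mul_eq_mul_left (by norm_num) hab
  have h1 := (i1.hasSum_iff (f := fun n : ℕ => c n * 𝕢 (M : ℝ) (τ : ℂ) ^ n) (a := f τ) (by
    intro n hn
    have : ¬ M ∣ n := fun ⟨k, hk⟩ => hn ⟨k, hk.symm⟩
    rw [h0 n this, zero_mul])).2 (hs τ)
  have h2 := (i2.hasSum_iff (f := fun n : ℕ => PowerSeries.coeff n p * 𝕢 (3 : ℝ) (τ : ℂ) ^ n)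
    (a := f τ) (by
    intro n hn
    have : ¬ 3 ∣ n := fun ⟨k, hk⟩ => hn ⟨k, hk.symm⟩
    rw [hp n this, zero_mul]))
  rw [← h2]
  refine HasSum.congr_fun' h1 fun N => ?_
  simp only [Function.comp_apply]
  have e3 := qParam_pow (M := 3) (by norm_num) τ
  rw [h, pow_mul, pow_mul, qParam_pow hM, ← e3]
  norm_num

lemma rep_Q {M : ℕ} (hM : M ≠ 0) : Rep (S2 (zu M) + PowerSeries.C (cQ0 M v01)) (Q M v01) := by
  refine rep_of_hasSum hM _ (hasSum_Q hM v01) (fun n hn => cQ_v01_of_not hn) ?_ ?_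
  · intro n hn
    have h0 : n ≠ 0 := by rintro rfl; exact hn (dvd_zero 3)
    rw [map_add, S2, PowerSeries.coeff_mk, if_neg hn, PowerSeries.coeff_C, if_neg h0, add_zero]
  · intro N
    rw [cQ_v01 hM, map_add, S2, PowerSeries.coeff_mk, if_pos (dvd_mul_right 3 N),
      Nat.mul_div_cancel_left N (by norm_num), PowerSeries.coeff_C, add_comm]
    simp

lemma rep_P {M : ℕ} (hM : M ≠ 0) : Rep (S1 (zu M) + PowerSeries.C (cP0 M v01)) (P M v01) := by
  refine rep_of_hasSum hM _ (hasSum_P hM v01) (fun n hn => cP_v01_of_not hn) ?_ ?_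
  · intro n hn
    have h0 : n ≠ 0 := by rintro rfl; exact hn (dvd_zero 3)
    rw [map_add, S1, PowerSeries.coeff_mk, if_neg hn, PowerSeries.coeff_C, if_neg h0, add_zero]
  · intro N
    rw [cP_v01 hM, map_add, S1, PowerSeries.coeff_mk, if_pos (dvd_mul_right 3 N),
      Nat.mul_div_cancel_left N (by norm_num), PowerSeries.coeff_C, add_comm]
    simp

end

end Crest.Agent.R007.Tate
end

-- ▼ part R007/Tate3
section

/-!
Row 7, section E (formal Tate curve), part 3: the universal Weierstrass equation.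
-/

set_option autoImplicit false

namespace Crest.Agent.R007.Tate

open Crest.Agent.R007.Wp Crest.Agent.R007.Rat Crest.Agent.R007.WpId Crest.Agent.R007.Tc
open UpperHalfPlane hiding I
open Complex PeriodPair ModularForm Matrix Function Filter
open scoped MatrixGroups Real PeriodPair Manifold Topology

noncomputable section

section ident

variable {R : Type*} [CommRing R]

/-- `(1-u)² ℘` -/
def XX (i : ℂ →+* R) (u : Rˣ) : PowerSeries R :=
  PowerSeries.C (u : R) + PowerSeries.C ((1 - (u : R)) ^ 2) * (S1 u + PowerSeries.C (i (1 / 12)))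

/-- `(u-1)³ ℘'` -/
def HH (u : Rˣ) : PowerSeries R :=
  -PowerSeries.C ((u : R) * (1 + u)) + PowerSeries.C (((u : R) - 1) ^ 3) * S2 u

/-- the defect of the Weierstrass equation -/
def Dft (e4 e6 : PowerSeries ℂ) (i : ℂ →+* R) (u : Rˣ) : PowerSeries R :=
  HH u ^ 2 - 4 * XX i u ^ 3 + PowerSeries.C (i (1 / 12)) * PowerSeries.map i e4 *
    PowerSeries.C (((u : R) - 1) ^ 4) * XX i u -
    PowerSeries.C (i (1 / 216)) * PowerSeries.map i e6 * PowerSeries.C (((u : R) - 1) ^ 6)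

variable {R' : Type*} [CommRing R'] (φ : R →+* R')

lemma map_XX (i : ℂ →+* R) (u : Rˣ) :
    PowerSeries.map φ (XX i u) = XX (φ.comp i) (Units.map φ u) := by
  simp only [XX, map_add, map_mul, map_S1, PowerSeries.map_C, map_pow, map_sub, map_one,
    RingHom.comp_apply, Units.coe_map, MonoidHom.coe_coe]

lemma map_HH (u : Rˣ) : PowerSeries.map φ (HH u) = HH (Units.map φ u) := by
  simp only [HH, map_add, map_mul, map_neg, map_S2, PowerSeries.map_C, map_pow, map_sub, map_one,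
    Units.coe_map, MonoidHom.coe_coe]

lemma map_Dft (e4 e6 : PowerSeries ℂ) (i : ℂ →+* R) (u : Rˣ) :
    PowerSeries.map φ (Dft e4 e6 i u) = Dft e4 e6 (φ.comp i) (Units.map φ u) := by
  have h : ∀ p : PowerSeries ℂ, PowerSeries.map φ (PowerSeries.map i p) =
      PowerSeries.map (φ.comp i) p := fun p => by
    ext n; simp
  simp only [Dft, map_add, map_mul, map_sub, map_HH, map_XX, PowerSeries.map_C, map_pow,
    map_one, RingHom.comp_apply, Units.coe_map, MonoidHom.coe_coe, h, map_ofNat]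

end ident

section zeta

variable {v : Fin 2 → ℤ} (hv : NZ 3 v)

/-- the `q`-series of `E₄` -/
def e4 (v : Fin 2 → ℤ) : PowerSeries ℂ := qe 3 (A1 v) ^ 4 - 24 * qe 3 (A1 v) * sQ 3 v

/-- the `q`-series of `E₆` -/
def e6 (v : Fin 2 → ℤ) : PowerSeries ℂ :=
  qe 3 (A1 v) ^ 6 - 36 * qe 3 (A1 v) ^ 3 * sQ 3 v + 216 * sQ 3 v ^ 2

lemma NZ_v01 {M : ℕ} (hM : 2 ≤ M) : NZ M v01 := by
  right
  have : Fact (1 < M) := ⟨hM⟩
  simp [v01]

lemma rep_natCast (n : ℕ) : Rep (n : PowerSeries ℂ) (fun _ => (n : ℂ)) := by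
  have := Rep.C (n : ℂ)
  rwa [map_natCast] at this

include hv in
lemma rep_e4 : Rep (e4 v) (E (k := 4) (by norm_num) : ℍ → ℂ) := by
  have ha := rep_qe (isF_A1 hv)
  have hb := rep_sQ v
  have h := (ha.pow 4).sub (((rep_natCast 24).mul ha).mul hb)
  have e : (E (k := 4) (by norm_num) : ℍ → ℂ) =
      (A1 v ^ 4 - (fun _ => ((24 : ℕ) : ℂ)) * A1 v * Q 3 v : ℍ → ℂ) := by
    funext τ
    rw [E4_eq hv τ]
    simp only [Pi.sub_apply, Pi.mul_apply, Pi.pow_apply, A3]
    push_cast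
    ring
  rw [e, e4]
  exact_mod_cast h

include hv in
lemma rep_e6 : Rep (e6 v) (E (k := 6) (by norm_num) : ℍ → ℂ) := by
  have ha := rep_qe (isF_A1 hv)
  have hb := rep_sQ v
  have h := ((ha.pow 6).sub (((rep_natCast 36).mul (ha.pow 3)).mul hb)).add
    ((rep_natCast 216).mul (hb.pow 2))
  have e : (E (k := 6) (by norm_num) : ℍ → ℂ) =
      (A1 v ^ 6 - (fun _ => ((36 : ℕ) : ℂ)) * A1 v ^ 3 * Q 3 v +
        (fun _ => ((216 : ℕ) : ℂ)) * Q 3 v ^ 2 : ℍ → ℂ) := by
    funext τ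
    rw [E6_eq hv τ]
    simp only [Pi.sub_apply, Pi.mul_apply, Pi.pow_apply, Pi.add_apply, A3]
    push_cast
    ring
  rw [e, e6]
  exact_mod_cast h

include hv in
theorem Dft_zeta {M : ℕ} (hM : 2 ≤ M) : Dft (e4 v) (e6 v) (RingHom.id ℂ) (zu M) = 0 := by
  have hM0 : M ≠ 0 := by omega
  have hN := NZ_v01 hM
  have hb : (v01 1 : ZMod M) ≠ 0 := by
    rcases hN with h | h
    · simp [v01] at h
    · exact h
  have hz : 1 - zeta M ≠ 0 := by
    have := Wp.zeta_zpow_ne_one hM0 hb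
    simpa [v01] using this
  have hP := rep_P hM0
  have hQ := rep_Q hM0
  -- the relation between the series
  have hrel : (S2 (zu M) + PowerSeries.C (cQ0 M v01)) ^ 2 =
      PowerSeries.C (4 : ℂ) * (S1 (zu M) + PowerSeries.C (cP0 M v01)) ^ 3 -
      PowerSeries.C (1 / 12 : ℂ) * e4 v * (S1 (zu M) + PowerSeries.C (cP0 M v01)) +
      PowerSeries.C (1 / 216 : ℂ) * e6 v := by
    have h1 := hQ.pow 2
    have h2 := (((Rep.C 4).mul (hP.pow 3)).sub (((Rep.C (1 / 12)).mul (rep_e4 hv)).mul hP)).add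
      ((Rep.C (1 / 216)).mul (rep_e6 hv))
    refine h1.unique ?_
    have e : (Q M v01 ^ 2 : ℍ → ℂ) = (fun _ => (4 : ℂ)) * P M v01 ^ 3 -
        (fun _ => (1 / 12 : ℂ)) * (E (k := 4) (by norm_num) : ℍ → ℂ) * P M v01 +
        (fun _ => (1 / 216 : ℂ)) * (E (k := 6) (by norm_num) : ℍ → ℂ) := by
      funext τ
      simp only [Pi.sub_apply, Pi.mul_apply, Pi.pow_apply, Pi.add_apply]
      rw [Q_sq hM0 hN τ]
      ring
    rw [e]
    exact h2
  have hXX : XX (RingHom.id ℂ) (zu M) =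
      PowerSeries.C ((1 - zeta M) ^ 2) * (S1 (zu M) + PowerSeries.C (cP0 M v01)) := by
    have e1 : (1 - zeta M) ^ 2 * cP0 M v01 = zeta M + (1 - zeta M) ^ 2 * (1 / 12) := by
      rw [cP0_eq hM0 hN, if_pos (by simp [v01]), show v01 1 = 1 from rfl, _root_.zpow_one]
      field_simp
      ring
    rw [XX, zu_val, mul_add, mul_add, ← map_mul, ← map_mul, e1, map_add, RingHom.id_apply]
    ring
  have hHH : HH (zu M) =
      PowerSeries.C ((zeta M - 1) ^ 3) * (S2 (zu M) + PowerSeries.C (cQ0 M v01)) := by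
    have e1 : (zeta M - 1) ^ 3 * cQ0 M v01 = -(zeta M * (1 + zeta M)) := by
      rw [cQ0_eq hM0 hN, if_pos (by simp [v01]), show v01 1 = 1 from rfl, _root_.zpow_one]
      field_simp
      ring
    rw [HH, zu_val, ← map_neg, ← e1, map_mul]
    ring
  rw [Dft, hXX, hHH, zu_val]
  have h4 : (4 : PowerSeries ℂ) = PowerSeries.C 4 := by rw [map_ofNat]
  have hid : ∀ p : PowerSeries ℂ, PowerSeries.map (RingHom.id ℂ) p = p := fun p => by
    ext n; simp
  rw [h4, hid, hid]
  simp only [map_pow, map_sub, map_one, RingHom.id_apply]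
  linear_combination (PowerSeries.C (zeta M) - 1) ^ 6 * hrel

end zeta

section laurent

lemma zeta_injective {M N : ℕ} (hM : M ≠ 0) (hN : N ≠ 0) (h : zeta M = zeta N) : M = N := by
  have h1 := isPrimitiveRoot_zeta hM
  have h2 := isPrimitiveRoot_zeta hN
  rw [h] at h1
  exact h1.unique h2

lemma laurent_eq_zero (p : LaurentPolynomial ℂ)
    (h : ∀ M, 2 ≤ M → LaurentPolynomial.eval₂ (RingHom.id ℂ) (zu M) p = 0) : p = 0 := by
  obtain ⟨n, f, hf⟩ := p.exists_T_pow
  have hroot : ∀ M, 2 ≤ M → f.IsRoot (zeta M) := fun M hM => by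
    have h1 := congrArg (LaurentPolynomial.eval₂ (RingHom.id ℂ) (zu M)) hf
    rw [LaurentPolynomial.eval₂_toLaurent, map_mul, h M hM, zero_mul, zu_val] at h1
    exact h1
  have hf0 : f = 0 := by
    refine Polynomial.eq_zero_of_infinite_isRoot f ?_
    refine Set.infinite_of_injective_forall_mem (f := fun k : ℕ => zeta (k + 2)) ?_ ?_
    · intro a b hab
      have := zeta_injective (by omega) (by omega) hab
      omega
    · intro k
      exact hroot _ (by omega)
  have h2 : p = p * LaurentPolynomial.T n * LaurentPolynomial.T (-n) := by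
    rw [mul_assoc, ← LaurentPolynomial.T_add, add_neg_cancel, LaurentPolynomial.T_zero, mul_one]
  rw [h2, ← hf, hf0, map_zero, zero_mul]

/-- the variable of the Laurent polynomial ring as a unit -/
def tu : (LaurentPolynomial ℂ)ˣ where
  val := LaurentPolynomial.T 1
  inv := LaurentPolynomial.T (-1)
  val_inv := by rw [← LaurentPolynomial.T_add, add_neg_cancel, LaurentPolynomial.T_zero]
  inv_val := by rw [← LaurentPolynomial.T_add, neg_add_cancel, LaurentPolynomial.T_zero]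

lemma map_tu {R : Type*} [CommRing R] (i : ℂ →+* R) (u : Rˣ) :
    Units.map (LaurentPolynomial.eval₂ i u : LaurentPolynomial ℂ →* R) tu = u := by
  apply Units.ext
  rw [Units.coe_map]
  change LaurentPolynomial.eval₂ i u (LaurentPolynomial.T 1) = u
  rw [LaurentPolynomial.eval₂_T, _root_.zpow_one]

lemma eval₂_comp_C {R : Type*} [CommRing R] (i : ℂ →+* R) (u : Rˣ) :
    (LaurentPolynomial.eval₂ i u).comp LaurentPolynomial.C = i := by
  ext x
  rw [RingHom.comp_apply, LaurentPolynomial.eval₂_C]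

variable {v : Fin 2 → ℤ} (hv : NZ 3 v)

include hv in
theorem Dft_laurent : Dft (e4 v) (e6 v) LaurentPolynomial.C tu = 0 := by
  ext1 n
  rw [map_zero]
  apply laurent_eq_zero
  intro M hM
  rw [← PowerSeries.coeff_map, map_Dft, eval₂_comp_C, map_tu, Dft_zeta hv hM, map_zero]

include hv in
/-- **the universal Weierstrass equation** -/
theorem Dft_eq_zero {R : Type*} [CommRing R] (i : ℂ →+* R) (u : Rˣ) :
    Dft (e4 v) (e6 v) i u = 0 := by
  have h := congrArg (PowerSeries.map (LaurentPolynomial.eval₂ i u)) (Dft_laurent hv)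
  rwa [map_Dft, eval₂_comp_C, map_tu, map_zero] at h

end laurent

end

end Crest.Agent.R007.Tate
end

-- ▼ part R007/Tate4
section

/-!
Row 7, section E (formal Tate curve), part 4: exchange of the variables and the final statement.

`A = ℂ[[y]]`, `y = q^{1/3}`, `a = qe 3 (A1 v)`, `b = sQ 3 v`.  The series `ξ, η ∈ A[[T]]` satisfy
`(1+T)(T ξ' - 2 ξ) + 2 η = T a ξ + T³ b` and `η² - a T ξ η - b T³ η = ξ³`, and have coefficients
in `O[[y]]`.
-/

set_option autoImplicit false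

namespace Crest.Agent.R007.Tate

open Crest.Agent.R007.Wp Crest.Agent.R007.Rat Crest.Agent.R007.Tc
open PowerSeries

noncomputable section

/-! ### exchange of variables -/

/-- `ℂ[[T]][[y]] → ℂ[[y]][[T]]` -/
def swap : PowerSeries (PowerSeries ℂ) →+* PowerSeries (PowerSeries ℂ) where
  toFun F := PowerSeries.mk fun i => PowerSeries.mk fun j => coeff i (coeff j F)
  map_one' := by
    ext i j
    simp only [coeff_mk, coeff_one]
    by_cases hi : i = 0 <;> by_cases hj : j = 0 <;> simp [hi, hj, coeff_one]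
  map_zero' := by ext i j; simp
  map_add' F G := by ext i j; simp
  map_mul' F G := by
    ext i j
    simp only [coeff_mk, coeff_mul, map_sum]
    rw [Finset.sum_comm]

lemma coeff_swap (F : PowerSeries (PowerSeries ℂ)) (i j : ℕ) :
    coeff j (coeff i (swap F)) = coeff i (coeff j F) := by
  simp [swap]

lemma swap_C (g : PowerSeries ℂ) : swap (C g) = PowerSeries.map C g := by
  ext i j
  rw [coeff_swap, coeff_map, coeff_C, coeff_C]
  split_ifs <;> simp

lemma swap_map_C (p : PowerSeries ℂ) : swap (PowerSeries.map C p) = C p := by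
  ext i j
  rw [coeff_swap, coeff_map, coeff_C, coeff_C]
  split_ifs <;> simp

/-- `(1+T) d/dT` commutes with the exchange of variables. -/
lemma deriv_swap {F G : PowerSeries (PowerSeries ℂ)}
    (h : ∀ j, (1 + X) * d⁄dX ℂ (coeff j F) = coeff j G) :
    (1 + X) * d⁄dX (PowerSeries ℂ) (swap F) = swap G := by
  ext i j
  rw [coeff_swap, ← h j, add_mul, add_mul, one_mul, one_mul, map_add, map_add, map_add]
  have e1 : coeff j (coeff i (d⁄dX (PowerSeries ℂ) (swap F))) = coeff i (d⁄dX ℂ (coeff j F)) := by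
    rw [coeff_derivative, coeff_derivative, ← coeff_swap]
    have : ((i : PowerSeries ℂ) + 1) = C ((i : ℂ) + 1) := by simp
    rw [this, coeff_mul_C]
  have e2 : coeff j (coeff i (X * d⁄dX (PowerSeries ℂ) (swap F))) =
      coeff i (X * d⁄dX ℂ (coeff j F)) := by
    cases i with
    | zero => simp
    | succ i =>
      rw [coeff_succ_X_mul, coeff_succ_X_mul, coeff_derivative, coeff_derivative, ← coeff_swap]
      have : ((i : PowerSeries ℂ) + 1) = C ((i : ℂ) + 1) := by simp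
      rw [this, coeff_mul_C]
  rw [e1, e2]

/-! ### the unit `1 + T` -/

/-- `1 + T` as a unit of `ℂ[[T]]` -/
def wt : (PowerSeries ℂ)ˣ := Units.mkOfMulEqOne (1 + X) (PowerSeries.mk fun n => (-1) ^ n) (by
  ext n
  rw [add_mul, one_mul, map_add, coeff_one]
  cases n with
  | zero => simp
  | succ n => rw [coeff_succ_X_mul]; simp [pow_succ])

lemma wt_val : ((wt : (PowerSeries ℂ)ˣ) : PowerSeries ℂ) = 1 + X := rfl

lemma wt_inv_val : ((wt⁻¹ : (PowerSeries ℂ)ˣ) : PowerSeries ℂ) = PowerSeries.mk fun n => (-1) ^ n :=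
  rfl

lemma deriv_wt : d⁄dX ℂ ((wt : (PowerSeries ℂ)ˣ) : PowerSeries ℂ) = 1 := by
  rw [wt_val, map_add, ← map_one C, derivative_C, zero_add, map_one, derivative_X]

lemma deriv_wt_inv : (1 + X) * d⁄dX ℂ ((wt⁻¹ : (PowerSeries ℂ)ˣ) : PowerSeries ℂ) =
    - ((wt⁻¹ : (PowerSeries ℂ)ˣ) : PowerSeries ℂ) := by
  have h : ((wt : (PowerSeries ℂ)ˣ) : PowerSeries ℂ) * ((wt⁻¹ : (PowerSeries ℂ)ˣ) : PowerSeries ℂ) =
      1 := wt.mul_inv
  have h2 := congrArg (d⁄dX ℂ) h
  rw [Derivation.leibniz, deriv_wt, smul_eq_mul, smul_eq_mul, mul_one, ← map_one C,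
    derivative_C, wt_val] at h2
  linear_combination h2

lemma deriv_pow (d : ℕ) : (1 + X) * d⁄dX ℂ ((wt ^ d : (PowerSeries ℂ)ˣ) : PowerSeries ℂ) =
    (d : PowerSeries ℂ) * ((wt ^ d : (PowerSeries ℂ)ˣ) : PowerSeries ℂ) := by
  rw [Units.val_pow_eq_pow_val, Derivation.leibniz_pow, deriv_wt]
  cases d with
  | zero => simp
  | succ d =>
    rw [Nat.add_sub_cancel, nsmul_eq_mul, smul_eq_mul, mul_one, wt_val, pow_succ]
    ring

lemma deriv_inv_pow (d : ℕ) : (1 + X) * d⁄dX ℂ ((wt⁻¹ ^ d : (PowerSeries ℂ)ˣ) : PowerSeries ℂ) =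
    -((d : PowerSeries ℂ) * ((wt⁻¹ ^ d : (PowerSeries ℂ)ˣ) : PowerSeries ℂ)) := by
  rw [Units.val_pow_eq_pow_val, Derivation.leibniz_pow]
  cases d with
  | zero => simp
  | succ d =>
    rw [Nat.add_sub_cancel, nsmul_eq_mul, smul_eq_mul, pow_succ]
    have := deriv_wt_inv
    linear_combination ((d + 1 : ℕ) : PowerSeries ℂ) *
      ((wt⁻¹ : (PowerSeries ℂ)ˣ) : PowerSeries ℂ) ^ d * this

lemma deriv_S1 (j : ℕ) : (1 + X) * d⁄dX ℂ (coeff j (S1 wt)) = coeff j (S2 wt) := by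
  rw [S1, S2, coeff_mk, coeff_mk]
  split_ifs
  · rw [map_sum, Finset.mul_sum]
    refine Finset.sum_congr rfl fun d _ => ?_
    have h2 : d⁄dX ℂ (2 : PowerSeries ℂ) = 0 := by
      have : (2 : PowerSeries ℂ) = C 2 := by rw [map_ofNat]
      rw [this, derivative_C]
    have hd : d⁄dX ℂ (d : PowerSeries ℂ) = 0 := by
      have : (d : PowerSeries ℂ) = C (d : ℂ) := by rw [map_natCast]
      rw [this, derivative_C]
    rw [Derivation.leibniz, hd, smul_zero, add_zero, smul_eq_mul, map_sub, map_add, h2, sub_zero]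
    linear_combination (d : PowerSeries ℂ) * deriv_pow d + (d : PowerSeries ℂ) * deriv_inv_pow d
  · simp

/-! ### the series -/

/-- `∑ y^{3N} ∑ d ((1+T)^d + (1+T)^{-d} - 2)` -/
def T1 : PowerSeries (PowerSeries ℂ) := swap (S1 wt)

/-- `∑ y^{3N} ∑ d² ((1+T)^d - (1+T)^{-d})` -/
def T2 : PowerSeries (PowerSeries ℂ) := swap (S2 wt)

lemma deriv_T1 : (1 + X) * d⁄dX (PowerSeries ℂ) T1 = T2 := deriv_swap deriv_S1

/-- the universal `T² ℘` -/
def Xi : PowerSeries (PowerSeries ℂ) := 1 + X + X ^ 2 * (T1 + C (C (1 / 12)))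

/-- the universal `T³ ℘'` -/
def Hh : PowerSeries (PowerSeries ℂ) := -((1 + X) * (2 + X)) + X ^ 3 * T2

lemma swap_XX : swap (XX C wt) = Xi := by
  have e : (1 - ((wt : (PowerSeries ℂ)ˣ) : PowerSeries ℂ)) ^ 2 = X ^ 2 := by rw [wt_val]; ring
  rw [XX, e, wt_val, map_add swap, map_mul swap, map_add swap, swap_C, swap_C, swap_C]
  simp only [map_add, map_one, map_X, map_pow, map_C]
  rfl

lemma swap_HH : swap (HH wt) = Hh := by
  have e : ((wt : (PowerSeries ℂ)ˣ) : PowerSeries ℂ) *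
    (1 + ((wt : (PowerSeries ℂ)ˣ) : PowerSeries ℂ)) = (1 + X) * (2 + X) := by rw [wt_val]; ring
  have e' : (((wt : (PowerSeries ℂ)ˣ) : PowerSeries ℂ) - 1) ^ 3 = X ^ 3 := by rw [wt_val]; ring
  rw [HH, e, e', map_add swap, map_mul swap, map_neg swap, swap_C, swap_C]
  simp only [map_add, map_one, map_X, map_pow, map_mul, map_ofNat]
  rfl

/-- the universal Weierstrass equation over `ℂ[[y]]` -/
theorem weierstrass {v : Fin 2 → ℤ} (hv : NZ 3 v) :
    Hh ^ 2 - 4 * Xi ^ 3 + C (C (1 / 12)) * C (e4 v) * X ^ 4 * Xi -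
      C (C (1 / 216)) * C (e6 v) * X ^ 6 = 0 := by
  have h := congrArg swap (Dft_eq_zero hv C wt)
  have e : ((wt : (PowerSeries ℂ)ˣ) : PowerSeries ℂ) - 1 = X := by rw [wt_val]; ring
  rw [Dft, e] at h
  simp only [map_sub, map_add, map_mul, map_pow, swap_XX, swap_HH, swap_map_C, map_zero,
    map_ofNat] at h
  rw [swap_C, swap_C, swap_C, map_X, map_C, map_C] at h
  exact h

/-- `ξ = T² x` -/
def xi (v : Fin 2 → ℤ) : PowerSeries (PowerSeries ℂ) :=
  Xi - C (C (1 / 12)) * C (qe 3 (A1 v)) ^ 2 * X ^ 2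

/-- `η = -T³ y` -/
def eta (v : Fin 2 → ℤ) : PowerSeries (PowerSeries ℂ) :=
  C (C (1 / 2)) * (X * C (qe 3 (A1 v)) * xi v + X ^ 3 * C (sQ 3 v) - Hh)

lemma two_eta (v : Fin 2 → ℤ) :
    2 * eta v = X * C (qe 3 (A1 v)) * xi v + X ^ 3 * C (sQ 3 v) - Hh := by
  have h2 : (2 : PowerSeries (PowerSeries ℂ)) * C (C (1 / 2)) = 1 := by
    have : (2 : PowerSeries (PowerSeries ℂ)) = C (C 2) := by rw [map_ofNat, map_ofNat]
    rw [this, ← map_mul, ← map_mul]
    norm_num
  rw [eta, ← mul_assoc, h2, one_mul]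

lemma h12 : (12 : PowerSeries (PowerSeries ℂ)) * C (C (1 / 12)) = 1 := by
  have : (12 : PowerSeries (PowerSeries ℂ)) = C (C 12) := by rw [map_ofNat, map_ofNat]
  rw [this, ← map_mul, ← map_mul]
  norm_num

lemma h216 : (C (C (1 / 216)) : PowerSeries (PowerSeries ℂ)) = 8 * C (C (1 / 12)) ^ 3 := by
  have : (8 : PowerSeries (PowerSeries ℂ)) = C (C 8) := by rw [map_ofNat, map_ofNat]
  rw [this, ← map_pow, ← map_pow, ← map_mul, ← map_mul]
  norm_num

lemma deriv_generic {A : Type*} [CommRing A] (F : PowerSeries A) (c e : A) :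
    d⁄dX A (1 + X + X ^ 2 * (F + C c) - C e * X ^ 2) =
      1 + 2 * X * (F + C c) + X ^ 2 * d⁄dX A F - C e * (2 * X) := by
  have hc : ∀ c : A, d⁄dX A (C c) = 0 := fun c => derivative_C
  have h1 : d⁄dX A (1 : PowerSeries A) = 0 := by
    rw [← map_one C, hc]
  have hX : d⁄dX A (X ^ 2 : PowerSeries A) = 2 * X := by
    rw [Derivation.leibniz_pow, derivative_X]
    simp
  rw [map_sub, map_add, map_add, h1, derivative_X, Derivation.leibniz, hX, map_add, hc,
    Derivation.leibniz, hX, hc]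
  simp only [smul_eq_mul, mul_zero, add_zero]
  ring

/-- the derivation relation -/
theorem R1 (v : Fin 2 → ℤ) : (1 + X) * (X * d⁄dX (PowerSeries ℂ) (xi v) - 2 * xi v) + 2 * eta v =
    X * C (qe 3 (A1 v)) * xi v + X ^ 3 * C (sQ 3 v) := by
  rw [two_eta]
  have hd : d⁄dX (PowerSeries ℂ) (xi v) = 1 + 2 * X * (T1 + C (C (1 / 12))) +
      X ^ 2 * d⁄dX (PowerSeries ℂ) T1 - C (C (1 / 12) * qe 3 (A1 v) ^ 2) * (2 * X) := by
    rw [← deriv_generic, xi, Xi, map_mul, map_pow]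
  rw [hd, xi, Xi, Hh, map_mul, map_pow]
  have := deriv_T1
  linear_combination X ^ 3 * this

/-- the curve -/
theorem R2 {v : Fin 2 → ℤ} (hv : NZ 3 v) :
    eta v ^ 2 - C (qe 3 (A1 v)) * X * xi v * eta v - C (sQ 3 v) * X ^ 3 * eta v = xi v ^ 3 := by
  have hI := weierstrass hv
  have h2 := two_eta v
  have hx : Xi = xi v + C (C (1 / 12)) * C (qe 3 (A1 v)) ^ 2 * X ^ 2 := by rw [xi]; ring
  have h4 : (4 : PowerSeries (PowerSeries ℂ)) ≠ 0 := by
    have : (4 : PowerSeries (PowerSeries ℂ)) = C (C 4) := by rw [map_ofNat, map_ofNat]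
    rw [this]
    intro h
    have h1 := (PowerSeries.C_injective) (h.trans (map_zero C).symm)
    have h2 := (PowerSeries.C_injective) (h1.trans (map_zero C).symm)
    norm_num at h2
  apply mul_left_cancel₀ h4
  rw [hx, h216, e4, e6] at hI
  simp only [map_sub, map_add, map_mul, map_pow, map_ofNat] at hI
  have h := h12
  generalize (C (C (1 / 12)) : PowerSeries (PowerSeries ℂ)) = t at hI h
  generalize (C (qe 3 (A1 v)) : PowerSeries (PowerSeries ℂ)) = a at hI h2 ⊢
  generalize (C (sQ 3 v) : PowerSeries (PowerSeries ℂ)) = b at hI h2 ⊢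
  generalize xi v = ξ at hI h2 ⊢
  generalize eta v = η at h2 ⊢
  generalize Hh = H at hI h2
  generalize (X : PowerSeries (PowerSeries ℂ)) = x at hI h2 ⊢
  have e1 : 4 * (η ^ 2 - a * x * ξ * η - b * x ^ 3 * η) = H ^ 2 - (x * a * ξ + x ^ 3 * b) ^ 2 := by
    linear_combination (2 * η + (x * a * ξ + x ^ 3 * b - H) - 2 * (a * x * ξ + b * x ^ 3)) * h2
  rw [e1]
  linear_combination hI + (a ^ 2 * x ^ 2 * ξ ^ 2 + t * a ^ 4 * x ^ 4 * ξ + 2 * a * b * x ^ 4 * ξ +
    (t ^ 2 * a ^ 6 - 24 * t ^ 2 * a ^ 3 * b) * x ^ 6 + b ^ 2 * (144 * t ^ 2 + 12 * t + 1) * x ^ 6) * h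

end

end Crest.Agent.R007.Tate
end

-- ▼ part R007/Tate5
section

/-!
Row 7, section E (formal Tate curve), part 5: integrality and the final statement `tate_formal`.
-/

set_option autoImplicit false

namespace Crest.Agent.R007.Tate

open Crest.Agent.R007.Wp Crest.Agent.R007.Rat Crest.Agent.R007.Tc
open PowerSeries

noncomputable section

variable {O : Subring ℂ}

/-! ### integrality of one variable series -/

lemma cin_C {c : ℂ} (hc : c ∈ O) : CoeffIn O (C c) := fun n => by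
  rw [coeff_C]; split_ifs
  · exact hc
  · exact O.zero_mem

lemma cin_X : CoeffIn O (X : PowerSeries ℂ) := fun n => by
  rw [coeff_X]; split_ifs
  · exact O.one_mem
  · exact O.zero_mem

lemma cin_natCast (n : ℕ) : CoeffIn O (n : PowerSeries ℂ) := by
  rw [← map_natCast C]; exact cin_C (natCast_mem O n)

lemma cin_pow {p : PowerSeries ℂ} (hp : CoeffIn O p) (n : ℕ) : CoeffIn O (p ^ n) := by
  induction n with
  | zero => rw [pow_zero]; exact CoeffIn.one
  | succ n ih => rw [pow_succ]; exact ih.mul hp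

lemma cin_sum {ι : Type*} (s : Finset ι) (F : ι → PowerSeries ℂ) (h : ∀ i ∈ s, CoeffIn O (F i)) :
    CoeffIn O (∑ i ∈ s, F i) := fun n => by
  rw [map_sum]; exact O.sum_mem fun i hi => h i hi n

lemma cin_wt_pow (d : ℕ) : CoeffIn O ((wt ^ d : (PowerSeries ℂ)ˣ) : PowerSeries ℂ) := by
  rw [Units.val_pow_eq_pow_val, wt_val]
  exact cin_pow (CoeffIn.one.add cin_X) d

lemma cin_wt_inv_pow (d : ℕ) : CoeffIn O ((wt⁻¹ ^ d : (PowerSeries ℂ)ˣ) : PowerSeries ℂ) := by
  rw [Units.val_pow_eq_pow_val, wt_inv_val]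
  refine cin_pow (fun n => ?_) d
  rw [coeff_mk]
  exact O.pow_mem (O.neg_mem O.one_mem) n

/-! ### integrality of two variable series -/

/-- all coefficients lie in `O` -/
def CIn2 (O : Subring ℂ) (F : PowerSeries (PowerSeries ℂ)) : Prop := ∀ i, CoeffIn O (coeff i F)

variable {F G : PowerSeries (PowerSeries ℂ)}

lemma CIn2.add (hF : CIn2 O F) (hG : CIn2 O G) : CIn2 O (F + G) := fun i => by
  rw [map_add]; exact (hF i).add (hG i)

lemma CIn2.neg (hF : CIn2 O F) : CIn2 O (-F) := fun i => by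
  rw [map_neg]; exact (hF i).neg

lemma CIn2.sub (hF : CIn2 O F) (hG : CIn2 O G) : CIn2 O (F - G) := fun i => by
  rw [map_sub]; exact (hF i).sub (hG i)

lemma CIn2.mul (hF : CIn2 O F) (hG : CIn2 O G) : CIn2 O (F * G) := fun i => by
  rw [coeff_mul]
  exact cin_sum _ _ fun x _ => (hF _).mul (hG _)

lemma CIn2.C {p : PowerSeries ℂ} (hp : CoeffIn O p) : CIn2 O (PowerSeries.C p) := fun i => by
  rw [coeff_C]; split_ifs
  · exact hp
  · exact CoeffIn.zero

lemma CIn2.one : CIn2 O 1 := fun i => by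
  rw [coeff_one]; split_ifs
  · exact CoeffIn.one
  · exact CoeffIn.zero

lemma CIn2.X : CIn2 O (PowerSeries.X : PowerSeries (PowerSeries ℂ)) := fun i => by
  rw [coeff_X]; split_ifs
  · exact CoeffIn.one
  · exact CoeffIn.zero

lemma CIn2.pow (hF : CIn2 O F) (n : ℕ) : CIn2 O (F ^ n) := by
  induction n with
  | zero => rw [pow_zero]; exact CIn2.one
  | succ n ih => rw [pow_succ]; exact ih.mul hF

lemma CIn2.swap (h : ∀ j, CoeffIn O (coeff j F)) : CIn2 O (swap F) := fun i j => by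
  rw [coeff_swap]; exact h j i

lemma cin_T1 : CIn2 O T1 := CIn2.swap fun j => by
  rw [S1, coeff_mk]
  split_ifs
  · refine cin_sum _ _ fun d _ => (cin_natCast d).mul (((cin_wt_pow d).add (cin_wt_inv_pow d)).sub ?_)
    exact_mod_cast cin_natCast 2
  · exact CoeffIn.zero

/-- `(T1 - T2) / 2` -/
def W : PowerSeries (PowerSeries ℂ) := swap (PowerSeries.mk fun n =>
  if 3 ∣ n then ∑ d ∈ (n / 3).divisors,
    (((d + 1).choose 2 : ℕ) * ((wt⁻¹ ^ d : (PowerSeries ℂ)ˣ) : PowerSeries ℂ) -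
      (d.choose 2 : ℕ) * ((wt ^ d : (PowerSeries ℂ)ˣ) : PowerSeries ℂ) - (d : ℕ)) else 0)

lemma cin_W : CIn2 O W := CIn2.swap fun j => by
  rw [coeff_mk]
  split_ifs
  · exact cin_sum _ _ fun d _ => (((cin_natCast _).mul (cin_wt_inv_pow d)).sub
      ((cin_natCast _).mul (cin_wt_pow d))).sub (cin_natCast d)
  · exact CoeffIn.zero

lemma two_W : 2 * W = T1 - T2 := by
  have h2 : (2 : PowerSeries (PowerSeries ℂ)) = swap 2 := by rw [map_ofNat]
  rw [W, T1, T2, h2, ← map_mul, ← map_sub]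
  congr 1
  ext1 n
  have h3 : (2 : PowerSeries (PowerSeries ℂ)) = PowerSeries.C 2 := by rw [map_ofNat]
  rw [h3, coeff_C_mul, map_sub, S1, S2, coeff_mk, coeff_mk, coeff_mk]
  split_ifs
  · rw [Finset.mul_sum, ← Finset.sum_sub_distrib]
    refine Finset.sum_congr rfl fun d _ => ?_
    have c1 : (2 : PowerSeries ℂ) * ((d + 1).choose 2 : ℕ) = (d : PowerSeries ℂ) ^ 2 + d := by
      have : 2 * (d + 1).choose 2 = d ^ 2 + d := by
        rw [Nat.choose_two_right, Nat.add_sub_cancel, Nat.mul_div_cancel']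
        · ring
        · rw [mul_comm]; exact (Nat.even_mul_succ_self d).two_dvd
      exact_mod_cast congrArg (Nat.cast (R := PowerSeries ℂ)) this
    have c2 : (2 : PowerSeries ℂ) * (d.choose 2 : ℕ) = (d : PowerSeries ℂ) ^ 2 - d := by
      have : 2 * d.choose 2 + d = d ^ 2 := by
        rw [Nat.choose_two_right, Nat.mul_div_cancel']
        · cases d with
          | zero => rfl
          | succ d => rw [Nat.add_sub_cancel]; ring
        · exact (Nat.even_mul_pred_self d).two_dvd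
      have h4 := congrArg (Nat.cast (R := PowerSeries ℂ)) this
      push_cast at h4
      linear_combination h4
    linear_combination ((wt⁻¹ ^ d : (PowerSeries ℂ)ˣ) : PowerSeries ℂ) * c1 -
      ((wt ^ d : (PowerSeries ℂ)ˣ) : PowerSeries ℂ) * c2
  · simp

/-! ### the constants -/

variable {v : Fin 2 → ℤ}

/-- `c = (1 - a²)/12` -/
def cc (v : Fin 2 → ℤ) : PowerSeries ℂ := C (1 / 12) - sP 3 v

lemma a_sq (hv : NZ 3 v) : C (1 / 12 : ℂ) * qe 3 (A1 v) ^ 2 = sP 3 v := by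
  rw [qe_A1_sq hv, smul_eq_C_mul, ← mul_assoc, ← map_mul]
  norm_num

lemma cc_cin (hO : OddRing O) (hv : NZ 3 v) : CoeffIn O (cc v) := by
  have := (sP_coeffIn hO (by decide) hv (M := 3)).neg
  rwa [neg_sub] at this

lemma sQ_add_cc (hO : OddRing O) (hv : NZ 3 v) : In2 O (sQ 3 v + cc v) := fun n => by
  have h3 : Odd 3 := by decide
  rw [cc, map_add, map_sub, sQ, sP, coeff_mk, coeff_mk, cQ, cP, coeff_C]
  have h1 : (∑ p ∈ n.divisorsAntidiagonal, chi 3 2 (v 0) (v 1) p.2 p.1 -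
      ∑ p ∈ n.divisorsAntidiagonal, (chi 3 1 (v 0) (v 1) p.2 p.1 - chi 3 1 0 0 p.2 p.1)) / 2 ∈ O := by
    rw [← Finset.sum_sub_distrib, Finset.sum_div]
    refine O.sum_mem fun p _ => ?_
    have e1 := chi_sub_mem hO h3 (v 0) (v 1) p.2 p.1
    have e2 : chi 3 1 0 0 p.2 p.1 / 2 ∈ O := by
      rw [chi_v01]
      split_ifs
      · rw [neg_zero, zpow_zero, one_pow]
        convert natCast_mem O p.2 using 1
        push_cast
        ring
      · rw [zero_div]; exact O.zero_mem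
    convert O.add_mem e1 e2 using 1
    ring
  by_cases hn : n = 0
  · subst hn
    have h0 := cQ0_sub_cP0_mem hO h3 hv
    simp only [if_true]
    convert O.add_mem h0 h1 using 1
    ring
  · simp only [if_neg hn, zero_add, zero_sub]
    convert h1 using 1
    ring

/-- `f = (a - 1)/2` -/
def ff (v : Fin 2 → ℤ) : PowerSeries ℂ := (1 / 2 : ℂ) • (qe 3 (A1 v) - 1)

/-- `g = (b + c)/2` -/
def gg (v : Fin 2 → ℤ) : PowerSeries ℂ := (1 / 2 : ℂ) • (sQ 3 v + cc v)

lemma ff_cin (hO : OddRing O) (hv : NZ 3 v) : CoeffIn O (ff v) := (hasse hO hv).half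

lemma gg_cin (hO : OddRing O) (hv : NZ 3 v) : CoeffIn O (gg v) := (sQ_add_cc hO hv).half

lemma two_smul_half (p : PowerSeries ℂ) : 2 * ((1 / 2 : ℂ) • p) = p := by
  rw [smul_eq_C_mul, ← mul_assoc]
  have : (2 : PowerSeries ℂ) * C (1 / 2 : ℂ) = 1 := by
    rw [← map_ofNat C, ← map_mul]; norm_num
  rw [this, one_mul]

lemma xi_eq (hv : NZ 3 v) : xi v = 1 + X + X ^ 2 * (T1 + C (cc v)) := by
  have h := a_sq hv
  rw [xi, Xi, cc, ← h, map_sub, map_mul, map_pow]
  ring

lemma eta_eq (hv : NZ 3 v) : eta v = (1 + X) ^ 2 + X * (1 + X) * C (ff v) +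
    X ^ 3 * (C (ff v) * (T1 + C (cc v)) + W + C (gg v)) := by
  have h2 := two_eta v
  have h2' : (2 : PowerSeries (PowerSeries ℂ)) ≠ 0 := by
    have : (2 : PowerSeries (PowerSeries ℂ)) = C (C 2) := by rw [map_ofNat, map_ofNat]
    rw [this]
    intro h
    have h1 := (PowerSeries.C_injective) (h.trans (map_zero C).symm)
    have h2 := (PowerSeries.C_injective) (h1.trans (map_zero C).symm)
    norm_num at h2
  apply mul_left_cancel₀ h2'
  rw [h2, xi_eq hv, Hh]
  have hf : (2 : PowerSeries (PowerSeries ℂ)) * C (ff v) = C (qe 3 (A1 v)) - 1 := by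
    have := congrArg C (two_smul_half (qe 3 (A1 v) - 1))
    rwa [map_mul, map_ofNat, map_sub, map_one] at this
  have hg : (2 : PowerSeries (PowerSeries ℂ)) * C (gg v) = C (sQ 3 v) + C (cc v) := by
    have := congrArg C (two_smul_half (sQ 3 v + cc v))
    rwa [map_mul, map_ofNat, map_add] at this
  have hW := two_W
  linear_combination (-(X * (1 + X) + X ^ 3 * (T1 + C (cc v)))) * hf - X ^ 3 * hg - X ^ 3 * hW

lemma xi_cin (hO : OddRing O) (hv : NZ 3 v) : CIn2 O (xi v) := by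
  rw [xi_eq hv]
  exact (CIn2.one.add CIn2.X).add ((CIn2.X.pow 2).mul (cin_T1.add (CIn2.C (cc_cin hO hv))))

lemma eta_cin (hO : OddRing O) (hv : NZ 3 v) : CIn2 O (eta v) := by
  rw [eta_eq hv]
  exact (((CIn2.one.add CIn2.X).pow 2).add ((CIn2.X.mul (CIn2.one.add CIn2.X)).mul
    (CIn2.C (ff_cin hO hv)))).add ((CIn2.X.pow 3).mul ((((CIn2.C (ff_cin hO hv)).mul
      (cin_T1.add (CIn2.C (cc_cin hO hv)))).add cin_W).add (CIn2.C (gg_cin hO hv))))

/-- **The formal Tate curve.** -/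
theorem tate_formal (hO : OddRing O) (hv : NZ 3 v) : ∃ ξ η : PowerSeries (PowerSeries ℂ),
    constantCoeff ξ = 1 ∧ constantCoeff η = 1 ∧
    (∀ n, CoeffIn O (coeff n ξ)) ∧ (∀ n, CoeffIn O (coeff n η)) ∧
    (1 + X) * (X * d⁄dX (PowerSeries ℂ) ξ - 2 * ξ) + 2 * η =
      X * C (qe 3 (A1 v)) * ξ + X ^ 3 * C (sQ 3 v) ∧
    η ^ 2 - C (qe 3 (A1 v)) * X * ξ * η - C (sQ 3 v) * X ^ 3 * η = ξ ^ 3 := by
  refine ⟨xi v, eta v, ?_, ?_, xi_cin hO hv, eta_cin hO hv, R1 v, R2 hv⟩
  · rw [xi_eq hv]; simp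
  · rw [eta_eq hv]; simp

end

end Crest.Agent.R007.Tate
end

-- ▼ part R007/Tw1
section

/-!
Row 7, E-FG, node Tw1 (helper2): Tate parametrisations of `y² + a x y + b y = x³` and the
universal solution `zs a b` (helper801's `Fg1`).

* `TateData a b ξ η` : `x = ξ/T²`, `y = -η/T³` is a parametrisation of the curve with
  `(1+T) dx/dT = 2y + a x + b`;
* `TateData.zs_eq` : then `zs a b = (T ξ/η)(e^w - 1)`;
* `TateData.exists_int` : with coefficients of `ξ, η` in a subring `S`: `zs a b = P(e^w - 1)`,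
  `P = T + …` with coefficients in `S`.
-/

set_option autoImplicit false

open PowerSeries Crest.Agent.R007.Fg Crest.Agent.R007.PsInt

namespace Crest.Agent.R007.Tw

variable {A : Type*} [CommRing A]

theorem two_eq : (2 : PowerSeries A) = C (2 : A) := (map_ofNat C 2).symm

/-- Tate parametrisation: `x = ξ/T²`, `y = -η/T³`, `D = (1+T) d/dT` -/
structure TateData (a b : A) (ξ η : PowerSeries A) : Prop where
  x0 : constantCoeff ξ = 1
  e0 : constantCoeff η = 1
  R1 : (1 + X) * (X * d⁄dX A ξ - 2 * ξ) + 2 * η = X * (C a * ξ) + X ^ 3 * C b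
  R2 : η ^ 2 - C a * X * ξ * η - C b * X ^ 3 * η = ξ ^ 3

theorem TateData.R3 [Algebra ℚ A] {a b : A} {ξ η : PowerSeries A} (h : TateData a b ξ η) :
    X * ((1 + X) * d⁄dX A η) = 3 * ((1 + X) * η) - 3 * ξ ^ 2 - C a * X * η := by
  set W : PowerSeries A := 2 * η - C a * X * ξ - C b * X ^ 3 with hW
  have hWu : IsUnit W := by
    rw [PowerSeries.isUnit_iff_constantCoeff]
    have : constantCoeff W = 2 := by
      rw [hW, two_eq]
      simp [h.e0]
    rw [this]
    have : (2 : A) = algebraMap ℚ A 2 := (map_ofNat (algebraMap ℚ A) 2).symm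
    rw [this]
    exact (IsUnit.mk0 (2 : ℚ) (by norm_num)).map _
  have hd := congrArg (d⁄dX A) h.R2
  simp only [map_sub, Derivation.leibniz, Derivation.leibniz_pow, smul_eq_mul, derivative_X,
    derivative_C, nsmul_eq_mul] at hd
  have hR1 := h.R1
  apply hWu.mul_left_cancel
  have hx : X * ((1 + X) * d⁄dX A ξ) = 2 * ((1 + X) * ξ) - W := by
    rw [hW]
    linear_combination hR1
  push_cast at hd
  have hd' := congrArg (fun F : PowerSeries A => X * ((1 + X) * F)) hd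
  rw [hW] at hx ⊢
  have hR2 := h.R2
  linear_combination hd' + (3 * ξ ^ 2 + C a * X * η) * hx - 6 * (1 + X) * hR2

/-- derivative of an inverse -/
theorem deriv_inv {η ηi : PowerSeries A} (hi : η * ηi = 1) :
    d⁄dX A ηi = - ηi ^ 2 * d⁄dX A η := by
  have hdi : ηi * d⁄dX A η + η * d⁄dX A ηi = 0 := by
    have := congrArg (d⁄dX A) hi
    rw [Derivation.leibniz, smul_eq_mul, smul_eq_mul] at this
    rw [show d⁄dX A (1 : PowerSeries A) = 0 from Derivation.map_one_eq_zero _] at this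
    linear_combination this
  linear_combination ηi * hdi - d⁄dX A ηi * hi

/-- the two identities for `P = T ξ/η`, `Q = T³/η` -/
theorem TateData.DP [Algebra ℚ A] {a b : A} {ξ η ηi : PowerSeries A} (h : TateData a b ξ η)
    (hi : η * ηi = 1) :
    (1 + X) * d⁄dX A (X * ξ * ηi) = 1 - C a * (X * ξ * ηi) - 2 * (C b * (X ^ 3 * ηi)) := by
  simp only [Derivation.leibniz, smul_eq_mul, derivative_X]
  rw [deriv_inv hi]
  have h2 := h.R2
  have h3 := h.R3
  have hx : X * ((1 + X) * d⁄dX A ξ) = 2 * ((1 + X) * ξ) - (2 * η - C a * X * ξ - C b * X ^ 3) := by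
    linear_combination h.R1
  linear_combination ηi * hx - ξ * ηi ^ 2 * h3 - 3 * ηi ^ 2 * h2 + (3 * (η * ηi) + 1 -
    3 * (1 + X) * ξ * ηi - 2 * C a * X * ξ * ηi - 3 * C b * X ^ 3 * ηi) * hi

theorem TateData.DQ [Algebra ℚ A] {a b : A} {ξ η ηi : PowerSeries A} (h : TateData a b ξ η)
    (hi : η * ηi = 1) :
    (1 + X) * d⁄dX A (X ^ 3 * ηi) = 3 * (X * ξ * ηi) ^ 2 + C a * (X ^ 3 * ηi) := by
  simp only [Derivation.leibniz, Derivation.leibniz_pow, smul_eq_mul, derivative_X, nsmul_eq_mul]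
  rw [deriv_inv hi]
  have h3 := h.R3
  push_cast
  linear_combination - X ^ 2 * ηi ^ 2 * h3 + (C a * X ^ 3 * ηi - 3 * (1 + X) * X ^ 2 * ηi) * hi

/-- **Tate parametrisation solves the system** -/
theorem TateData.isSol [Algebra ℚ A] {a b : A} {ξ η ηi : PowerSeries A} (h : TateData a b ξ η)
    (hi : η * ηi = 1) :
    IsSol a b ((X * ξ * ηi).subst (exp A - 1)) ((X ^ 3 * ηi).subst (exp A - 1)) := by
  have hs : HasSubst (exp A - 1) := HasSubst.exp_sub_one
  have hcc : constantCoeff (exp A - 1) = 0 := by simp [constantCoeff_exp]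
  have hde : d⁄dX A (exp A - 1) = exp A := by
    rw [map_sub, derivative_exp, show d⁄dX A (1 : PowerSeries A) = 0 from Derivation.map_one_eq_zero _,
      sub_zero]
  have hex : (1 + X : PowerSeries A).subst (exp A - 1) = exp A := by
    rw [← coe_substAlgHom hs, map_add, map_one, coe_substAlgHom, subst_X hs]
    ring
  have hCs : ∀ c : A, (C c : PowerSeries A).subst (exp A - 1) = (C c : PowerSeries A) := by
    intro c
    rw [← coe_substAlgHom hs]
    exact (substAlgHom hs).commutes c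
  refine ⟨?_, ?_, ?_, ?_⟩
  · exact constantCoeff_subst_eq_zero hcc _ (by simp)
  · exact constantCoeff_subst_eq_zero hcc _ (by simp)
  · have := congrArg (fun F : PowerSeries A => F.subst (exp A - 1)) (h.DP hi)
    simp only [← coe_substAlgHom hs, map_mul, map_sub, map_add, map_one, map_ofNat] at this
    simp only [coe_substAlgHom, hCs, subst_X hs] at this
    rw [derivative_subst hs, hde]
    simp only [← coe_substAlgHom hs, map_mul]
    simp only [coe_substAlgHom, subst_X hs]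
    linear_combination this
  · have := congrArg (fun F : PowerSeries A => F.subst (exp A - 1)) (h.DQ hi)
    simp only [← coe_substAlgHom hs, map_mul, map_add, map_one, map_ofNat, map_pow] at this
    simp only [coe_substAlgHom, hCs, subst_X hs] at this
    rw [derivative_subst hs, hde]
    simp only [← coe_substAlgHom hs, map_mul, map_pow]
    simp only [coe_substAlgHom, subst_X hs]
    rw [← this]
    ring

theorem TateData.zs_eq [Algebra ℚ A] {a b : A} {ξ η ηi : PowerSeries A} (h : TateData a b ξ η)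
    (hi : η * ηi = 1) : zs a b = (X * ξ * ηi).subst (expm A) :=
  (h.isSol hi).eq.1.symm

/-- **integral Tate parametrisation** -/
theorem TateData.exists_int [Algebra ℚ A] {S : Subring A} {a b : A} {ξ η : PowerSeries A}
    (h : TateData a b ξ η) (hξ : CIn S ξ) (hη : CIn S η) :
    ∃ P : PowerSeries A, CIn S P ∧ constantCoeff P = 0 ∧ coeff 1 P = 1 ∧
      zs a b = P.subst (expm A) := by
  have hu : IsUnit η := by
    rw [PowerSeries.isUnit_iff_constantCoeff, h.e0]; exact isUnit_one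
  obtain ⟨ηi, hi⟩ := hu.exists_right_inv
  have hηi : CIn S ηi := hη.of_mul_eq_one ⟨1, S.one_mem, by rw [h.e0, one_mul]⟩ hi
  have hi0 : constantCoeff ηi = 1 := by
    have := congrArg constantCoeff hi
    rwa [map_mul, h.e0, one_mul, map_one] at this
  refine ⟨X * ξ * ηi, (CIn_X.mul hξ).mul hηi, by simp, ?_, h.zs_eq hi⟩
  rw [mul_assoc, show (1 : ℕ) = 0 + 1 from rfl, coeff_succ_X_mul, coeff_zero_eq_constantCoeff_apply,
    map_mul, h.x0, hi0, one_mul]

end Crest.Agent.R007.Tw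
end

-- ▼ part R007/Tw4

set_option autoImplicit false

noncomputable section

namespace Crest.Agent.R007.Tw

open PowerSeries UpperHalfPlane ModularForm Matrix
open Crest.Agent.R007.PsInt Crest.Agent.R007.Lat Crest.Agent.R007.Mix Crest.Agent.R007.Tc
open Crest.Agent.R007.Fg (zs ss lg)
open scoped MatrixGroups

section gen

variable {K L : Type*} [CommRing K] [CommRing L] [Algebra ℚ K] [Algebra ℚ L]

variable (K) in
/-- the inverse series of `e^w - 1` -/
def lgm : PowerSeries K :=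
  (expm K).substInvOfIsUnit (by rw [coeff_one_expm]; exact isUnit_one)

variable (K) in
lemma constantCoeff_lgm : constantCoeff (lgm K) = 0 :=
  (expm K).constantCoeff_substInvOfIsUnit _

variable (K) in
lemma subst_lgm_expm : PowerSeries.subst (lgm K) (expm K) = PowerSeries.X :=
  (expm K).subst_substInvOfIsUnit_right (constantCoeff_expm K) _

variable (K) in
lemma subst_expm_lgm : PowerSeries.subst (expm K) (lgm K) = PowerSeries.X :=
  (expm K).subst_substInvOfIsUnit_left (constantCoeff_expm K) _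

lemma map_expm (f : K →+* L) : PowerSeries.map f (expm K) = expm L := by
  rw [expm, map_sub, map_one, PowerSeries.map_exp]; rfl

omit [Algebra ℚ K] [Algebra ℚ L] in
lemma map_psubst (f : K →+* L) {a : PowerSeries K} (ha : constantCoeff a = 0) (P : PowerSeries K) :
    PowerSeries.map f (PowerSeries.subst a P) =
      PowerSeries.subst (PowerSeries.map f a) (PowerSeries.map f P) := by
  have hs : HasSubst a := HasSubst.of_constantCoeff_zero' ha
  exact PowerSeries.map_subst (h := f) hs P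

lemma map_lgm (f : K →+* L) : PowerSeries.map f (lgm K) = lgm L := by
  have h0 : constantCoeff (PowerSeries.map f (lgm K)) = 0 := by
    rw [← coeff_zero_eq_constantCoeff_apply, coeff_map, coeff_zero_eq_constantCoeff_apply,
      constantCoeff_lgm, map_zero]
  refine substInv_unique (constantCoeff_expm L) h0 (constantCoeff_lgm L) ?_ (subst_expm_lgm L)
  have h := congrArg (PowerSeries.map f) (subst_lgm_expm K)
  rwa [map_psubst f (constantCoeff_lgm K), map_expm, PowerSeries.map_X] at h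

/-- the Tate parametrisation in the variable `T = e^w - 1` -/
def Lz (a b : K) : PowerSeries K := PowerSeries.subst (lgm K) (zs a b)

lemma map_Lz (f : K →+* L) (a b : K) : PowerSeries.map f (Lz a b) = Lz (f a) (f b) := by
  rw [Lz, map_psubst f (constantCoeff_lgm K), map_lgm, Fg.map_zs]
  rfl

lemma zs_eq_Lz (a b : K) : zs a b = PowerSeries.subst (expm K) (Lz a b) := by
  rw [Lz, subst_comp (constantCoeff_lgm K) (constantCoeff_expm K), subst_expm_lgm, subst_X_self]

lemma Lz_eq {a b : K} {P : PowerSeries K} (h : zs a b = PowerSeries.subst (expm K) P) :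
    Lz a b = P := by
  rw [Lz, h, subst_comp (constantCoeff_expm K) (constantCoeff_lgm K), subst_lgm_expm, subst_X_self]

end gen

/-! ### q-expansions -/

/-- the q-expansion homomorphism on `PB M` -/
def qeH (M : ℕ) [NeZero M] : PB (M : ℝ) →+* PowerSeries ℂ where
  toFun f := Rat.qe M f.1
  map_one' := qExpansion_one _
  map_zero' := qExpansion_zero _
  map_mul' f g := qExpansion_mul (PB_analytic (pos_of_neZero M) f.2) (PB_analytic (pos_of_neZero M) g.2)
  map_add' f g := qExpansion_add (PB_analytic (pos_of_neZero M) f.2) (PB_analytic (pos_of_neZero M) g.2)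

lemma mem_IntO_of_qe {O : Subring ℂ} {M : ℕ} [NeZero M] (hM : Odd M) {f : ℍ → ℂ} (hf : f ∈ PB (M : ℝ))
    (h : Rat.CoeffIn O (Rat.qe M f)) : f ∈ IntO O := by
  refine ⟨⟨M, hM, hf⟩, fun r => ?_⟩
  by_cases hr : ∃ n : ℕ, (n : ℚ) / M = r
  · obtain ⟨n, rfl⟩ := hr
    rw [qf_eq' M hM hf, emb_coeff]
    exact h n
  · push Not at hr
    rw [qf_coeff_of_notMem hM hf hr]
    exact O.zero_mem

/-- power series with coefficients in `O` -/
def cI (O : Subring ℂ) : Subring (PowerSeries ℂ) := (PowerSeries.map O.subtype).range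

lemma mem_cI {O : Subring ℂ} {p : PowerSeries ℂ} : p ∈ cI O ↔ Rat.CoeffIn O p := by
  rw [cI, RingHom.mem_range]
  exact (CIn_iff (S := O) (p := p)).symm

lemma A1_mem_PB {v : Fin 2 → ℤ} (hv : NZ 3 v) : A1 v ∈ PB ((3 : ℕ) : ℝ) :=
  ⟨(isF_A1 hv).periodic, (isF_A1 hv).holo, (isF_A1 hv).bdd_infty⟩

lemma A3_mem_PB (v : Fin 2 → ℤ) : A3 v ∈ PB ((3 : ℕ) : ℝ) :=
  ⟨(isF_A3 v).periodic, (isF_A3 v).holo, (isF_A3 v).bdd_infty⟩

lemma qe_A3 (v : Fin 2 → ℤ) : Rat.qe 3 (A3 v) = sQ 3 v := Wp.qe_Q (M := 3) v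

/-- integrality of the q-expansion of the Tate parametrisation -/
lemma exists_q {O : Subring ℂ} (hO : OddRing O) {v : Fin 2 → ℤ} (hv : NZ 3 v) :
    ∃ P : PowerSeries (PowerSeries ℂ), CIn (cI O) P ∧
      zs (Rat.qe 3 (A1 v)) (Rat.qe 3 (A3 v)) = PowerSeries.subst (expm (PowerSeries ℂ)) P := by
  obtain ⟨ξ, ζ, h1, h2, h3, h4, h5, h6⟩ := Tate.tate_formal hO hv
  rw [← qe_A3] at h5 h6
  have hT : TateData (Rat.qe 3 (A1 v)) (Rat.qe 3 (A3 v)) ξ ζ :=
    ⟨h1, h2, by rw [← mul_assoc]; exact h5, h6⟩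
  obtain ⟨P, hP, -, -, e⟩ := hT.exists_int (S := cI O) (fun n => mem_cI.2 (h3 n))
    (fun n => mem_cI.2 (h4 n))
  exact ⟨P, hP, e⟩

theorem good_inf {O : Subring ℂ} (hO : OddRing O) {v : Fin 2 → ℤ} (hv : NZ 3 v) :
    Good O (A1 v) (A3 v) := by
  have : NeZero (3 : ℕ) := ⟨by norm_num⟩
  refine ⟨Lz (A1 v) (A3 v), fun n => ?_, zs_eq_Lz _ _⟩
  obtain ⟨P, hP, e⟩ := exists_q hO hv
  have e1 := map_Lz ((PB ((3 : ℕ) : ℝ)).val : PB ((3 : ℕ) : ℝ) →ₐ[ℂ] (ℍ → ℂ)).toRingHom
    ⟨A1 v, A1_mem_PB hv⟩ ⟨A3 v, A3_mem_PB v⟩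
  have e2 := map_Lz (qeH 3) ⟨A1 v, A1_mem_PB hv⟩ ⟨A3 v, A3_mem_PB v⟩
  have e3 : Lz (qeH 3 ⟨A1 v, A1_mem_PB hv⟩) (qeH 3 ⟨A3 v, A3_mem_PB v⟩) = P := Lz_eq e
  rw [e3] at e2
  have e4 : coeff n (Lz (A1 v) (A3 v)) =
      (coeff n (Lz (⟨A1 v, A1_mem_PB hv⟩ : PB ((3 : ℕ) : ℝ)) ⟨A3 v, A3_mem_PB v⟩)).1 := by
    have := congrArg (coeff n) e1
    rw [coeff_map] at this
    exact this.symm
  rw [e4]
  refine mem_IntO_of_qe (M := 3) (by decide) (Subtype.prop _) ?_
  have e5 := congrArg (coeff n) e2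
  rw [coeff_map] at e5
  change Rat.qe 3 _ = _ at e5
  rw [e5]
  exact mem_cI.1 (hP n)

/-- **tate_inf** -/
theorem tate_inf {O : Subring ℂ} (hO : OddRing O) (v : Fin 2 → ℤ) (hv : NZ 3 v) :
    ∃ P : PowerSeries (ℍ → ℂ), CIn (IntO O) P ∧ constantCoeff P = 0 ∧ coeff 1 P = 1 ∧
      zs (A1 v) (A3 v) = PowerSeries.subst (PowerSeries.exp (ℍ → ℂ) - 1) P :=
  (good_inf hO hv).spec



end Crest.Agent.R007.Tw
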