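import Crest.Agent.R007.EPt4_Mg
import Crest.Agent.R007.FgE
import Crest.Agent.R007.Tw3
import Crest.Agent.R007.OOInst
import Crest.Agent.R007.Main2
import Crest.Agent.R007.Tw4
import Crest.Agent.R007.RatBDN
import Crest.Agent.R007.I1_Mg
import Crest.Agent.R007.Du8
import Crest.Agent.R007.Du3
import Crest.Agent.R007.EHasse
import Crest.Agent.R007.Mix2
import Mathlib
import Crest.Prelude.Def_HeckeTwo
import Crest.Agent.R007.Frob3
import Crest.Agent.R007.OpU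
import Crest.Agent.R007.KumM
import Crest.Agent.R007.Lat6
import Crest.Agent.R007.QInstO
import Crest.Agent.R007.DThm
import Crest.Agent.R007.Emb6
import Crest.Agent.R007.Tlb1
import Crest.Agent.R007.Lat5
import Crest.Agent.R007.Link
import Crest.Agent.R007.Emb1
import Crest.Agent.R007.Emb3

-- ▼ part R007/Main4
section

/-!
# Row 7 (S0007): MAIN assembly, part 4 (helper720): existence of points.
-/

set_option autoImplicit false

namespace Crest.Agent.R007.Main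

theorem v0_ne : (v0 0 : ZMod 3) ≠ 0 := by
  simp [v0]

theorem pt : PT := EPt.exists_pt oddRing nz_v0 v0_ne Coef.res OOI.rho_surj

end Crest.Agent.R007.Main
end

-- ▼ part R007/FgE2
section

/-!
Row 7, section E (helper360): the field `fg` of `EIn` over `Coef.OO`, from `tate_inf`.
-/

set_option autoImplicit false

noncomputable section

open PowerSeries Crest.LubinTate

namespace Crest.Agent.R007.Fg

open UpperHalfPlane ModularForm CongruenceSubgroup Matrix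
open Crest.Agent.R007.Lat Crest.Agent.R007.Mix Crest.Agent.R007.EL Crest.Agent.R007.Tc Crest.Agent.R007.PsInt
open scoped MatrixGroups Manifold ModularForm

/-- the field `fg` of `EIn` for `A₁, A₃` attached to any vector of order 3 -/
theorem fg_OO
    (hinf : ∀ v : Fin 2 → ℤ, NZ 3 v → ∃ P : PowerSeries (ℍ → ℂ), CIn (IntO Coef.OO) P ∧
      PowerSeries.constantCoeff P = 0 ∧ PowerSeries.coeff 1 P = 1 ∧
      zs (A1 v) (A3 v) = PowerSeries.subst (PowerSeries.exp (ℍ → ℂ) - 1) P)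
    {v : Fin 2 → ℤ} (hv : NZ 3 v) (h1 : Lat.lift 1 (A1 v) ∈ Lk Coef.OO 1)
    (h3 : Lat.lift 3 (A3 v) ∈ Lk Coef.OO 3)
    (e : LL Coef.OO →+* PowerSeries Coef.kappa)
    (he : IsPt Coef.res (mkL Coef.OO (Lat.lift 1 (A1 v)) h1) (mkL Coef.OO (Lat.lift 3 (A3 v)) h3) e)
    (δ : GL(2, ℝ)⁺) (hδ : δ ∈ G2) : ∃ H,
      IsFGHom (Phi (e (slL Coef.OO δ hδ (mkL Coef.OO (Lat.lift 1 (A1 v)) h1)))
        (e (slL Coef.OO δ hδ (mkL Coef.OO (Lat.lift 3 (A3 v)) h3))))
        (Phi PowerSeries.X 1) H ∧ IsUnit (PowerSeries.coeff 1 H) :=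
  fg_field Coef.res h1 h3 (fun _ hδ n => Tw.H_int Crest.Agent.R007.OOI.hodd Crest.Agent.R007.OOI.hroot hinf hv hδ n) e he δ hδ

end Crest.Agent.R007.Fg
end
end

-- ▼ part R007/FgFin
section

set_option autoImplicit false

namespace Crest.Agent.R007.Main

open Lat

/-- **E-FG** -/
theorem fg : FG := fun e he δ hδ =>
  Fg.fg_OO (Tw.tate_inf oddRing) nz_v0 AA_mem BB_mem e he δ hδ

end Crest.Agent.R007.Main
end

-- ▼ part R007/RatBDF
section

/-!
Row 7 (S0007): the nodes FIN and (I1) without hypotheses (`N` odd).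
-/

set_option autoImplicit false

namespace Crest.Agent.R007.Rat

open UpperHalfPlane ModularForm CongruenceSubgroup Matrix.SpecialLinearGroup
open scoped MatrixGroups Manifold TensorProduct
open Crest.NumberTheoryR.HeckeTwoAdic

variable {N : ℕ} [NeZero N] {T D : ℕ → (i : ℕ) → (MF N i →ₗ[ℂ] MF N i)}

theorem bddDen (hN : Odd N) : Fin.BddDen N := fun _ f hf => by
  obtain ⟨r, hr⟩ := bd_MF_rat hN f hf
  exact ⟨r, fun g hg n => Fin.mem_Z2C.2 (hr g hg n)⟩

theorem bDen (hN : Odd N) : Realise.BDen N := fun _ f hf => bd_MF_rat hN f hf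


/-- **FIN**, `N` odd. -/
theorem finite_stage (hN : Odd N) (hD : IsDiamondFamily N D) (hT : IsHeckeFamily N T D) (k : ℕ) :
    Module.Finite ℤ_[2] (ℤ_[2] ⊗[ℤ] (stage N T D k)) :=
  Fin.finite_stage hD hT (bddDen hN) k


/-- **(I1)**, `N` odd. -/
theorem exists_I1 (hN : Odd N) (hD : IsDiamondFamily N D) (hT : IsHeckeFamily N T D) {k : ℕ}
    (φ : stage N T D k →+ ZMod 2) :
    ∃ F : (i : Fin k) → MF N ((i : ℕ) + 1), (∀ i, Realise.IsK ⊥ (F i)) ∧
      ∀ s : stage N T D k, ∃ a b : ℤ, Odd b ∧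
        (b : ℂ) * ∑ i : Fin k, Op.an ((s : EndProd N k) i (F i)) 1 = a ∧ ((a : ℤ) : ZMod 2) = φ s :=
  Realise.exists_I1 (fun i => finite_MF N i) hD hT (fun i => span_rat N i) (bDen hN) φ

end Crest.Agent.R007.Rat
end

-- ▼ part R007/Main5
section

/-!
# Row 7 (S0007): MAIN assembly, part 5 (helper720): S0007 from `EmbOut`.
-/

set_option autoImplicit false

open Crest.NumberTheoryR.HeckeTwoAdic
open scoped TensorProduct

namespace Crest.Agent.R007.Main

/-- finiteness of the stages -/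
theorem hfin (N : ℕ) [NeZero N] (hN : Odd N) : ∀ k, Module.Finite ℤ_[2] (Du.R N k) :=
  fun k => Rat.finite_stage hN (HD.isDiamondFamily N) (HD.isHeckeFamily N) k

/-- the statement of EMB -/
def EMB : Prop :=
  ∀ (N : ℕ) [NeZero N] (_ : Odd N) (c : Du.PP N) (hfin : ∀ k, Module.Finite ℤ_[2] (Du.R N k)),
    ∃ (M : ℕ) (_ : NeZero M), 3 ∣ M ∧ Nonempty (Link.EmbOut Coef.OO M (Du.gen0 c) (Du.a1 c hfin))

theorem dim_T0 (hemb : EMB) (N : ℕ) [NeZero N] (hN : Odd N) (c : Du.PP N) :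
    IsNoetherianRing (Du.T0 c) ∧ ringKrullDim (Du.T0 c) ≤ 2 := by
  obtain ⟨M, hM, h3, ⟨B⟩⟩ := hemb N hN c (hfin N hN)
  exact dimT0 fg pt M h3 B (Du.dual_inj c (hfin N hN)) (Du.dual_surj c (hfin N hN))
    (fun w hw => Du.W0.ext fun t => by
      have := hw t
      rw [Du.a1_smul] at this
      rw [this, Du.W0.fn_zero]; rfl)
    (Du.approx c (hfin N hN)) (Du.locfin c (hfin N hN))

theorem dim_TT (hemb : EMB) (N : ℕ) [NeZero N] (hN : Odd N) : ringKrullDim (Du.TT N) ≤ 4 := by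
  obtain ⟨c⟩ := Du.exists_PP (N := N) hN
  exact (Du.final c (hfin N hN) (dim_T0 hemb N hN c)).2

/-- **S0007** from `EMB`. -/
theorem S0007_of (hemb : EMB) (N : ℕ) (hN : Odd N) :
    ∃ (T D : ℕ → (i : ℕ) → (MF N i →ₗ[ℂ] MF N i)),
      IsDiamondFamily N D ∧ IsHeckeFamily N T D ∧
      ∃ hcomm : ∀ a b : HeckeTwo N T D, a * b = b * a,
        Nontrivial (HeckeTwo N T D) ∧
        ∀ P : Ideal (HeckeTwo N T D),
          P ∈ @minimalPrimes (HeckeTwo N T D) (commRingOfComm (HeckeTwo N T D) hcomm).toCommSemiring →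
          @ringKrullDim (HeckeTwo N T D ⧸ P)
            (@Ideal.Quotient.commRing (HeckeTwo N T D) (commRingOfComm (HeckeTwo N T D) hcomm) P).toCommSemiring ≤ 4 := by
  have _ : NeZero N := ⟨hN.pos.ne'⟩
  exact HD.shell N (nontrivial_heckeTwo N _ _) (Du.equivHecke N) (dim_TT hemb N hN)

end Crest.Agent.R007.Main
end

-- ▼ part R007/EmbBD
section

/-! Row 7, node EMB: bounded denominators at level `Γ₁(N)` in the language of `Lk`. -/

set_option autoImplicit false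

namespace Crest.Agent.R007.Emb

open UpperHalfPlane ModularForm CongruenceSubgroup
open Crest.NumberTheoryR.HeckeTwoAdic
open scoped MatrixGroups

/-- `K0`-rational at infinity ⇒ a 2-power multiple is integral (all cusps, all of `G2`). -/
theorem emb_bd {N j : ℕ} [NeZero N] (hN : Odd N) (f : MF N j) (hf : ∀ n, Op.an f n ∈ Coef.K0) :
    ∃ m : ℕ, ((2 : ℂ) ^ m) • Lat.lift j (f : ℍ → ℂ) ∈ Mix.Lk Coef.OO j := by
  obtain ⟨r, hr⟩ := Rat.bd_MF_isR hN f hf
  refine ⟨r, ?_⟩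
  rw [← Lat.lift_smul]
  exact EH.isR_mem_Lk OOI.oddRing_OO hN hr

/-- version with the diamond hypothesis -/
theorem emb_bd' {N j : ℕ} [NeZero N] (hN : Odd N) {D : ℕ → (i : ℕ) → (MF N i →ₗ[ℂ] MF N i)}
    (hD : IsDiamondFamily N D) (f : MF N j)
    (hf : ∀ d : ℕ, Nat.Coprime d N → ∀ n, Op.an (D d j f) n ∈ Coef.K0) :
    ∃ m : ℕ, ((2 : ℂ) ^ m) • Lat.lift j (f : ℍ → ℂ) ∈ Mix.Lk Coef.OO j := by
  apply emb_bd hN f
  intro n
  have h1 := hf 1 (Nat.coprime_one_left N) n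
  have h2 : D 1 j f = f := by
    apply DFunLike.coe_injective
    rw [hD 1 j 1 (one_mem _) (by simp) f, SlashAction.slash_one]
  rwa [h2] at h1

end Crest.Agent.R007.Emb
end

-- ▼ part R007/EmbDia
section

/-! Row 7, node EMB (helper782): the `[c]`-invariance step. -/

set_option autoImplicit false

namespace Crest.Agent.R007.Emb

open UpperHalfPlane ModularForm CongruenceSubgroup Matrix
open scoped MatrixGroups Manifold ModularForm
open Crest.Agent.R007.Lat Crest.Agent.R007.Mix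

variable {O : Subring ℂ}










lemma cg_smul_of_dvd {G : X → ℂ} {r R : ℕ} (hr : r + 1 ≤ R) (h : ((2 : ℂ) ^ r) • G ∈ VV O) (z w : ℤ)
    (hz : ((2 : ℤ) ^ R) ∣ z - w) : Cg O ((z : ℂ) • G) ((w : ℂ) • G) := by
  obtain ⟨y, hy⟩ := hz
  obtain ⟨s, rfl⟩ := Nat.exists_eq_add_of_le hr
  refine ⟨(((y * 2 ^ s : ℤ)) : ℂ) • (((2 : ℂ) ^ r) • G), VV_smul h (intCast_mem O _), ?_⟩
  rw [two_mul_eq_smul, ← sub_smul, smul_smul, smul_smul]
  congr 1
  have h1 : (z : ℂ) - w = ((z - w : ℤ) : ℂ) := by push_cast; ring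
  rw [h1, hy]
  push_cast
  ring

/-- `[c] v mod 2 V` depends only on `c` modulo a power of `2`. -/
theorem inv_all {n : ℕ} {G : ℕ → X → ℂ} (hG : ∀ j, ∃ r : ℕ, ((2 : ℂ) ^ r) • G j ∈ VV O)
    (hinv : ∀ R c : ℕ, Odd c → ∃ c' : ℕ, Odd c' ∧ c' ≡ c [MOD 2 ^ R] ∧
      Cg O (∑ j ∈ Finset.range n, (c' : ℂ) ^ j • G j) (∑ j ∈ Finset.range n, G j))
    (c : ℕ) (hc : Odd c) :
    Cg O (∑ j ∈ Finset.range n, (c : ℂ) ^ j • G j) (∑ j ∈ Finset.range n, G j) := by
  choose r hr using hG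
  obtain ⟨R, hR⟩ : ∃ R : ℕ, ∀ j ∈ Finset.range n, r j + 1 ≤ R :=
    ⟨∑ j ∈ Finset.range n, (r j + 1), fun j hj =>
      Finset.single_le_sum (f := fun j => r j + 1) (fun _ _ => Nat.zero_le _) hj⟩
  obtain ⟨c', -, hcc, h⟩ := hinv R c hc
  refine Cg.trans (Cg.sum _ fun j hj => ?_) h
  have hd : ((2 : ℤ) ^ R) ∣ ((c : ℤ) ^ j - (c' : ℤ) ^ j) := by
    have h1 : ((2 : ℤ) ^ R) ∣ ((c : ℤ) - (c' : ℤ)) := by
      have := (Nat.modEq_iff_dvd.1 hcc)
      push_cast at this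
      exact this
    exact h1.trans (sub_dvd_pow_sub_pow _ _ j)
  have := cg_smul_of_dvd (hR j hj) (hr j) ((c : ℤ) ^ j) ((c' : ℤ) ^ j) hd
  push_cast at this
  exact this

end Crest.Agent.R007.Emb
end

-- ▼ part R007/Dep
section

/-! Row 7, node DEP: the depletion operator at `2` and at the primes of `N`. (helper668) -/

set_option autoImplicit false

namespace Crest.Agent.R007.Op

open Matrix UpperHalfPlane ModularForm CongruenceSubgroup Matrix.SpecialLinearGroup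
open scoped MatrixGroups ModularForm Manifold Pointwise
open Crest.NumberTheoryR.HeckeTwoAdic

local notation "𝕢" => Function.Periodic.qParam

/-! ### level raising -/

lemma cast_of_dvd {N M : ℕ} (h : N ∣ M) {a b : ℤ} (hab : (a : ZMod M) = (b : ZMod M)) :
    (a : ZMod N) = (b : ZMod N) := by
  rw [← sub_eq_zero, ← Int.cast_sub, ZMod.intCast_zmod_eq_zero_iff_dvd] at hab ⊢
  exact (Int.natCast_dvd_natCast.mpr h).trans hab

lemma Gamma1_mono {N M : ℕ} (h : N ∣ M) {γ : SL(2, ℤ)} (hγ : γ ∈ Gamma1 M) : γ ∈ Gamma1 N := by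
  rw [Gamma1_mem] at hγ ⊢
  obtain ⟨h1, h2, h3⟩ := hγ
  refine ⟨?_, ?_, ?_⟩
  · have := cast_of_dvd h (a := γ.1 0 0) (b := 1) (by simpa using h1)
    simpa using this
  · have := cast_of_dvd h (a := γ.1 1 1) (b := 1) (by simpa using h2)
    simpa using this
  · have := cast_of_dvd h (a := γ.1 1 0) (b := 0) (by simpa using h3)
    simpa using this

lemma Gamma0_mono {N M : ℕ} (h : N ∣ M) {γ : SL(2, ℤ)} (hγ : γ ∈ Gamma0 M) : γ ∈ Gamma0 N := by
  rw [Gamma0_mem] at hγ ⊢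
  have := cast_of_dvd h (a := γ.1 1 0) (b := 0) (by simpa using hγ)
  simpa using this

/-- inclusion of levels -/
noncomputable def lvl {N M : ℕ} [NeZero N] [NeZero M] (h : N ∣ M) (k : ℕ) : MF N k →ₗ[ℂ] MF M k where
  toFun f :=
    { toFun := ⇑f
      slash_action_eq' := by
        rintro _ ⟨Y, hY, rfl⟩
        exact inv1_mf f Y (Gamma1_mono h hY)
      holo' := ModularFormClass.holo f
      bdd_at_cusps' := by
        intro c hc
        apply ModularFormClass.bdd_at_cusps f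
        rw [Subgroup.IsArithmetic.isCusp_iff_isCusp_SL2Z] at hc ⊢
        exact hc }
  map_add' f f' := rfl
  map_smul' c f := rfl

@[simp] lemma lvl_coe {N M : ℕ} [NeZero N] [NeZero M] (h : N ∣ M) (k : ℕ) (f : MF N k) :
    ⇑(lvl h k f) = ⇑f := rfl

@[simp] lemma an_lvl {N M : ℕ} [NeZero N] [NeZero M] (h : N ∣ M) (k : ℕ) (f : MF N k) (n : ℕ) :
    an (lvl h k f) n = an f n := rfl

/-! ### `V_p` -/

lemma conj_delta {N p : ℕ} (hp : p ≠ 0) {γ : SL(2, ℤ)} (hγ : γ ∈ Gamma0 (N * p)) :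
    ∃ γ' : SL(2, ℤ), γ' ∈ Gamma0 N ∧ γ'.1 1 1 = γ.1 1 1 ∧ γ'.1 0 0 = γ.1 0 0 ∧
      (!![(p : ℤ), 0; 0, 1] : IM) * γ.1 = γ'.1 * !![(p : ℤ), 0; 0, 1] := by
  have h10 : ((N * p : ℕ) : ℤ) ∣ γ.1 1 0 := by
    rw [Gamma0_mem] at hγ
    exact (ZMod.intCast_zmod_eq_zero_iff_dvd _ _).mp hγ
  obtain ⟨c, hc⟩ := h10
  push_cast at hc
  have hdet := γ.2
  rw [Matrix.det_fin_two] at hdet
  refine ⟨⟨!![γ.1 0 0, p * γ.1 0 1; N * c, γ.1 1 1], ?_⟩, ?_, rfl, rfl, ?_⟩
  · rw [Matrix.det_fin_two_of]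
    rw [hc] at hdet
    linear_combination hdet
  · rw [Gamma0_mem]
    change (((N : ℤ) * c : ℤ) : ZMod N) = 0
    push_cast; simp
  · ext i j
    fin_cases i <;> fin_cases j <;>
      simp [Matrix.mul_apply, Fin.sum_univ_two, hc] <;> ring

lemma delta_det {p : ℕ} (hp : p ≠ 0) : (!![(p : ℤ), 0; 0, 1] : IM).det ≠ 0 := by
  rw [Matrix.det_fin_two_of]; simpa using hp

/-- equality of slashes of elements with equal lower right entry -/
lemma slash_eq_of_lr {N : ℕ} {k : ℤ} {f : ℍ → ℂ} (hf : Inv1 N k f) {g g' : SL(2, ℤ)}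
    (hg : g ∈ Gamma0 N) (hg' : g' ∈ Gamma0 N) (h : g.1 1 1 = g'.1 1 1) : f ∣[k] g = f ∣[k] g' := by
  have hmem : g' * g⁻¹ ∈ Gamma1 N := by
    rw [Gamma0_mem] at hg hg'
    have g10 : ((g.1 1 0 : ℤ) : ZMod N) = 0 := hg
    have g10' : ((g'.1 1 0 : ℤ) : ZMod N) = 0 := hg'
    have hdet1 := congrArg (fun z : ℤ => (z : ZMod N)) ((Matrix.det_fin_two g.1).symm.trans g.2)
    have hdet3 := congrArg (fun z : ℤ => (z : ZMod N)) ((Matrix.det_fin_two g'.1).symm.trans g'.2)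
    push_cast at hdet1 hdet3
    rw [g10] at hdet1
    rw [g10', ← h] at hdet3
    have hinv : (g⁻¹).1 = !![g.1 1 1, -g.1 0 1; -g.1 1 0, g.1 0 0] := by
      rw [Matrix.SpecialLinearGroup.SL2_inv_expl]; rfl
    have e : (g' * g⁻¹).1 = g'.1 * !![g.1 1 1, -g.1 0 1; -g.1 1 0, g.1 0 0] := by
      rw [← hinv]; simp
    rw [Gamma1_mem]
    refine ⟨?_, ?_, ?_⟩
    · have : (((g' * g⁻¹).1 0 0 : ℤ) : ZMod N) = 1 := by
        rw [e]
        simp only [Matrix.mul_apply, Fin.sum_univ_two, Matrix.of_apply, Matrix.cons_val',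
          Matrix.cons_val_zero, Matrix.cons_val_one, Matrix.cons_val_fin_one]
        push_cast
        rw [g10]
        linear_combination hdet3
      exact this
    · have : (((g' * g⁻¹).1 1 1 : ℤ) : ZMod N) = 1 := by
        rw [e]
        simp only [Matrix.mul_apply, Fin.sum_univ_two, Matrix.of_apply, Matrix.cons_val',
          Matrix.cons_val_zero, Matrix.cons_val_one, Matrix.cons_val_fin_one]
        push_cast
        rw [g10', ← h]
        linear_combination hdet1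
      exact this
    · have : (((g' * g⁻¹).1 1 0 : ℤ) : ZMod N) = 0 := by
        rw [e]
        simp only [Matrix.mul_apply, Fin.sum_univ_two, Matrix.of_apply, Matrix.cons_val',
          Matrix.cons_val_zero, Matrix.cons_val_one, Matrix.cons_val_fin_one]
        push_cast
        rw [g10', g10]
        ring
      exact this
  have : g' = (g' * g⁻¹) * g := by group
  rw [this, SlashAction.slash_mul, hf _ hmem]

lemma delta_slash {N p : ℕ} {k : ℤ} (hp : p ≠ 0) {f : ℍ → ℂ} (hf : Inv1 N k f) {γ : SL(2, ℤ)}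
    (hγ : γ ∈ Gamma0 (N * p)) :
    (isl k !![(p : ℤ), 0; 0, 1] f) ∣[k] γ = isl k !![(p : ℤ), 0; 0, 1] (f ∣[k] γ) := by
  obtain ⟨γ', h0, h1, h2, h3⟩ := conj_delta hp hγ
  have hN : γ ∈ Gamma0 N := Gamma0_mono (dvd_mul_right N p) hγ
  calc (isl k !![(p : ℤ), 0; 0, 1] f) ∣[k] γ = isl k (!![(p : ℤ), 0; 0, 1] * γ.1) f := by
        rw [isl_mul _ _ _ (delta_det hp) (SL_det_ne γ), isl_SL]
    _ = isl k (γ'.1 * !![(p : ℤ), 0; 0, 1]) f := by rw [h3]
    _ = isl k !![(p : ℤ), 0; 0, 1] (f ∣[k] γ') := by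
        rw [isl_mul _ _ _ (SL_det_ne γ') (delta_det hp), isl_SL]
    _ = isl k !![(p : ℤ), 0; 0, 1] (f ∣[k] γ) := by rw [slash_eq_of_lr hf h0 hN h1]

/-- `V_p` up to the scalar `p^{k-1}`. -/
noncomputable def Vop (N : ℕ) [NeZero N] (k p : ℕ) [NeZero (N * p)] (hp : p ≠ 0) :
    MF N k →ₗ[ℂ] MF (N * p) k where
  toFun f :=
    { toFun := isl k !![(p : ℤ), 0; 0, 1] f
      slash_action_eq' := by
        rintro _ ⟨Y, hY, rfl⟩
        have h := delta_slash (k := (k : ℤ)) hp (inv1_mf f) (Gamma1_in_Gamma0 _ hY)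
        rw [inv1_mf f Y (Gamma1_mono (dvd_mul_right N p) hY)] at h
        exact h
      holo' := isl_mdiff _ _ (ModularFormClass.holo f)
      bdd_at_cusps' := by
        intro c hc
        refine bdd_isl f _ (delta_det hp) ?_
        rw [Subgroup.IsArithmetic.isCusp_iff_isCusp_SL2Z] at hc ⊢
        exact hc }
  map_add' f f' := by
    ext z
    change isl k _ (⇑(f + f')) z = isl k _ f z + isl k _ f' z
    rw [FunLike.coe_add, isl_add]; rfl
  map_smul' c f := by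
    ext z
    change isl k _ (⇑(c • f)) z = c • (isl k _ f z)
    rw [FunLike.coe_smul, isl_smul]
    · rfl
    · rw [Matrix.det_fin_two_of]
      have : (0 : ℤ) < p := by exact_mod_cast Nat.pos_of_ne_zero hp
      simpa using this

@[simp] lemma Vop_coe (N : ℕ) [NeZero N] (k p : ℕ) [NeZero (N * p)] (hp : p ≠ 0) (f : MF N k) :
    ⇑(Vop N k p hp f) = isl k !![(p : ℤ), 0; 0, 1] f := rfl

lemma an_Vop (N : ℕ) [NeZero N] (k p : ℕ) [NeZero (N * p)] (hp : p ≠ 0) (f : MF N k) (n : ℕ) :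
    an (Vop N k p hp f) n = if p ∣ n then (p : ℂ) ^ ((k : ℤ) - 1) * an f (n / p) else 0 := by
  apply an_unique
  intro τ
  rw [Vop_coe, isl_of _ _ (delta_det hp), ← lowerMat_eq p hp (delta_det hp)]
  exact hasSum_lower (k : ℤ) (hasSum_an f) hp τ

/-- depletion at `p ∣ N` -/
noncomputable def depP (N : ℕ) [NeZero N] (k p : ℕ) [NeZero (N * p)] (hp : p.Prime) (hN : p ∣ N) :
    MF N k →ₗ[ℂ] MF (N * p) k :=
  lvl (dvd_mul_right N p) k -
    (p : ℂ) ^ (1 - (k : ℤ)) • ((Vop N k p hp.ne_zero) ∘ₗ (Up N k p hp hN))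

lemma an_sub {N : ℕ} [NeZero N] {k : ℕ} (f g : MF N k) (n : ℕ) : an (f - g) n = an f n - an g n := by
  have := congrArg (PowerSeries.coeff n) (qs_sub f g)
  simpa using this

lemma an_depP (N : ℕ) [NeZero N] (k p : ℕ) [NeZero (N * p)] (hp : p.Prime) (hN : p ∣ N)
    (f : MF N k) (n : ℕ) : an (depP N k p hp hN f) n = if p ∣ n then 0 else an f n := by
  rw [depP, LinearMap.sub_apply, LinearMap.smul_apply, LinearMap.comp_apply, an_sub, an_smul,
    an_lvl, an_Vop]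
  split_ifs with h
  · obtain ⟨m, rfl⟩ := h
    rw [Nat.mul_div_cancel_left _ hp.pos, an_Up, ← mul_assoc,
      ← zpow_add₀ (by exact_mod_cast hp.ne_zero : (p : ℂ) ≠ 0)]
    rw [show 1 - (k : ℤ) + ((k : ℤ) - 1) = 0 by ring, _root_.zpow_zero, one_mul, sub_self]
  · rw [mul_zero, sub_zero]

lemma depP_Dop (N : ℕ) [NeZero N] (k p : ℕ) [NeZero (N * p)] (hp : p.Prime) (hN : p ∣ N)
    {γ : SL(2, ℤ)} (hγ : γ ∈ Gamma0 (N * p)) (hγ' : γ ∈ Gamma0 N) (f : MF N k) :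
    Dop (N * p) k γ hγ (depP N k p hp hN f) = depP N k p hp hN (Dop N k γ hγ' f) := by
  have h1 : Dop (N * p) k γ hγ (lvl (dvd_mul_right N p) k f) =
      lvl (dvd_mul_right N p) k (Dop N k γ hγ' f) := by
    apply DFunLike.coe_injective; rfl
  have h2 : ∀ G : MF N k, Dop (N * p) k γ hγ (Vop N k p hp.ne_zero G) =
      Vop N k p hp.ne_zero (Dop N k γ hγ' G) := by
    intro G
    apply DFunLike.coe_injective
    rw [Dop_coe, Vop_coe, Vop_coe, Dop_coe]
    exact delta_slash hp.ne_zero (inv1_mf G) hγ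
  simp only [depP, LinearMap.sub_apply, LinearMap.smul_apply, LinearMap.comp_apply, map_sub, map_smul]
  rw [h1, h2, Up_Dop]

/-! ### all primes of `N` -/

/-- transport along an equality of levels -/
noncomputable def castL {A B : ℕ} (h : A = B) (k : ℕ) : MF A k →ₗ[ℂ] MF B k := by
  subst h; exact LinearMap.id

lemma castL_coe {A B : ℕ} (h : A = B) (k : ℕ) (f : MF A k) : ⇑(castL h k f) = ⇑f := by
  subst h; rfl

lemma an_castL {A B : ℕ} (h : A = B) (k : ℕ) (f : MF A k) (n : ℕ) : an (castL h k f) n = an f n := by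
  subst h; rfl

lemma exists_depS (N : ℕ) [NeZero N] (k : ℕ) (s : Finset ℕ) :
    ∀ (_ : ∀ p ∈ s, p.Prime ∧ p ∣ N) [NeZero (N * ∏ p ∈ s, p)],
    ∃ Q : MF N k →ₗ[ℂ] MF (N * ∏ p ∈ s, p) k,
      (∀ f n, an (Q f) n = if ∃ p ∈ s, p ∣ n then 0 else an f n) ∧
      (∀ (γ : SL(2, ℤ)) (hγ : γ ∈ Gamma0 (N * ∏ p ∈ s, p)) (hγ' : γ ∈ Gamma0 N) (f : MF N k),
        Dop (N * ∏ p ∈ s, p) k γ hγ (Q f) = Q (Dop N k γ hγ' f)) := by
  classical
  induction s using Finset.induction_on with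
  | empty =>
    intro _ inst2
    refine ⟨lvl (dvd_mul_right _ _) k, ?_, ?_⟩
    · intro f n
      rw [an_lvl, if_neg (by simp)]
    · intro γ hγ hγ' f
      apply DFunLike.coe_injective; rfl
  | insert p s hps ih =>
    intro hs inst2
    have hp : p.Prime := (hs p (Finset.mem_insert_self p s)).1
    have hpN : p ∣ N := (hs p (Finset.mem_insert_self p s)).2
    have hs' : ∀ q ∈ s, q.Prime ∧ q ∣ N := fun q hq => hs q (Finset.mem_insert_of_mem hq)
    have i1 : NeZero (N * ∏ q ∈ s, q) :=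
      ⟨mul_ne_zero (NeZero.ne N) (Finset.prod_ne_zero_iff.mpr fun q hq => (hs' q hq).1.ne_zero)⟩
    obtain ⟨Q, hQ1, hQ2⟩ := ih hs'
    have hlev : (N * ∏ q ∈ s, q) * p = N * ∏ q ∈ insert p s, q := by
      rw [Finset.prod_insert hps]; ring
    have i2 : NeZero ((N * ∏ q ∈ s, q) * p) := ⟨mul_ne_zero i1.1 hp.ne_zero⟩
    have hpd : p ∣ N * ∏ q ∈ s, q := hpN.mul_right _
    refine ⟨castL hlev k ∘ₗ depP (N * ∏ q ∈ s, q) k p hp hpd ∘ₗ Q, ?_, ?_⟩
    · intro f n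
      rw [LinearMap.comp_apply, LinearMap.comp_apply, an_castL, an_depP, hQ1]
      by_cases h1 : p ∣ n
      · rw [if_pos h1, if_pos ⟨p, Finset.mem_insert_self p s, h1⟩]
      · rw [if_neg h1]
        by_cases h2 : ∃ q ∈ s, q ∣ n
        · obtain ⟨q, hq, hqn⟩ := h2
          rw [if_pos ⟨q, hq, hqn⟩, if_pos ⟨q, Finset.mem_insert_of_mem hq, hqn⟩]
        · rw [if_neg h2, if_neg]
          rintro ⟨q, hq, hqn⟩
          rcases Finset.mem_insert.mp hq with rfl | hq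
          · exact h1 hqn
          · exact h2 ⟨q, hq, hqn⟩
    · intro γ hγ hγ' f
      have hγ2 : γ ∈ Gamma0 ((N * ∏ q ∈ s, q) * p) := by rw [hlev]; exact hγ
      have hγ3 : γ ∈ Gamma0 (N * ∏ q ∈ s, q) := Gamma0_mono (dvd_mul_right _ _) hγ2
      apply DFunLike.coe_injective
      have e1 : ∀ G, ⇑((castL hlev k ∘ₗ depP (N * ∏ q ∈ s, q) k p hp hpd ∘ₗ Q) G) =
          ⇑(depP (N * ∏ q ∈ s, q) k p hp hpd (Q G)) := fun G => castL_coe hlev k _
      rw [Dop_coe, e1, e1, ← Dop_coe (N := (N * ∏ q ∈ s, q) * p) (g := γ) (hg := hγ2),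
        depP_Dop _ _ _ _ _ hγ2 hγ3, hQ2 γ hγ3 hγ']

/-- `N · rad N` -/
def Nrad (N : ℕ) : ℕ := N * ∏ p ∈ N.primeFactors, p

instance Nrad.neZero (N : ℕ) [NeZero N] : NeZero (Nrad N) :=
  ⟨mul_ne_zero (NeZero.ne N) (Finset.prod_ne_zero_iff.mpr fun q hq =>
    (Nat.prime_of_mem_primeFactors hq).ne_zero)⟩

lemma dvd_Nrad (N : ℕ) : N ∣ Nrad N := dvd_mul_right _ _

lemma Nrad_odd {N : ℕ} (hN : ¬ 2 ∣ N) : ¬ 2 ∣ Nrad N := by
  intro h
  rw [Nrad, Nat.prime_two.dvd_mul] at h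
  rcases h with h | h
  · exact hN h
  · rw [Prime.dvd_finsetProd_iff Nat.prime_two.prime] at h
    obtain ⟨q, hq, h2⟩ := h
    have hqp := Nat.prime_of_mem_primeFactors hq
    rw [Nat.prime_dvd_prime_iff_eq Nat.prime_two hqp] at h2
    subst h2
    exact hN (Nat.dvd_of_mem_primeFactors hq)

lemma exists_DepN (N : ℕ) [NeZero N] (k : ℕ) :
    ∃ Q : MF N k →ₗ[ℂ] MF (Nrad N) k,
      (∀ f n, an (Q f) n = if n.Coprime N then an f n else 0) ∧
      (∀ (γ : SL(2, ℤ)) (hγ : γ ∈ Gamma0 (Nrad N)) (hγ' : γ ∈ Gamma0 N) (f : MF N k),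
        Dop (Nrad N) k γ hγ (Q f) = Q (Dop N k γ hγ' f)) := by
  have hs : ∀ p ∈ N.primeFactors, p.Prime ∧ p ∣ N := fun p hp =>
    ⟨Nat.prime_of_mem_primeFactors hp, Nat.dvd_of_mem_primeFactors hp⟩
  have i : NeZero (N * ∏ p ∈ N.primeFactors, p) := Nrad.neZero N
  obtain ⟨Q, h1, h2⟩ := exists_depS N k N.primeFactors hs
  refine ⟨Q, fun f n => (h1 f n).trans ?_, h2⟩
  by_cases hc : n.Coprime N
  · rw [if_pos hc, if_neg]
    rintro ⟨p, hp, hpn⟩
    have := Nat.Coprime.eq_one_of_dvd (Nat.Coprime.coprime_dvd_left hpn hc) (hs p hp).2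
    exact (hs p hp).1.one_lt.ne' this
  · rw [if_neg hc, if_pos]
    obtain ⟨p, hp, h3, h4⟩ := Nat.Prime.not_coprime_iff_dvd.mp hc
    exact ⟨p, Nat.mem_primeFactors.mpr ⟨hp, h4, NeZero.ne N⟩, h3⟩

/-- **Depletion at the primes of `N`.** -/
noncomputable def DepN (N : ℕ) [NeZero N] (k : ℕ) : MF N k →ₗ[ℂ] MF (Nrad N) k :=
  (exists_DepN N k).choose

lemma an_DepN (N : ℕ) [NeZero N] (k : ℕ) (f : MF N k) (n : ℕ) :
    an (DepN N k f) n = if n.Coprime N then an f n else 0 := (exists_DepN N k).choose_spec.1 f n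

lemma DepN_Dop (N : ℕ) [NeZero N] (k : ℕ) {γ : SL(2, ℤ)} (hγ : γ ∈ Gamma0 (Nrad N))
    (hγ' : γ ∈ Gamma0 N) (f : MF N k) :
    Dop (Nrad N) k γ hγ (DepN N k f) = DepN N k (Dop N k γ hγ' f) :=
  (exists_DepN N k).choose_spec.2 γ hγ hγ' f

lemma AllS.depN {N : ℕ} [NeZero N] {S : Subring ℂ} {k : ℕ} {f : MF N k} (h : AllS S f) :
    AllS S (DepN N k f) := by
  intro γ hγ
  rw [DepN_Dop N k hγ (Gamma0_mono (dvd_Nrad N) hγ)]
  intro n
  rw [coeff_qs, an_DepN]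
  split_ifs
  · have := h γ (Gamma0_mono (dvd_Nrad N) hγ) n
    rwa [coeff_qs] at this
  · exact S.zero_mem

/-! ### the complete depletion operator -/

/-- **The depletion operator** `M_k(Γ₁(N)) → M_{k+12r}(Γ₁(N rad N))`. -/
noncomputable def Pdep (N : ℕ) [NeZero N] (hN : ¬ 2 ∣ N) (k r : ℕ) (g : SL(2, ℤ))
    (hg : IsDiam N 2 g) : MF N k →ₗ[ℂ] MF (Nrad N) (k + 4 * r + 4 * (2 * r)) :=
  DepN N (k + 4 * r + 4 * (2 * r)) ∘ₗ Dep2 N hN k r g hg

section

variable {N : ℕ} [NeZero N] (hN : ¬ 2 ∣ N) {g : SL(2, ℤ)} (hg : IsDiam N 2 g)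

lemma Pdep_Dop (k r : ℕ) {γ : SL(2, ℤ)} (hγ : γ ∈ Gamma0 (Nrad N)) (hγ' : γ ∈ Gamma0 N)
    (f : MF N k) :
    Dop (Nrad N) _ γ hγ (Pdep N hN k r g hg f) = Pdep N hN k r g hg (Dop N k γ hγ' f) := by
  rw [Pdep, LinearMap.comp_apply, DepN_Dop _ _ hγ hγ', Dep2_Dop, LinearMap.comp_apply]

/-- **DEP**: `a_n(P f) ≡ [gcd(n,2N)=1] a_n(f) mod 2^{m+1} S`. -/
theorem Pdep_congr {k m : ℕ} {S : Subring ℂ} (hk : k ≠ 0) (hm : k + m ≤ 4 * 2 ^ m) {f : MF N k}
    (h : AllS S f) (n : ℕ) :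
    ∃ c ∈ S, an (Pdep N hN k (2 ^ m) g hg f) n =
      (if n.Coprime (2 * N) then an f n else 0) + 2 ^ (m + 1) * c := by
  obtain ⟨e, he, h1⟩ := Dep2_congr hN hg hk hm h
  rw [Pdep, LinearMap.comp_apply, an_DepN]
  have h2 := congrArg (PowerSeries.coeff n) h1
  rw [coeff_qs, map_add, map_smul, odd, PowerSeries.coeff_mk, coeff_qs, smul_eq_mul] at h2
  by_cases hc : n.Coprime N
  · rw [if_pos hc]
    refine ⟨e.coeff n, he n, ?_⟩
    rw [h2]
    congr 1
    by_cases h2n : 2 ∣ n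
    · rw [if_pos h2n, if_neg]
      intro h3
      have := Nat.Coprime.eq_one_of_dvd (Nat.Coprime.coprime_dvd_left h2n h3) (dvd_mul_right 2 N)
      omega
    · rw [if_neg h2n, if_pos]
      have h4 : n.Coprime 2 := ((Nat.Prime.coprime_iff_not_dvd Nat.prime_two).mpr h2n).symm
      exact Nat.Coprime.mul_right h4 hc
  · rw [if_neg hc]
    refine ⟨0, S.zero_mem, ?_⟩
    rw [if_neg]
    · simp
    · intro h3
      exact hc (Nat.Coprime.coprime_dvd_right (dvd_mul_left N 2) h3)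

/-- rationality of `P f` -/
lemma AllS.pdep {S : Subring ℂ} (hS : (2 : ℂ)⁻¹ ∈ S) {k r : ℕ} (hk : k ≠ 0) {f : MF N k}
    (h : AllS S f) : AllS S (Pdep N hN k r g hg f) := by
  rw [Pdep, LinearMap.comp_apply]
  exact (h.dep2 hN hg hS hk).depN

/-- **(I3)** in the form used by EMB: for every `m` and every bound `K` on the weights there are
`w` divisible by `2^(m+1)` and linear operators `P i : M_i(Γ₁(N)) → M_{i+w}(Γ₁(N rad N))`,
`1 ≤ i ≤ K`. -/
theorem exists_dep (N : ℕ) [NeZero N] (hN : ¬ 2 ∣ N) (m K : ℕ) :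
    ∃ w : ℕ, 2 ^ (m + 1) ∣ w ∧ ∃ P : (i : ℕ) → MF N i →ₗ[ℂ] MF (Nrad N) (i + w),
      (∀ (i : ℕ) (γ : SL(2, ℤ)) (hγ : γ ∈ Gamma0 (Nrad N)) (hγ' : γ ∈ Gamma0 N) (f : MF N i),
        Dop (Nrad N) (i + w) γ hγ (P i f) = P i (Dop N i γ hγ' f)) ∧
      (∀ (S : Subring ℂ) (i : ℕ), 1 ≤ i → i ≤ K → ∀ f : MF N i, AllS S f → ∀ n, ∃ c ∈ S,
        an (P i f) n = (if n.Coprime (2 * N) then an f n else 0) + 2 ^ (m + 1) * c) ∧
      (∀ (S : Subring ℂ), (2 : ℂ)⁻¹ ∈ S → ∀ (i : ℕ), 1 ≤ i → ∀ f : MF N i, AllS S f →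
        AllS S (P i f)) := by
  obtain ⟨g, hg⟩ := exists_isDiam (N := N) (d := 2)
    ((Nat.Prime.coprime_iff_not_dvd Nat.prime_two).mpr hN)
  -- choose a large exponent
  have hlin : ∀ j : ℕ, j ≤ 2 ^ j := fun j => (Nat.lt_two_pow_self).le
  let M := m + K
  let r := 2 ^ M
  have hM : ∀ i, i ≤ K → i + M ≤ 4 * 2 ^ M := by
    intro i hi
    have := hlin M
    have h2 : K ≤ M := by omega
    omega
  have hcast : ∀ i : ℕ, i + 4 * r + 4 * (2 * r) = i + 12 * r := fun i => by ring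
  -- transport of weights
  let cw : (i : ℕ) → MF (Nrad N) (i + 4 * r + 4 * (2 * r)) →ₗ[ℂ] MF (Nrad N) (i + 12 * r) :=
    fun i =>
    { toFun := fun f => ModularForm.mcast (by rw [hcast i]) f
      map_add' := fun f f' => by ext z; rfl
      map_smul' := fun c f => by ext z; rfl }
  have hcw : ∀ i (f : MF (Nrad N) (i + 4 * r + 4 * (2 * r))), ⇑(cw i f) = ⇑f := fun i f => rfl
  have hcwan : ∀ i (f : MF (Nrad N) (i + 4 * r + 4 * (2 * r))) n, an (cw i f) n = an f n :=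
    fun i f n => rfl
  have hcwD : ∀ i (γ : SL(2, ℤ)) (hγ : γ ∈ Gamma0 (Nrad N))
      (f : MF (Nrad N) (i + 4 * r + 4 * (2 * r))),
      Dop (Nrad N) (i + 12 * r) γ hγ (cw i f) = cw i (Dop (Nrad N) _ γ hγ f) := by
    intro i γ hγ f
    apply DFunLike.coe_injective
    rw [Dop_coe, hcw, hcw, Dop_coe]
    have e : ((i + 12 * r : ℕ) : ℤ) = ((i + 4 * r + 4 * (2 * r) : ℕ) : ℤ) := by push_cast; ring
    exact congrArg (fun w : ℤ => (⇑f) ∣[w] γ) e
  refine ⟨12 * r, ?_, fun i => cw i ∘ₗ Pdep N hN i r g hg, ?_, ?_, ?_⟩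
  · refine (pow_dvd_pow 2 (show m + 1 ≤ M + 1 by omega)).trans ⟨6, ?_⟩
    rw [pow_succ]; ring
  · intro i γ hγ hγ' f
    rw [LinearMap.comp_apply, hcwD, Pdep_Dop hN hg i r hγ hγ', LinearMap.comp_apply]
  · intro S i h1 hi f hf n
    obtain ⟨c, hc, h2⟩ := Pdep_congr hN hg (m := M) (by omega : i ≠ 0) (hM i hi) hf n
    refine ⟨2 ^ (M - m) * c, S.mul_mem (S.pow_mem (Cg.two_mem S) _) hc, ?_⟩
    rw [LinearMap.comp_apply, hcwan, h2, ← mul_assoc, ← pow_add]
    congr 3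
    omega
  · intro S hS i h1 f hf γ hγ
    have := hf.pdep hN hg hS (r := r) (by omega : i ≠ 0) γ hγ
    rw [LinearMap.comp_apply, hcwD]
    intro n
    have h3 := this n
    rw [coeff_qs] at h3 ⊢
    rwa [hcwan]

end

end Crest.Agent.R007.Op
end

-- ▼ part R007/DepEmb
section

/-! Row 7, node DEP for EMB (helper668): the depletion operator in the form used by `helper7`. -/

set_option autoImplicit false

namespace Crest.Agent.R007.Op

open Matrix UpperHalfPlane ModularForm CongruenceSubgroup Matrix.SpecialLinearGroup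
open scoped MatrixGroups ModularForm Manifold Pointwise
open Crest.NumberTheoryR.HeckeTwoAdic

lemma allS_iff_an {N : ℕ} [NeZero N] {S : Subring ℂ} {k : ℕ} {f : MF N k} :
    AllS S f ↔ ∀ (g : SL(2, ℤ)) (hg : g ∈ Gamma0 N) (n : ℕ), an (Dop N k g hg f) n ∈ S := by
  constructor
  · intro h g hg n
    have := h g hg n
    rwa [coeff_qs] at this
  · intro h g hg n
    rw [coeff_qs]
    exact h g hg n

/-- every element of `Γ₀(N)` is a diamond for some `d` prime to `N`. -/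
lemma exists_diam_of_mem {N : ℕ} [NeZero N] {g : SL(2, ℤ)} (hg : g ∈ Gamma0 N) :
    ∃ d : ℕ, d.Coprime N ∧ IsDiam N d g := by
  have hu : IsUnit ((g.1 1 1 : ℤ) : ZMod N) := by
    have h10 : ((g.1 1 0 : ℤ) : ZMod N) = 0 := Gamma0_mem.mp hg
    have hdet := congrArg (fun z : ℤ => (z : ZMod N)) ((Matrix.det_fin_two g.1).symm.trans g.2)
    push_cast at hdet
    rw [h10, mul_zero, sub_zero] at hdet
    exact IsUnit.of_mul_eq_one _ (by rw [mul_comm]; exact hdet)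
  refine ⟨((g.1 1 1 : ℤ) : ZMod N).val, ?_, hg, ?_⟩
  · obtain ⟨u, hu⟩ := hu
    rw [← hu]
    exact ZMod.val_coe_unit_coprime u
  · rw [ZMod.natCast_val, ZMod.cast_id]

lemma allS_iff_diam {N : ℕ} [NeZero N] {D : ℕ → (i : ℕ) → (MF N i →ₗ[ℂ] MF N i)}
    (hD : IsDiamondFamily N D) {S : Subring ℂ} {k : ℕ} {f : MF N k} :
    AllS S f ↔ ∀ d : ℕ, d.Coprime N → ∀ n : ℕ, an (D d k f) n ∈ S := by
  rw [allS_iff_an]
  constructor
  · intro h d hd n
    obtain ⟨g, hg⟩ := exists_isDiam hd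
    rw [D_eq_Dop hD hg]
    exact h g hg.1 n
  · intro h g hg n
    obtain ⟨d, hd, hdg⟩ := exists_diam_of_mem hg
    have := h d hd n
    rwa [D_eq_Dop hD hdg] at this

lemma AllS.mono {N : ℕ} [NeZero N] {S S' : Subring ℂ} (hS : S ≤ S') {k : ℕ} {f : MF N k}
    (h : AllS S f) : AllS S' f := fun γ hγ n => hS (h γ hγ n)

/-- **(I3)**, form for EMB. `i : Fin k` stands for the weight `i + 1`. -/
theorem exists_dep_fin (N : ℕ) [NeZero N] (hN : ¬ 2 ∣ N) (m k : ℕ) :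
    ∃ w : ℕ, 2 ^ (m + 1) ∣ w ∧
      ∃ P : (i : Fin k) → MF N ((i : ℕ) + 1) →ₗ[ℂ] MF (Nrad N) ((i : ℕ) + 1 + w),
      (∀ (i : Fin k) (g : SL(2, ℤ)) (hg : g ∈ Gamma0 (Nrad N)) (hg' : g ∈ Gamma0 N)
        (f : MF N ((i : ℕ) + 1)),
        Dop (Nrad N) ((i : ℕ) + 1 + w) g hg (P i f) = P i (Dop N ((i : ℕ) + 1) g hg' f)) ∧
      (∀ (i : Fin k) (g : SL(2, ℤ)), g ∈ Gamma0 (Nrad N) → ∀ f f1 : MF N ((i : ℕ) + 1),
        ⇑f1 = ⇑f ∣[(((i : ℕ) + 1 : ℕ) : ℤ)] g →
        ⇑(P i f1) = ⇑(P i f) ∣[(((i : ℕ) + 1 + w : ℕ) : ℤ)] g) ∧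
      (∀ (S : Subring ℂ) (i : Fin k) (f : MF N ((i : ℕ) + 1)), AllS S f → ∀ n, ∃ c ∈ S,
        an (P i f) n = (if n.Coprime (2 * N) then an f n else 0) + 2 ^ (m + 1) * c) ∧
      (∀ (S : Subring ℂ) (i : Fin k) (f : MF N ((i : ℕ) + 1)), AllS S ((2 : ℂ) ^ m • f) →
        ∀ n, ∃ c ∈ S, an (P i f) n = (if n.Coprime (2 * N) then an f n else 0) + 2 * c) ∧
      (∀ (S : Subring ℂ), (2 : ℂ)⁻¹ ∈ S → ∀ (i : Fin k) (f : MF N ((i : ℕ) + 1)), AllS S f →
        AllS S (P i f)) := by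
  obtain ⟨w, hw, P, h1, h2, h3⟩ := exists_dep N hN m k
  refine ⟨w, hw, fun i => P ((i : ℕ) + 1), ?_, ?_, ?_, ?_, ?_⟩
  · intro i g hg hg' f
    exact h1 _ g hg hg' f
  · intro i g hg f f1 hf
    have hg' : g ∈ Gamma0 N := Gamma0_mono (dvd_Nrad N) hg
    have e : f1 = Dop N ((i : ℕ) + 1) g hg' f := by
      apply DFunLike.coe_injective
      rw [Dop_coe]; exact hf
    rw [e, ← h1 _ g hg hg' f, Dop_coe]
  · intro S i f hf n
    exact h2 S _ (by omega) (by omega) f hf n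
  · intro S i f hf n
    obtain ⟨c, hc, h⟩ := h2 S _ (by omega) (by omega) _ hf n
    refine ⟨c, hc, ?_⟩
    rw [map_smul, an_smul, an_smul] at h
    have h2m : ((2 : ℂ) ^ m) ≠ 0 := pow_ne_zero _ two_ne_zero
    apply mul_left_cancel₀ h2m
    rw [h]
    split_ifs <;> ring
  · intro S hS i f hf
    exact h3 S hS _ (by omega) f hf

end Crest.Agent.R007.Op
end

-- ▼ part R007/KumC
section

/-! Row 7: basic calculus of coefficients of mixed weight forms (all odd levels). -/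

set_option autoImplicit false

namespace Crest.Agent.R007.KumC

open UpperHalfPlane ModularForm CongruenceSubgroup Matrix
open scoped MatrixGroups Manifold ModularForm
open Crest.Agent.R007.Lat Crest.Agent.R007.KumM

/-! ### integral matrices -/

lemma exists_hermite (A : Matrix (Fin 2) (Fin 2) ℤ) (hA : 0 < A.det) :
    ∃ (γ : SL(2, ℤ)) (a b d : ℕ), A = γ.1 * ut a b d ∧ (a : ℤ) * d = A.det ∧ 0 < a ∧ 0 < d := by
  obtain ⟨p, q, r, s, rfl⟩ : ∃ p q r s : ℤ, A = !![p, q; r, s] := ⟨_, _, _, _, Matrix.eta_fin_two A⟩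
  rw [Matrix.det_fin_two_of] at hA
  have hg0 : Int.gcd p r ≠ 0 := by
    intro h
    rw [Int.gcd_eq_zero_iff] at h
    rw [h.1, h.2] at hA
    simp at hA
  obtain ⟨p', hp'⟩ : (Int.gcd p r : ℤ) ∣ p := Int.gcd_dvd_left ..
  obtain ⟨r', hr'⟩ : (Int.gcd p r : ℤ) ∣ r := Int.gcd_dvd_right ..
  obtain ⟨x, y, hbez⟩ : ∃ x y : ℤ, (Int.gcd p r : ℤ) = p * x + r * y := ⟨_, _, Int.gcd_eq_gcd_ab p r⟩
  generalize Int.gcd p r = g at *
  have hgz : (g : ℤ) ≠ 0 := by exact_mod_cast hg0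
  have hgpos : (0 : ℤ) < g := by exact_mod_cast Nat.pos_of_ne_zero hg0
  subst hp' hr'
  have hb1 : x * p' + y * r' = 1 := by
    have : (g : ℤ) * (x * p' + y * r') = g * 1 := by
      rw [mul_one]
      conv_rhs => rw [hbez]
      ring
    exact mul_left_cancel₀ hgz this
  have hd : (g * p') * s - q * (g * r') = g * (p' * s - r' * q) := by ring
  have hdpos : 0 < p' * s - r' * q := by
    rw [hd] at hA
    exact (mul_pos_iff_of_pos_left hgpos).1 hA
  set D := p' * s - r' * q with hD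
  set b0 := x * q + y * s with hb0
  set t := -(b0 / D) with ht
  have hb : b0 + t * D = b0 % D := by rw [ht, Int.emod_def]; ring
  have hbpos : 0 ≤ b0 + t * D := by rw [hb]; exact Int.emod_nonneg _ hdpos.ne'
  refine ⟨⟨!![p', -(y + t * p'); r', x - t * r'], ?_⟩, g, (b0 + t * D).toNat, D.toNat, ?_, ?_, ?_, ?_⟩
  · rw [Matrix.det_fin_two_of]
    linear_combination hb1
  · rw [Int.toNat_of_nonneg hbpos, Int.toNat_of_nonneg hdpos.le]
    simp only [ut, Matrix.mul_fin_two]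
    ext i j
    fin_cases i <;> fin_cases j
    · simp; ring
    · simp
      rw [hb0, hD]
      linear_combination (-q) * hb1
    · simp; ring
    · simp
      rw [hb0, hD]
      linear_combination (-s) * hb1
  · rw [Int.toNat_of_nonneg hdpos.le, Matrix.det_fin_two_of]
    rw [hd]
  · exact_mod_cast hgpos
  · have : (0 : ℤ) < (D.toNat : ℤ) := by rw [Int.toNat_of_nonneg hdpos.le]; exact hdpos
    exact_mod_cast this

lemma iG_sc_comm (n : ℤ) (h : 0 < (sc n).det) (g : GL(2, ℝ)⁺) : iG (sc n) h * g = g * iG (sc n) h := by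
  apply Subtype.ext
  apply Units.ext
  rw [Subgroup.coe_mul, Units.val_mul, Subgroup.coe_mul, Units.val_mul, iG_val, sc_map]
  simp

/-- every element of `G2` is `[n]⁻¹ γ (a b; 0 d)` -/
lemma G2_decomp {δ : GL(2, ℝ)⁺} (hδ : δ ∈ G2) : ∃ (n a b d : ℕ) (γ : SL(2, ℤ)) (hn : 0 < (sc n).det)
    (hu : 0 < (ut a b d).det), Odd n ∧ Odd a ∧ Odd d ∧ iG (sc n) hn * δ = sG γ * iG (ut a b d) hu := by
  obtain ⟨n, A, hn, hA, h, h', e, _⟩ := G2_exists hδ
  obtain ⟨γ, a, b, d, hAe, hdet, ha, hd⟩ := exists_hermite A h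
  have hu : 0 < (ut a b d).det := by rw [ut_det]; exact_mod_cast Nat.mul_pos ha hd
  have hodd : Odd ((a : ℤ) * d) := by rw [hdet]; exact hA
  rw [Int.odd_mul] at hodd
  refine ⟨n, a, b, d, γ, h', hu, hn, by exact_mod_cast hodd.1, by exact_mod_cast hodd.2, ?_⟩
  rw [e, sG, ← iG_mul _ _ _ _ (by rw [← hAe]; exact h)]
  exact iG_congr hAe _

/-! ### the algebra `MP` and coefficients -/

/-- functions all whose translates have expansions -/
def MP : Subalgebra ℂ (X → ℂ) where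
  carrier := {F | ∀ δ ∈ G2, res (sl F δ) ∈ PO}
  mul_mem' := by
    intro F G hF hG δ hδ
    rw [sl_mul, res_mul]
    exact mul_mem (hF δ hδ) (hG δ hδ)
  add_mem' := by
    intro F G hF hG δ hδ
    rw [sl_add, res_add]
    exact add_mem (hF δ hδ) (hG δ hδ)
  algebraMap_mem' := by
    intro c δ _
    exact PO.algebraMap_mem c


lemma MO_le_MP {k : ℕ} {F : X → ℂ} (hF : F ∈ MO k) : F ∈ MP := fun _ hδ => res_mem_PO (MO_sl hF hδ)

lemma MP_sl {F : X → ℂ} (hF : F ∈ MP) {ε : GL(2, ℝ)⁺} (hε : ε ∈ G2) : sl F ε ∈ MP := by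
  intro δ hδ
  rw [← sl_mul_right]
  exact hF _ (mul_mem hε hδ)

/-- coefficient of `q^ν` in the expansion of `F ∥ δ` -/
noncomputable def cf (δ : GL(2, ℝ)⁺) (ν : ℚ) (F : X → ℂ) : ℂ := (qf (res (sl F δ))).coeff ν

variable {F G : X → ℂ} {δ : GL(2, ℝ)⁺} {ν : ℚ}

lemma cf_add (hF : F ∈ MP) (hG : G ∈ MP) (hδ : δ ∈ G2) : cf δ ν (F + G) = cf δ ν F + cf δ ν G := by
  rw [cf, sl_add, res_add, qf_add (hF δ hδ) (hG δ hδ), HahnSeries.coeff_add]; rfl

lemma cf_sub (hF : F ∈ MP) (hG : G ∈ MP) (hδ : δ ∈ G2) : cf δ ν (F - G) = cf δ ν F - cf δ ν G := by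
  rw [cf, sl_sub, res_sub, qf_sub (hF δ hδ) (hG δ hδ), HahnSeries.coeff_sub]; rfl

lemma cf_smul (c : ℂ) (hF : F ∈ MP) (hδ : δ ∈ G2) : cf δ ν (c • F) = c * cf δ ν F := by
  rw [cf, sl_smul, res_smul, qf_smul c (hF δ hδ), HahnSeries.coeff_smul]; rfl

lemma cf_zero : cf δ ν 0 = 0 := by
  have h : res (sl (0 : X → ℂ) δ) = 0 := rfl
  rw [cf, h, qf_zero, HahnSeries.coeff_zero]

lemma cf_sum {s : Finset ℕ} {F : ℕ → X → ℂ} (hF : ∀ i ∈ s, F i ∈ MP) (hδ : δ ∈ G2) :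
    cf δ ν (∑ i ∈ s, F i) = ∑ i ∈ s, cf δ ν (F i) := by
  induction s using Finset.induction_on with
  | empty => simp [cf_zero]
  | insert a s ha ih =>
    rw [Finset.sum_insert ha, Finset.sum_insert ha, cf_add (hF _ (Finset.mem_insert_self _ _)) _ hδ, ih]
    · intro i hi; exact hF i (Finset.mem_insert_of_mem hi)
    · exact sum_mem fun i hi => hF i (Finset.mem_insert_of_mem hi)

lemma cf_sl (ε : GL(2, ℝ)⁺) : cf δ ν (sl F ε) = cf (ε * δ) ν F := by
  rw [cf, cf, sl_mul_right]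

lemma cf_of_den_even (hF : F ∈ MP) (hδ : δ ∈ G2) (hν : ¬ Odd ν.den) : cf δ ν F = 0 := by
  obtain ⟨M, hM, hf⟩ := hF δ hδ
  apply qf_coeff_of_notMem hM hf
  rintro n rfl
  apply hν
  have h1 := Rat.den_dvd (n : ℤ) (M : ℤ)
  rw [Rat.divInt_eq_div] at h1
  have h3 : (((n : ℤ) : ℚ) / ((M : ℤ) : ℚ)) = (n : ℚ) / (M : ℚ) := by push_cast; rfl
  rw [h3] at h1
  have h2 : ((n : ℚ) / (M : ℚ)).den ∣ M := Int.natCast_dvd_natCast.1 h1
  exact Odd.of_dvd_nat hM h2

/-! ### integrality -/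

/-- all coefficients of all translates lie in `I` -/
def IntAt (I : AddSubgroup ℂ) (F : X → ℂ) : Prop := ∀ δ ∈ G2, ∀ ν : ℚ, cf δ ν F ∈ I

variable {I J : AddSubgroup ℂ}

lemma IntAt.sl (h : IntAt I F) {ε : GL(2, ℝ)⁺} (hε : ε ∈ G2) : IntAt I (sl F ε) := by
  intro δ hδ ν
  rw [cf_sl]
  exact h _ (mul_mem hε hδ) ν

lemma IntAt.add (h : IntAt I F) (h' : IntAt I G) (hF : F ∈ MP) (hG : G ∈ MP) : IntAt I (F + G) := by
  intro δ hδ ν
  rw [cf_add hF hG hδ]
  exact I.add_mem (h δ hδ ν) (h' δ hδ ν)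

lemma IntAt.sub (h : IntAt I F) (h' : IntAt I G) (hF : F ∈ MP) (hG : G ∈ MP) : IntAt I (F - G) := by
  intro δ hδ ν
  rw [cf_sub hF hG hδ]
  exact I.sub_mem (h δ hδ ν) (h' δ hδ ν)

lemma IntAt.smul {c : ℂ} (hc : ∀ x ∈ I, c * x ∈ J) (h : IntAt I F) (hF : F ∈ MP) : IntAt J (c • F) := by
  intro δ hδ ν
  rw [cf_smul c hF hδ]
  exact hc _ (h δ hδ ν)

lemma IntAt.mono (hIJ : I ≤ J) (h : IntAt I F) : IntAt J F := fun δ hδ ν => hIJ (h δ hδ ν)

lemma IntAt.sum {s : Finset ℕ} {F : ℕ → X → ℂ} (h : ∀ i ∈ s, IntAt I (F i)) (hF : ∀ i ∈ s, F i ∈ MP) :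
    IntAt I (∑ i ∈ s, F i) := by
  intro δ hδ ν
  rw [cf_sum hF hδ]
  exact sum_mem fun i hi => h i hi δ hδ ν

lemma IntAt.mul {K : AddSubgroup ℂ} (hIJ : ∀ x ∈ I, ∀ y ∈ J, x * y ∈ K) (h : IntAt I F) (h' : IntAt J G)
    (hF : F ∈ MP) (hG : G ∈ MP) : IntAt K (F * G) := by
  intro δ hδ ν
  rw [cf, sl_mul, res_mul, qf_mul (hF δ hδ) (hG δ hδ), HahnSeries.coeff_mul]
  exact sum_mem fun ij _ => hIJ _ (h δ hδ _) _ (h' δ hδ _)

lemma intAt_one (O : Subring ℂ) : IntAt O.toAddSubgroup 1 := by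
  intro δ _ ν
  have h : res (Lat.sl (1 : X → ℂ) δ) = 1 := rfl
  rw [cf, h, qf_one, HahnSeries.coeff_one]
  split_ifs
  · exact O.one_mem
  · exact O.zero_mem

/-! ### scalars -/

lemma sl_sc {k : ℕ} (hF : F ∈ Wt k) (n : ℕ) (h : 0 < (sc n).det) :
    sl F (iG (sc n) h) = ((n : ℂ)⁻¹) ^ k • F := by
  have := sl_scalar hF n h
  simpa using this

lemma sl_sc_inv {k : ℕ} (hF : F ∈ Wt k) (n : ℕ) (h : 0 < (sc n).det) :
    sl F (iG (sc n) h)⁻¹ = (n : ℂ) ^ k • F := by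
  have hn : (n : ℂ) ≠ 0 := by
    rintro h0
    have : n = 0 := by exact_mod_cast h0
    subst this
    simp [sc_det] at h
  have h1 : sl (sl F (iG (sc n) h)) (iG (sc n) h)⁻¹ = F := by
    rw [← sl_mul_right, mul_inv_cancel, sl_one_right]
  rw [sl_sc hF n h, sl_smul] at h1
  conv_rhs => rw [← h1]
  rw [smul_smul, inv_pow, mul_inv_cancel₀ (pow_ne_zero _ hn), one_smul]

lemma sc_mem_G2 {n : ℕ} (hn : Odd n) (h : 0 < (sc n).det) : iG (sc n) h ∈ G2 :=
  iG_mem_G2 _ _ (by rw [sc_det]; exact (by exact_mod_cast hn.mul hn))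

lemma sc_pos {n : ℕ} (hn : Odd n) : 0 < (sc n).det := sc_det_pos (by exact_mod_cast hn.pos.ne')

/-! ### upper triangular matrices -/

lemma MM_le_MP {F : X → ℂ} (hF : F ∈ MM) : F ∈ MP := by
  refine Submodule.iSup_induction (p := fun k => MO k) (motive := fun F => F ∈ MP) (mem_MM.1 hF)
    (fun k x hx => MO_le_MP hx) (zero_mem _) (fun x y hx hy => add_mem hx hy)

lemma cf_ut {F : X → ℂ} (hF : F ∈ MM) {a b d : ℕ} (ha : Odd a) (hd : Odd d)
    (h : 0 < (ut a b d).det) (hd' : 0 < (sc d).det) (s : ℚ) :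
    cf (iG (ut a b d) h) (s * a / d) F = ee (s * b / d) * cf (iG (sc d) hd') s F := by
  have hu : iG (ut a b d) h ∈ G2 := iG_mem_G2 _ _ (by rw [ut_det]; exact_mod_cast ha.mul hd)
  have hs : iG (sc d) hd' ∈ G2 := sc_mem_G2 hd hd'
  revert F
  intro F hF
  have key : F ∈ MP ∧ cf (iG (ut a b d) h) (s * a / d) F = ee (s * b / d) * cf (iG (sc d) hd') s F := by
    refine Submodule.iSup_induction (p := fun k => MO k) (motive := fun F => F ∈ MP ∧
      cf (iG (ut a b d) h) (s * a / d) F = ee (s * b / d) * cf (iG (sc d) hd') s F) (mem_MM.1 hF) ?_ ?_ ?_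
    · intro k x hx
      refine ⟨MO_le_MP hx, ?_⟩
      have h1 : res (sl x (iG (ut a b d) h)) =
          (((d : ℂ)⁻¹) ^ k) • (fun τ => res x (iG (ut a b d) h • τ)) := by
        funext τ
        rw [res_sl_ut (MO_le_Wt hx)]
        simp
      have h2 : (fun τ => res x (iG (ut a b d) h • τ)) ∈ PO := by
        obtain ⟨M, hM, hf⟩ := res_mem_PO hx
        have : NeZero M := ⟨hM.pos.ne'⟩
        exact ⟨M * d, hM.mul hd, PB_comp_ut hf hd.pos h⟩
      rw [cf, cf, h1, qf_smul _ h2, HahnSeries.coeff_smul, qf_comp_ut (res_mem_PO hx) ha hd h s,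
        sl_sc (MO_le_Wt hx), res_smul, qf_smul _ (res_mem_PO hx), HahnSeries.coeff_smul, smul_eq_mul,
        smul_eq_mul]
      ring
    · exact ⟨zero_mem _, by rw [cf_zero, cf_zero, mul_zero]⟩
    · rintro x y ⟨hx, ex⟩ ⟨hy, ey⟩
      refine ⟨add_mem hx hy, ?_⟩
      rw [cf_add hx hy hu, cf_add hx hy hs, ex, ey]
      ring
  exact key.2

/-- reduction of integrality to `SL₂(ℤ)` and rational scalars -/
lemma intAt_of {O : Subring ℂ} (hroot : ∀ x : ℚ, Odd x.den → ee x ∈ O) (hI : ∀ x ∈ O, ∀ y ∈ I, x * y ∈ I)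
    {F : X → ℂ} (hF : F ∈ MM)
    (h : ∀ (n d : ℕ) (_ : Odd n) (_ : Odd d) (hn : 0 < (sc n).det) (hd : 0 < (sc d).det)
      (γ : SL(2, ℤ)) (s : ℚ), cf (sG γ) s (sl (sl F (iG (sc n) hn)⁻¹) (iG (sc d) hd)) ∈ I) : IntAt I F := by
  intro δ hδ ν
  obtain ⟨n, a, b, d, γ, hn, hu, hno, ha, hd, e⟩ := G2_decomp hδ
  have hd' := sc_pos hd
  have hnG := sc_mem_G2 hno hn
  have hdG := sc_mem_G2 hd hd'
  have e2 : δ = (iG (sc n) hn)⁻¹ * (sG γ * iG (ut a b d) hu) := by rw [← e]; group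
  have ha0 : (a : ℚ) ≠ 0 := by exact_mod_cast ha.pos.ne'
  have hd0 : (d : ℚ) ≠ 0 := by exact_mod_cast hd.pos.ne'
  set s : ℚ := ν * d / a with hs
  have hν : ν = s * a / d := by rw [hs]; field_simp
  have hH : sl (sl F (iG (sc n) hn)⁻¹) (sG γ) ∈ MM := MM_sl (MM_sl hF (inv_mem hnG)) (sG_mem_G2 γ)
  have h1 : cf δ ν F = ee (s * b / d) * cf (iG (sc d) hd') s (sl (sl F (iG (sc n) hn)⁻¹) (sG γ)) := by
    rw [e2, ← cf_sl, ← cf_sl, hν]
    exact cf_ut hH ha hd hu hd' s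
  have h2 : cf (iG (sc d) hd') s (sl (sl F (iG (sc n) hn)⁻¹) (sG γ)) =
      cf (sG γ) s (sl (sl F (iG (sc n) hn)⁻¹) (iG (sc d) hd')) := by
    rw [cf_sl (sG γ), cf_sl (iG (sc d) hd'), iG_sc_comm]
  by_cases hso : Odd s.den
  · rw [h1]
    apply hI
    · apply hroot
      have h3 : (s * b / d : ℚ) = s * ((b : ℤ) / (d : ℤ) : ℚ) := by push_cast; ring
      rw [h3]
      have h4 := Rat.den_dvd (b : ℤ) (d : ℤ)
      rw [Rat.divInt_eq_div] at h4
      have h5 : ((b : ℤ) / (d : ℤ) : ℚ).den ∣ d := by exact_mod_cast h4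
      have h6 := Rat.mul_den_dvd s ((b : ℤ) / (d : ℤ) : ℚ)
      exact Odd.of_dvd_nat (hso.mul (Odd.of_dvd_nat hd h5)) h6
    · rw [h2]
      exact h n d hno hd hn hd' γ s
  · rw [h1, cf_of_den_even (MM_le_MP hH) hdG hso, mul_zero]
    exact zero_mem I


end Crest.Agent.R007.KumC
end

-- ▼ part R007/Mix3
section

/-! Row 7, section C: translation between 704's `IntAt` and `VV`, `Two`, `Cg`. -/

set_option autoImplicit false

namespace Crest.Agent.R007.Mix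

open UpperHalfPlane ModularForm CongruenceSubgroup Matrix
open Crest.Agent.R007.Lat Crest.Agent.R007.KumC Crest.Agent.R007.KumM
open scoped MatrixGroups Manifold ModularForm

variable {O : Subring ℂ}

lemma intAt_iff_VV {F : X → ℂ} (hF : F ∈ MM) : IntAt O.toAddSubgroup F ↔ F ∈ VV O := by
  constructor
  · intro h
    exact ⟨hF, fun g hg => ⟨MM_res_sl hF hg, fun r => h g hg r⟩⟩
  · intro h g hg r
    exact (h.2 g hg).2 r

lemma intAt_iff_Lk {k : ℕ} {F : X → ℂ} (hF : F ∈ MO k) : IntAt O.toAddSubgroup F ↔ F ∈ Lk O k := by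
  constructor
  · intro h
    exact ⟨hF, fun g hg => ⟨MM_res_sl (MO_le_MM hF) hg, fun r => h g hg r⟩⟩
  · intro h g hg r
    exact (h.2 g hg).2 r

lemma two_iff_twoO {f : ℍ → ℂ} : Two O f ↔ ∀ r : ℚ, (qf f).coeff r ∈ twoO O := by
  simp only [Two, mem_twoO]

lemma intAt_two_iff {F : X → ℂ} (hF : F ∈ MM) : IntAt (twoO O) F ↔ ∃ G ∈ VV O, F = 2 * G := by
  constructor
  · intro h
    exact VV_half hF fun g hg => two_iff_twoO.2 fun r => h g hg r
  · rintro ⟨G, hG, rfl⟩ g hg r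
    exact two_iff_twoO.1 (two_res_sl_of_VV hG hg) r


end Crest.Agent.R007.Mix
end

-- ▼ part R007/KumK
section

/-! Row 7, section C: theorem (K): `[c]`-invariant elements of `V/2` are pure weight forms mod `2V`. -/

set_option autoImplicit false

namespace Crest.Agent.R007.KumK

open UpperHalfPlane ModularForm CongruenceSubgroup Matrix
open scoped MatrixGroups Manifold ModularForm
open Crest.Agent.R007.Lat Crest.Agent.R007.KumM Crest.Agent.R007.KumC

/-! ### Eisenstein series -/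

lemma bernoulli_ne_zero_of_even {k : ℕ} (hk : 3 ≤ k) (h2 : Even k) : _root_.bernoulli k ≠ 0 := by
  obtain ⟨m, rfl⟩ := h2
  have hm : m ≠ 0 := by omega
  have h1 := riemannZeta_two_mul_nat hm
  intro h0
  have e : 2 * m = m + m := by ring
  rw [e, h0] at h1
  have h3 : riemannZeta (2 * (m : ℂ)) = 0 := by
    rw [h1]; simp
  have h4 : riemannZeta (2 * (m : ℂ)) ≠ 0 := by
    apply riemannZeta_ne_zero_of_one_lt_re
    have : (2 * (m : ℂ)).re = 2 * (m : ℝ) := by simp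
    rw [this]
    have : (1 : ℝ) ≤ m := by exact_mod_cast Nat.one_le_iff_ne_zero.2 hm
    linarith
  exact h4 h3

/-- the constant term -/
noncomputable def ec (j : ℕ) : ℂ := (1 - 3 ^ j) * (-((_root_.bernoulli j : ℚ) : ℂ) / (2 * j))

/-- `(1-3^j)(-B_j/2j) E_j` -/
noncomputable def EE (j : ℕ) : X → ℂ := if hj : 3 ≤ j then lift j (ec j • ⇑(ModularForm.E hj)) else 0

lemma EE_mem (j : ℕ) : EE j ∈ MX 1 j := by
  unfold EE
  split_ifs with hj
  · rw [mem_MX_iff]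
    have hinv : ∀ γ : SL(2, ℤ), ⇑(ModularForm.E hj) ∣[(j : ℤ)] γ = ⇑(ModularForm.E hj) := fun γ =>
      SlashInvariantForm.slash_action_eqn (Γ := 𝒮ℒ) (k := (j : ℤ)) (ModularForm.E hj)
        (Matrix.SpecialLinearGroup.mapGL ℝ γ) ⟨γ, rfl⟩
    have hs : ∀ γ : SL(2, ℤ), sl (lift j (ec j • ⇑(ModularForm.E hj))) (sG γ) =
        lift j (ec j • ⇑(ModularForm.E hj)) := by
      intro γ
      rw [lift_smul, sl_smul, sl_lift_SL, hinv]
    refine ⟨lift_mem _ _, fun γ _ => hs γ, ?_, fun γ => ?_⟩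
    · rw [res_lift]
      exact (ModularFormClass.holo (ModularForm.E hj)).const_smul _
    · rw [hs, res_lift]
      have hc : IsCusp OnePoint.infty 𝒮ℒ := isCusp_SL2Z_iff'.2 ⟨1, by simp⟩
      exact bddAtInfty_smul (OnePoint.isBoundedAt_infty_iff.1
        (ModularFormClass.bdd_at_cusps (ModularForm.E hj) hc)) _
  · exact zero_mem _

lemma EE_sl (j : ℕ) (γ : SL(2, ℤ)) : sl (EE j) (sG γ) = EE j := by
  have h := EE_mem j
  rw [mem_MX_iff] at h
  apply h.2.1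
  rw [Gamma_mem]
  exact ⟨Subsingleton.elim _ _, Subsingleton.elim _ _, Subsingleton.elim _ _, Subsingleton.elim _ _⟩

lemma EE_coeff {j : ℕ} (hj : 3 ≤ j) (h2 : Even j) (m : ℕ) :
    (qExpansion 1 (res (EE j))).coeff m =
      if m = 0 then ec j else (1 - 3 ^ j) * ∑ d ∈ m.divisors, (d : ℂ) ^ (j - 1) := by
  have hE : res (EE j) = ec j • ⇑(ModularForm.E hj) := by
    rw [EE, dif_pos hj, res_lift]
  have hPB : (⇑(ModularForm.E hj) : ℍ → ℂ) ∈ PB 1 := by
    have h1 : res (lift j (⇑(ModularForm.E hj))) ∈ PB ((1 : ℕ) : ℝ) := by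
      apply res_mem_PB (k := j)
      have h3 := EE_mem j
      rw [EE, dif_pos hj, lift_smul] at h3
      have h4 : ec j ≠ 0 := by
        unfold ec
        have hb := bernoulli_ne_zero_of_even hj h2
        have h5 : (j : ℂ) ≠ 0 := by exact_mod_cast (by omega : j ≠ 0)
        have h6 : (1 - 3 ^ j : ℂ) ≠ 0 := by
          rw [sub_ne_zero]
          intro h
          have h7 : (3 : ℕ) ^ j = 1 := by exact_mod_cast h.symm
          have h8 : j < 3 ^ j := Nat.lt_pow_self (by norm_num)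
          omega
        apply mul_ne_zero h6
        apply div_ne_zero
        · rw [neg_ne_zero]; exact_mod_cast hb
        · exact mul_ne_zero two_ne_zero h5
      have h9 := Submodule.smul_mem _ (ec j)⁻¹ h3
      rwa [smul_smul, inv_mul_cancel₀ h4, one_smul] at h9
    simpa using h1
  rw [hE, qExpansion_smul (PB_analytic one_pos hPB), map_smul,
    EisensteinSeries.E_qExpansion_coeff hj h2 m]
  split_ifs with hm
  · simp
  · have hb : ((_root_.bernoulli j : ℚ) : ℂ) ≠ 0 := by exact_mod_cast bernoulli_ne_zero_of_even hj h2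
    have h5 : (j : ℂ) ≠ 0 := by exact_mod_cast (by omega : j ≠ 0)
    rw [smul_eq_mul, ec, ArithmeticFunction.sigma_apply]
    push_cast
    field_simp

/-! ### families -/

/-- the hypotheses of Lemma M for a family with exponents `e i` -/
structure ID (O : Subring ℂ) (s : Finset ℕ) (e : ℕ → ℕ) (x : ℕ → ℂ) (r : ℕ) : Prop where
  even : ∀ i ∈ s, Even (e i)
  large : ∀ i ∈ s, r + 4 ≤ e i
  den : ∀ i ∈ s, 2 ^ r * x i ∈ O
  int : ∀ c : ℕ, Odd c → ∑ i ∈ s, x i * (c : ℂ) ^ e i ∈ O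
  cong : ∀ c : ℕ, Odd c → ∑ i ∈ s, x i * (c : ℂ) ^ e i - ∑ i ∈ s, x i ∈ twoO O

lemma regroup (s : Finset ℕ) (e : ℕ → ℕ) (x q : ℕ → ℂ) :
    ∑ j ∈ s.image e, (∑ i ∈ s.filter (fun i => e i = j), x i) * q j = ∑ i ∈ s, x i * q (e i) := by
  rw [← Finset.sum_fiberwise_of_maps_to (s := s) (t := s.image e) (g := e)
    (fun i hi => Finset.mem_image_of_mem e hi)]
  apply Finset.sum_congr rfl
  intro j _
  rw [Finset.sum_mul]
  apply Finset.sum_congr rfl
  intro i hi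
  rw [(Finset.mem_filter.1 hi).2]

variable {O : Subring ℂ} {s : Finset ℕ} {e : ℕ → ℕ} {x : ℕ → ℂ} {r : ℕ}

lemma ID.toM (h : ID O s e x r) :
    MData O (s.image e) (fun j => ∑ i ∈ s.filter (fun i => e i = j), x i) r where
  even := by
    intro j hj
    obtain ⟨i, hi, rfl⟩ := Finset.mem_image.1 hj
    exact h.even i hi
  large := by
    intro j hj
    obtain ⟨i, hi, rfl⟩ := Finset.mem_image.1 hj
    have := h.large i hi
    omega
  den := by
    intro j _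
    rw [Finset.mul_sum]
    exact sum_mem fun i hi => h.den i (Finset.mem_filter.1 hi).1
  int := by
    intro c hc
    rw [regroup s e x (fun j => (c : ℂ) ^ j)]
    exact h.int c hc
  cong := by
    intro c hc
    have h1 := regroup s e x (fun _ => 1)
    simp only [mul_one] at h1
    rw [regroup s e x (fun j => (c : ℂ) ^ j), h1]
    exact h.cong c hc

variable (hodd : ∀ n : ℕ, Odd n → ((n : ℂ))⁻¹ ∈ O)

include hodd in
lemma id_pos (h : ID O s e x r) (n : ℕ) :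
    ∑ i ∈ s, x i * ((1 - 3 ^ e i) * ∑ d ∈ n.divisors, (d : ℂ) ^ (e i - 1)) ∈ twoO O := by
  have := lemmaM_pos hodd h.toM n
  rwa [regroup s e x (fun j => (1 - 3 ^ j) * ∑ d ∈ n.divisors, (d : ℂ) ^ (j - 1))] at this

include hodd in
lemma id_zero (h : ID O s e x r) : ∑ i ∈ s, x i * ec (e i) - ∑ i ∈ s, x i ∈ twoO O := by
  have := lemmaM_zero hodd h.toM
  have h1 := regroup s e x (fun _ => 1)
  simp only [mul_one] at h1
  rw [regroup s e x (fun j => (1 - 3 ^ j) * (-((_root_.bernoulli j : ℚ) : ℂ) / (2 * j))), h1] at this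
  exact this

lemma exists_level {f : ℕ → ℍ → ℂ} (h : ∀ i ∈ s, f i ∈ PO) : ∃ M : ℕ, Odd M ∧ ∀ i ∈ s, f i ∈ PB M := by
  induction s using Finset.induction_on with
  | empty => exact ⟨1, odd_one, by simp⟩
  | insert a s _ ih =>
    obtain ⟨M, hM, h1⟩ := ih (fun i hi => h i (Finset.mem_insert_of_mem hi))
    obtain ⟨M', hM', h2⟩ := h a (Finset.mem_insert_self _ _)
    have : NeZero M := ⟨hM.pos.ne'⟩
    have : NeZero M' := ⟨hM'.pos.ne'⟩
    refine ⟨M * M', hM.mul hM', fun i hi => ?_⟩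
    rcases Finset.mem_insert.1 hi with rfl | hi
    · exact PB_mono (Dvd.intro_left _ rfl) h2
    · exact PB_mono (Dvd.intro _ rfl) (h1 i hi)

lemma EE_PB (j : ℕ) : res (EE j) ∈ PB ((1 : ℕ) : ℝ) := res_mem_PB (EE_mem j)

lemma EE_PO (j : ℕ) : res (EE j) ∈ PO := ⟨1, odd_one, EE_PB j⟩

/-- coefficients in `q^{1/M}` -/
lemma EE_coeff' {M : ℕ} [NeZero M] (hM : Odd M) (j m : ℕ) :
    (qExpansion (M : ℝ) (res (EE j))).coeff m =
      if M ∣ m then (qExpansion 1 (res (EE j))).coeff (m / M) else 0 := by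
  have hPBM : res (EE j) ∈ PB (M : ℝ) := PB_mono (M := 1) (M' := M) (one_dvd M) (EE_PB j)
  have h1 := qf_eq' M hM hPBM
  have h2 := qf_eq' 1 odd_one (EE_PB j)
  rw [Nat.cast_one] at h2
  rw [← emb_coeff M, ← h1, h2]
  have hM0 : (M : ℚ) ≠ 0 := by exact_mod_cast NeZero.ne M
  split_ifs with h
  · obtain ⟨t, rfl⟩ := h
    rw [Nat.mul_div_cancel_left _ (Nat.pos_of_ne_zero (NeZero.ne M)), ← emb_coeff 1]
    congr 1
    push_cast
    field_simp
  · apply emb_coeff_of_notMem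
    intro t ht
    apply h
    push_cast at ht
    field_simp at ht
    have h : t * M = m := by exact_mod_cast ht
    exact ⟨t, by rw [← h, mul_comm]⟩

include hodd in
/-- the main congruence, at the level of expansions -/
lemma prod_coeff {f : ℕ → ℍ → ℂ} (hf : ∀ i ∈ s, f i ∈ PO)
    (h : ∀ ν : ℚ, ID O s e (fun i => (qf (f i)).coeff ν) r) (ν : ℚ) :
    (qf (∑ i ∈ s, f i * res (EE (e i)))).coeff ν - ∑ i ∈ s, (qf (f i)).coeff ν ∈ twoO O := by
  obtain ⟨M, hM, hfM⟩ := exists_level hf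
  have : NeZero M := ⟨hM.pos.ne'⟩
  set P : ℕ → PowerSeries ℂ := fun i => qExpansion (M : ℝ) (f i) with hP
  set Q : ℕ → PowerSeries ℂ := fun j => qExpansion (M : ℝ) (res (EE j)) with hQ
  have hPBM : ∀ j, res (EE j) ∈ PB (M : ℝ) := fun j => PB_mono (M := 1) (M' := M) (one_dvd M) (EE_PB j)
  have hsum : qf (∑ i ∈ s, f i * res (EE (e i))) = emb M ℂ (∑ i ∈ s, P i * Q (e i)) := by
    have h1 := map_sum qx (fun i : ℕ => if hi : i ∈ s then
      (⟨f i * res (EE (e i)), mul_mem (hf i hi) (EE_PO _)⟩ : PO) else 0) s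
    have h2 : ((∑ i ∈ s, (if hi : i ∈ s then
      (⟨f i * res (EE (e i)), mul_mem (hf i hi) (EE_PO _)⟩ : PO) else 0) : PO) : ℍ → ℂ) =
        ∑ i ∈ s, f i * res (EE (e i)) := by
      rw [AddSubmonoidClass.coe_finsetSum]
      apply Finset.sum_congr rfl
      intro i hi
      rw [dif_pos hi]
    rw [qx_apply, h2] at h1
    rw [h1, map_sum]
    apply Finset.sum_congr rfl
    intro i hi
    rw [dif_pos hi, qx_apply, qf_mul (hf i hi) (EE_PO _), map_mul, qf_eq' M hM (hfM i hi),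
      qf_eq' M hM (hPBM _)]
  by_cases hν : ∃ n : ℕ, (n : ℚ) / M = ν
  · obtain ⟨n, rfl⟩ := hν
    rw [hsum, emb_coeff, map_sum]
    have hc : ∀ (a : ℕ), ID O s e (fun i => (P i).coeff a) r := by
      intro a
      have h3 := h ((a : ℚ) / M)
      have h4 : ∀ i ∈ s, (qf (f i)).coeff ((a : ℚ) / M) = (P i).coeff a := by
        intro i hi
        rw [qf_eq' M hM (hfM i hi), emb_coeff]
      constructor
      · exact h3.even
      · exact h3.large
      · intro i hi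
        have := h3.den i hi
        rwa [h4 i hi] at this
      · intro c hc
        have := h3.int c hc
        rwa [Finset.sum_congr rfl fun i hi => by rw [h4 i hi]] at this
      · intro c hc
        have := h3.cong c hc
        rwa [Finset.sum_congr rfl fun i hi => by rw [h4 i hi], Finset.sum_congr rfl h4] at this
    have h4 : ∀ i ∈ s, (qf (f i)).coeff ((n : ℚ) / M) = (P i).coeff n := by
      intro i hi
      rw [qf_eq' M hM (hfM i hi), emb_coeff]
    rw [Finset.sum_congr rfl h4]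
    simp only [PowerSeries.coeff_mul]
    rw [Finset.sum_comm]
    have hmem : ((n, 0) : ℕ × ℕ) ∈ Finset.HasAntidiagonal.antidiagonal n := by simp
    rw [← Finset.add_sum_erase _ _ hmem]
    have hlarge : ∀ i ∈ s, 3 ≤ e i := fun i hi => by have := (hc 0).large i hi; omega
    have h0 : ∀ i ∈ s, (Q (e i)).coeff 0 = ec (e i) := by
      intro i hi
      rw [hQ]
      simp only
      rw [EE_coeff' hM, if_pos (dvd_zero M), Nat.zero_div, EE_coeff (hlarge i hi) ((hc 0).even i hi),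
        if_pos rfl]
    rw [add_sub_right_comm]
    apply (twoO O).add_mem
    · have h5 := id_zero hodd (hc n)
      have h55 : ∑ i ∈ s, (P i).coeff n * (Q (e i)).coeff 0 = ∑ i ∈ s, (P i).coeff n * ec (e i) :=
        Finset.sum_congr rfl fun i hi => by rw [h0 i hi]
      rw [← h55] at h5
      exact h5
    · apply sum_mem
      rintro ⟨a, b⟩ hab
      rw [Finset.mem_erase, Finset.HasAntidiagonal.mem_antidiagonal] at hab
      have hb : b ≠ 0 := by
        rintro rfl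
        apply hab.1
        have := hab.2
        simp only [add_zero] at this
        rw [this]
      simp only
      by_cases hMb : M ∣ b
      · obtain ⟨t, rfl⟩ := hMb
        have ht : t ≠ 0 := by rintro rfl; simp at hb
        have h6 : ∀ i ∈ s, (Q (e i)).coeff (M * t) =
            (1 - 3 ^ e i) * ∑ d ∈ t.divisors, (d : ℂ) ^ (e i - 1) := by
          intro i hi
          rw [hQ]
          simp only
          rw [EE_coeff' hM, if_pos (Dvd.intro _ rfl), Nat.mul_div_cancel_left _ (Nat.pos_of_ne_zero (NeZero.ne M)),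
            EE_coeff (hlarge i hi) ((hc 0).even i hi), if_neg ht]
        rw [Finset.sum_congr rfl fun i hi => by rw [h6 i hi]]
        exact id_pos hodd (hc a) t
      · have h6 : ∀ i ∈ s, (Q (e i)).coeff b = 0 := by
          intro i _
          rw [hQ]
          simp only
          rw [EE_coeff' hM, if_neg hMb]
        rw [Finset.sum_congr rfl fun i hi => by rw [h6 i hi, mul_zero]]
        simp
  · push Not at hν
    rw [hsum, emb_coeff_of_notMem _ _ hν]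
    have h4 : ∀ i ∈ s, (qf (f i)).coeff ν = 0 := by
      intro i hi
      rw [qf_eq' M hM (hfM i hi), emb_coeff_of_notMem _ _ hν]
    rw [Finset.sum_congr rfl h4]
    simp

/-! ### (K) for even weights -/

include hodd in
lemma unit_cong {n d N : ℕ} (hn : Odd n) (hd : Odd d) :
    (n : ℂ) ^ N * ((d : ℂ)⁻¹) ^ N - 1 ∈ twoO O := by
  have hd0 : (d : ℂ) ≠ 0 := by exact_mod_cast hd.pos.ne'
  have h1 : Even ((n : ℤ) ^ N - (d : ℤ) ^ N) := by
    have ho1 : Odd ((n : ℤ) ^ N) := Odd.pow (by exact_mod_cast hn)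
    have ho2 : Odd ((d : ℤ) ^ N) := Odd.pow (by exact_mod_cast hd)
    exact ho1.sub_odd ho2
  obtain ⟨t, ht⟩ := h1
  have h2 : (n : ℂ) ^ N - (d : ℂ) ^ N = 2 * t := by
    have : (((n : ℤ) ^ N - (d : ℤ) ^ N : ℤ) : ℂ) = ((t + t : ℤ) : ℂ) := by rw [ht]
    push_cast at this
    rw [this]; ring
  have h3 : (n : ℂ) ^ N * ((d : ℂ)⁻¹) ^ N - 1 = ((d : ℂ)⁻¹) ^ N * (2 * t) := by
    rw [← h2, mul_sub, ← mul_pow ((d : ℂ)⁻¹) (d : ℂ), inv_mul_cancel₀ hd0, one_pow]
    ring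
  rw [h3]
  exact mul_mem_twoO (O.pow_mem (hodd d hd) N) (mem_twoO.2 ⟨t, intCast_mem O t, rfl⟩)

lemma sum_sl_sc {wt : ℕ → ℕ} {F : ℕ → X → ℂ} (hF : ∀ i, F i ∈ MO (wt i)) (s : Finset ℕ) (n : ℕ)
    (h : 0 < (sc n).det) :
    sl (∑ i ∈ s, F i) (iG (sc n) h) = ∑ i ∈ s, ((n : ℂ)⁻¹) ^ wt i • F i := by
  rw [sl_sum]
  exact Finset.sum_congr rfl fun i _ => sl_sc (MO_le_Wt (hF i)) n h

lemma sum_sl_sc_inv {wt : ℕ → ℕ} {F : ℕ → X → ℂ} (hF : ∀ i, F i ∈ MO (wt i)) (s : Finset ℕ) (n : ℕ)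
    (h : 0 < (sc n).det) :
    sl (∑ i ∈ s, F i) (iG (sc n) h)⁻¹ = ∑ i ∈ s, (n : ℂ) ^ wt i • F i := by
  rw [sl_sum]
  exact Finset.sum_congr rfl fun i _ => sl_sc_inv (MO_le_Wt (hF i)) n h

include hodd in
theorem kum_even (hroot : ∀ x : ℚ, Odd x.den → ee x ∈ O) {wt : ℕ → ℕ}
    {F : ℕ → X → ℂ} (hF : ∀ i, F i ∈ MO (wt i)) (hev : ∀ i ∈ s, Even (wt i))
    (hr : ∀ i ∈ s, IntAt O.toAddSubgroup ((2 : ℂ) ^ r • F i))
    (hint : IntAt O.toAddSubgroup (∑ i ∈ s, F i))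
    (hinv : ∀ c : ℕ, Odd c → IntAt (twoO O) (∑ i ∈ s, (c : ℂ) ^ wt i • F i - ∑ i ∈ s, F i))
    {N : ℕ} (hN : Even N) (hN2 : ∀ i ∈ s, wt i + r + 4 ≤ N) :
    (∑ i ∈ s, F i * EE (N - wt i)) ∈ MO N ∧
      IntAt (twoO O) (∑ i ∈ s, F i * EE (N - wt i) - ∑ i ∈ s, F i) := by
  have hFP : ∀ i, F i ∈ MP := fun i => MO_le_MP (hF i)
  set h := ∑ i ∈ s, F i with hh
  set h' := ∑ i ∈ s, F i * EE (N - wt i) with hh'
  have hhM : h ∈ MM := sum_mem fun i _ => MO_le_MM (hF i)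
  have hhP : h ∈ MP := MM_le_MP hhM
  have hEO : ∀ j, EE j ∈ MO j := fun j => ⟨1, odd_one, EE_mem j⟩
  have h'O : h' ∈ MO N := by
    apply sum_mem
    intro i hi
    have h1 := MO_mul (hF i) (hEO (N - wt i))
    have h2 : wt i + (N - wt i) = N := by have := hN2 i hi; omega
    rwa [h2] at h1
  have h'P : h' ∈ MP := MO_le_MP h'O
  -- the action of scalars on `h`
  have inv1 : ∀ (c : ℕ) (_ : Odd c) (hp : 0 < (sc c).det), IntAt (twoO O) (sl h (iG (sc c) hp)⁻¹ - h) := by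
    intro c hc hp
    rw [hh, sum_sl_sc_inv hF]
    exact hinv c hc
  have inv2 : ∀ (c : ℕ) (_ : Odd c) (hp : 0 < (sc c).det), IntAt (twoO O) (sl h (iG (sc c) hp) - h) := by
    intro c hc hp
    have h1 := (inv1 c hc hp).sl (sc_mem_G2 hc hp)
    rw [sl_sub, ← sl_mul_right, inv_mul_cancel, sl_one_right] at h1
    intro δ hδ ν
    have h2 := h1 δ hδ ν
    rw [cf_sub hhP (MP_sl hhP (sc_mem_G2 hc hp)) hδ] at h2
    rw [cf_sub (MP_sl hhP (sc_mem_G2 hc hp)) hhP hδ]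
    have := (twoO O).neg_mem h2
    rwa [neg_sub] at this
  -- the hypotheses of Lemma M
  have hID : ∀ δ ∈ G2, ∀ ν : ℚ, ID O s (fun i => N - wt i) (fun i => cf δ ν (F i)) r := by
    intro δ hδ ν
    have hsum : ∑ i ∈ s, cf δ ν (F i) = cf δ ν h := (cf_sum (fun i _ => hFP i) hδ).symm
    have hc : ∀ (c : ℕ) (_ : Odd c) (hp : 0 < (sc c).det), ∑ i ∈ s, cf δ ν (F i) * (c : ℂ) ^ (N - wt i) =
        (c : ℂ) ^ N * cf δ ν (sl h (iG (sc c) hp)) := by
      intro c hc hp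
      have hc0 : (c : ℂ) ≠ 0 := by exact_mod_cast hc.pos.ne'
      rw [hh, sum_sl_sc hF, cf_sum (fun i _ => Subalgebra.smul_mem _ (hFP i) _) hδ, Finset.mul_sum]
      apply Finset.sum_congr rfl
      intro i hi
      rw [cf_smul _ (hFP i) hδ]
      have h2 : N = (N - wt i) + wt i := by have := hN2 i hi; omega
      have h3 : (c : ℂ) ^ N = (c : ℂ) ^ (N - wt i) * (c : ℂ) ^ wt i := by rw [← pow_add, ← h2]
      rw [h3, inv_pow]
      have := pow_ne_zero (wt i) hc0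
      field_simp
    constructor
    · intro i hi
      exact (Nat.even_sub (by have := hN2 i hi; omega)).2 (iff_of_true hN (hev i hi))
    · intro i hi
      have := hN2 i hi
      omega
    · intro i hi
      have h1 := hr i hi δ hδ ν
      rwa [cf_smul _ (hFP i) hδ] at h1
    · intro c hco
      rw [hc c hco (sc_pos hco)]
      apply O.mul_mem (O.pow_mem (natCast_mem O c) N)
      exact hint.sl (sc_mem_G2 hco (sc_pos hco)) δ hδ ν
    · intro c hco
      have hp := sc_pos hco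
      rw [hc c hco hp, hsum]
      have h1 := inv2 c hco hp δ hδ ν
      rw [cf_sub (MP_sl hhP (sc_mem_G2 hco hp)) hhP hδ] at h1
      have h2 : (c : ℂ) ^ N - 1 ∈ twoO O := by
        have := unit_cong hodd (O := O) (N := N) hco odd_one
        simpa using this
      have h3 : (c : ℂ) ^ N * cf δ ν (sl h (iG (sc c) hp)) - cf δ ν h =
          (c : ℂ) ^ N * (cf δ ν (sl h (iG (sc c) hp)) - cf δ ν h) + cf δ ν h * ((c : ℂ) ^ N - 1) := by ring
      rw [h3]
      exact (twoO O).add_mem (mul_mem_twoO (O.pow_mem (natCast_mem O c) N) h1) (mul_mem_twoO (hint δ hδ ν) h2)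
  -- `SL₂(ℤ)`
  have hSL : ∀ (γ : SL(2, ℤ)) (ν : ℚ), cf (sG γ) ν h' - cf (sG γ) ν h ∈ twoO O := by
    intro γ ν
    have hγ := sG_mem_G2 γ
    have h1 := prod_coeff hodd (s := s) (e := fun i => N - wt i) (f := fun i => res (sl (F i) (sG γ))) (r := r)
      (fun i _ => hFP i _ hγ) (fun ν => hID _ hγ ν) ν
    have h2 : res (sl h' (sG γ)) = ∑ i ∈ s, res (sl (F i) (sG γ)) * res (EE (N - wt i)) := by
      rw [hh', sl_sum, res_sum]
      apply Finset.sum_congr rfl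
      intro i _
      rw [sl_mul, EE_sl, res_mul]
    have h3 : cf (sG γ) ν h = ∑ i ∈ s, (qf (res (sl (F i) (sG γ)))).coeff ν := by
      rw [hh, cf_sum (fun i _ => hFP i) hγ]; rfl
    rw [h3, cf, h2]
    exact h1
  refine ⟨h'O, ?_⟩
  apply intAt_of hroot (fun x hx y hy => mul_mem_twoO hx hy) (sub_mem (MO_le_MM h'O) hhM)
  intro n d hn hd hpn hpd γ ν
  have hγ := sG_mem_G2 γ
  have hnG := inv_mem (sc_mem_G2 hn hpn)
  have hdG := sc_mem_G2 hd hpd
  set u : ℂ := (n : ℂ) ^ N * ((d : ℂ)⁻¹) ^ N with hu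
  have e1 : sl (sl h' (iG (sc n) hpn)⁻¹) (iG (sc d) hpd) = u • h' := by
    rw [sl_sc_inv (MO_le_Wt h'O), sl_smul, sl_sc (MO_le_Wt h'O), smul_smul]
  set h2 := sl (sl h (iG (sc n) hpn)⁻¹) (iG (sc d) hpd) with hh2
  have h2P : h2 ∈ MP := MP_sl (MP_sl hhP hnG) hdG
  have e2 : IntAt (twoO O) (h2 - h) := by
    have a1 := (inv1 n hn hpn).sl hdG
    have a2 := inv2 d hd hpd
    rw [sl_sub] at a1
    have a3 := a1.add a2 (sub_mem h2P (MP_sl hhP hdG)) (sub_mem (MP_sl hhP hdG) hhP)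
    rwa [sub_add_sub_cancel] at a3
  have e3 := e2 _ hγ ν
  rw [cf_sub h2P hhP hγ] at e3
  rw [sl_sub, sl_sub, e1, cf_sub (Subalgebra.smul_mem _ h'P _) h2P hγ, cf_smul _ h'P hγ]
  have e4 : u * cf (sG γ) ν h' - cf (sG γ) ν h2 = u * (cf (sG γ) ν h' - cf (sG γ) ν h) +
      cf (sG γ) ν h * (u - 1) - (cf (sG γ) ν h2 - cf (sG γ) ν h) := by ring
  rw [e4]
  apply (twoO O).sub_mem _ e3
  apply (twoO O).add_mem
  · apply mul_mem_twoO _ (hSL γ ν)
    exact O.mul_mem (O.pow_mem (natCast_mem O n) N) (O.pow_mem (hodd d hd) N)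
  · exact mul_mem_twoO (hint _ hγ ν) (unit_cong hodd hn hd)

/-! ### components are integral up to a power of two -/

lemma nat_split {D : ℤ} (hD : D ≠ 0) : ∃ (r m : ℕ), Odd m ∧ (D = 2 ^ r * m ∨ D = -(2 ^ r * m)) := by
  have h0 : D.natAbs ≠ 0 := Int.natAbs_ne_zero.2 hD
  obtain ⟨r, m, hm, e⟩ := Nat.exists_eq_two_pow_mul_odd h0
  refine ⟨r, m, hm, ?_⟩
  rcases Int.natAbs_eq D with h | h
  · left; rw [h, e]; push_cast; rfl
  · right; rw [h, e]; push_cast; rfl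

include hodd in
/-- Vandermonde -/
lemma vander (n : ℕ) : ∃ r : ℕ, ∀ x : ℕ → ℂ, (∀ c : ℕ, Odd c → ∑ k ∈ Finset.range n, (c : ℂ) ^ k * x k ∈ O) →
    ∀ k < n, 2 ^ r * x k ∈ O := by
  set V : Matrix (Fin n) (Fin n) ℤ := Matrix.vandermonde (fun i : Fin n => (2 * (i : ℕ) + 1 : ℤ)) with hV
  have hdet : V.det ≠ 0 := by
    rw [hV, Matrix.det_vandermonde_ne_zero_iff]
    intro a b hab
    have : (a : ℕ) = (b : ℕ) := by
      have h2 : (2 * ((a : ℕ) : ℤ) + 1) = 2 * ((b : ℕ) : ℤ) + 1 := hab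
      omega
    exact Fin.ext this
  obtain ⟨r, m, hm, hD⟩ := nat_split hdet
  refine ⟨r, fun x hx k hk => ?_⟩
  set VC : Matrix (Fin n) (Fin n) ℂ := V.map (Int.castRingHom ℂ) with hVC
  set y : Fin n → ℂ := VC *ᵥ (fun i => x i) with hy
  have hyO : ∀ i, y i ∈ O := by
    intro i
    have h1 := hx (2 * i + 1) ⟨i, by ring⟩
    have h2 : y i = ∑ k ∈ Finset.range n, ((2 * (i : ℕ) + 1 : ℕ) : ℂ) ^ k * x k := by
      rw [hy, Matrix.mulVec, dotProduct, ← Fin.sum_univ_eq_sum_range (fun k => ((2 * (i : ℕ) + 1 : ℕ) : ℂ) ^ k * x k)]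
      apply Finset.sum_congr rfl
      intro j _
      simp [hVC, hV, Matrix.vandermonde_apply]
    rw [h2]; exact h1
  have hadj : VC.adjugate *ᵥ y = VC.det • (fun i : Fin n => x i) := by
    rw [hy, Matrix.mulVec_mulVec, Matrix.adjugate_mul, Matrix.smul_mulVec, Matrix.one_mulVec]
  have hdetC : VC.det = ((V.det : ℤ) : ℂ) := by
    have := RingHom.map_det (Int.castRingHom ℂ) V
    rw [hVC]
    simpa using this.symm
  have h1 : VC.det * x k ∈ O := by
    have h2 := congrFun hadj ⟨k, hk⟩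
    rw [Pi.smul_apply, smul_eq_mul] at h2
    simp only at h2
    rw [← h2, Matrix.mulVec, dotProduct]
    apply sum_mem
    intro j _
    apply O.mul_mem _ (hyO j)
    have h3 : VC.adjugate = V.adjugate.map (Int.castRingHom ℂ) := by
      have := RingHom.map_adjugate (Int.castRingHom ℂ) V
      rw [RingHom.mapMatrix_apply, RingHom.mapMatrix_apply] at this
      exact this.symm
    rw [h3, Matrix.map_apply]
    exact intCast_mem O _
  have hm0 : (m : ℂ) ≠ 0 := by exact_mod_cast hm.pos.ne'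
  have h4 : 2 ^ r * x k = (m : ℂ)⁻¹ * (VC.det * x k) ∨ 2 ^ r * x k = -((m : ℂ)⁻¹ * (VC.det * x k)) := by
    rcases hD with h | h
    · left
      rw [hdetC, h]; push_cast; field_simp
    · right
      rw [hdetC, h]; push_cast; field_simp
  rcases h4 with h | h
  · rw [h]; exact O.mul_mem (hodd m hm) h1
  · rw [h]; exact O.neg_mem (O.mul_mem (hodd m hm) h1)

lemma dvd_mem {r : ℕ} {z : ℤ} {x : ℂ} (hz : (2 : ℤ) ^ (r + 1) ∣ z) (hx : 2 ^ r * x ∈ O) :
    (z : ℂ) * x ∈ twoO O := by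
  obtain ⟨t, rfl⟩ := hz
  refine mem_twoO.2 ⟨t * (2 ^ r * x), O.mul_mem (intCast_mem O t) hx, ?_⟩
  push_cast; ring

include hodd in
/-- **(K)**: elements of `V` which are `[c]`-invariant mod `2V` are pure mod `2V`. -/
theorem kum (hroot : ∀ x : ℚ, Odd x.den → ee x ∈ O) {A : X → ℂ} {w : ℕ} (hw : Odd w) (hA : A ∈ MO w)
    (hA1 : IntAt (twoO O) (A - 1)) {n : ℕ} {F : ℕ → X → ℂ} (hF : ∀ k, F k ∈ MO k)
    (hint : IntAt O.toAddSubgroup (∑ k ∈ Finset.range n, F k))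
    (hinv : ∀ R c : ℕ, Odd c → ∃ c' : ℕ, Odd c' ∧ c' ≡ c [MOD 2 ^ R] ∧
      IntAt (twoO O) (∑ k ∈ Finset.range n, (c' : ℂ) ^ k • F k - ∑ k ∈ Finset.range n, F k)) :
    ∃ N, ∃ h' ∈ MO N, (∀ M : ℕ, NeZero M → (∀ k, F k ∈ MX M k) → A ∈ MX M w → h' ∈ MX M N) ∧
      IntAt O.toAddSubgroup h' ∧ IntAt (twoO O) (∑ k ∈ Finset.range n, F k - h') := by
  have hFP : ∀ i, F i ∈ MP := fun i => MO_le_MP (hF i)
  set h := ∑ k ∈ Finset.range n, F k with hh
  have hhM : h ∈ MM := sum_mem fun i _ => MO_le_MM (hF i)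
  have hhP : h ∈ MP := MM_le_MP hhM
  have hcP : ∀ c : ℂ, ∑ k ∈ Finset.range n, c ^ k • F k ∈ MP := fun c =>
    sum_mem fun i _ => Subalgebra.smul_mem _ (hFP i) _
  have hcf : ∀ (c : ℂ) (δ : GL(2, ℝ)⁺) (_ : δ ∈ G2) (ν : ℚ), cf δ ν (∑ k ∈ Finset.range n, c ^ k • F k) =
      ∑ k ∈ Finset.range n, c ^ k * cf δ ν (F k) := by
    intro c δ hδ ν
    rw [cf_sum (fun i _ => Subalgebra.smul_mem _ (hFP i) _) hδ]
    exact Finset.sum_congr rfl fun i _ => cf_smul _ (hFP i) hδ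
  have hcfh : ∀ (δ : GL(2, ℝ)⁺) (_ : δ ∈ G2) (ν : ℚ), cf δ ν h = ∑ k ∈ Finset.range n, cf δ ν (F k) :=
    fun δ hδ ν => cf_sum (fun i _ => hFP i) hδ
  -- denominators
  obtain ⟨r, hr⟩ := vander (O := O) hodd n
  have hr' : ∀ δ ∈ G2, ∀ ν : ℚ, ∀ k < n, 2 ^ r * cf δ ν (F k) ∈ O := by
    intro δ hδ ν k hk
    apply hr _ _ k hk
    intro c hc
    have hp := sc_pos hc
    have h1 := hint.sl (inv_mem (sc_mem_G2 hc hp)) δ hδ ν
    rw [hh, sum_sl_sc_inv hF, hcf _ δ hδ] at h1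
    exact h1
  -- invariance under all odd `c`
  have hinv' : ∀ c : ℕ, Odd c → IntAt (twoO O) (∑ k ∈ Finset.range n, (c : ℂ) ^ k • F k - h) := by
    intro c hc δ hδ ν
    obtain ⟨c', hc', hcc, h1⟩ := hinv (r + 1) c hc
    have h2 := h1 δ hδ ν
    rw [cf_sub (hcP _) hhP hδ, hcf _ δ hδ, hcfh δ hδ] at h2 ⊢
    have h3 : ∑ k ∈ Finset.range n, (c : ℂ) ^ k * cf δ ν (F k) - ∑ k ∈ Finset.range n, (c' : ℂ) ^ k * cf δ ν (F k)
        ∈ twoO O := by
      rw [← Finset.sum_sub_distrib]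
      apply sum_mem
      intro k hk
      have hd : (2 : ℤ) ^ (r + 1) ∣ (c : ℤ) ^ k - (c' : ℤ) ^ k := by
        have h4 : (c' : ℤ) ≡ c [ZMOD ((2 ^ (r + 1) : ℕ) : ℤ)] := (Int.natCast_modEq_iff).2 hcc
        have h5 : (2 : ℤ) ^ (r + 1) ∣ (c : ℤ) - c' := by
          have := h4.dvd
          push_cast at this
          exact this
        exact h5.trans (sub_dvd_pow_sub_pow _ _ k)
      have h6 := dvd_mem hd (hr' δ hδ ν k (Finset.mem_range.1 hk))
      push_cast at h6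
      rwa [← sub_mul]
    have h4 := (twoO O).add_mem h3 h2
    rwa [sub_add_sub_cancel] at h4
  -- the odd part is integral
  set ho := ∑ k ∈ (Finset.range n).filter (fun k => ¬ Even k), F k with hho
  have hoM : ho ∈ MM := sum_mem fun i _ => MO_le_MM (hF i)
  have hoP : ho ∈ MP := MM_le_MP hoM
  have hoI : IntAt O.toAddSubgroup ho := by
    intro δ hδ ν
    set c : ℕ := 2 ^ (r + 1) - 1 with hc
    have hc1 : 1 ≤ 2 ^ (r + 1) := Nat.one_le_two_pow
    have hco : Odd c := by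
      refine ⟨2 ^ r - 1, ?_⟩
      have : 1 ≤ 2 ^ r := Nat.one_le_two_pow
      rw [hc, pow_succ]; omega
    have hcz : (c : ℤ) = 2 ^ (r + 1) - 1 := by
      rw [hc]; push_cast [Nat.cast_sub hc1]; ring
    have h1 := hinv' c hco δ hδ ν
    rw [cf_sub (hcP _) hhP hδ, hcf _ δ hδ, hcfh δ hδ, ← Finset.sum_sub_distrib] at h1
    have h2 : ∑ k ∈ Finset.range n, ((c : ℂ) ^ k * cf δ ν (F k) - (-1) ^ k * cf δ ν (F k)) ∈ twoO O := by
      apply sum_mem
      intro k hk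
      have hd : (2 : ℤ) ^ (r + 1) ∣ (c : ℤ) ^ k - (-1 : ℤ) ^ k := by
        have h5 : (2 : ℤ) ^ (r + 1) ∣ (c : ℤ) - (-1) := ⟨1, by rw [hcz]; ring⟩
        exact h5.trans (sub_dvd_pow_sub_pow _ _ k)
      have h6 := dvd_mem hd (hr' δ hδ ν k (Finset.mem_range.1 hk))
      push_cast at h6
      rwa [← sub_mul]
    have h3 := (twoO O).sub_mem h1 h2
    rw [← Finset.sum_sub_distrib] at h3
    have h4 : ∀ k ∈ Finset.range n, ((c : ℂ) ^ k * cf δ ν (F k) - cf δ ν (F k) -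
        ((c : ℂ) ^ k * cf δ ν (F k) - (-1) ^ k * cf δ ν (F k))) =
        if ¬ Even k then (-2) * cf δ ν (F k) else 0 := by
      intro k _
      by_cases hk : Even k
      · rw [hk.neg_one_pow, if_neg (not_not.2 hk)]; ring
      · rw [(Nat.not_even_iff_odd.1 hk).neg_one_pow, if_pos hk]; ring
    rw [Finset.sum_congr rfl h4, ← Finset.sum_filter, ← Finset.mul_sum] at h3
    obtain ⟨y, hy, e⟩ := mem_twoO.1 h3
    rw [hho, cf_sum (fun i _ => hFP i) hδ]
    have : ∑ k ∈ (Finset.range n).filter (fun k => ¬ Even k), cf δ ν (F k) = -y := by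
      linear_combination (-1 / 2) * e
    rw [this]
    exact O.neg_mem hy
  -- `A`
  have hAP : A ∈ MP := MO_le_MP hA
  have hAI : IntAt O.toAddSubgroup A := by
    have h1 : IntAt O.toAddSubgroup (A - 1) := hA1.mono (fun x hx => twoO_le hx)
    have h2 := h1.add (intAt_one O) (sub_mem hAP (one_mem _)) (one_mem _)
    rwa [sub_add_cancel] at h2
  -- the new family
  set G : ℕ → X → ℂ := fun k => if Even k then F k else A * F k with hG
  set wt : ℕ → ℕ := fun k => if Even k then k else w + k with hwt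
  have hGO : ∀ k, G k ∈ MO (wt k) := by
    intro k
    by_cases hk : Even k
    · simp only [hG, hwt, hk, if_true]; exact hF k
    · simp only [hG, hwt, hk, if_false]; exact MO_mul hA (hF k)
  have hwe : ∀ k, Even (wt k) := by
    intro k
    by_cases hk : Even k
    · simp only [hwt, hk, if_true]
    · simp only [hwt, hk, if_false]; exact hw.add_odd (Nat.not_even_iff_odd.1 hk)
  set g := ∑ k ∈ Finset.range n, G k with hg
  have hgM : g ∈ MM := sum_mem fun i _ => MO_le_MM (hGO i)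
  have hgP : g ∈ MP := MM_le_MP hgM
  have hgh : g - h = (A - 1) * ho := by
    rw [hg, hh, hho, ← Finset.sum_sub_distrib, Finset.mul_sum, Finset.sum_filter]
    apply Finset.sum_congr rfl
    intro k _
    by_cases hk : Even k
    · simp [hG, hk]
    · simp only [hG, hk, if_false, not_false_eq_true, if_true]; ring
  have hgh2 : IntAt (twoO O) (g - h) := by
    rw [hgh]
    exact hA1.mul (fun x hx y hy => by rw [mul_comm]; exact mul_mem_twoO hy hx) hoI
      (sub_mem hAP (one_mem _)) hoP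
  have hgI : IntAt O.toAddSubgroup g := by
    have h1 : IntAt O.toAddSubgroup (g - h) := hgh2.mono (fun x hx => twoO_le hx)
    have h2 := h1.add hint (sub_mem hgP hhP) hhP
    rwa [sub_add_cancel] at h2
  have hGr : ∀ i ∈ Finset.range n, IntAt O.toAddSubgroup ((2 : ℂ) ^ r • G i) := by
    intro i hi
    have h1 : IntAt O.toAddSubgroup ((2 : ℂ) ^ r • F i) := by
      intro δ hδ ν
      rw [cf_smul _ (hFP i) hδ]
      exact hr' δ hδ ν i (Finset.mem_range.1 hi)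
    by_cases hk : Even i
    · simp only [hG, hk, if_true]; exact h1
    · have e1 : (2 : ℂ) ^ r • G i = A * ((2 : ℂ) ^ r • F i) := by
        simp only [hG, hk, if_false]
        rw [mul_smul_comm]
      rw [e1]
      exact hAI.mul (fun x hx y hy => O.mul_mem hx hy) h1 hAP (Subalgebra.smul_mem _ (hFP i) _)
  have hGinv : ∀ c : ℕ, Odd c → IntAt (twoO O) (∑ i ∈ Finset.range n, (c : ℂ) ^ wt i • G i -
      ∑ i ∈ Finset.range n, G i) := by
    intro c hc
    have hp := sc_pos hc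
    have hcG := inv_mem (sc_mem_G2 hc hp)
    rw [← sum_sl_sc_inv hGO (Finset.range n) c hp, ← hg]
    have a1 := hgh2.sl hcG
    rw [sl_sub] at a1
    have a2 := hinv' c hc
    rw [← sum_sl_sc_inv hF (Finset.range n) c hp, ← hh] at a2
    have a3 := a1.add a2 (sub_mem (MP_sl hgP hcG) (MP_sl hhP hcG)) (sub_mem (MP_sl hhP hcG) hhP)
    rw [sub_add_sub_cancel] at a3
    have a4 := a3.sub hgh2 (sub_mem (MP_sl hgP hcG) hhP) (sub_mem hgP hhP)
    rwa [sub_sub_sub_cancel_right] at a4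
  set N : ℕ := 2 * (n + w + r + 4) with hN
  have hNe : Even N := even_two_mul _
  have hN2 : ∀ i ∈ Finset.range n, wt i + r + 4 ≤ N := by
    intro i hi
    have h1 := Finset.mem_range.1 hi
    have h2 : wt i ≤ w + i := by
      simp only [hwt]; split_ifs <;> omega
    omega
  obtain ⟨k1, k2⟩ := kum_even (O := O) (s := Finset.range n) (r := r) hodd hroot hGO
    (fun i _ => hwe i) hGr hgI hGinv hNe hN2
  refine ⟨N, _, k1, ?_, ?_, ?_⟩
  · intro M hM hFM hAM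
    apply sum_mem
    intro i hi
    have h1 : G i ∈ MX M (wt i) := by
      by_cases hk : Even i
      · simp only [hG, hwt, hk, if_true]; exact hFM i
      · simp only [hG, hwt, hk, if_false]; exact MX_mul hAM (hFM i)
    have h2 := MX_mul h1 (MX_mono (one_dvd M) (EE_mem (N - wt i)))
    have h3 : wt i + (N - wt i) = N := by have := hN2 i hi; omega
    rwa [h3] at h2
  · have h1 := k2.mono (fun x hx => twoO_le hx) (J := O.toAddSubgroup)
    have h2 := h1.add hgI (sub_mem (MO_le_MP k1) hgP) hgP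
    rwa [← hg, sub_add_cancel] at h2
  · have h1 := k2.add hgh2 (sub_mem (MO_le_MP k1) hgP) (sub_mem hgP hhP)
    rw [← hg, sub_add_sub_cancel] at h1
    intro δ hδ ν
    have h2 := (twoO O).neg_mem (h1 δ hδ ν)
    rw [cf_sub (MO_le_MP k1) hhP hδ] at h2
    rw [cf_sub hhP (MO_le_MP k1) hδ]
    rwa [neg_sub] at h2

end Crest.Agent.R007.KumK
end

-- ▼ part R007/Mix4
section

/-! Row 7, section C: the statements (K), (I4), (I5) for `OO`. -/

set_option autoImplicit false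

namespace Crest.Agent.R007.Mix

open UpperHalfPlane ModularForm CongruenceSubgroup Matrix
open Crest.Agent.R007.Lat Crest.Agent.R007.KumC Crest.Agent.R007.KumM
open Crest.Agent.R007.Coef (OO)
open Crest.Agent.R007.QInst (SK SD OO_hodd OO_hroot)
open scoped MatrixGroups Manifold ModularForm

/-- the vector of order `3` -/
def v3 : Fin 2 → ℤ := ![0, 1]

lemma nz_v3 : Tc.NZ 3 v3 := by
  right
  simp [v3]

/-- an odd weight form `≡ 1 mod 2 V` -/
lemma intAt_A1 : IntAt (twoO OO) (lift 1 (Tc.A1 v3) - 1) := by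
  intro δ hδ r
  have h := (EH.hasse_G2 OOI.oddRing_OO nz_v3 hδ).2 r
  obtain ⟨y, hy, e⟩ := h
  exact mem_twoO.2 ⟨y, hy, e⟩

theorem exists_pure {M : ℕ} [NeZero M] (h3 : 3 ∣ M) {n : ℕ} {F : ℕ → X → ℂ} (hF : ∀ k, F k ∈ MX M k)
    (hM : Odd M) (hint : ∑ k ∈ Finset.range n, F k ∈ VV OO)
    (hinv : ∀ R c : ℕ, Odd c → ∃ c' : ℕ, Odd c' ∧ c' ≡ c [MOD 2 ^ R] ∧
      ∃ G ∈ VV OO, ∑ k ∈ Finset.range n, (c' : ℂ) ^ k • F k - ∑ k ∈ Finset.range n, F k = 2 * G) :
    ∃ K, ∃ f ∈ Lk OO K, f ∈ MX M K ∧ ∃ G ∈ VV OO, ∑ k ∈ Finset.range n, F k - f = 2 * G := by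
  have hFO : ∀ k, F k ∈ MO k := fun k => ⟨M, hM, hF k⟩
  have hsM : ∀ c : ℂ, ∑ k ∈ Finset.range n, c ^ k • F k ∈ MM := fun c =>
    sum_mem fun k _ => MM_smul (MO_le_MM (hFO k)) _
  have hhM : ∑ k ∈ Finset.range n, F k ∈ MM := hint.1
  obtain ⟨N, f, hf, hlev, hI, hT⟩ := KumK.kum (O := OO) OO_hodd OO_hroot (w := 1) odd_one
    (EH.A1_mem_MO nz_v3) intAt_A1 (n := n) hFO ((intAt_iff_VV hhM).2 hint) (by
      intro R c hc
      obtain ⟨c', h1, h2, h3⟩ := hinv R c hc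
      exact ⟨c', h1, h2, (intAt_two_iff (sub_mem (hsM _) hhM)).2 h3⟩)
  refine ⟨N, f, (intAt_iff_Lk hf).1 hI, hlev M ‹_› hF ?_, (intAt_two_iff (sub_mem hhM (MO_le_MM hf))).1 hT⟩
  have h1 : lift 1 (Tc.A1 v3) ∈ MX 3 1 := EH.isF_mem_MX (Tc.isF_A1 nz_v3)
  exact MX_mono h3 h1

/-- (K) for `OO` -/
theorem SK_OO : SK OO := by
  intro h hh hinv
  obtain ⟨n, F, hF, e⟩ := mem_MM_iff.1 hh.1
  subst e
  have hhM : ∑ k ∈ Finset.range n, F k ∈ MM := hh.1
  have hsM : ∀ c : ℂ, ∑ k ∈ Finset.range n, c ^ k • F k ∈ MM := fun c =>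
    sum_mem fun k _ => MM_smul (MO_le_MM (hF k)) _
  obtain ⟨N, f, hf, -, hI, hT⟩ := KumK.kum (O := OO) OO_hodd OO_hroot (w := 1) odd_one
    (EH.A1_mem_MO nz_v3) intAt_A1 (n := n) hF ((intAt_iff_VV hhM).2 hh) (by
      intro R c hc
      refine ⟨c, hc, rfl, (intAt_two_iff (sub_mem (hsM _) hhM)).2 ?_⟩
      have h1 : Cg OO (sl (∑ k ∈ Finset.range n, F k) (iG (sc c) (KumC.sc_pos hc)))
          (∑ k ∈ Finset.range n, F k) := hinv c hc
      have h2 := h1.sl (inv_mem (KumC.sc_mem_G2 hc (KumC.sc_pos hc)))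
      rw [← sl_mul_right, mul_inv_cancel, sl_one_right] at h2
      rw [KumK.sum_sl_sc_inv (wt := fun k => k) hF] at h2
      exact h2.symm)
  exact ⟨N, f, (intAt_iff_Lk hf).1 hI, (intAt_two_iff (sub_mem hhM (MO_le_MM hf))).1 hT⟩

/-- the `q`-expansion principle on `V / 2 V` ((I4b) of the embedding) -/
theorem C1_of_D (hD : SD OO) {F : X → ℂ} (hF : F ∈ VV OO) (h : Two OO (res F)) :
    ∃ G ∈ VV OO, F = 2 * G := QInst.C1_OO SK_OO hD F hF h


end Crest.Agent.R007.Mix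
end

-- ▼ part R007/Mix5
section

/-! Row 7, section C: hypothesis-free final statements. -/

set_option autoImplicit false

namespace Crest.Agent.R007.Mix

open UpperHalfPlane ModularForm CongruenceSubgroup Matrix
open Crest.Agent.R007.Lat
open Crest.Agent.R007.Coef (OO)
open Crest.Agent.R007.QInst (SK SD)
open scoped MatrixGroups Manifold ModularForm

theorem SD_OO : SD OO := fun _ _ hf h => Dsec.D_OO_half hf h

/-- **(C1)** the `q`-expansion principle on `V / 2 V` (= (I4b)) -/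
theorem C1 {F : X → ℂ} (hF : F ∈ VV OO) (h : Two OO (res F)) : ∃ G ∈ VV OO, F = 2 * G :=
  C1_of_D SD_OO hF h



/-- (I5) -/
theorem I5 {M : ℕ} [NeZero M] (hM : Odd M) (h3 : 3 ∣ M) {n : ℕ} {F : ℕ → X → ℂ} (hF : ∀ k, F k ∈ MX M k)
    (hint : ∑ k ∈ Finset.range n, F k ∈ VV OO)
    (hinv : ∀ R c : ℕ, Odd c → ∃ c' : ℕ, Odd c' ∧ c' ≡ c [MOD 2 ^ R] ∧
      ∃ G ∈ VV OO, ∑ k ∈ Finset.range n, (c' : ℂ) ^ k • F k - ∑ k ∈ Finset.range n, F k = 2 * G) :
    ∃ K, ∃ f ∈ Lk OO K, f ∈ MX M K ∧ ∃ G ∈ VV OO, ∑ k ∈ Finset.range n, F k - f = 2 * G :=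
  exists_pure h3 hF hM hint hinv

end Crest.Agent.R007.Mix
end

-- ▼ part R007/Emb7
section

/-! Row 7, node EMB (helper7), part 7: the instance of `Ctx`. -/

set_option autoImplicit false

namespace Crest.Agent.R007.Emb

open UpperHalfPlane ModularForm CongruenceSubgroup Matrix
open scoped MatrixGroups Manifold ModularForm
open Crest.NumberTheoryR.HeckeTwoAdic Crest.Agent.R007.Op Crest.Agent.R007.Lat Crest.Agent.R007.Mix
open Crest.Agent.R007.Coef

variable {N : ℕ} [NeZero N] {T D : ℕ → (i : ℕ) → (MF N i →ₗ[ℂ] MF N i)}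

lemma half_mem_K0 : (2 : ℂ)⁻¹ ∈ K0.toSubring := K0.inv_mem (OO_le_K0 two_mem)

/-- the depletion operators exist. -/
theorem exists_Dep (hN : Odd N) (hD : IsDiamondFamily N D) (m k : ℕ) :
    Nonempty (Dep N (Nrad N) D m k) := by
  have hN2 : ¬ 2 ∣ N := hN.not_two_dvd_nat
  obtain ⟨w, hw, P, -, h2, h3, -, h5⟩ := exists_dep_fin N hN2 m k
  refine ⟨⟨w, hw, P, fun i f f₁ g hg e => h2 i g hg f f₁ e, fun i f hf n => ?_, fun i f hf n => ?_⟩⟩
  · obtain ⟨c, hc, e⟩ := h3 OO i f ((allS_iff_diam hD).2 hf) n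
    exact ⟨c, hc, by rw [e]; ring⟩
  · have h6 := h5 K0.toSubring half_mem_K0 i f ((allS_iff_diam hD).2 hf)
    rw [allS_iff_an] at h6
    have h7 := h6 1 (one_mem _) n
    rwa [Realise.Dop_one] at h7

/-- realisation of functionals. -/
theorem exists_real (hN : Odd N) (hD : IsDiamondFamily N D) (hT : IsHeckeFamily N T D) (k : ℕ)
    (φ : stage N T D k →+ ZMod 2) : ∃ F : Mix N k, RatM D F ∧ Lift φ F := by
  obtain ⟨F, hF, hs⟩ := Rat.exists_I1 hN hD hT φ
  refine ⟨F, fun i d hd n => ?_, fun s => ?_⟩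
  · obtain ⟨g, hg⟩ := exists_isDiam hd
    rw [D_eq_Dop hD hg]
    exact (bot_le : (⊥ : Subfield ℂ) ≤ K0) (hF i g hg.1 n)
  · obtain ⟨a, b, hb, e, ea⟩ := hs s
    have e' : (b : ℂ) * aM (act s.1 F) 1 = a := e
    have hb0 : (b : ℂ) ≠ 0 := by
      intro h0
      have : b = 0 := by exact_mod_cast h0
      rw [this] at hb
      exact absurd hb (by decide)
    have hbu : (b : ℂ)⁻¹ ∈ OO := by
      have := isUnit_iff.1 (isUnit_odd_int hb)
      simpa using this.2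
    have hx : aM (act s.1 F) 1 - toC (φ s) = (b : ℂ)⁻¹ * (a - b * toC (φ s)) := by
      rw [mul_sub, ← e', ← mul_assoc, ← mul_assoc, inv_mul_cancel₀ hb0, one_mul, one_mul]
    rw [hx]
    apply mul_mem_T2 hbu
    rw [← ea]
    obtain ⟨c, rfl⟩ := hb
    rcases Int.even_or_odd a with ⟨t, ht⟩ | ⟨t, ht⟩
    · have h0 : ((a : ℤ) : ZMod 2) = 0 := by
        rw [ht]; push_cast
        have : ∀ x : ZMod 2, x + x = 0 := by decide
        exact this _
      rw [h0, toC_zero, mul_zero, sub_zero, ht]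
      refine mem_T2.2 ⟨t, intCast_mem OO t, ?_⟩
      push_cast; ring
    · have h1 : ((a : ℤ) : ZMod 2) = 1 := by
        rw [ht]; push_cast
        have : ∀ x : ZMod 2, 2 * x + 1 = 1 := by decide
        exact this _
      rw [h1, toC_one, ht]
      refine mem_T2.2 ⟨((t - c : ℤ) : ℂ), intCast_mem OO _, ?_⟩
      push_cast; ring

/-- **the instance.** -/
theorem exists_ctx (hN : Odd N) {M : ℕ} [NeZero M] (hM : Odd M) (h3 : 3 ∣ M)
    (hNM : Nrad N ∣ M) (hD : IsDiamondFamily N D) (hT : IsHeckeFamily N T D)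
    {D' : ℕ → (i : ℕ) → (MF (Nrad N) i →ₗ[ℂ] MF (Nrad N) i)} (hD' : IsDiamondFamily (Nrad N) D')
    {l₀ n₀ : ℕ} (hl : l₀.Prime) (hlN : ¬ l₀ ∣ 2 * N) (hl8 : l₀ % 8 = 5) (hl1 : (l₀ : ZMod N) = 1)
    (hn : n₀.Prime) (hnN : ¬ n₀ ∣ 2 * N) (hn4 : n₀ % 4 = 3) (hn1 : (n₀ : ZMod N) = 1) :
    Ctx N (Nrad N) M T D D' l₀ n₀ where
  hM := hM
  h3 := h3
  hN'M := hNM
  hNN' := dvd_Nrad N
  hD := hD
  hT := hT
  hD' := hD'
  c1 := fun F hF h => Mix.C1 hF h
  pure := fun n F hF hint hinv => Mix.I5 hM h3 hF hint hinv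
  bd := fun j f hf => emb_bd' hN hD f hf
  bd' := fun j f hf => emb_bd' (Nat.not_even_iff_odd.1 fun h => Nrad_odd hN.not_two_dvd_nat h.two_dvd) hD' f hf
  dep := exists_Dep hN hD
  real := exists_real hN hD hT
  l_prime := hl
  l_N := hlN
  l_eight := hl8
  l_one := hl1
  n_prime := hn
  n_N := hnN
  n_four := hn4
  n_one := hn1

end Crest.Agent.R007.Emb
end

-- ▼ part R007/Tlb2
section

/-!
# Row 7, node N2 (TLB), part 2: `q`-expansion of `∑_δ F ∥ δ` modulo 2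
-/

set_option autoImplicit false

namespace Crest.Agent.R007.Tlb

open UpperHalfPlane ModularForm CongruenceSubgroup Matrix
open scoped MatrixGroups Manifold ModularForm
open Crest.Agent.R007.Lat

lemma utU (l : ℕ) (hl : l ≠ 0) (j : ℕ) : 0 < (ut ((1 : ℕ) : ℤ) (j : ℤ) (l : ℤ)).det := by
  rw [ut_det]; simp; omega

lemma utL (l : ℕ) (hl : l ≠ 0) : 0 < (ut (l : ℤ) ((0 : ℕ) : ℤ) ((1 : ℕ) : ℤ)).det := by
  rw [ut_det]; simp; omega

lemma dUp_eq (l : ℕ) (hl : l ≠ 0) (j : ℕ) : dUp l hl j = si l hl * iG (ut ((1 : ℕ) : ℤ) (j : ℤ) (l : ℤ)) (utU l hl j) := by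
  rw [dUp]
  congr 1

lemma dLo_eq (l : ℕ) (hl : l ≠ 0) : dLo l hl = si l hl * iG (ut (l : ℤ) ((0 : ℕ) : ℤ) ((1 : ℕ) : ℤ)) (utL l hl) := by
  rw [dLo]
  congr 1

lemma res_sl_dUp {k : ℕ} {F : X → ℂ} (hF : F ∈ Wt k) {l : ℕ} (hl : l ≠ 0) (j : ℕ) :
    res (sl F (dUp l hl j)) =
      fun τ => res F (iG (ut ((1 : ℕ) : ℤ) (j : ℤ) (l : ℤ)) (utU l hl j) • τ) := by
  have hl' : (l : ℂ) ≠ 0 := by exact_mod_cast hl
  funext τ
  rw [dUp_eq, sl_mul_right, sl_si hF hl, sl_smul, res_smul, Pi.smul_apply, res_sl_ut hF, smul_eq_mul,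
    ← mul_assoc, ← mul_pow]
  simp [hl']

lemma res_sl_dLo {k : ℕ} {F : X → ℂ} (hF : F ∈ Wt k) {l : ℕ} (hl : l ≠ 0) :
    res (sl F (dLo l hl)) = (l : ℂ) ^ k •
      fun τ => res F (iG (ut (l : ℤ) ((0 : ℕ) : ℤ) ((1 : ℕ) : ℤ)) (utL l hl) • τ) := by
  funext τ
  rw [dLo_eq, sl_mul_right, sl_si hF hl, sl_smul, res_smul, Pi.smul_apply, res_sl_ut hF]
  simp

/-- coefficients of `F ∥ (1/ℓ, j/ℓ; 0, 1)` -/
theorem coeff_dUp {k : ℕ} {F : X → ℂ} (hF : F ∈ MO k) {l : ℕ} (hl : l ≠ 0) (ho : Odd l) (j : ℕ)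
    (r : ℚ) : (qf (res (sl F (dUp l hl j)))).coeff r = ee (r * j) * (qf (res F)).coeff (r * l) := by
  have hl' : (l : ℚ) ≠ 0 := by exact_mod_cast hl
  rw [res_sl_dUp (MO_le_Wt hF)]
  have h1 := qf_comp_ut (res_mem_PO hF) (a := 1) (b := j) odd_one ho (utU l hl j) (r * l)
  have h2 : r * (l : ℚ) * ((1 : ℕ) : ℚ) / l = r := by push_cast; field_simp
  have h3 : r * (l : ℚ) * (j : ℚ) / l = r * j := by field_simp
  rw [h2, h3] at h1
  exact h1

/-- coefficients of `F ∥ (1, 0; 0, 1/ℓ)` -/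
theorem coeff_dLo {k : ℕ} {F : X → ℂ} (hF : F ∈ MO k) {l : ℕ} (hl : l ≠ 0) (ho : Odd l) (r : ℚ) :
    (qf (res (sl F (dLo l hl)))).coeff r = (l : ℂ) ^ k * (qf (res F)).coeff (r / l) := by
  have hl' : (l : ℚ) ≠ 0 := by exact_mod_cast hl
  have hPO : (fun τ => res F (iG (ut (l : ℤ) ((0 : ℕ) : ℤ) ((1 : ℕ) : ℤ)) (utL l hl) • τ)) ∈ PO := by
    obtain ⟨M, hM, hf⟩ := res_mem_PO hF
    have : NeZero M := ⟨hM.pos.ne'⟩
    refine ⟨M * 1, by simpa using hM, ?_⟩
    exact PB_comp_ut hf Nat.one_pos (utL l hl)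
  rw [res_sl_dLo (MO_le_Wt hF), qf_smul _ hPO, HahnSeries.coeff_smul, smul_eq_mul]
  have h1 := qf_comp_ut (res_mem_PO hF) (b := 0) ho odd_one (utL l hl) (r / l)
  have h2 : r / (l : ℚ) * (l : ℚ) / ((1 : ℕ) : ℚ) = r := by push_cast; field_simp
  have h3 : r / (l : ℚ) * ((0 : ℕ) : ℚ) / ((1 : ℕ) : ℚ) = 0 := by push_cast; simp
  rw [h2, h3] at h1
  rw [h1]
  have : ee 0 = 1 := by simp [ee]
  rw [this, one_mul]

lemma ee_int (n : ℤ) : ee n = 1 := by
  rw [ee, Complex.exp_eq_one_iff]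
  exact ⟨n, by push_cast; ring⟩

lemma ee_eq_one {r : ℚ} (h : ee r = 1) : ∃ n : ℤ, r = n := by
  rw [ee, Complex.exp_eq_one_iff] at h
  obtain ⟨n, hn⟩ := h
  refine ⟨n, ?_⟩
  have h2 : (2 * (Real.pi : ℂ) * Complex.I) ≠ 0 := Complex.two_pi_I_ne_zero
  have h3 : (2 * (Real.pi : ℂ) * Complex.I) * (r : ℂ) = (2 * (Real.pi : ℂ) * Complex.I) * (n : ℂ) := by
    rw [hn]; ring
  have h4 := mul_left_cancel₀ h2 h3
  exact_mod_cast h4

lemma sum_ee_int (n : ℤ) (l : ℕ) : ∑ j ∈ Finset.range l, ee ((n : ℚ) * j) = l := by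
  have : ∀ j ∈ Finset.range l, ee ((n : ℚ) * j) = 1 := by
    intro j _
    have := ee_int (n * j)
    push_cast at this
    exact this
  rw [Finset.sum_congr rfl this]
  simp

lemma sum_ee_not_int {r : ℚ} {l : ℕ} (hr : ¬ ∃ n : ℤ, r = n) (hrl : ∃ n : ℤ, r * l = n) :
    ∑ j ∈ Finset.range l, ee (r * j) = 0 := by
  have h1 : ∀ j : ℕ, ee (r * j) = ee r ^ j := by
    intro j
    rw [← ee_nsmul, mul_comm]
  simp only [h1]
  have h2 : ee r ≠ 1 := fun h => hr (ee_eq_one h)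
  rw [geom_sum_eq h2, ← h1]
  obtain ⟨n, hn⟩ := hrl
  rw [hn, ee_int, sub_self, zero_div]

lemma sum_ee_mem {O : Subring ℂ} (hO : ∀ n : ℕ, Odd n → ∀ z : ℂ, z ^ n = 1 → z ∈ O) {r : ℚ} {M : ℕ}
    (hM : Odd M) (hr : ∃ n : ℤ, r * M = n) (l : ℕ) : ∑ j ∈ Finset.range l, ee (r * j) ∈ O := by
  refine O.sum_mem fun j _ => hO M hM _ ?_
  rw [← ee_nsmul]
  obtain ⟨n, hn⟩ := hr
  have h1 : (M : ℚ) * (r * j) = ((n * j : ℤ) : ℚ) := by
    rw [← mul_assoc, mul_comm (M : ℚ) r, hn]; push_cast; ring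
  rw [h1, ee_int]

end Crest.Agent.R007.Tlb
end

-- ▼ part R007/Tlb3
section

/-!
# Row 7, node N2 (TLB), part 3: `∑_δ F ∥ δ` modulo 2, in the language of `Link.Cong`
-/

set_option autoImplicit false

namespace Crest.Agent.R007.Tlb

open UpperHalfPlane ModularForm CongruenceSubgroup Matrix
open scoped MatrixGroups Manifold ModularForm
open Crest.Agent.R007.Lat Crest.Agent.R007.Link

variable {O : Subring ℂ}

lemma res_sum {ι : Type*} (s : Finset ι) (F : ι → X → ℂ) :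
    res (∑ i ∈ s, F i) = ∑ i ∈ s, res (F i) := by
  funext τ
  simp [res_apply, Finset.sum_apply]

lemma qf_sum {ι : Type*} (s : Finset ι) (F : ι → UpperHalfPlane → ℂ) (h : ∀ i ∈ s, F i ∈ PO) :
    (∑ i ∈ s, F i) ∈ PO ∧ qf (∑ i ∈ s, F i) = ∑ i ∈ s, qf (F i) := by
  classical
  induction s using Finset.induction_on with
  | empty => exact ⟨by simp, by simpa using qf_zero⟩
  | insert a s ha ih =>
    obtain ⟨h1, h2⟩ := ih fun i hi => h i (Finset.mem_insert_of_mem hi)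
    have h3 := h a (Finset.mem_insert_self _ _)
    rw [Finset.sum_insert ha, Finset.sum_insert ha]
    exact ⟨add_mem h3 h1, by rw [qf_add h3 h1, h2]⟩

lemma sum_up_MO {k : ℕ} {F : X → ℂ} (hF : F ∈ MO k) {l : ℕ} (hl : l ≠ 0) (ho : Odd l) :
    (∑ j ∈ Finset.range l, sl F (dUp l hl j)) ∈ MO k :=
  Submodule.sum_mem _ fun j _ => MO_sl hF (dUp_mem hl ho j)

open Classical in
theorem cong_up (hO : ∀ n : ℕ, Odd n → ∀ z : ℂ, z ^ n = 1 → z ∈ O) {k : ℕ} {F : X → ℂ}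
    (hF : F ∈ MO k) {l : ℕ} (hl : l ≠ 0) (ho : Odd l) (c : ℚ → ZMod 2)
    (hc : ∀ r, c r ≠ 0 → ∃ n : ℤ, r = n) (h : Cong O F c) :
    Cong O (∑ j ∈ Finset.range l, sl F (dUp l hl j))
      (fun r => if ∃ n : ℤ, r = n then c (r * l) else 0) := by
  intro r
  have hsum : (qf (res (∑ j ∈ Finset.range l, sl F (dUp l hl j)))).coeff r =
      (∑ j ∈ Finset.range l, ee (r * j)) * (qf (res F)).coeff (r * l) := by
    rw [res_sum, (qf_sum _ _ fun j _ => res_mem_PO (MO_sl hF (dUp_mem hl ho j))).2,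
      HahnSeries.coeff_sum, Finset.sum_mul]
    exact Finset.sum_congr rfl fun j _ => coeff_dUp hF hl ho j r
  rw [hsum]
  change ∃ a ∈ O, _ = (((if ∃ n : ℤ, r = n then c (r * l) else 0 : ZMod 2)).val : ℂ) + 2 * a
  obtain ⟨b, hb, eb⟩ := h (r * l)
  by_cases h1 : ∃ n : ℤ, r = n
  · obtain ⟨n, rfl⟩ := h1
    obtain ⟨m, hm⟩ := ho
    refine ⟨m * ((c ((n : ℚ) * l)).val : ℂ) + l * b, ?_, ?_⟩
    · exact O.add_mem (O.mul_mem (natCast_mem O _) (natCast_mem O _)) (O.mul_mem (natCast_mem O _) hb)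
    · rw [sum_ee_int, eb, if_pos ⟨n, rfl⟩]
      rw [hm]
      push_cast
      ring
  · rw [if_neg h1]
    by_cases h2 : ∃ n : ℤ, r * l = n
    · refine ⟨0, O.zero_mem, ?_⟩
      rw [sum_ee_not_int h1 h2]
      simp
    · have hc0 : c (r * l) = 0 := by
        by_contra hne
        exact h2 (hc _ hne)
      by_cases h3 : (qf (res F)).coeff (r * l) = 0
      · refine ⟨0, O.zero_mem, ?_⟩
        rw [h3]
        simp
      · obtain ⟨M, hM, hf⟩ := res_mem_PO hF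
        have h4 : ∃ n : ℕ, (n : ℚ) / M = r * l := by
          by_contra hcon
          push Not at hcon
          exact h3 (qf_coeff_of_notMem hM hf hcon)
        obtain ⟨n, hn⟩ := h4
        have hM0 : (M : ℚ) ≠ 0 := by exact_mod_cast hM.pos.ne'
        have h5 : ∑ j ∈ Finset.range l, ee (r * j) ∈ O := by
          refine sum_ee_mem hO (hM.mul ho) ⟨n, ?_⟩ l
          push_cast
          field_simp at hn
          rw [hn]; ring
        refine ⟨(∑ j ∈ Finset.range l, ee (r * j)) * b, O.mul_mem h5 hb, ?_⟩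
        rw [eb, hc0]
        simp
        ring

theorem cong_lo {k : ℕ} {G : X → ℂ} (hG : G ∈ MO k) {l : ℕ} (hl : l ≠ 0) (ho : Odd l)
    (c : ℚ → ZMod 2) (h : Cong O G c) :
    Cong O (sl G (dLo l hl)) (fun r => c (r / l)) := by
  intro r
  rw [coeff_dLo hG hl ho]
  obtain ⟨b, hb, eb⟩ := h (r / l)
  obtain ⟨m, hm⟩ := ho.pow (n := k)
  refine ⟨m * ((c (r / l)).val : ℂ) + l ^ k * b, ?_, ?_⟩
  · exact O.add_mem (O.mul_mem (natCast_mem O _) (natCast_mem O _))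
      (O.mul_mem (O.pow_mem (natCast_mem O _) _) hb)
  · rw [eb]
    have : (l : ℂ) ^ k = 2 * m + 1 := by exact_mod_cast hm
    rw [this]
    ring

/-- the list of matrices for `T_ℓ` -/
noncomputable def dlT (l : ℕ) (hl : l ≠ 0) (σ : SL(2, ℤ)) : List GL(2, ℝ)⁺ :=
  (List.range l).map (dUp l hl) ++ [sG σ * dLo l hl]

/-- the list of matrices for `ℓ S_ℓ` -/
noncomputable def dlS (σ : SL(2, ℤ)) : List GL(2, ℝ)⁺ := [sG σ]

lemma dlT_mem {l : ℕ} (hl : l ≠ 0) (ho : Odd l) (σ : SL(2, ℤ)) : ∀ g ∈ dlT l hl σ, g ∈ G2 := by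
  intro g hg
  rw [dlT, List.mem_append, List.mem_map, List.mem_singleton] at hg
  rcases hg with ⟨j, _, rfl⟩ | rfl
  · exact dUp_mem hl ho j
  · exact mul_mem (sG_mem_G2 σ) (dLo_mem hl ho)

lemma dlS_mem (σ : SL(2, ℤ)) : ∀ g ∈ dlS σ, g ∈ G2 := by
  intro g hg
  rw [dlS, List.mem_singleton] at hg
  rw [hg]; exact sG_mem_G2 σ

lemma dlT_sum (l : ℕ) (hl : l ≠ 0) (σ : SL(2, ℤ)) (F : X → ℂ) :
    ((dlT l hl σ).map (sl F)).sum =
      (∑ j ∈ Finset.range l, sl F (dUp l hl j)) + sl F (sG σ * dLo l hl) := by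
  rw [dlT, List.map_append, List.sum_append, List.map_map]
  congr 1
  simp

lemma dlS_sum (σ : SL(2, ℤ)) (F : X → ℂ) : ((dlS σ).map (sl F)).sum = sl F (sG σ) := by
  simp [dlS]

open Classical in
/-- **TLB modulo 2** (pure weight `k`). If `F ≡ ∑ c(r) q^r` and `F ∥ σ_ℓ ≡ ∑ c'(r) q^r` modulo
`2 O`, `c` supported on integers, then the sum over the `ℓ + 1` matrices is
`≡ ∑_{r ∈ ℤ} c(ℓ r) q^r + ∑ c'(r/ℓ) q^r`. -/
theorem tlb_cong (hO : ∀ n : ℕ, Odd n → ∀ z : ℂ, z ^ n = 1 → z ∈ O) {k : ℕ} {F : X → ℂ}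
    (hF : F ∈ MO k) {l : ℕ} (hl : l ≠ 0) (ho : Odd l) (σ : SL(2, ℤ)) (c c' : ℚ → ZMod 2)
    (hc : ∀ r, c r ≠ 0 → ∃ n : ℤ, r = n) (h : Cong O F c) (h' : Cong O (sl F (sG σ)) c') :
    Cong O ((dlT l hl σ).map (sl F)).sum
      (fun r => (if ∃ n : ℤ, r = n then c (r * l) else 0) + c' (r / l)) := by
  have hG : sl F (sG σ) ∈ MO k := MO_sl hF (sG_mem_G2 σ)
  rw [dlT_sum, sl_mul_right]
  exact Cong.add (res_mem_PO (sum_up_MO hF hl ho)) (res_mem_PO (MO_sl hG (dLo_mem hl ho)))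
    (cong_up hO hF hl ho c hc h) (cong_lo hG hl ho c' h')

end Crest.Agent.R007.Tlb
end

-- ▼ part R007/EmbQ
section

/-!
# Row 7, node EMB, part Q (helper669): the elements `T_n`, the map `Q`, the Hecke identity.

* `Pn x e j` (`= T_{ℓ^j}` as a polynomial in `x = T_ℓ`, `e = ℓ S_ℓ`), `Tn x e n` (multiplicative);
* `Tn_prime_mul`, `map_Tn`, `Tn_congr`;
* `aM_Tn` : `a_1(T_n F) = a_n(F)`;
* `Qm`, `Qm_T` (Hecke identity), `mkEmbOut`.
-/

set_option autoImplicit false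

open scoped MatrixGroups

namespace Crest.Agent.R007.EmbQ

open Crest.NumberTheoryR.HeckeTwoAdic

section Alg

variable {R S : Type*} [CommRing R] [CommRing S]

/-- `T_{ℓ^j}` as a polynomial in `x = T_ℓ` and `e = ℓ S_ℓ`. -/
def Pn (x e : R) : ℕ → R
  | 0 => 1
  | 1 => x
  | (j + 2) => x * Pn x e (j + 1) - e * Pn x e j

@[simp] theorem Pn_zero (x e : R) : Pn x e 0 = 1 := by simp [Pn]

@[simp] theorem Pn_one (x e : R) : Pn x e 1 = x := by simp [Pn]

theorem Pn_succ (x e : R) (j : ℕ) :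
    Pn x e (j + 1) = x * Pn x e j - (if j = 0 then 0 else e * Pn x e (j - 1)) := by
  cases j with
  | zero => simp
  | succ j => simp [Pn]

theorem map_Pn (f : R →+* S) (x e : R) (j : ℕ) : f (Pn x e j) = Pn (f x) (f e) j := by
  induction j using Nat.strong_induction_on with
  | _ j ih =>
    match j with
    | 0 => simp
    | 1 => simp
    | (j + 2) =>
      rw [Pn, Pn, map_sub, map_mul, map_mul, ih (j + 1) (by omega), ih j (by omega)]

/-- `T_n`. -/
noncomputable def Tn (x e : ℕ → R) (n : ℕ) : R := n.factorization.prod fun p j => Pn (x p) (e p) j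

@[simp] theorem Tn_one (x e : ℕ → R) : Tn x e 1 = 1 := by simp [Tn]

theorem map_Tn (f : R →+* S) (x e : ℕ → R) (n : ℕ) :
    f (Tn x e n) = Tn (fun l => f (x l)) (fun l => f (e l)) n := by
  rw [Tn, Tn, Finsupp.prod, Finsupp.prod, map_prod]
  exact Finset.prod_congr rfl fun p _ => map_Pn f _ _ _


theorem Tn_split (x e : ℕ → R) (n l : ℕ) :
    Tn x e n = Pn (x l) (e l) (n.factorization l) *
      (n.factorization.erase l).prod fun p j => Pn (x p) (e p) j := by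
  rw [Tn, ← Finsupp.mul_prod_erase' n.factorization l (fun p j => Pn (x p) (e p) j)
    fun i => Pn_zero _ _]

theorem Tn_prime_mul (x e : ℕ → R) {l : ℕ} (hl : l.Prime) {n : ℕ} (hn : n ≠ 0) :
    Tn x e (l * n) = x l * Tn x e n - (if l ∣ n then e l * Tn x e (n / l) else 0) := by
  have h1 : (l * n).factorization = Finsupp.single l 1 + n.factorization := by
    rw [Nat.factorization_mul hl.ne_zero hn, hl.factorization]
  have e1 : (l * n).factorization.erase l = n.factorization.erase l := by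
    rw [h1, Finsupp.erase_add, Finsupp.erase_single, zero_add]
  have v1 : (l * n).factorization l = n.factorization l + 1 := by
    rw [h1, Finsupp.add_apply, Finsupp.single_eq_same, add_comm]
  rw [Tn_split x e (l * n) l, Tn_split x e n l, e1, v1, Pn_succ]
  by_cases hd : l ∣ n
  · have h2 : (n / l).factorization = n.factorization - Finsupp.single l 1 := by
      rw [Nat.factorization_div hd, hl.factorization]
    have e2 : (n / l).factorization.erase l = n.factorization.erase l := by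
      ext p
      by_cases hp : p = l
      · subst hp; simp
      · rw [Finsupp.erase_ne hp, Finsupp.erase_ne hp, h2, Finsupp.tsub_apply,
          Finsupp.single_eq_of_ne hp, Nat.sub_zero]
    have v2 : (n / l).factorization l = n.factorization l - 1 := by
      rw [h2, Finsupp.tsub_apply, Finsupp.single_eq_same]
    have v0 : n.factorization l ≠ 0 := by
      have := hl.factorization_pos_of_dvd hn hd
      omega
    rw [if_neg v0, if_pos hd, Tn_split x e (n / l) l, e2, v2]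
    ring
  · have v0 : n.factorization l = 0 := Nat.factorization_eq_zero_of_not_dvd hd
    rw [if_pos v0, if_neg hd]
    ring

end Alg

section Coef

open Crest.Agent.R007.Op Crest.Agent.R007.Emb

variable {N : ℕ} [NeZero N] {T D : ℕ → (i : ℕ) → (MF N i →ₗ[ℂ] MF N i)}


end Coef

section Q

variable {T0 W : Type*} [CommRing T0] [AddCommGroup W] [Module (ZMod 2) W] [Module T0 W]

open Classical in
/-- `Q w = ∑_{(n, 2N) = 1} a(T_n w) q^n`. -/
noncomputable def Qf (N : ℕ) (a : W →ₗ[ZMod 2] ZMod 2) (x e : ℕ → T0) (w : W) (r : ℚ) : ZMod 2 :=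
  if h : ∃ n : ℕ, n.Coprime (2 * N) ∧ r = n then a (Tn x e h.choose • w) else 0

theorem Qf_nat (N : ℕ) (a : W →ₗ[ZMod 2] ZMod 2) (x e : ℕ → T0) (w : W) {n : ℕ}
    (hn : n.Coprime (2 * N)) : Qf N a x e w n = a (Tn x e n • w) := by
  have h : ∃ m : ℕ, m.Coprime (2 * N) ∧ (n : ℚ) = m := ⟨n, hn, rfl⟩
  rw [Qf, dif_pos h]
  have h2 := h.choose_spec.2
  have h3 : h.choose = n := by exact_mod_cast h2.symm
  rw [h3]

theorem Qf_not (N : ℕ) (a : W →ₗ[ZMod 2] ZMod 2) (x e : ℕ → T0) (w : W) {r : ℚ}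
    (h : ∀ n : ℕ, n.Coprime (2 * N) → r ≠ n) : Qf N a x e w r = 0 := by
  rw [Qf, dif_neg]
  rintro ⟨n, h1, h2⟩
  exact h n h1 h2

theorem Qf_ne (N : ℕ) (a : W →ₗ[ZMod 2] ZMod 2) (x e : ℕ → T0) (w : W) {r : ℚ}
    (h : Qf N a x e w r ≠ 0) : ∃ n : ℕ, n.Coprime (2 * N) ∧ r = n := by
  by_contra hc
  push Not at hc
  exact h (Qf_not N a x e w hc)

/-- the map `Q` as an additive homomorphism. -/
noncomputable def Qm (N : ℕ) (a : W →ₗ[ZMod 2] ZMod 2) (x e : ℕ → T0) : W →+ (ℚ → ZMod 2) where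
  toFun w := Qf N a x e w
  map_zero' := by
    funext r
    by_cases h : ∃ n : ℕ, n.Coprime (2 * N) ∧ r = n
    · obtain ⟨n, hn, rfl⟩ := h
      rw [Qf_nat N a x e 0 hn, smul_zero, map_zero, Pi.zero_apply]
    · push Not at h
      rw [Qf_not N a x e 0 h, Pi.zero_apply]
  map_add' w w' := by
    funext r
    by_cases h : ∃ n : ℕ, n.Coprime (2 * N) ∧ r = n
    · obtain ⟨n, hn, rfl⟩ := h
      rw [Pi.add_apply, Qf_nat N a x e _ hn, Qf_nat N a x e _ hn, Qf_nat N a x e _ hn, smul_add,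
        map_add]
    · push Not at h
      rw [Pi.add_apply, Qf_not N a x e _ h, Qf_not N a x e _ h, Qf_not N a x e _ h, add_zero]


theorem Qm_nat (N : ℕ) (a : W →ₗ[ZMod 2] ZMod 2) (x e : ℕ → T0) (w : W) {n : ℕ}
    (hn : n.Coprime (2 * N)) : Qm N a x e w n = a (Tn x e n • w) := Qf_nat N a x e w hn

theorem Qm_not (N : ℕ) (a : W →ₗ[ZMod 2] ZMod 2) (x e : ℕ → T0) (w : W) {r : ℚ}
    (h : ∀ n : ℕ, n.Coprime (2 * N) → r ≠ n) : Qm N a x e w r = 0 := Qf_not N a x e w h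

theorem not_coprime_zero (N : ℕ) : ¬ (0 : ℕ).Coprime (2 * N) := by
  rw [Nat.coprime_zero_left]; omega

theorem Qm_zero (N : ℕ) (a : W →ₗ[ZMod 2] ZMod 2) (x e : ℕ → T0) (w : W) :
    Qm N a x e w 0 = 0 := by
  refine Qf_not N a x e w fun n hn h0 => ?_
  have : n = 0 := by exact_mod_cast h0.symm
  exact not_coprime_zero N (this ▸ hn)

theorem Qm_one (N : ℕ) (a : W →ₗ[ZMod 2] ZMod 2) (x e : ℕ → T0) (w : W) :
    Qm N a x e w 1 = a w := by
  have := Qf_nat N a x e w (Nat.coprime_one_left (2 * N))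
  rw [Tn_one, one_smul, Nat.cast_one] at this
  exact this

open Classical in
/-- **The Hecke identity.** -/
theorem Qm_T (N : ℕ) (a : W →ₗ[ZMod 2] ZMod 2) (x e : ℕ → T0) (w : W) {l : ℕ} (hl : l.Prime)
    (hlN : ¬ l ∣ 2 * N) (r : ℚ) :
    Qm N a x e (x l • w) r =
      (if ∃ n : ℤ, r = n then Qm N a x e w (r * l) else 0) + Qm N a x e (e l • w) (r / l) := by
  have hl0 : (l : ℚ) ≠ 0 := by exact_mod_cast hl.ne_zero
  have hlc : l.Coprime (2 * N) := (Nat.Prime.coprime_iff_not_dvd hl).2 hlN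
  by_cases h : ∃ n : ℕ, n.Coprime (2 * N) ∧ r = n
  · obtain ⟨n, hn, rfl⟩ := h
    have hn0 : n ≠ 0 := by
      rintro rfl; exact not_coprime_zero N hn
    rw [if_pos ⟨(n : ℤ), by push_cast; rfl⟩, Qm_nat N a x e _ hn]
    have e1 : (n : ℚ) * l = ((l * n : ℕ) : ℚ) := by push_cast; ring
    have hc2 : (l * n).Coprime (2 * N) := Nat.Coprime.mul_left hlc hn
    rw [e1, Qm_nat N a x e _ hc2, Tn_prime_mul x e hl hn0]
    by_cases hd : l ∣ n
    · obtain ⟨m, rfl⟩ := hd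
      have hmc : m.Coprime (2 * N) := Nat.Coprime.coprime_dvd_left ⟨l, mul_comm _ _⟩ hn
      have e2 : ((l * m : ℕ) : ℚ) / l = (m : ℚ) := by
        push_cast; field_simp
      rw [e2, Qm_nat N a x e _ hmc, if_pos ⟨m, rfl⟩, Nat.mul_div_cancel_left _ hl.pos, sub_smul,
        map_sub, smul_smul, smul_smul, mul_comm (x l), mul_comm (e l)]
      ring
    · rw [if_neg hd, sub_zero]
      have e2 : Qm N a x e (e l • w) ((n : ℚ) / l) = 0 := by
        refine Qm_not N a x e _ fun m hm hmn => ?_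
        rw [div_eq_iff hl0] at hmn
        exact hd ⟨m, by rw [mul_comm]; exact_mod_cast hmn⟩
      rw [e2, add_zero, smul_smul, mul_comm (x l)]
  · push Not at h
    rw [Qm_not N a x e _ h]
    have e2 : Qm N a x e (e l • w) (r / l) = 0 := by
      refine Qm_not N a x e _ fun m hm hmn => ?_
      rw [div_eq_iff hl0] at hmn
      refine h (m * l) (Nat.Coprime.mul_left hm hlc) ?_
      rw [hmn]; push_cast; ring
    rw [e2, add_zero]
    split_ifs with h1
    · obtain ⟨n, rfl⟩ := h1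
      symm
      refine Qm_not N a x e _ fun m hm hmn => ?_
      have h2 : n * (l : ℤ) = (m : ℤ) := by exact_mod_cast hmn
      have hn0 : 0 ≤ n := by
        by_contra hneg
        push Not at hneg
        have h3 : (0 : ℤ) < l := by exact_mod_cast hl.pos
        have h4 : n * (l : ℤ) < 0 := mul_neg_of_neg_of_pos hneg h3
        have h5 : (0 : ℤ) ≤ m := Int.natCast_nonneg m
        omega
      obtain ⟨n', rfl⟩ := Int.eq_ofNat_of_zero_le hn0
      have h3 : n' * l = m := by exact_mod_cast h2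
      refine h n' (Nat.Coprime.coprime_dvd_left ⟨l, h3.symm⟩ hm) ?_
      push_cast; rfl
    · rfl

end Q

section Out

open Crest.Agent.R007.Lat Crest.Agent.R007.Link Crest.Agent.R007.Tlb

variable {T0 W : Type*} [CommRing T0] [Algebra (ZMod 2) T0] [AddCommGroup W]
  [Module (ZMod 2) W] [Module T0 W]

/-- the index set of the generators: `(ℓ, true)` is `T_ℓ`, `(ℓ, false)` is `ℓ S_ℓ`. -/
abbrev Gen (N : ℕ) : Type := {l : ℕ // l.Prime ∧ ¬ l ∣ 2 * N} × Bool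

/-- the generators. -/
def gen {N : ℕ} (x e : ℕ → T0) : Gen N → T0 := fun i => if i.2 then x i.1.1 else e i.1.1

/-- the matrices. -/
noncomputable def hk {N : ℕ} (s : ℕ → SL(2, ℤ)) : Gen N → List GL(2, ℝ)⁺ := fun i =>
  if i.2 then dlT i.1.1 i.1.2.1.ne_zero (s i.1.1) else dlS (s i.1.1)

theorem odd_of_not_dvd {N l : ℕ} (hl : l.Prime) (hlN : ¬ l ∣ 2 * N) : Odd l := by
  rcases hl.eq_two_or_odd' with rfl | h
  · exact absurd (dvd_mul_right 2 N) hlN
  · exact h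

/-- **The output of EMB**, from the existence of the forms (`surj`) and the diamond
operators (`dia`). -/
noncomputable def mkEmbOut (O : Subring ℂ) (M N : ℕ)
    (hO : ∀ n : ℕ, Odd n → ∀ z : ℂ, z ^ n = 1 → z ∈ O)
    (a : W →ₗ[ZMod 2] ZMod 2) (x e : ℕ → T0) (s : ℕ → SL(2, ℤ))
    (surj : ∀ w : W, ∃ k, ∃ F ∈ LL O k, F ∈ MX M k ∧ Cong O F (Qm N a x e w))
    (dia : ∀ l : ℕ, l.Prime → ¬ l ∣ 2 * N → ∀ (w : W) (k : ℕ) (F : Lat.X → ℂ), F ∈ LL O k →
      F ∈ MX M k → Cong O F (Qm N a x e w) → Cong O (sl F (sG (s l))) (Qm N a x e (e l • w))) :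
    EmbOut O M (gen (N := N) x e) a where
  Q := Qm N a x e
  Q_zero := Qm_zero N a x e
  Q_one := Qm_one N a x e
  surj := surj
  hk := hk s
  hk_mem := by
    rintro ⟨⟨l, hl, hlN⟩, b⟩ g hg
    cases b with
    | true => exact dlT_mem hl.ne_zero (odd_of_not_dvd hl hlN) (s l) g hg
    | false => exact dlS_mem (s l) g hg
  hecke := by
    classical
    rintro ⟨⟨l, hl, hlN⟩, b⟩ w k F hF hFM hc
    have hd := dia l hl hlN w k F hF hFM hc
    cases b with
    | true =>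
      have h1 := tlb_cong hO (LL_MO hF) hl.ne_zero (odd_of_not_dvd hl hlN) (s l) _ _ (by
        intro r hr
        obtain ⟨n, _, rfl⟩ := Qf_ne N a x e w hr
        exact ⟨n, by push_cast; rfl⟩) hc hd
      change Cong O ((dlT l hl.ne_zero (s l)).map (sl F)).sum (Qm N a x e (x l • w))
      have h2 : Qm N a x e (x l • w) = fun r : ℚ =>
          (if ∃ n : ℤ, r = n then Qm N a x e w (r * l) else 0) + Qm N a x e (e l • w) (r / l) :=
        funext fun r => Qm_T N a x e w hl hlN r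
      rw [h2]
      exact h1
    | false =>
      change Cong O ((dlS (s l)).map (sl F)).sum (Qm N a x e (e l • w))
      rw [dlS_sum]
      exact hd

end Out

end Crest.Agent.R007.EmbQ
private theorem rz_f89a6e08e6 : type_of% @_root_.Crest.Agent.R007.EmbQ.Pn.eq_def := @_root_.Crest.Agent.R007.EmbQ.Pn.eq_def -- L26
private theorem rz_395ce5eae1 : type_of% @_root_.Crest.Agent.R007.EmbQ.Pn.eq_1 := @_root_.Crest.Agent.R007.EmbQ.Pn.eq_1 -- L26
end

-- ▼ part R007/EmbTop1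
section

/-!
# Row 7, node EMB (helper604): `EmbTop1`, the bridge between functionals on `T0` (707), functionals
on the stages (7) and the `Q`-map of 669.
-/

set_option autoImplicit false

namespace Crest.Agent.R007.EmbTop

open Crest.NumberTheoryR.HeckeTwoAdic
open scoped MatrixGroups

/-! ### the two definitions of `T_n` agree -/

theorem Tn_eq {R : Type*} [CommRing R] (x e : ℕ → R) (n : ℕ) (hn : n ≠ 0) :
    EmbQ.Tn x e n = Emb.Tn x e n := by
  induction n using Nat.strong_induction_on with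
  | _ n ih =>
    rcases Nat.lt_or_ge n 2 with h | h
    · have : n = 1 := by omega
      subst this
      rw [EmbQ.Tn_one, Emb.Tn_one]
    · set l := n.minFac with hl
      have hlp : l.Prime := Nat.minFac_prime (by omega)
      obtain ⟨m, hm⟩ := Nat.minFac_dvd n
      rw [← hl] at hm
      have hm0 : m ≠ 0 := by
        rintro rfl
        simp at hm
        omega
      have hml : m < n := by
        rw [hm]
        exact lt_mul_of_one_lt_left (by omega) hlp.one_lt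
      have hdiv : n / l = m := by rw [hm, Nat.mul_div_cancel_left _ hlp.pos]
      rw [Emb.Tn_of_two_le _ _ h, ← hl, hdiv]
      conv_lhs => rw [hm]
      rw [EmbQ.Tn_prime_mul x e hlp hm0, ih m hml hm0]
      by_cases hd : l ∣ m
      · obtain ⟨m', rfl⟩ := hd
        have hm'0 : m' ≠ 0 := by
          rintro rfl
          simp at hm0
        have h1 : l * m' / l = m' := Nat.mul_div_cancel_left _ hlp.pos
        have h2 : m' < n := lt_of_le_of_lt (Nat.le_mul_of_pos_left _ hlp.pos) hml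
        rw [if_pos (Dvd.intro _ rfl), if_pos (Dvd.intro _ rfl), h1, ih m' h2 hm'0]
        ring
      · rw [if_neg hd, if_neg hd]
        ring

variable (N : ℕ) [NeZero N]

/-- the stage of the standard families -/
noncomputable abbrev St (k : ℕ) := stage N (HD.hecke N) (HD.dia N) k

/-- the identity, as a ring homomorphism to 707's commutative ring -/
noncomputable def toA (k : ℕ) : St N k →+* Du.A N k where
  toFun s := s
  map_one' := rfl
  map_zero' := rfl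
  map_mul' _ _ := rfl
  map_add' _ _ := rfl


open Classical in
/-- `T_l` in `T` -/
noncomputable def tT' (l : ℕ) : Du.TT N :=
  if h : l.Prime ∧ ¬ l ∣ 2 * N then Du.tT h.1 h.2 else 0

open Classical in
/-- `l S_l` in `T` -/
noncomputable def eT' (l : ℕ) : Du.TT N :=
  if h : l.Prime ∧ ¬ l ∣ 2 * N then Du.tE h.1 h.2 else 0

lemma tT'_eq {l : ℕ} (hl : l.Prime) (hN : ¬ l ∣ 2 * N) : tT' N l = Du.tT hl hN := by
  rw [tT', dif_pos ⟨hl, hN⟩]

lemma eT'_eq {l : ℕ} (hl : l.Prime) (hN : ¬ l ∣ 2 * N) : eT' N l = Du.tE hl hN := by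
  rw [eT', dif_pos ⟨hl, hN⟩]

/-- `T_l` in the stage -/
noncomputable abbrev tS (k l : ℕ) : St N k := Emb.tS N (HD.hecke N) (HD.dia N) k l

/-- `l S_l` in the stage -/
noncomputable abbrev eS (k l : ℕ) : St N k := Emb.eS N (HD.hecke N) (HD.dia N) k l

lemma pr_tT' (k l : ℕ) : Du.pr N k (tT' N l) = Du.inc N k (toA N k (tS N k l)) := by
  by_cases h : l.Prime ∧ ¬ l ∣ 2 * N
  · rw [tT'_eq N h.1 h.2, Du.pr_tT]
    congr 1
    apply Subtype.ext
    exact (Emb.coe_tS (N := N) (T := HD.hecke N) (D := HD.dia N) (k := k) h.1 h.2).symm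
  · rw [tT', dif_neg h, tS, Emb.tS, dif_neg h, map_zero, map_zero, map_zero]

lemma pr_eT' (k l : ℕ) : Du.pr N k (eT' N l) = Du.inc N k (toA N k (eS N k l)) := by
  by_cases h : l.Prime ∧ ¬ l ∣ 2 * N
  · rw [eT'_eq N h.1 h.2, Du.pr_tE]
    congr 1
    apply Subtype.ext
    exact (Emb.coe_eS (N := N) (T := HD.hecke N) (D := HD.dia N) (k := k) h.1 h.2).symm
  · rw [eT', dif_neg h, eS, Emb.eS, dif_neg h, map_zero, map_zero, map_zero]

theorem pr_Tn (k n : ℕ) (hn : n ≠ 0) : Du.pr N k (EmbQ.Tn (tT' N) (eT' N) n) =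
    Du.inc N k (toA N k (Emb.Tn (tS N k) (eS N k) n)) := by
  rw [EmbQ.map_Tn, Tn_eq _ _ _ hn]
  have h := Emb.map_Tn ((Du.inc N k).comp (toA N k)) (tS N k) (eS N k) n
  rw [RingHom.comp_apply] at h
  rw [h]
  simp only [pr_tT', pr_eT', RingHom.comp_apply]

/-- every element of the stage lifts to `T` -/
theorem exists_lift (k : ℕ) (s : St N k) : ∃ t : Du.TT N, Du.pr N k t = Du.inc N k (toA N k s) := by
  have h : (⊤ : Subring (Du.A N k)) ≤ ((Du.pr N k).range).comap (Du.inc N k) := by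
    rw [← Du.closure_gens, Subring.closure_le]
    rintro _ ⟨l, hl, hlN, rfl | rfl⟩
    · exact ⟨Du.tT hl hlN, rfl⟩
    · exact ⟨Du.tE hl hlN, rfl⟩
  obtain ⟨t, ht⟩ := h (Subring.mem_top (toA N k s))
  exact ⟨t, ht⟩

/-! ### functionals -/

section Fn

variable {N}
variable {T0 W : Type*} [CommRing T0] [AddCommGroup W]
  [Module (ZMod 2) W] [Module T0 W] (mk : Du.TT N →+* T0) (a : W →ₗ[ZMod 2] ZMod 2)

/-- `φ` on the stage `k` represents the functional `t ↦ a (t w)` -/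
def Rep (w : W) {k : ℕ} (φ : St N k →+ ZMod 2) : Prop :=
  ∀ (t : Du.TT N) (s : St N k), Du.pr N k t = Du.inc N k (toA N k s) → a (mk t • w) = φ s

variable {mk a}

lemma Rep.mulR {w : W} {k : ℕ} {φ : St N k →+ ZMod 2} (h : Rep mk a w φ) (l : ℕ) :
    Rep mk a (mk (eT' N l) • w) (Emb.mulR φ (eS N k l)) := by
  intro t s hts
  rw [smul_smul, ← map_mul, Emb.mulR_apply]
  apply h
  rw [map_mul, hts, pr_eT', map_mul, map_mul]

lemma Rep.inv {w : W} {k : ℕ} {φ : St N k →+ ZMod 2} (h : Rep mk a w φ) {l : ℕ}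
    (hl : mk (eT' N l) = 1) (s : St N k) : φ (s * eS N k l) = φ s := by
  obtain ⟨t, ht⟩ := exists_lift N k s
  have h1 := h.mulR l t s ht
  rw [hl, one_smul, h t s ht, Emb.mulR_apply] at h1
  exact h1.symm

theorem Rep.Q_eq {w : W} {k : ℕ} {φ : St N k →+ ZMod 2} (h : Rep mk a w φ) :
    EmbQ.Qm N a (fun l => mk (tT' N l)) (fun l => mk (eT' N l)) w = Emb.Qf φ := by
  funext r
  by_cases hr : ∃ n : ℕ, (n : ℚ) = r
  · obtain ⟨n, rfl⟩ := hr
    rw [Emb.Qf_nat]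
    split_ifs with hn
    · rw [EmbQ.Qm_nat N a _ _ w hn]
      have hn0 : n ≠ 0 := by
        rintro rfl
        exact EmbQ.not_coprime_zero N hn
      rw [← h _ _ (pr_Tn N k n hn0)]
      rw [EmbQ.map_Tn]
    · apply EmbQ.Qm_not
      intro m hm e
      have : n = m := by exact_mod_cast e
      exact hn (this ▸ hm)
  · push Not at hr
    rw [Emb.Qf_not_nat φ hr]
    apply EmbQ.Qm_not
    intro m _ e
    exact hr m e.symm

end Fn

end Crest.Agent.R007.EmbTop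
end

-- ▼ part R007/MainEmb
section

/-!
# Row 7 (S0007): EMB, last glue (helper720, insurance copy of EmbTop).
-/

set_option autoImplicit false

open scoped MatrixGroups
open CongruenceSubgroup

namespace Crest.Agent.R007.Main

open Lat Emb

theorem cong_iff {F : Lat.X → ℂ} {c : ℚ → ZMod 2} : Link.Cong Coef.OO F c ↔ CC F c := by
  constructor
  · intro h r
    obtain ⟨a, ha, e⟩ := h r
    rw [e, mem_T2]
    exact ⟨a, ha, by rw [toC]; ring⟩
  · intro h r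
    obtain ⟨a, ha, e⟩ := mem_T2.1 (h r)
    exact ⟨a, ha, by rw [toC] at e; linear_combination e⟩

theorem coprime_Nrad {N l : ℕ} (hl : l.Prime) (hlN : ¬ l ∣ 2 * N) : l.Coprime (Op.Nrad N) := by
  have h1 : ¬ l ∣ N := fun h => hlN (Dvd.dvd.mul_left h 2)
  rw [Op.Nrad, Nat.Prime.coprime_iff_not_dvd hl, hl.dvd_mul, hl.prime.dvd_finset_prod_iff]
  rintro (h | ⟨p, hp, h⟩)
  · exact h1 h
  · rw [(Nat.prime_dvd_prime_iff_eq hl (Nat.prime_of_mem_primeFactors hp)).1 h] at h1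
    exact h1 (Nat.dvd_of_mem_primeFactors hp)

theorem exists_s (N : ℕ) [NeZero N] (l : ℕ) : ∃ s : SL(2, ℤ), (l.Prime ∧ ¬ l ∣ 2 * N) →
    s ∈ Gamma0 (Op.Nrad N) ∧ ((s 1 1 : ℤ) : ZMod (Op.Nrad N)) = l := by
  by_cases h : l.Prime ∧ ¬ l ∣ 2 * N
  · obtain ⟨s, h1, h2⟩ := Base.exists_gamma (Op.Nrad N) l (coprime_Nrad h.1 h.2)
    exact ⟨s, fun _ => ⟨h1, h2⟩⟩
  · exact ⟨1, fun h' => absurd h' h⟩

theorem emb' : EMB := by
  intro N _ hN c hfin
  have h2 : ¬ 2 ∣ N := hN.not_two_dvd_nat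
  have hodd : Odd (Op.Nrad N) :=
    Nat.not_even_iff_odd.1 fun h => Op.Nrad_odd h2 h.two_dvd
  have hM : Odd (3 * Op.Nrad N) := (by decide : Odd 3).mul hodd
  have hne : NeZero (3 * Op.Nrad N) := ⟨hM.pos.ne'⟩
  have H := Emb.exists_ctx (N := N) hN (M := 3 * Op.Nrad N) hM (dvd_mul_right _ _)
    (dvd_mul_left _ _) (HD.isDiamondFamily N) (HD.isHeckeFamily N) (HD.isDiamondFamily (Op.Nrad N))
    c.hl c.hlN c.l8 c.lN c.hn c.hnN c.n4 c.nN
  have hrep : ∀ w : Du.WW c hfin, ∃ (k : ℕ) (φ : EmbTop.St N k →+ ZMod 2),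
      EmbTop.Rep (Du.mk0 c) (Du.a1 c hfin) w φ := by
    intro w
    obtain ⟨k, φ, h⟩ := Du.exists_stage c hfin w
    exact ⟨k, φ, fun t s hts => Du.a1_stage c hfin w h s t hts⟩
  have hinv : ∀ (w : Du.WW c hfin) (k : ℕ) (φ : EmbTop.St N k →+ ZMod 2),
      EmbTop.Rep (Du.mk0 c) (Du.a1 c hfin) w φ → Inv c.l c.n φ := by
    intro w k φ h
    constructor
    · exact h.inv (by rw [EmbTop.eT'_eq N c.hl c.hlN]; exact Du.mk0_tE c hfin c.hl c.hlN c.lN)
    · exact h.inv (by rw [EmbTop.eT'_eq N c.hn c.hnN]; exact Du.mk0_tE c hfin c.hn c.hnN c.nN)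
  choose s hs using exists_s N
  have B := EmbQ.mkEmbOut Coef.OO (3 * Op.Nrad N) N (fun n hn z hz => Coef.root_mem hn hz)
    (Du.a1 c hfin) (fun l => Du.mk0 c (EmbTop.tT' N l)) (fun l => Du.mk0 c (EmbTop.eT' N l)) s
    (by
      intro w
      obtain ⟨k, φ, h⟩ := hrep w
      obtain ⟨K, f, hf, hfM, hc⟩ := H.surj (hinv w k φ h)
      refine ⟨K, f, hf, hfM, ?_⟩
      rw [h.Q_eq, cong_iff]
      exact hc)
    (by
      intro l hl hlN w K F hF hFM hc
      obtain ⟨k, φ, h⟩ := hrep w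
      rw [h.Q_eq, cong_iff] at hc
      rw [(h.mulR l).Q_eq, cong_iff]
      exact H.dia (fun n G hG hi c hc => inv_all hG hi c hc) (hinv w k φ h) hF hc hl hlN
        (hs l ⟨hl, hlN⟩).1 (hs l ⟨hl, hlN⟩).2)
  refine ⟨3 * Op.Nrad N, hne, dvd_mul_right _ _, ⟨?_⟩⟩
  have hg : (EmbQ.gen (N := N) (fun l => Du.mk0 c (EmbTop.tT' N l))
      (fun l => Du.mk0 c (EmbTop.eT' N l))) = Du.gen0 c := by
    funext i
    obtain ⟨⟨l, hl, hlN⟩, b⟩ := i
    cases b with
    | true =>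
      change Du.mk0 c (EmbTop.tT' N l) = Du.mk0 c (Du.tT hl hlN)
      rw [EmbTop.tT'_eq N hl hlN]
    | false =>
      change Du.mk0 c (EmbTop.eT' N l) = Du.mk0 c (Du.tE hl hlN)
      rw [EmbTop.eT'_eq N hl hlN]
  exact hg ▸ B

end Crest.Agent.R007.Main
end

-- ▼ part R007/Main6

/-!
# Row 7 (S0007): MAIN assembly, part 6 (helper720): the end.
-/

set_option autoImplicit false

open Crest.NumberTheoryR.HeckeTwoAdic

namespace Crest.Agent.R007.Main

/-- **S0007.** -/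
theorem main (N : ℕ) (hN : Odd N) :
    ∃ (T D : ℕ → (i : ℕ) → (MF N i →ₗ[ℂ] MF N i)),
      IsDiamondFamily N D ∧ IsHeckeFamily N T D ∧
      ∃ hcomm : ∀ a b : HeckeTwo N T D, a * b = b * a,
        Nontrivial (HeckeTwo N T D) ∧
        ∀ P : Ideal (HeckeTwo N T D),
          P ∈ @minimalPrimes (HeckeTwo N T D) (commRingOfComm (HeckeTwo N T D) hcomm).toCommSemiring →
          @ringKrullDim (HeckeTwo N T D ⧸ P)
            (@Ideal.Quotient.commRing (HeckeTwo N T D) (commRingOfComm (HeckeTwo N T D) hcomm) P).toCommSemiring ≤ 4 :=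
  S0007_of emb' N hN

end Crest.Agent.R007.Main
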