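import Mathlib

-- ▼ part R007/Wp1
section

/-!
R007/Wp1: Weierstrass division values: definitions, periodicity, parity, SL2(Z)-equivariance.
-/

set_option autoImplicit false

namespace Crest.Agent.R007.Wp

open UpperHalfPlane hiding I
open Complex PeriodPair ModularForm Matrix
open scoped MatrixGroups Real PeriodPair

noncomputable section

/-- The period pair `(τ, 1)`. -/
def PP (τ : ℍ) : PeriodPair where
  ω₁ := τ
  ω₂ := 1
  indep := by
    rw [LinearIndependent.pair_iff]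
    intro s t h
    have him := congrArg Complex.im h
    simp only [real_smul, add_im, mul_im, ofReal_re, ofReal_im, zero_mul, add_zero, mul_one,
      one_im, zero_im, UpperHalfPlane.coe_im] at him
    have hs : s = 0 := by
      have := τ.im_pos.ne'
      simpa [this] using him
    subst hs
    simp at h
    exact ⟨rfl, by exact_mod_cast h⟩

@[simp] lemma PP_ω₁ (τ : ℍ) : (PP τ).ω₁ = (τ : ℂ) := rfl
@[simp] lemma PP_ω₂ (τ : ℍ) : (PP τ).ω₂ = 1 := rfl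

lemma mem_PP {τ : ℍ} {x : ℂ} : x ∈ (PP τ).lattice ↔ ∃ m n : ℤ, (m : ℂ) * τ + n = x := by
  rw [PeriodPair.mem_lattice]; simp

/-- If `c • L = L'` then `℘[L'](c z) = c⁻² ℘[L](z)`. -/
lemma weierstrassP_scale {L L' : PeriodPair} {c : ℂ} (hc : c ≠ 0)
    (h : ∀ x, x ∈ L.lattice ↔ c * x ∈ L'.lattice) (z : ℂ) :
    ℘[L'] (c * z) = (c ^ 2)⁻¹ * ℘[L] z := by
  let e : L.lattice ≃ L'.lattice :=
    { toFun := fun x => ⟨c * x, (h _).1 x.2⟩
      invFun := fun y => ⟨c⁻¹ * y, (h _).2 (by rw [mul_inv_cancel_left₀ hc]; exact y.2)⟩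
      left_inv := fun x => by ext; simp [inv_mul_cancel_left₀ hc]
      right_inv := fun y => by ext; simp [mul_inv_cancel_left₀ hc] }
  rw [weierstrassP, weierstrassP, ← e.tsum_eq, ← tsum_mul_left]
  congr 1
  ext l
  have : ((e l : L'.lattice) : ℂ) = c * l := rfl
  rw [this, ← mul_sub, mul_pow, mul_pow]
  rw [one_div, one_div, mul_inv, mul_inv, one_div, one_div, mul_sub]

lemma derivWeierstrassP_scale {L L' : PeriodPair} {c : ℂ} (hc : c ≠ 0)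
    (h : ∀ x, x ∈ L.lattice ↔ c * x ∈ L'.lattice) (z : ℂ) :
    ℘'[L'] (c * z) = (c ^ 3)⁻¹ * ℘'[L] z := by
  let e : L.lattice ≃ L'.lattice :=
    { toFun := fun x => ⟨c * x, (h _).1 x.2⟩
      invFun := fun y => ⟨c⁻¹ * y, (h _).2 (by rw [mul_inv_cancel_left₀ hc]; exact y.2)⟩
      left_inv := fun x => by ext; simp [inv_mul_cancel_left₀ hc]
      right_inv := fun y => by ext; simp [mul_inv_cancel_left₀ hc] }
  rw [derivWeierstrassP, derivWeierstrassP, ← e.tsum_eq, mul_neg, ← tsum_mul_left]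
  congr 2
  ext l
  have : ((e l : L'.lattice) : ℂ) = c * l := rfl
  rw [this, ← mul_sub, mul_pow]
  rw [div_eq_mul_inv, div_eq_mul_inv, mul_inv]
  ring

/-- The division point `(v₀ τ + v₁)/M`. -/
def pt (M : ℕ) (v : Fin 2 → ℤ) (τ : ℍ) : ℂ := ((v 0 : ℂ) * τ + v 1) / M

/-- Normalised division value `(2πi)⁻² ℘((v₀τ+v₁)/M)`. -/
def P (M : ℕ) (v : Fin 2 → ℤ) (τ : ℍ) : ℂ := ((2 * π * I) ^ 2)⁻¹ * ℘[PP τ] (pt M v τ)

/-- Normalised division value `(2πi)⁻³ ℘'((v₀τ+v₁)/M)`. -/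
def Q (M : ℕ) (v : Fin 2 → ℤ) (τ : ℍ) : ℂ := ((2 * π * I) ^ 3)⁻¹ * ℘'[PP τ] (pt M v τ)

lemma pt_add {M : ℕ} (hM : M ≠ 0) (v w : Fin 2 → ℤ) (τ : ℍ) :
    pt M (v + (M : ℤ) • w) τ = pt M v τ + ((w 0 : ℂ) * τ + w 1) := by
  have : (M : ℂ) ≠ 0 := by exact_mod_cast hM
  simp only [pt, Pi.add_apply, Pi.smul_apply, smul_eq_mul]
  push_cast
  field_simp
  ring

lemma pt_neg (M : ℕ) (v : Fin 2 → ℤ) (τ : ℍ) : pt M (-v) τ = - pt M v τ := by
  simp only [pt, Pi.neg_apply]; push_cast; ring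

lemma P_add {M : ℕ} (hM : M ≠ 0) (v w : Fin 2 → ℤ) : P M (v + (M : ℤ) • w) = P M v := by
  funext τ
  have hl : ((w 0 : ℂ) * τ + w 1) ∈ (PP τ).lattice := mem_PP.2 ⟨w 0, w 1, rfl⟩
  rw [P, P, pt_add hM]
  congr 1
  exact (PP τ).weierstrassP_add_coe _ ⟨_, hl⟩

lemma Q_add {M : ℕ} (hM : M ≠ 0) (v w : Fin 2 → ℤ) : Q M (v + (M : ℤ) • w) = Q M v := by
  funext τ
  have hl : ((w 0 : ℂ) * τ + w 1) ∈ (PP τ).lattice := mem_PP.2 ⟨w 0, w 1, rfl⟩
  rw [Q, Q, pt_add hM]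
  congr 1
  exact (PP τ).derivWeierstrassP_add_coe _ ⟨_, hl⟩

lemma P_neg (M : ℕ) (v : Fin 2 → ℤ) : P M (-v) = P M v := by
  funext τ; rw [P, P, pt_neg, weierstrassP_neg]

lemma Q_neg (M : ℕ) (v : Fin 2 → ℤ) : Q M (-v) = - Q M v := by
  funext τ; rw [Pi.neg_apply, Q, Q, pt_neg, derivWeierstrassP_neg]; ring

/-- `v` and `w` congruent mod `M`. -/
lemma P_congr {M : ℕ} (hM : M ≠ 0) {v w : Fin 2 → ℤ} (h : ∀ i, (v i : ZMod M) = w i) :
    P M v = P M w := by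
  have : ∃ u : Fin 2 → ℤ, v = w + (M : ℤ) • u := by
    have h' : ∀ i, ∃ t : ℤ, v i = w i + M * t := fun i => by
      have := (ZMod.intCast_eq_intCast_iff_dvd_sub (w i) (v i) M).1 (h i).symm
      obtain ⟨t, ht⟩ := this
      exact ⟨t, by linarith⟩
    choose t ht using h'
    exact ⟨t, by ext i; simp [ht i]⟩
  obtain ⟨u, rfl⟩ := this
  exact P_add hM w u

lemma Q_congr {M : ℕ} (hM : M ≠ 0) {v w : Fin 2 → ℤ} (h : ∀ i, (v i : ZMod M) = w i) :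
    Q M v = Q M w := by
  have : ∃ u : Fin 2 → ℤ, v = w + (M : ℤ) • u := by
    have h' : ∀ i, ∃ t : ℤ, v i = w i + M * t := fun i => by
      have := (ZMod.intCast_eq_intCast_iff_dvd_sub (w i) (v i) M).1 (h i).symm
      obtain ⟨t, ht⟩ := this
      exact ⟨t, by linarith⟩
    choose t ht using h'
    exact ⟨t, by ext i; simp [ht i]⟩
  obtain ⟨u, rfl⟩ := this
  exact Q_add hM w u

section slash

variable (γ : SL(2, ℤ)) (τ : ℍ)

lemma coe_smul_eq : ((γ • τ : ℍ) : ℂ) * denom γ τ = (γ 0 0 : ℂ) * τ + γ 0 1 := by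
  have h := UpperHalfPlane.specialLinearGroup_apply γ τ
  have hd : denom γ τ ≠ 0 := denom_ne_zero _ _
  rw [h]
  simp only [algebraMap_int_eq, eq_intCast, ofReal_intCast]
  have : denom γ τ = (γ 1 0 : ℂ) * τ + γ 1 1 := by
    simp [denom]
  rw [← this, div_mul_cancel₀ _ hd]

lemma denom_eq' : denom γ τ = (γ 1 0 : ℂ) * τ + γ 1 1 := by
  simp [denom]

lemma lattice_smul (x : ℂ) :
    x ∈ (PP (γ • τ)).lattice ↔ denom γ τ * x ∈ (PP τ).lattice := by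
  have hd : denom γ τ ≠ 0 := denom_ne_zero _ _
  have hdet : (γ 0 0 : ℤ) * γ 1 1 - γ 0 1 * γ 1 0 = 1 := by
    have := γ.det_coe; rwa [Matrix.det_fin_two] at this
  constructor
  · rintro hx
    obtain ⟨m, n, rfl⟩ := mem_PP.1 hx
    refine mem_PP.2 ⟨m * γ 0 0 + n * γ 1 0, m * γ 0 1 + n * γ 1 1, ?_⟩
    have e1 := coe_smul_eq γ τ
    have e2 := denom_eq' γ τ
    push_cast
    linear_combination (-(m : ℂ)) * e1 - (n : ℂ) * e2
  · intro hx
    obtain ⟨m, n, hmn⟩ := mem_PP.1 hx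
    refine mem_PP.2 ⟨m * γ 1 1 - n * γ 1 0, - m * γ 0 1 + n * γ 0 0, ?_⟩
    apply mul_left_cancel₀ hd
    rw [← hmn]
    have e1 := coe_smul_eq γ τ
    have e2 := denom_eq' γ τ
    have e3 : (γ 0 0 : ℂ) * γ 1 1 - γ 0 1 * γ 1 0 = 1 := by exact_mod_cast hdet
    push_cast
    linear_combination ((m : ℂ) * γ 1 1 - n * γ 1 0) * e1 + (- (m : ℂ) * γ 0 1 + n * γ 0 0) * e2 +
      ((m : ℂ) * τ + n) * e3

lemma pt_smul (M : ℕ) (v : Fin 2 → ℤ) :
    denom γ τ * pt M v (γ • τ) = pt M (v ᵥ* (γ : Matrix (Fin 2) (Fin 2) ℤ)) τ := by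
  have e1 := coe_smul_eq γ τ
  have e2 := denom_eq' γ τ
  simp only [pt, Matrix.vecMul, dotProduct, Fin.sum_univ_two]
  push_cast
  rw [← mul_div_assoc]
  congr 1
  linear_combination (v 0 : ℂ) * e1 + (v 1 : ℂ) * e2

theorem P_slash (M : ℕ) (v : Fin 2 → ℤ) :
    P M v ∣[(2 : ℤ)] γ = P M (v ᵥ* (γ : Matrix (Fin 2) (Fin 2) ℤ)) := by
  funext τ
  have hd : denom γ τ ≠ 0 := denom_ne_zero _ _
  rw [ModularForm.SL_slash_apply, P, P, ← pt_smul γ τ,
    weierstrassP_scale hd (lattice_smul γ τ)]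
  rw [_root_.zpow_neg]
  norm_cast
  ring

theorem Q_slash (M : ℕ) (v : Fin 2 → ℤ) :
    Q M v ∣[(3 : ℤ)] γ = Q M (v ᵥ* (γ : Matrix (Fin 2) (Fin 2) ℤ)) := by
  funext τ
  have hd : denom γ τ ≠ 0 := denom_ne_zero _ _
  rw [ModularForm.SL_slash_apply, Q, Q, ← pt_smul γ τ,
    derivWeierstrassP_scale hd (lattice_smul γ τ)]
  rw [_root_.zpow_neg]
  norm_cast
  ring

end slash

end

end Crest.Agent.R007.Wp
end

-- ▼ part R007/Wp2
section

/-!
R007/Wp2: q-series of Weierstrass division values.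
-/

set_option autoImplicit false

namespace Crest.Agent.R007.Wp

open UpperHalfPlane hiding I
open Complex PeriodPair ModularForm Matrix Function
open scoped MatrixGroups Real PeriodPair Nat

local notation "𝕢" => Function.Periodic.qParam

noncomputable section

/-- The root of unity `exp(2πi/M)`. -/
def zeta (M : ℕ) : ℂ := cexp (2 * π * I / M)

lemma zeta_ne_zero (M : ℕ) : zeta M ≠ 0 := exp_ne_zero _

lemma norm_zeta (M : ℕ) : ‖zeta M‖ = 1 := by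
  rw [zeta, show (2 * π * I / M : ℂ) = ((2 * π / M : ℝ) : ℂ) * I by push_cast; ring]
  exact norm_exp_ofReal_mul_I _

lemma zeta_pow (M : ℕ) (hM : M ≠ 0) : zeta M ^ M = 1 := by
  have : (M : ℂ) ≠ 0 := by exact_mod_cast hM
  rw [zeta, ← Complex.exp_nat_mul, mul_div_cancel₀ _ this, exp_two_pi_mul_I]

lemma isPrimitiveRoot_zeta {M : ℕ} (hM : M ≠ 0) : IsPrimitiveRoot (zeta M) M :=
  Complex.isPrimitiveRoot_exp M hM

/-- Row sums. -/
def row (s : ℕ) (w : ℂ) : ℂ := ∑' n : ℤ, 1 / (w + n) ^ s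

lemma summable_row {s : ℕ} (hs : 2 ≤ s) (w : ℂ) : Summable fun n : ℤ => 1 / (w + n) ^ s := by
  have h := EisensteinSeries.linear_right_summable w 1 (k := (s : ℤ)) (by exact_mod_cast hs)
  refine h.congr fun n => ?_
  rw [one_div, zpow_natCast]; simp

lemma row_neg (s : ℕ) (w : ℂ) : row s (-w) = (-1) ^ s * row s w := by
  rw [row, row, ← (Equiv.neg ℤ).tsum_eq, ← tsum_mul_left]
  congr 1
  ext n
  rw [Equiv.neg_apply, Int.cast_neg, ← neg_add, neg_pow, one_div, mul_inv, one_div]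
  congr 1
  rw [← inv_pow]; norm_num

/-- The Lipschitz formula. -/
lemma row_eq {s : ℕ} (hs : 1 ≤ s) {w : ℂ} (hw : 0 < w.im) :
    row (s + 1) w = ((-2 * π * I) ^ (s + 1) / s !) *
      ∑' d : ℕ+, (d : ℂ) ^ s * cexp (2 * π * I * w) ^ (d : ℕ) :=
  EisensteinSeries.qExpansion_identity_pnat hs ⟨w, hw⟩

/-- general rearrangement of Lambert series -/
lemma hasSum_lambert {χ : ℕ → ℕ → ℂ} {k : ℕ} {C : ℝ} (hχ : ∀ d e, ‖χ d e‖ ≤ C * (d : ℝ) ^ k)
    (c0 : ℂ) {q : ℂ} (hq : ‖q‖ < 1) :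
    HasSum (fun n : ℕ => ((if n = 0 then c0 else 0) +
        ∑ p ∈ n.divisorsAntidiagonal, χ p.2 p.1) * q ^ n)
      (c0 + ∑' e : ℕ+, ∑' d : ℕ+, χ d e * q ^ (e * d : ℕ)) := by
  have hsum : Summable fun p : ℕ+ × ℕ+ => χ p.2 p.1 * q ^ (p.1 * p.2 : ℕ) := by
    have h1 : Summable fun c : (ℕ+ × ℕ+) ↦ C * ((c.2 : ℝ) ^ k * (‖q‖ ^ (c.1 * c.2 : ℕ))) :=
      (summable_prod_mul_pow (𝕜 := ℝ) k (r := ‖q‖) (by simpa using hq)).mul_left C
    refine Summable.of_norm_bounded h1 fun c => ?_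
    rw [norm_mul, norm_pow, ← mul_assoc]
    exact mul_le_mul_of_nonneg_right (hχ _ _) (by positivity)
  have e1 : ∑' e : ℕ+, ∑' d : ℕ+, χ d e * q ^ (e * d : ℕ) =
      ∑' p : ℕ+ × ℕ+, χ p.2 p.1 * q ^ (p.1 * p.2 : ℕ) := (hsum.tsum_prod).symm
  have h2 := hsum.hasSum
  rw [← e1, ← sigmaAntidiagonalEquivProd.hasSum_iff] at h2
  have h3 := h2.sigma (g := fun n : ℕ+ => (∑ p ∈ (n : ℕ).divisorsAntidiagonal, χ p.2 p.1) *
      q ^ (n : ℕ)) (fun n => by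
    have : HasSum (fun c : (n : ℕ).divisorsAntidiagonal =>
        ((fun p : ℕ+ × ℕ+ => χ p.2 p.1 * q ^ (p.1 * p.2 : ℕ)) ∘ sigmaAntidiagonalEquivProd)
          ⟨n, c⟩) (∑ c : (n : ℕ).divisorsAntidiagonal,
        ((fun p : ℕ+ × ℕ+ => χ p.2 p.1 * q ^ (p.1 * p.2 : ℕ)) ∘ sigmaAntidiagonalEquivProd)
          ⟨n, c⟩) := hasSum_fintype _
    convert this using 1
    rw [Finset.sum_mul, ← Finset.sum_attach]
    apply Finset.sum_congr rfl
    intro c _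
    have hc : c.1.1 * c.1.2 = n := (Nat.mem_divisorsAntidiagonal.1 c.2).1
    simp only [Function.comp_apply, sigmaAntidiagonalEquivProd, divisorsAntidiagonalFactors,
      Equiv.coe_fn_mk, PNat.mk_coe]
    rw [hc])
  have h4 : HasSum (fun n : ℕ+ => (fun n : ℕ => ((if n = 0 then c0 else 0) +
        ∑ p ∈ n.divisorsAntidiagonal, χ p.2 p.1) * q ^ n) (n : ℕ))
        (∑' e : ℕ+, ∑' d : ℕ+, χ d e * q ^ (e * d : ℕ)) := by
    convert h3 using 1
    funext n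
    simp [n.ne_zero]
  have h5 := (hasSum_pnat_iff (f := fun n : ℕ => ((if n = 0 then c0 else 0) +
        ∑ p ∈ n.divisorsAntidiagonal, χ p.2 p.1) * q ^ n)).1 h4
  have e6 : ((if (0 : ℕ) = 0 then c0 else 0) + ∑ p ∈ Nat.divisorsAntidiagonal 0, χ p.2 p.1) *
      q ^ 0 = c0 := by simp
  rw [e6, add_comm] at h5
  exact h5

/-- The constant in the Lipschitz formula. -/
def KK (s : ℕ) : ℂ := (-2 * π * I) ^ (s + 1) / s !

/-- `∑_d d^s z^d q^{ed}`. -/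
def AA (s : ℕ) (z q : ℂ) (e : ℕ) : ℂ := ∑' d : ℕ+, (d : ℂ) ^ s * z ^ (d : ℕ) * q ^ (e * d : ℕ)

lemma summable_prodAA (s : ℕ) {z q : ℂ} (hz : ‖z‖ = 1) (hq : ‖q‖ < 1) :
    Summable fun p : ℕ+ × ℕ+ => (p.2 : ℂ) ^ s * z ^ (p.2 : ℕ) * q ^ (p.1 * p.2 : ℕ) := by
  have h1 : Summable fun c : (ℕ+ × ℕ+) ↦ ((c.2 : ℝ) ^ s * (‖q‖ ^ (c.1 * c.2 : ℕ))) :=
    (summable_prod_mul_pow (𝕜 := ℝ) s (r := ‖q‖) (by simpa using hq))
  refine Summable.of_norm_bounded h1 fun c => ?_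
  rw [norm_mul, norm_mul, norm_pow, norm_pow, norm_pow, hz, one_pow, mul_one]
  simp

lemma summable_AA (s : ℕ) {z q : ℂ} (hz : ‖z‖ = 1) (hq : ‖q‖ < 1) :
    Summable fun e : ℕ+ => AA s z q e :=
  (summable_prodAA s hz hq).prod

lemma norm_zeta_zpow (M : ℕ) (β : ℤ) : ‖zeta M ^ β‖ = 1 := by
  rw [norm_zpow, norm_zeta, _root_.one_zpow]

lemma norm_q_lt {M : ℕ} (hM : M ≠ 0) (τ : ℍ) : ‖𝕢 (M : ℝ) (τ : ℂ)‖ < 1 :=
  Periodic.norm_qParam_lt_one (by exact_mod_cast Nat.pos_of_ne_zero hM) τ.im_pos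

lemma row_pos {M : ℕ} (hM : M ≠ 0) {s : ℕ} (hs : 1 ≤ s) (τ : ℍ) (β : ℤ) (e : ℕ+) :
    row (s + 1) ((((e : ℤ) : ℂ) * τ + β) / M) = KK s * AA s (zeta M ^ β) (𝕢 (M : ℝ) (τ : ℂ)) e := by
  have hM' : (M : ℂ) ≠ 0 := by exact_mod_cast hM
  have him : 0 < ((((e : ℤ) : ℂ) * τ + β) / M).im := by
    have e1 : ((((e : ℤ) : ℂ) * τ + β) / M).im = e * τ.im / M := by
      rw [Complex.div_natCast_im]
      simp
    rw [e1]
    have := τ.im_pos
    have : (0 : ℝ) < M := by positivity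
    positivity
  rw [row_eq hs him, KK, AA]
  congr 2
  funext d
  have e2 : cexp (2 * π * I * ((((e : ℤ) : ℂ) * τ + β) / M)) =
      zeta M ^ β * 𝕢 (M : ℝ) (τ : ℂ) ^ (e : ℕ) := by
    rw [zeta, Periodic.qParam, ← Complex.exp_int_mul, ← Complex.exp_nat_mul, ← Complex.exp_add]
    congr 1
    push_cast
    field_simp
    ring
  rw [e2, mul_pow, ← pow_mul, mul_assoc]

lemma row_negE {M : ℕ} (hM : M ≠ 0) {s : ℕ} (hs : 1 ≤ s) (τ : ℍ) (β : ℤ) (e : ℕ+) :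
    row (s + 1) ((((-(e : ℤ) : ℤ) : ℂ) * τ + β) / M) =
      (-1) ^ (s + 1) * (KK s * AA s (zeta M ^ (-β)) (𝕢 (M : ℝ) (τ : ℂ)) e) := by
  rw [← row_pos hM hs, ← row_neg]
  congr 1
  push_cast
  ring

/-- The residue class row sums. -/
def FF (M : ℕ) (s : ℕ) (τ : ℍ) (a β : ℤ) (e : ℤ) : ℂ :=
  if (e : ZMod M) = a then row (s + 1) (((e : ℂ) * τ + β) / M) else 0

/-- coefficient of the Lambert series -/
def chi (M : ℕ) (s : ℕ) (a β : ℤ) (d e : ℕ) : ℂ :=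
  (if ((e : ℤ) : ZMod M) = a then (d : ℂ) ^ s * (zeta M ^ β) ^ d else 0) +
  (-1) ^ (s + 1) * (if ((-(e : ℤ) : ℤ) : ZMod M) = a then (d : ℂ) ^ s * (zeta M ^ (-β)) ^ d else 0)

lemma norm_chi_le (M : ℕ) (s : ℕ) (a β : ℤ) (d e : ℕ) : ‖chi M s a β d e‖ ≤ 2 * (d : ℝ) ^ s := by
  have h1 : ∀ β : ℤ, ‖(d : ℂ) ^ s * (zeta M ^ β) ^ d‖ = (d : ℝ) ^ s := fun β => by
    rw [norm_mul, norm_pow, norm_pow, norm_zeta_zpow, one_pow, mul_one]; simp
  have h2 : ∀ (p : Prop) [Decidable p] (β : ℤ),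
      ‖(if p then (d : ℂ) ^ s * (zeta M ^ β) ^ d else 0)‖ ≤ (d : ℝ) ^ s := fun p _ β => by
    split_ifs
    · exact (h1 β).le
    · rw [norm_zero]; positivity
  refine (norm_add_le _ _).trans ?_
  rw [norm_mul, norm_pow, norm_neg, norm_one, one_pow, one_mul, two_mul]
  exact add_le_add (h2 _ _) (h2 _ _)

lemma FF_pos {M : ℕ} (hM : M ≠ 0) {s : ℕ} (hs : 1 ≤ s) (τ : ℍ) (a β : ℤ) (e : ℕ+) :
    FF M s τ a β (e : ℤ) = if ((e : ℤ) : ZMod M) = a then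
      KK s * AA s (zeta M ^ β) (𝕢 (M : ℝ) (τ : ℂ)) e else 0 := by
  rw [FF]; split_ifs
  · exact row_pos hM hs τ β e
  · rfl

lemma FF_neg {M : ℕ} (hM : M ≠ 0) {s : ℕ} (hs : 1 ≤ s) (τ : ℍ) (a β : ℤ) (e : ℕ+) :
    FF M s τ a β (-(e : ℤ)) = if ((-(e : ℤ) : ℤ) : ZMod M) = a then
      (-1) ^ (s + 1) * (KK s * AA s (zeta M ^ (-β)) (𝕢 (M : ℝ) (τ : ℂ)) e) else 0 := by
  rw [FF]; split_ifs
  · exact row_negE hM hs τ β e
  · rfl

lemma summable_FF {M : ℕ} (hM : M ≠ 0) {s : ℕ} (hs : 1 ≤ s) (τ : ℍ) (a β : ℤ) :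
    Summable (FF M s τ a β) := by
  have hq := norm_q_lt hM τ
  rw [summable_int_iff_summable_nat_and_neg]
  constructor
  · rw [← summable_pnat_iff_summable_nat (f := fun n : ℕ => FF M s τ a β (n : ℤ))]
    have h1 := (summable_AA s (norm_zeta_zpow M β) hq).norm.mul_left ‖KK s‖
    refine Summable.of_norm_bounded h1 fun e => ?_
    have := FF_pos hM hs τ a β e
    rw [this]
    split_ifs
    · rw [norm_mul]
    · rw [norm_zero]; positivity
  · rw [← summable_pnat_iff_summable_nat (f := fun n : ℕ => FF M s τ a β (-(n : ℤ)))]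
    have h1 := (summable_AA s (norm_zeta_zpow M (-β)) hq).norm.mul_left ‖KK s‖
    refine Summable.of_norm_bounded h1 fun e => ?_
    have := FF_neg hM hs τ a β e
    rw [this]
    split_ifs
    · rw [norm_mul, norm_mul, norm_pow, norm_neg, norm_one, one_pow, one_mul]
    · rw [norm_zero]; positivity

/-- Value of the residue class row sum. -/
theorem tsum_FF {M : ℕ} (hM : M ≠ 0) {s : ℕ} (hs : 1 ≤ s) (τ : ℍ) (a β : ℤ) :
    ∑' e : ℤ, FF M s τ a β e = (if (a : ZMod M) = 0 then row (s + 1) ((β : ℂ) / M) else 0) +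
      KK s * ∑' e : ℕ+, ∑' d : ℕ+, chi M s a β d e * 𝕢 (M : ℝ) (τ : ℂ) ^ (e * d : ℕ) := by
  have hq := norm_q_lt hM τ
  rw [tsum_int_eq_zero_add_tsum_pnat (summable_FF hM hs τ a β), add_assoc]
  congr 1
  · rw [FF]
    simp only [Int.cast_zero, zero_mul, zero_add]
    by_cases h : (a : ZMod M) = 0
    · rw [if_pos h, if_pos h.symm]
    · rw [if_neg h, if_neg (fun h' => h h'.symm)]
  · have s1 : Summable fun e : ℕ+ => FF M s τ a β (e : ℤ) := by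
      have h1 := (summable_AA s (norm_zeta_zpow M β) hq).norm.mul_left ‖KK s‖
      refine Summable.of_norm_bounded h1 fun e => ?_
      rw [FF_pos hM hs τ a β e]
      split_ifs
      · rw [norm_mul]
      · rw [norm_zero]; positivity
    have s2 : Summable fun e : ℕ+ => FF M s τ a β (-(e : ℤ)) := by
      have h1 := (summable_AA s (norm_zeta_zpow M (-β)) hq).norm.mul_left ‖KK s‖
      refine Summable.of_norm_bounded h1 fun e => ?_
      rw [FF_neg hM hs τ a β e]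
      split_ifs
      · rw [norm_mul, norm_mul, norm_pow, norm_neg, norm_one, one_pow, one_mul]
      · rw [norm_zero]; positivity
    rw [← s1.tsum_add s2, ← tsum_mul_left]
    congr 1
    funext e
    rw [FF_pos hM hs τ a β e, FF_neg hM hs τ a β e]
    have t1 : ∀ z : ℂ, ‖z‖ = 1 →
        Summable fun d : ℕ+ => (d : ℂ) ^ s * z ^ (d : ℕ) * 𝕢 (M : ℝ) (τ : ℂ) ^ (e * d : ℕ) :=
      fun z hz => (summable_prodAA s hz hq).prod_factor e
    have t2 := t1 _ (norm_zeta_zpow M β)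
    have t3 := t1 _ (norm_zeta_zpow M (-β))
    have e1 : ∀ d : ℕ+, chi M s a β d e * 𝕢 (M : ℝ) (τ : ℂ) ^ (e * d : ℕ) =
        (if ((e : ℤ) : ZMod M) = a then 1 else 0) *
          ((d : ℂ) ^ s * (zeta M ^ β) ^ (d : ℕ) * 𝕢 (M : ℝ) (τ : ℂ) ^ (e * d : ℕ)) +
        ((-1) ^ (s + 1) * if ((-(e : ℤ) : ℤ) : ZMod M) = a then 1 else 0) *
          ((d : ℂ) ^ s * (zeta M ^ (-β)) ^ (d : ℕ) * 𝕢 (M : ℝ) (τ : ℂ) ^ (e * d : ℕ)) := by
      intro d
      rw [chi]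
      split_ifs <;> ring
    rw [tsum_congr e1, (t2.mul_left _).tsum_add (t3.mul_left _), tsum_mul_left, tsum_mul_left,
      AA, AA]
    split_ifs <;> ring

end

end Crest.Agent.R007.Wp
end

-- ▼ part R007/Wp3
section

/-!
R007/Wp3: q-expansions of the Weierstrass division values.
-/

set_option autoImplicit false

namespace Crest.Agent.R007.Wp

open UpperHalfPlane hiding I
open Complex PeriodPair ModularForm Matrix Function Filter
open scoped MatrixGroups Real PeriodPair Nat Topology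

local notation "𝕢" => Function.Periodic.qParam

noncomputable section

lemma _root_.HasSum.congr_fun' {ι : Type*} {f g : ι → ℂ} {a : ℂ} (h : HasSum f a)
    (hfg : ∀ i, g i = f i) : HasSum g a := by
  have : g = f := funext hfg
  rw [this]; exact h

lemma hasSum_prod_deriv (τ : ℍ) (z : ℂ) :
    HasSum (fun x : ℤ × ℤ => -2 / (z - ((x.1 : ℂ) * τ + x.2)) ^ 3) (℘'[PP τ] z) := by
  have h := (PP τ).hasSum_derivWeierstrassP z
  rw [← (PP τ).latticeEquivProd.symm.toEquiv.hasSum_iff] at h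
  convert h using 1
  funext x
  simp only [Function.comp_apply, LinearEquiv.coe_toEquiv, latticeEquiv_symm_apply]
  simp

lemma hasSum_prod_P (τ : ℍ) (z : ℂ) :
    HasSum (fun x : ℤ × ℤ => 1 / (z - ((x.1 : ℂ) * τ + x.2)) ^ 2 - 1 / ((x.1 : ℂ) * τ + x.2) ^ 2)
      (℘[PP τ] z) := by
  have h := (PP τ).hasSum_weierstrassP z
  rw [← (PP τ).latticeEquivProd.symm.toEquiv.hasSum_iff] at h
  convert h using 1
  funext x
  simp only [Function.comp_apply, LinearEquiv.coe_toEquiv, latticeEquiv_symm_apply]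
  simp

lemma hasSum_row_sub {s : ℕ} (hs : 2 ≤ s) (w : ℂ) :
    HasSum (fun n : ℤ => 1 / (w - n) ^ s) (row s w) := by
  have h : HasSum (fun n : ℤ => 1 / (w + n) ^ s) (row s w) := (summable_row hs w).hasSum
  rw [← (Equiv.neg ℤ).hasSum_iff] at h
  refine h.congr_fun' fun n => ?_
  simp [sub_eq_add_neg]

lemma hasSum_rows_deriv (τ : ℍ) (z : ℂ) :
    HasSum (fun m : ℤ => -2 * row 3 (z - (m : ℂ) * τ)) (℘'[PP τ] z) := by
  refine (hasSum_prod_deriv τ z).prod_fiberwise fun m => ?_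
  have h := (hasSum_row_sub (s := 3) (by norm_num) (z - (m : ℂ) * τ)).mul_left (-2)
  refine h.congr_fun' fun n => ?_
  rw [sub_sub, div_eq_mul_one_div]

lemma hasSum_rows_P (τ : ℍ) (z : ℂ) :
    HasSum (fun m : ℤ => row 2 (z - (m : ℂ) * τ) - row 2 ((m : ℂ) * τ)) (℘[PP τ] z) := by
  refine (hasSum_prod_P τ z).prod_fiberwise fun m => ?_
  have h := (hasSum_row_sub (s := 2) (by norm_num) (z - (m : ℂ) * τ))
  have h2 : HasSum (fun n : ℤ => 1 / ((m : ℂ) * τ + n) ^ 2) (row 2 ((m : ℂ) * τ)) :=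
    (summable_row (s := 2) (by norm_num) ((m : ℂ) * τ)).hasSum
  have h3 := h.sub h2
  refine h3.congr_fun' fun n => ?_
  rw [sub_sub]

lemma inj_aux {M : ℕ} (hM : M ≠ 0) (a : ℤ) : Function.Injective fun m : ℤ => a - m * M := by
  intro m n h
  have hM' : (M : ℤ) ≠ 0 := by exact_mod_cast hM
  have : m * (M : ℤ) = n * M := by simpa using h
  exact mul_right_cancel₀ hM' this

lemma hasSum_FF_iff {M : ℕ} (hM : M ≠ 0) (s : ℕ) (τ : ℍ) (v : Fin 2 → ℤ) (S : ℂ) :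
    HasSum (fun m : ℤ => row (s + 1) (pt M v τ - (m : ℂ) * τ)) S ↔
      HasSum (FF M s τ (v 0) (v 1)) S := by
  have hM' : (M : ℂ) ≠ 0 := by exact_mod_cast hM
  rw [← (inj_aux hM (v 0)).hasSum_iff (f := FF M s τ (v 0) (v 1))]
  · apply iff_of_eq
    congr 1
    funext m
    simp only [Function.comp_apply, FF]
    rw [if_pos (by push_cast; simp)]
    congr 1
    rw [pt]
    push_cast
    field_simp
    ring
  · intro e he
    rw [FF, if_neg]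
    intro h
    apply he
    have := (ZMod.intCast_eq_intCast_iff_dvd_sub e (v 0) M).1 h
    obtain ⟨t, ht⟩ := this
    exact ⟨t, by show v 0 - t * M = e; linarith⟩

lemma pt_zero (M : ℕ) (τ : ℍ) : pt M 0 τ = 0 := by simp [pt]

/-- The constant term of `Q`. -/
def cQ0 (M : ℕ) (v : Fin 2 → ℤ) : ℂ :=
  ((2 * π * I) ^ 3)⁻¹ * (-2 * (if (v 0 : ZMod M) = 0 then row 3 ((v 1 : ℂ) / M) else 0))

/-- The constant term of `P`. -/
def cP0 (M : ℕ) (v : Fin 2 → ℤ) : ℂ :=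
  ((2 * π * I) ^ 2)⁻¹ * ((if (v 0 : ZMod M) = 0 then row 2 ((v 1 : ℂ) / M) else 0) - row 2 0)

/-- q-expansion coefficients of `Q`. -/
def cQ (M : ℕ) (v : Fin 2 → ℤ) (n : ℕ) : ℂ :=
  (if n = 0 then cQ0 M v else 0) + ∑ p ∈ n.divisorsAntidiagonal, chi M 2 (v 0) (v 1) p.2 p.1

/-- q-expansion coefficients of `P`. -/
def cP (M : ℕ) (v : Fin 2 → ℤ) (n : ℕ) : ℂ :=
  (if n = 0 then cP0 M v else 0) + ∑ p ∈ n.divisorsAntidiagonal,
    (chi M 1 (v 0) (v 1) p.2 p.1 - chi M 1 0 0 p.2 p.1)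

lemma two_pi_I_ne : (2 * π * I : ℂ) ≠ 0 := two_pi_I_ne_zero

theorem hasSum_Q {M : ℕ} (hM : M ≠ 0) (v : Fin 2 → ℤ) (τ : ℍ) :
    HasSum (fun n : ℕ => cQ M v n * 𝕢 (M : ℝ) (τ : ℂ) ^ n) (Q M v τ) := by
  have h1 := hasSum_rows_deriv τ (pt M v τ)
  have h2 : HasSum (fun m : ℤ => row 3 (pt M v τ - (m : ℂ) * τ)) (∑' e, FF M 2 τ (v 0) (v 1) e) :=
    (hasSum_FF_iff hM 2 τ v _).2 (summable_FF hM (by norm_num) τ _ _).hasSum
  have h3 := h1.unique (h2.mul_left (-2))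
  have h4 := hasSum_lambert (χ := chi M 2 (v 0) (v 1)) (k := 2) (norm_chi_le M 2 _ _) (cQ0 M v)
    (norm_q_lt hM τ)
  have h5 : Q M v τ = cQ0 M v + ∑' e : ℕ+, ∑' d : ℕ+,
      chi M 2 (v 0) (v 1) d e * 𝕢 (M : ℝ) (τ : ℂ) ^ (e * d : ℕ) := by
    rw [Q, h3, tsum_FF hM (by norm_num), cQ0]
    have hK : ((2 * π * I : ℂ) ^ 3)⁻¹ * (-2 * KK 2) = 1 := by
      have := two_pi_I_ne
      rw [KK]
      have h6 : ((-2 * π * I : ℂ)) = -(2 * π * I) := by ring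
      rw [h6, show (2 + 1 : ℕ) = 3 from rfl, show ((2 ! : ℕ) : ℂ) = 2 by norm_num [Nat.factorial]]
      generalize (2 * π * I : ℂ) = t at this
      field_simp
    linear_combination (∑' e : ℕ+, ∑' d : ℕ+,
      chi M 2 (v 0) (v 1) d e * 𝕢 (M : ℝ) (τ : ℂ) ^ (e * d : ℕ)) * hK
  rw [h5]
  exact h4

theorem hasSum_P {M : ℕ} (hM : M ≠ 0) (v : Fin 2 → ℤ) (τ : ℍ) :
    HasSum (fun n : ℕ => cP M v n * 𝕢 (M : ℝ) (τ : ℂ) ^ n) (P M v τ) := by
  have h1 := hasSum_rows_P τ (pt M v τ)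
  have h2 : HasSum (fun m : ℤ => row 2 (pt M v τ - (m : ℂ) * τ)) (∑' e, FF M 1 τ (v 0) (v 1) e) :=
    (hasSum_FF_iff hM 1 τ v _).2 (summable_FF hM (by norm_num) τ _ _).hasSum
  have h2' : HasSum (fun m : ℤ => row 2 ((m : ℂ) * τ)) (∑' e, FF M 1 τ 0 0 e) := by
    have h := (hasSum_FF_iff hM 1 τ 0 _).2 (summable_FF hM (by norm_num) τ 0 0).hasSum
    rw [← (Equiv.neg ℤ).hasSum_iff] at h
    convert h using 1
    funext m
    simp [pt_zero]
  have h3 := h1.unique (h2.sub h2')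
  have hb : ∀ d e, ‖chi M 1 (v 0) (v 1) d e - chi M 1 0 0 d e‖ ≤ 4 * (d : ℝ) ^ 1 := fun d e => by
    refine (norm_sub_le _ _).trans ?_
    have := add_le_add (norm_chi_le M 1 (v 0) (v 1) d e) (norm_chi_le M 1 0 0 d e)
    linarith
  have h4 := hasSum_lambert (χ := fun d e => chi M 1 (v 0) (v 1) d e - chi M 1 0 0 d e) (k := 1)
    hb (cP0 M v) (norm_q_lt hM τ)
  have hq := norm_q_lt hM τ
  have hs : ∀ a β : ℤ, Summable fun p : ℕ+ × ℕ+ =>
      chi M 1 a β p.2 p.1 * 𝕢 (M : ℝ) (τ : ℂ) ^ (p.1 * p.2 : ℕ) := fun a β => by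
    have h1 : Summable fun c : (ℕ+ × ℕ+) ↦ (2 : ℝ) * ((c.2 : ℝ) ^ 1 *
        (‖𝕢 (M : ℝ) (τ : ℂ)‖ ^ (c.1 * c.2 : ℕ))) :=
      (summable_prod_mul_pow (𝕜 := ℝ) 1 (r := ‖𝕢 (M : ℝ) (τ : ℂ)‖) (by simpa using hq)).mul_left 2
    refine Summable.of_norm_bounded h1 fun c => ?_
    rw [norm_mul, norm_pow, ← mul_assoc]
    exact mul_le_mul_of_nonneg_right (norm_chi_le M 1 a β _ _) (by positivity)
  have h5 : P M v τ = cP0 M v + ∑' e : ℕ+, ∑' d : ℕ+,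
      (chi M 1 (v 0) (v 1) d e - chi M 1 0 0 d e) * 𝕢 (M : ℝ) (τ : ℂ) ^ (e * d : ℕ) := by
    have e1 : ∑' e : ℕ+, ∑' d : ℕ+,
      (chi M 1 (v 0) (v 1) d e - chi M 1 0 0 d e) * 𝕢 (M : ℝ) (τ : ℂ) ^ (e * d : ℕ) =
      ∑' e : ℕ+, ∑' d : ℕ+, chi M 1 (v 0) (v 1) d e * 𝕢 (M : ℝ) (τ : ℂ) ^ (e * d : ℕ) -
      ∑' e : ℕ+, ∑' d : ℕ+, chi M 1 0 0 d e * 𝕢 (M : ℝ) (τ : ℂ) ^ (e * d : ℕ) := by
      rw [← (hs (v 0) (v 1)).prod.tsum_sub (hs 0 0).prod]
      congr 1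
      funext e
      rw [← ((hs (v 0) (v 1)).prod_factor e).tsum_sub ((hs 0 0).prod_factor e)]
      congr 1
      funext d
      ring
    rw [P, h3, tsum_FF hM (by norm_num), tsum_FF hM (by norm_num), cP0, e1]
    have hK : ((2 * π * I : ℂ) ^ 2)⁻¹ * KK 1 = 1 := by
      have := two_pi_I_ne
      rw [KK]
      have h6 : ((-2 * π * I : ℂ)) = -(2 * π * I) := by ring
      rw [h6, show (1 + 1 : ℕ) = 2 from rfl, show ((1 ! : ℕ) : ℂ) = 1 by norm_num [Nat.factorial]]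
      generalize (2 * π * I : ℂ) = t at this
      field_simp
    simp only [Int.cast_zero, if_true, zero_div]
    linear_combination (∑' e : ℕ+, ∑' d : ℕ+,
      chi M 1 (v 0) (v 1) d e * 𝕢 (M : ℝ) (τ : ℂ) ^ (e * d : ℕ) -
      ∑' e : ℕ+, ∑' d : ℕ+, chi M 1 0 0 d e * 𝕢 (M : ℝ) (τ : ℂ) ^ (e * d : ℕ)) * hK
  rw [h5]
  exact h4

end

end Crest.Agent.R007.Wp
end

-- ▼ part R007/Wp4

/-!
R007/Wp4: constant terms of the Weierstrass division values.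
-/

set_option autoImplicit false

namespace Crest.Agent.R007.Wp

open UpperHalfPlane hiding I
open Complex PeriodPair ModularForm Matrix Function Filter
open scoped MatrixGroups Real PeriodPair Nat Topology

local notation "𝕢" => Function.Periodic.qParam

noncomputable section

lemma tsum_mul_geom {u : ℂ} (hu : ‖u‖ < 1) : ∑' d : ℕ+, (d : ℂ) ^ 1 * u ^ (d : ℕ) = u / (1 - u) ^ 2 := by
  have h := tsum_coe_mul_geometric_of_norm_lt_one hu
  rw [← h, ← tsum_pnat_eq_tsum_of_eq_zero (f := fun n : ℕ => (n : ℂ) * u ^ n) (by simp)]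
  simp

lemma tsum_sq_mul_geom {u : ℂ} (hu : ‖u‖ < 1) :
    ∑' d : ℕ+, (d : ℂ) ^ 2 * u ^ (d : ℕ) = u * (1 + u) / (1 - u) ^ 3 := by
  have h0 : (1 - u) ≠ 0 := by
    intro h
    have : u = 1 := by linear_combination -h
    rw [this] at hu; simp at hu
  have h3 := hasSum_choose_mul_geometric_of_norm_lt_one 2 hu
  have h2 := hasSum_choose_mul_geometric_of_norm_lt_one 1 hu
  have h1 := hasSum_choose_mul_geometric_of_norm_lt_one 0 hu
  have h := ((h3.mul_left 2).sub (h2.mul_left 3)).add h1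
  have e1 : HasSum (fun n : ℕ => (n : ℂ) ^ 2 * u ^ n) (u * (1 + u) / (1 - u) ^ 3) := by
    have h' := h.congr_fun' (g := fun n : ℕ => (n : ℂ) ^ 2 * u ^ n) (fun n => by
      have c2 : (((n + 2).choose 2 : ℕ) : ℂ) = (n + 2) * (n + 1) / 2 := by
        rw [Nat.cast_choose_two]; push_cast; ring
      have c1 : (((n + 1).choose 1 : ℕ) : ℂ) = n + 1 := by simp
      rw [c2, c1]
      simp
      ring)
    convert h' using 1
    field_simp
    ring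
  have e2 := tsum_pnat_eq_tsum_of_eq_zero (f := fun n : ℕ => (n : ℂ) ^ 2 * u ^ n) (by simp)
  rw [e2, e1.tsum_eq]

/-- `e(x) = exp(2πix)`. -/
def ee (x : ℂ) : ℂ := cexp (2 * π * I * x)

lemma norm_ee_lt {w : ℂ} (hw : 0 < w.im) : ‖ee w‖ < 1 := by
  rw [ee, Complex.norm_exp]
  have : (2 * π * I * w).re = -(2 * π * w.im) := by
    simp
  rw [this]
  have := Real.pi_pos
  exact Real.exp_lt_one_iff.2 (by have : 0 < 2 * π * w.im := by positivity
                                  linarith)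

lemma row2_upper {w : ℂ} (hw : 0 < w.im) : row 2 w = (2 * π * I) ^ 2 * (ee w / (1 - ee w) ^ 2) := by
  rw [row_eq (s := 1) le_rfl hw, show cexp (2 * π * I * w) = ee w from rfl,
    tsum_mul_geom (norm_ee_lt hw)]
  norm_num [Nat.factorial]

lemma row3_upper {w : ℂ} (hw : 0 < w.im) :
    row 3 w = (-(2 * π * I) ^ 3 / 2) * (ee w * (1 + ee w) / (1 - ee w) ^ 3) := by
  rw [row_eq (s := 2) (by norm_num) hw, show cexp (2 * π * I * w) = ee w from rfl,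
    tsum_sq_mul_geom (norm_ee_lt hw)]
  rw [show (2 + 1 : ℕ) = 3 from rfl, show ((2 ! : ℕ) : ℂ) = 2 by norm_num [Nat.factorial]]
  ring

/-- approach a real non-integral point from above -/
lemma tendsto_row {s : ℕ} (hs : 2 ≤ s) {x : ℝ} (hx : ∀ n : ℤ, (x : ℂ) + n ≠ 0) :
    Tendsto (fun t : ℝ => row s ((x : ℂ) + t * I)) (𝓝[>] 0) (𝓝 (row s x)) := by
  refine tendsto_tsum_of_dominated_convergence (bound := fun n : ℤ => ‖1 / ((x : ℂ) + n) ^ s‖)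
    (summable_row hs (x : ℂ)).norm (fun n => ?_) ?_
  · have hc : ContinuousAt (fun t : ℝ => 1 / ((x : ℂ) + t * I + n) ^ s) 0 := by
      have : ((x : ℂ) + (0 : ℝ) * I + n) ^ s ≠ 0 := by
        apply pow_ne_zero; simpa using hx n
      fun_prop (disch := assumption)
    have h2 : Tendsto (fun t : ℝ => 1 / ((x : ℂ) + t * I + n) ^ s) (𝓝[>] 0)
        (𝓝 (1 / ((x : ℂ) + (0 : ℝ) * I + n) ^ s)) := hc.tendsto.mono_left nhdsWithin_le_nhds
    simpa using h2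
  · filter_upwards with t n
    rw [norm_div, norm_div, norm_pow, norm_pow]
    apply div_le_div_of_nonneg_left (by simp)
    · exact pow_pos (norm_pos_iff.2 (hx n)) _
    · apply pow_le_pow_left₀ (norm_nonneg _)
      have e1 : ((x : ℂ) + n) = ((x + n : ℝ) : ℂ) := by push_cast; ring
      have e2 : ((x : ℂ) + t * I + n) = ((x + n : ℝ) : ℂ) + t * I := by push_cast; ring
      rw [e1, e2, Complex.norm_real]
      have h := Complex.abs_re_le_norm (((x + n : ℝ) : ℂ) + t * I)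
      simpa using h

lemma ee_ne_one {x : ℝ} (hx : ∀ n : ℤ, (x : ℂ) + n ≠ 0) : 1 - ee x ≠ 0 := by
  intro h
  have h1 : cexp (2 * π * I * x) = 1 := by
    have : ee x = 1 := by linear_combination -h
    exact this
  obtain ⟨n, hn⟩ := Complex.exp_eq_one_iff.1 h1
  apply hx (-n)
  have h2 := two_pi_I_ne
  have : (x : ℂ) = n := by
    apply mul_left_cancel₀ h2
    rw [hn]; ring
  rw [this]; push_cast; ring

lemma tendsto_ee (x : ℝ) : Tendsto (fun t : ℝ => ee ((x : ℂ) + t * I)) (𝓝[>] 0) (𝓝 (ee x)) := by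
  have hc : ContinuousAt (fun t : ℝ => ee ((x : ℂ) + t * I)) 0 := by
    unfold ee; fun_prop
  have h2 := hc.tendsto.mono_left (nhdsWithin_le_nhds (s := Set.Ioi 0))
  simpa using h2

lemma row2_real {x : ℝ} (hx : ∀ n : ℤ, (x : ℂ) + n ≠ 0) :
    row 2 x = (2 * π * I) ^ 2 * (ee x / (1 - ee x) ^ 2) := by
  have h1 := tendsto_row (s := 2) le_rfl hx
  have h2 : Tendsto (fun t : ℝ => (2 * π * I : ℂ) ^ 2 * (ee ((x : ℂ) + t * I) /
      (1 - ee ((x : ℂ) + t * I)) ^ 2)) (𝓝[>] 0) (𝓝 ((2 * π * I) ^ 2 * (ee x / (1 - ee x) ^ 2))) :=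
    ((tendsto_ee x).div (((tendsto_ee x).const_sub 1).pow 2)
      (pow_ne_zero _ (ee_ne_one hx))).const_mul _
  refine tendsto_nhds_unique (h1.congr' ?_) h2
  filter_upwards [self_mem_nhdsWithin] with t ht
  exact row2_upper (by simpa using ht)

lemma row3_real {x : ℝ} (hx : ∀ n : ℤ, (x : ℂ) + n ≠ 0) :
    row 3 x = (-(2 * π * I) ^ 3 / 2) * (ee x * (1 + ee x) / (1 - ee x) ^ 3) := by
  have h1 := tendsto_row (s := 3) (by norm_num) hx
  have h2 : Tendsto (fun t : ℝ => (-(2 * π * I : ℂ) ^ 3 / 2) * (ee ((x : ℂ) + t * I) *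
      (1 + ee ((x : ℂ) + t * I)) / (1 - ee ((x : ℂ) + t * I)) ^ 3)) (𝓝[>] 0)
      (𝓝 ((-(2 * π * I) ^ 3 / 2) * (ee x * (1 + ee x) / (1 - ee x) ^ 3))) :=
    (((tendsto_ee x).mul ((tendsto_ee x).const_add 1)).div (((tendsto_ee x).const_sub 1).pow 3)
      (pow_ne_zero _ (ee_ne_one hx))).const_mul _
  refine tendsto_nhds_unique (h1.congr' ?_) h2
  filter_upwards [self_mem_nhdsWithin] with t ht
  exact row3_upper (by simpa using ht)

lemma row2_zero : row 2 0 = π ^ 2 / 3 := by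
  have h1 : Summable fun n : ℤ => 1 / ((0 : ℂ) + n) ^ 2 := summable_row le_rfl 0
  rw [row, tsum_int_eq_zero_add_two_mul_tsum_pnat (f := fun n : ℤ => 1 / ((0 : ℂ) + n) ^ 2)
    (fun n => by simp) h1]
  have h2 := hasSum_zeta_two
  have h3 : HasSum (fun n : ℕ => ((1 / (n : ℝ) ^ 2 : ℝ) : ℂ)) ((π ^ 2 / 6 : ℝ) : ℂ) :=
    Complex.hasSum_ofReal.2 h2
  have h4 := tsum_pnat_eq_tsum_of_eq_zero (f := fun n : ℕ => ((1 / (n : ℝ) ^ 2 : ℝ) : ℂ)) (by simp)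
  rw [h3.tsum_eq] at h4
  have h5 : ∑' n : ℕ+, 1 / ((0 : ℂ) + ((n : ℤ) : ℂ)) ^ 2 = ((π ^ 2 / 6 : ℝ) : ℂ) := by
    rw [← h4]
    congr 1
    funext n
    push_cast
    simp
  rw [h5]
  push_cast
  ring

lemma ee_div (M : ℕ) (b : ℤ) : ee ((b : ℂ) / M) = zeta M ^ b := by
  rw [ee, zeta, ← Complex.exp_int_mul]
  congr 1
  ring

lemma div_add_ne {M : ℕ} (hM : M ≠ 0) {b : ℤ} (hb : (b : ZMod M) ≠ 0) (n : ℤ) :
    (((b : ℝ) / M : ℝ) : ℂ) + n ≠ 0 := by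
  intro h
  apply hb
  have hM' : (M : ℂ) ≠ 0 := by exact_mod_cast hM
  have h1 : (b : ℂ) = ((-n * M : ℤ) : ℂ) := by
    push_cast at h ⊢
    field_simp at h
    linear_combination h
  have h2 : b = -n * M := by exact_mod_cast h1
  rw [h2]; simp

theorem cQ0_eq {M : ℕ} (hM : M ≠ 0) {v : Fin 2 → ℤ} (hv : (v 0 : ZMod M) ≠ 0 ∨ (v 1 : ZMod M) ≠ 0) :
    cQ0 M v = if (v 0 : ZMod M) = 0 then
      zeta M ^ (v 1) * (1 + zeta M ^ (v 1)) / (1 - zeta M ^ (v 1)) ^ 3 else 0 := by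
  rw [cQ0]
  by_cases h : (v 0 : ZMod M) = 0
  · have hb : (v 1 : ZMod M) ≠ 0 := by tauto
    rw [if_pos h, if_pos h]
    have h1 := row3_real (div_add_ne hM hb)
    push_cast at h1
    rw [h1, ee_div]
    have := two_pi_I_ne
    generalize (2 * π * I : ℂ) = t at this
    field_simp
    try ring
  · rw [if_neg h, if_neg h]; simp

theorem cP0_eq {M : ℕ} (hM : M ≠ 0) {v : Fin 2 → ℤ} (hv : (v 0 : ZMod M) ≠ 0 ∨ (v 1 : ZMod M) ≠ 0) :
    cP0 M v = 1 / 12 + if (v 0 : ZMod M) = 0 then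
      zeta M ^ (v 1) / (1 - zeta M ^ (v 1)) ^ 2 else 0 := by
  have hpi : (π : ℂ) ≠ 0 := by exact_mod_cast Real.pi_ne_zero
  have h12 : ((2 * π * I : ℂ) ^ 2)⁻¹ * (π ^ 2 / 3) = - (1 / 12) := by
    rw [mul_pow, I_sq]
    field_simp
    norm_num
  rw [cP0, row2_zero, mul_sub, h12]
  by_cases h : (v 0 : ZMod M) = 0
  · have hb : (v 1 : ZMod M) ≠ 0 := by tauto
    rw [if_pos h, if_pos h]
    have h1 := row2_real (div_add_ne hM hb)
    push_cast at h1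
    rw [h1, ee_div]
    have := two_pi_I_ne
    generalize (2 * π * I : ℂ) = t at this
    rw [inv_mul_cancel_left₀ (pow_ne_zero 2 this)]
    ring
  · rw [if_neg h, if_neg h]; ring

end

end Crest.Agent.R007.Wp
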